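import Mathlib

set_option autoImplicit false

namespace Crest.Agent.R51

open Finset

/-- `IsPr I l r σ g e`: `g` is the last element of `I` ending where `e` starts and before `e`. -/
def IsPr {β α : Type*} (I : Finset β) (l r : β → α) (σ : β → ℝ) (g e : β) : Prop :=
  g ∈ I ∧ e ∈ I ∧ r g = l e ∧ σ g < σ e ∧ ∀ g' ∈ I, r g' = l e → σ g' < σ e → σ g' ≤ σ g

/-- Combinatorial core of the chain colouring. -/
theorem chain_comb {β α : Type*} [Nonempty α] (I : Finset β) (l r : β → α) (σ : β → ℝ)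
    (hσ : ∀ e ∈ I, ∀ f ∈ I, σ e = σ f → e = f)
    (hAlt : ∀ e ∈ I, ∀ f ∈ I, l e = l f → σ e < σ f →
      ∃ g ∈ I, r g = l f ∧ σ e < σ g ∧ σ g < σ f) :
    ∃ col : β → α, (∀ e ∈ I, ∃ e' ∈ I, col e = l e') ∧
      (∀ e ∈ I, ∀ f ∈ I, e ≠ f → col e = col f →
        Relation.TransGen (IsPr I l r σ) e f ∨ Relation.TransGen (IsPr I l r σ) f e) ∧
      (∀ e f, Relation.TransGen (IsPr I l r σ) e f → col e = col f) ∧
      (∀ e ∈ I, ∃ e' ∈ I, col e = l e' ∧ col e' = col e ∧
        (e' = e ∨ Relation.TransGen (IsPr I l r σ) e' e)) := by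
  classical
  set R := IsPr I l r σ with hR
  -- uniqueness of predecessor
  have huniq : ∀ g g' e, R g e → R g' e → g = g' := by
    intro g g' e h h'
    obtain ⟨hg, he, h1, h2, h3⟩ := h
    obtain ⟨hg', _, h1', h2', h3'⟩ := h'
    exact hσ g hg g' hg' (le_antisymm (h3' g hg h1 h2) (h3 g' hg' h1' h2'))
  -- injectivity of predecessor
  have hinj : ∀ g e e', R g e → R g e' → e = e' := by
    intro g e e' h h'
    obtain ⟨hg, he, h1, h2, h3⟩ := h
    obtain ⟨_, he', h1', h2', h3'⟩ := h'
    by_contra hne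
    rcases lt_trichotomy (σ e) (σ e') with hlt | heq | hlt
    · obtain ⟨k, hk, hk1, hk2, hk3⟩ := hAlt e he e' he' (h1.symm.trans h1') hlt
      have := h3' k hk hk1 hk3
      linarith
    · exact hne (hσ e he e' he' heq)
    · obtain ⟨k, hk, hk1, hk2, hk3⟩ := hAlt e' he' e he (h1'.symm.trans h1) hlt
      have := h3 k hk hk1 hk3
      linarith
  -- roots
  have hroot : ∀ n : ℕ, ∀ e ∈ I, (I.filter (fun g => σ g < σ e)).card ≤ n →
      ∃ ρ ∈ I, (∀ g, ¬ R g ρ) ∧ Relation.ReflTransGen R ρ e := by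
    intro n
    induction n with
    | zero =>
      intro e he hc
      refine ⟨e, he, ?_, Relation.ReflTransGen.refl⟩
      intro g hg
      have : g ∈ I.filter (fun g => σ g < σ e) := by
        simp only [mem_filter]
        exact ⟨hg.1, hg.2.2.2.1⟩
      have h0 : (I.filter (fun g => σ g < σ e)) = ∅ := by
        apply Finset.card_eq_zero.mp; omega
      rw [h0] at this
      simp at this
    | succ n ih =>
      intro e he hc
      by_cases hp : ∃ g, R g e
      · obtain ⟨g, hg⟩ := hp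
        have hlt : σ g < σ e := hg.2.2.2.1
        have hsub : (I.filter (fun k => σ k < σ g)) ⊂ (I.filter (fun k => σ k < σ e)) := by
          refine ⟨?_, ?_⟩
          · intro k hk
            simp only [mem_filter] at hk ⊢
            exact ⟨hk.1, hk.2.trans hlt⟩
          · intro hcon
            have : g ∈ I.filter (fun k => σ k < σ e) := by
              simp only [mem_filter]; exact ⟨hg.1, hlt⟩
            have := hcon this
            simp only [mem_filter] at this
            exact lt_irrefl _ this.2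
        have hcard := Finset.card_lt_card hsub
        obtain ⟨ρ, hρ, hρ1, hρ2⟩ := ih g hg.1 (by omega)
        exact ⟨ρ, hρ, hρ1, hρ2.tail hg⟩
      · exact ⟨e, he, fun g hg => hp ⟨g, hg⟩, Relation.ReflTransGen.refl⟩
  have hroot' : ∀ e : β, e ∈ I → ∃ ρ, ρ ∈ I ∧ (∀ g, ¬ R g ρ) ∧ Relation.ReflTransGen R ρ e := by
    intro e he
    obtain ⟨ρ, h1, h2, h3⟩ := hroot _ e he le_rfl
    exact ⟨ρ, h1, h2, h3⟩
  -- uniqueness of roots
  have hrootu : ∀ e ρ ρ', (∀ g, ¬ R g ρ) → (∀ g, ¬ R g ρ') → Relation.ReflTransGen R ρ e →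
      Relation.ReflTransGen R ρ' e → ρ = ρ' := by
    intro e ρ ρ' h h' hc
    induction hc generalizing ρ' with
    | refl =>
      intro hc'
      rcases Relation.ReflTransGen.cases_tail hc' with h1 | ⟨c, _, hc2⟩
      · exact h1
      · exact absurd hc2 (h _)
    | tail hab hbc ih =>
      intro hc'
      rcases Relation.ReflTransGen.cases_tail hc' with h1 | ⟨c, hc1, hc2⟩
      · subst h1
        exact absurd hbc (h' _)
      · have := huniq _ _ _ hbc hc2
        subst this
        exact ih ρ' h' hc1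
  -- distinct roots start at distinct points
  have hrootl : ∀ ρ ∈ I, ∀ ρ' ∈ I, (∀ g, ¬ R g ρ) → (∀ g, ¬ R g ρ') → l ρ = l ρ' → ρ = ρ' := by
    have key : ∀ ρ ∈ I, ∀ ρ' ∈ I, (∀ g, ¬ R g ρ') → l ρ = l ρ' → ¬ σ ρ < σ ρ' := by
      intro ρ hρ ρ' hρ' h' hl hlt
      obtain ⟨g, hg, hg1, hg2, hg3⟩ := hAlt ρ hρ ρ' hρ' hl hlt
      have hne : (I.filter (fun k => r k = l ρ' ∧ σ k < σ ρ')).Nonempty :=
        ⟨g, by simp only [mem_filter]; exact ⟨hg, hg1, hg3⟩⟩
      obtain ⟨m, hm, hmax⟩ := Finset.exists_max_image _ σ hne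
      simp only [mem_filter] at hm
      apply h' m
      refine ⟨hm.1, hρ', hm.2.1, hm.2.2, ?_⟩
      intro k hk hk1 hk2
      exact hmax k (by simp only [mem_filter]; exact ⟨hk, hk1, hk2⟩)
    intro ρ hρ ρ' hρ' h h' hl
    rcases lt_trichotomy (σ ρ) (σ ρ') with hlt | heq | hlt
    · exact absurd hlt (key ρ hρ ρ' hρ' h' hl)
    · exact hσ _ hρ _ hρ' heq
    · exact absurd hlt (key ρ' hρ' ρ hρ h hl.symm)
  -- comparability
  have hcomp : ∀ ρ e f, Relation.ReflTransGen R ρ e → Relation.ReflTransGen R ρ f →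
      Relation.ReflTransGen R e f ∨ Relation.ReflTransGen R f e := by
    intro ρ e f he hf
    induction he with
    | refl => exact Or.inl hf
    | tail hab hbc ih =>
      rcases ih with h | h
      · rcases Relation.ReflTransGen.cases_head h with h1 | ⟨c, hc1, hc2⟩
        · subst h1
          exact Or.inr (Relation.ReflTransGen.single hbc)
        · have := hinj _ _ _ hbc hc1
          subst this
          exact Or.inl hc2
      · exact Or.inr (h.tail hbc)
  choose! ρ hρ using hroot'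
  refine ⟨fun e => l (ρ e), ?_, ?_, ?_, ?_⟩
  · intro e he
    exact ⟨ρ e, (hρ e he).1, rfl⟩
  · intro e he f hf hne hc
    have h1 : ρ e = ρ f := hrootl _ (hρ e he).1 _ (hρ f hf).1 (hρ e he).2.1 (hρ f hf).2.1 hc
    have h2 := (hρ e he).2.2
    have h3 := (hρ f hf).2.2
    rw [← h1] at h3
    rcases hcomp _ _ _ h2 h3 with h | h
    · rcases Relation.reflTransGen_iff_eq_or_transGen.mp h with h4 | h4
      · exact absurd h4.symm hne
      · exact Or.inl h4
    · rcases Relation.reflTransGen_iff_eq_or_transGen.mp h with h4 | h4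
      · exact absurd h4 hne
      · exact Or.inr h4
  · intro e f hef
    have he : e ∈ I := by
      rcases Relation.TransGen.head'_iff.mp hef with ⟨c, hc, _⟩
      exact hc.1
    have hf : f ∈ I := by
      rcases Relation.TransGen.tail'_iff.mp hef with ⟨c, _, hc⟩
      exact hc.2.1
    have h1 := (hρ e he).2.2
    have h2 := (hρ f hf).2.2
    have h3 : Relation.ReflTransGen R (ρ e) f := h1.trans hef.to_reflTransGen
    have := hrootu f (ρ e) (ρ f) (hρ e he).2.1 (hρ f hf).2.1 h3 h2
    simp only [this]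
  · intro e he
    obtain ⟨h1, h2, h3⟩ := hρ e he
    refine ⟨ρ e, h1, rfl, ?_, ?_⟩
    · have h4 := hρ (ρ e) h1
      have : ρ (ρ e) = ρ e :=
        hrootu (ρ e) _ _ h4.2.1 h2 h4.2.2 Relation.ReflTransGen.refl
      simp only [this]
    · rcases Relation.reflTransGen_iff_eq_or_transGen.mp h3 with h5 | h5
      · exact Or.inl h5.symm
      · exact Or.inr h5

end Crest.Agent.R51
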