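import Mathlib
import Crest.Agent.R51.Defs
import Crest.Agent.R51.ChainComb

/-!
# Row 51, section B2: chain colouring (CC)
`chain_colouring` (convex chains), `chain_colouring_neg` (concave chains).  No regularity of the
ends of the window is needed.
-/

set_option autoImplicit false

noncomputable section

open Classical Finset

namespace Crest.Agent.R51

/-- rank as a count of slopes. -/
lemma rk_eq {P : Finset Pt} (hP : Generic P) {p : Pt} (hp : p ∈ P) (θ : ℝ) :
    rk P θ p = (P.filter (fun q => p.1 < q.1 ∧ sl p q < θ)).card +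
      (P.filter (fun q => q.1 < p.1 ∧ θ < sl q p)).card := by
  unfold rk
  rw [← Finset.card_union_of_disjoint]
  · congr 1
    ext q
    simp only [mem_filter, mem_union]
    constructor
    · rintro ⟨hq, h⟩
      rcases lt_trichotomy p.1 q.1 with h1 | h1 | h1
      · exact Or.inl ⟨hq, h1, (ht_gt_iff h1 θ).mp h⟩
      · have := hP.x_inj p hp q hq h1
        subst this
        exact absurd h (lt_irrefl _)
      · exact Or.inr ⟨hq, h1, (ht_lt_iff h1 θ).mp h⟩
    · rintro (⟨hq, h1, h2⟩ | ⟨hq, h1, h2⟩)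
      · exact ⟨hq, (ht_gt_iff h1 θ).mpr h2⟩
      · exact ⟨hq, (ht_lt_iff h1 θ).mpr h2⟩
  · rw [Finset.disjoint_left]
    intro q h1 h2
    simp only [mem_filter] at h1 h2
    linarith [h1.2.1, h2.2.1]

lemma rk_step {P : Finset Pt} (hP : Generic P) {p : Pt} (hp : p ∈ P) {θ θ' : ℝ} (hθ : θ ≤ θ') :
    rk P θ' p + (P.filter (fun q => q.1 < p.1 ∧ θ < sl q p ∧ sl q p ≤ θ')).card =
      rk P θ p + (P.filter (fun q => p.1 < q.1 ∧ θ ≤ sl p q ∧ sl p q < θ')).card := by
  rw [rk_eq hP hp θ, rk_eq hP hp θ']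
  have h1 : (P.filter (fun q => p.1 < q.1 ∧ sl p q < θ')).card =
      (P.filter (fun q => p.1 < q.1 ∧ sl p q < θ)).card +
      (P.filter (fun q => p.1 < q.1 ∧ θ ≤ sl p q ∧ sl p q < θ')).card := by
    rw [← Finset.card_union_of_disjoint]
    · congr 1
      ext q
      simp only [mem_filter, mem_union]
      constructor
      · rintro ⟨hq, h1, h2⟩
        by_cases h : sl p q < θ
        · exact Or.inl ⟨hq, h1, h⟩
        · exact Or.inr ⟨hq, h1, not_lt.mp h, h2⟩
      · rintro (⟨hq, h1, h2⟩ | ⟨hq, h1, h2, h3⟩)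
        · exact ⟨hq, h1, lt_of_lt_of_le h2 hθ⟩
        · exact ⟨hq, h1, h3⟩
    · rw [Finset.disjoint_left]
      intro q h1 h2
      simp only [mem_filter] at h1 h2
      linarith [h1.2.2, h2.2.2.1]
  have h2 : (P.filter (fun q => q.1 < p.1 ∧ θ < sl q p)).card =
      (P.filter (fun q => q.1 < p.1 ∧ θ' < sl q p)).card +
      (P.filter (fun q => q.1 < p.1 ∧ θ < sl q p ∧ sl q p ≤ θ')).card := by
    rw [← Finset.card_union_of_disjoint]
    · congr 1
      ext q
      simp only [mem_filter, mem_union]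
      constructor
      · rintro ⟨hq, h1, h2⟩
        by_cases h : θ' < sl q p
        · exact Or.inl ⟨hq, h1, h⟩
        · exact Or.inr ⟨hq, h1, h2, not_lt.mp h⟩
      · rintro (⟨hq, h1, h2⟩ | ⟨hq, h1, h2, h3⟩)
        · exact ⟨hq, h1, lt_of_le_of_lt hθ h2⟩
        · exact ⟨hq, h1, h2⟩
    · rw [Finset.disjoint_left]
      intro q h1 h2
      simp only [mem_filter] at h1 h2
      linarith [h1.2.2, h2.2.2.2]
  omega

lemma rk_sl {P : Finset Pt} {p q : Pt} (h : p.1 < q.1) :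
    rk P (sl p q) p = rk P (sl p q) q := by
  unfold rk
  rw [(ht_eq_iff h _).2 rfl]

/-- Alternation: between two `i`-edges leaving `p` there is an `i`-edge entering `p`. -/
lemma alt {P : Finset Pt} (hP : Generic P) (i : ℕ) {p q q' : Pt} (hp : p ∈ P) (hq : q ∈ P)
    (hq' : q' ∈ P) (h1 : p.1 < q.1) (h1' : p.1 < q'.1) (hl : lv P (p, q) = i) (hl' : lv P (p, q') = i)
    (hlt : sl p q < sl p q') :
    ∃ r ∈ P, r.1 < p.1 ∧ lv P (r, p) = i ∧ sl p q < sl r p ∧ sl r p < sl p q' := by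
  classical
  set σ1 := sl p q with hσ1
  set σ2 := sl p q' with hσ2
  have ha1 : rk P σ1 p + 1 = i := by rw [← hl, hσ1]; unfold lv esl; exact Nat.add_comm _ _
  have ha2 : rk P σ2 p + 1 = i := by rw [← hl', hσ2]; unfold lv esl; exact Nat.add_comm _ _
  -- the left partners are never at slope σ2
  have hne2 : ∀ r ∈ P, r.1 < p.1 → sl r p ≠ σ2 := by
    intro r hr hr1 he
    have := hP.esl_inj (e := (r, p)) (f := (p, q')) (mem_pairs.mpr ⟨hr, hp, hr1⟩) (mem_pairs.mpr ⟨hp, hq', h1'⟩) he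
    simp only [Prod.mk.injEq] at this
    rw [this.1] at hr1
    exact lt_irrefl _ hr1
  set L := P.filter (fun r => r.1 < p.1 ∧ σ1 < sl r p ∧ sl r p < σ2 ∧ rk P (sl r p) p + 1 ≤ i)
    with hL
  -- the last left partner before θ
  have hlast : ∀ θ, (P.filter (fun r => r.1 < p.1 ∧ σ1 < sl r p ∧ sl r p < θ)).Nonempty →
      ∃ r ∈ P, r.1 < p.1 ∧ σ1 < sl r p ∧ sl r p < θ ∧
        ∀ r' ∈ P, r'.1 < p.1 → sl r p < sl r' p → θ ≤ sl r' p := by
    intro θ hne
    obtain ⟨r, hr, hmax⟩ := Finset.exists_max_image _ (fun r => sl r p) hne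
    simp only [mem_filter] at hr
    refine ⟨r, hr.1, hr.2.1, hr.2.2.1, hr.2.2.2, ?_⟩
    intro r' hr' hr'1 hr'2
    by_contra hcon
    push Not at hcon
    have := hmax r' (by simp only [mem_filter]; exact ⟨hr', hr'1, hr.2.2.1.trans hr'2, hcon⟩)
    linarith
  have hLne : L.Nonempty := by
    have hs := rk_step hP hp hlt.le
    have hR : 0 < (P.filter (fun q => p.1 < q.1 ∧ σ1 ≤ sl p q ∧ sl p q < σ2)).card := by
      apply Finset.card_pos.mpr
      exact ⟨q, by simp only [mem_filter]; exact ⟨hq, h1, le_rfl, hlt⟩⟩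
    have hLe : 0 < (P.filter (fun q => q.1 < p.1 ∧ σ1 < sl q p ∧ sl q p ≤ σ2)).card := by omega
    obtain ⟨r0, hr0⟩ := Finset.card_pos.mp hLe
    simp only [mem_filter] at hr0
    obtain ⟨r, hr, hr1, hr2, hr3, hr4⟩ := hlast σ2
      ⟨r0, by
        simp only [mem_filter]
        exact ⟨hr0.1, hr0.2.1, hr0.2.2.1, lt_of_le_of_ne hr0.2.2.2 (hne2 r0 hr0.1 hr0.2.1)⟩⟩
    refine ⟨r, ?_⟩
    simp only [hL, mem_filter]
    refine ⟨hr, hr1, hr2, hr3, ?_⟩
    have hs2 := rk_step hP hp hr3.le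
    have h0 : (P.filter (fun q => q.1 < p.1 ∧ sl r p < sl q p ∧ sl q p ≤ σ2)).card = 0 := by
      apply Finset.card_eq_zero.mpr
      apply Finset.filter_eq_empty_iff.mpr
      intro r' hr' hcon
      have h5 := hr4 r' hr' hcon.1 hcon.2.1
      exact hne2 r' hr' hcon.1 (le_antisymm hcon.2.2 h5)
    omega
  obtain ⟨r, hr, hmin⟩ := Finset.exists_min_image L (fun r => sl r p) hLne
  simp only [hL, mem_filter] at hr
  obtain ⟨hrP, hr1, hr2, hr3, hr4⟩ := hr
  refine ⟨r, hrP, hr1, ?_, hr2, hr3⟩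
  have hgoal : rk P (sl r p) p + 1 = i := by
    by_contra hcon
    have hlt' : rk P (sl r p) p + 1 < i := lt_of_le_of_ne hr4 hcon
    have hs := rk_step hP hp hr2.le
    have hR : 0 < (P.filter (fun q => p.1 < q.1 ∧ σ1 ≤ sl p q ∧ sl p q < sl r p)).card := by
      apply Finset.card_pos.mpr
      exact ⟨q, by simp only [mem_filter]; exact ⟨hq, h1, le_rfl, hr2⟩⟩
    -- two left partners in (σ1, σ]
    have h2 : 1 < (P.filter (fun q => q.1 < p.1 ∧ σ1 < sl q p ∧ sl q p ≤ sl r p)).card := by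
      omega
    obtain ⟨r1, hr1', hr1ne⟩ := Finset.exists_mem_ne h2 r
    simp only [mem_filter] at hr1'
    have hneq : sl r1 p ≠ sl r p := by
      intro he
      have := hP.esl_inj (e := (r1, p)) (f := (r, p)) (mem_pairs.mpr ⟨hr1'.1, hp, hr1'.2.1⟩) (mem_pairs.mpr ⟨hrP, hp, hr1⟩) he
      simp only [Prod.mk.injEq] at this
      exact hr1ne this.1
    obtain ⟨r', hr', hr'1, hr'2, hr'3, hr'4⟩ := hlast (sl r p)
      ⟨r1, by
        simp only [mem_filter]
        exact ⟨hr1'.1, hr1'.2.1, hr1'.2.2.1, lt_of_le_of_ne hr1'.2.2.2 hneq⟩⟩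
    have hbig : ¬ (rk P (sl r' p) p + 1 ≤ i) := by
      intro hcon2
      have := hmin r' (by
        simp only [hL, mem_filter]
        exact ⟨hr', hr'1, hr'2, hr'3.trans hr3, hcon2⟩)
      linarith
    have hs3 := rk_step hP hp hr'3.le
    have h1' : (P.filter (fun q => q.1 < p.1 ∧ sl r' p < sl q p ∧ sl q p ≤ sl r p)).card ≤ 1 := by
      apply Finset.card_le_one.mpr
      intro a ha b hb
      simp only [mem_filter] at ha hb
      have ha' := hr'4 a ha.1 ha.2.1 ha.2.2.1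
      have hb' := hr'4 b hb.1 hb.2.1 hb.2.2.1
      have e1 : sl a p = sl b p :=
        (le_antisymm ha.2.2.2 ha').trans (le_antisymm hb.2.2.2 hb').symm
      have := hP.esl_inj (e := (a, p)) (f := (b, p)) (mem_pairs.mpr ⟨ha.1, hp, ha.2.1⟩) (mem_pairs.mpr ⟨hb.1, hp, hb.2.1⟩) e1
      simp only [Prod.mk.injEq] at this
      exact this.1
    omega
  unfold lv esl
  show 1 + rk P (sl r p) r = i
  rw [rk_sl hr1]
  omega

lemma mediant {a b c : Pt} (h1 : a.1 < b.1) (h2 : b.1 < c.1) (h : sl a b < sl b c) :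
    sl a b < sl a c ∧ sl a c < sl b c := by
  unfold sl at *
  have d1 : 0 < b.1 - a.1 := by linarith
  have d2 : 0 < c.1 - b.1 := by linarith
  have d3 : 0 < c.1 - a.1 := by linarith
  rw [div_lt_div_iff₀ d1 d2] at h
  constructor
  · rw [div_lt_div_iff₀ d1 d3]; nlinarith
  · rw [div_lt_div_iff₀ d3 d2]; nlinarith

lemma mediant' {a b c : Pt} (h1 : a.1 < b.1) (h2 : b.1 < c.1) (h : sl b c < sl a b) :
    sl a c < sl a b ∧ sl b c < sl a c := by
  unfold sl at *
  have d1 : 0 < b.1 - a.1 := by linarith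
  have d2 : 0 < c.1 - b.1 := by linarith
  have d3 : 0 < c.1 - a.1 := by linarith
  rw [div_lt_div_iff₀ d2 d1] at h
  constructor
  · rw [div_lt_div_iff₀ d3 d1]; nlinarith
  · rw [div_lt_div_iff₀ d2 d3]; nlinarith

/-- `e` before `f` on a concave chain (slopes decrease from left to right). -/
def BeforeN (e f : Edge) : Prop :=
  esl f < esl e ∧ (e.2 = f.1 ∨ (e.2.1 < f.1.1 ∧ esl f < sl e.2 f.1 ∧ sl e.2 f.1 < esl e))

lemma Before.trans_pr {e f h : Edge} (hf : f.1.1 < f.2.1) (hb : Before e f)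
    (h1 : f.2 = h.1) (h2 : esl f < esl h) : Before e h := by
  obtain ⟨hb1, hb2⟩ := hb
  have key : e.2.1 < f.2.1 ∧ esl e < sl e.2 f.2 ∧ sl e.2 f.2 < esl h := by
    rcases hb2 with hb2 | ⟨hb2, hb3, hb4⟩
    · rw [hb2]
      exact ⟨hf, hb1, h2⟩
    · have hm := mediant hb2 hf hb4
      exact ⟨hb2.trans hf, hb3.trans hm.1, hm.2.trans h2⟩
  refine ⟨hb1.trans h2, Or.inr ⟨?_, ?_, ?_⟩⟩
  · rw [← h1]; exact key.1
  · rw [← h1]; exact key.2.1
  · rw [← h1]; exact key.2.2

lemma BeforeN.trans_pr {e f h : Edge} (hf : f.1.1 < f.2.1) (hb : BeforeN e f)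
    (h1 : f.2 = h.1) (h2 : esl h < esl f) : BeforeN e h := by
  obtain ⟨hb1, hb2⟩ := hb
  have key : e.2.1 < f.2.1 ∧ esl h < sl e.2 f.2 ∧ sl e.2 f.2 < esl e := by
    rcases hb2 with hb2 | ⟨hb2, hb3, hb4⟩
    · rw [hb2]
      exact ⟨hf, h2, hb1⟩
    · have hm := mediant' hb2 hf hb3
      exact ⟨hb2.trans hf, h2.trans hm.2, hm.1.trans hb4⟩
  refine ⟨h2.trans hb1, Or.inr ⟨?_, ?_, ?_⟩⟩
  · rw [← h1]; exact key.1
  · rw [← h1]; exact key.2.1
  · rw [← h1]; exact key.2.2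

lemma Before.not_symm {e f : Edge} (h : Before e f) (h' : Before f e) : False :=
  lt_asymm h.1 h'.1

lemma kE_alt {P : Finset Pt} (hP : Generic P) (i : ℕ) (s t : ℝ) :
    ∀ e ∈ kE P i s t, ∀ f ∈ kE P i s t, e.1 = f.1 → esl e < esl f →
      ∃ g ∈ kE P i s t, g.2 = f.1 ∧ esl e < esl g ∧ esl g < esl f := by
  intro e he f hf hef hlt
  rw [mem_kE, mem_pairs] at he hf
  obtain ⟨p, q⟩ := e
  obtain ⟨p', q'⟩ := f
  simp only at he hf hef hlt ⊢
  subst hef
  obtain ⟨⟨hp, hq, hpq⟩, hs, ht, hl⟩ := he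
  obtain ⟨⟨_, hq', hpq'⟩, hs', ht', hl'⟩ := hf
  obtain ⟨r, hr, hr1, hr2, hr3, hr4⟩ := alt hP i hp hq hq' hpq hpq' hl hl' hlt
  exact ⟨(r, p), mem_kE.mpr ⟨mem_pairs.mpr ⟨hr, hp, hr1⟩, hs.trans hr3, lt_trans hr4 ht', hr2⟩,
    rfl, hr3, hr4⟩

lemma kE_inj {P : Finset Pt} (hP : Generic P) (i : ℕ) (s t : ℝ) :
    ∀ e ∈ kE P i s t, ∀ f ∈ kE P i s t, esl e = esl f → e = f := by
  intro e he f hf h
  exact hP.esl_inj (mem_kE.mp he).1 (mem_kE.mp hf).1 h

lemma fst_mem_Act {P : Finset Pt} {i : ℕ} {s t : ℝ} {e : Edge} (he : e ∈ kE P i s t) :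
    e.1 ∈ Act P i s t := mem_ends.mpr ⟨e, he, Or.inl rfl⟩

/-- CC: chain colouring of the `i`-edges of a window. -/
theorem chain_colouring {P : Finset Pt} (hP : Generic P) (i : ℕ) (s t : ℝ) :
    ∃ col : Edge → Pt, (∀ e ∈ kE P i s t, col e ∈ Act P i s t) ∧
      (∀ e ∈ kE P i s t, ∀ f ∈ kE P i s t, e ≠ f → col e = col f → Before e f ∨ Before f e) ∧
      (∀ e ∈ kE P i s t, ∀ f ∈ kE P i s t, col e = col f → Before e f →
        ∃ g ∈ kE P i s t, col g = col e ∧ g.1 = e.2 ∧ Before e g ∧ (g = f ∨ Before g f)) ∧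
      (∀ e ∈ kE P i s t, ∃ e' ∈ kE P i s t, col e = e'.1 ∧ col e' = col e ∧
        (e' = e ∨ Before e' e)) := by
  obtain ⟨col, h1, h2, h3, h4⟩ := chain_comb (kE P i s t) Prod.fst Prod.snd
    esl (kE_inj hP i s t) (kE_alt hP i s t)
  have hB : ∀ e f, Relation.TransGen (IsPr (kE P i s t) Prod.fst Prod.snd esl) e f →
      Before e f := by
    intro e f h
    induction h with
    | single h => exact ⟨h.2.2.2.1, Or.inl h.2.2.1⟩
    | tail _ hbc ih =>
      exact Before.trans_pr (mem_pairs.mp (mem_kE.mp hbc.1).1).2.2 ih hbc.2.2.1 hbc.2.2.2.1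
  refine ⟨col, ?_, ?_, ?_, ?_⟩
  · intro e he
    obtain ⟨e', he', h⟩ := h1 e he
    rw [h]
    exact fst_mem_Act he'
  · intro e he f hf hne hc
    rcases h2 e he f hf hne hc with h | h
    · exact Or.inl (hB _ _ h)
    · exact Or.inr (hB _ _ h)
  · intro e he f hf hc hb
    have hne : e ≠ f := by
      intro h; subst h; exact lt_irrefl _ hb.1
    rcases h2 e he f hf hne hc with h | h
    · obtain ⟨g, hg, hg'⟩ := Relation.TransGen.head'_iff.mp h
      refine ⟨g, hg.2.1, ?_, hg.2.2.1.symm, hB _ _ (Relation.TransGen.single hg), ?_⟩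
      · exact (h3 _ _ (Relation.TransGen.single hg)).symm
      · rcases Relation.reflTransGen_iff_eq_or_transGen.mp hg' with h4 | h4
        · exact Or.inl h4.symm
        · exact Or.inr (hB _ _ h4)
    · exact absurd hb (fun hb => Before.not_symm hb (hB _ _ h))
  · intro e he
    obtain ⟨e', he', h5, h6, h7⟩ := h4 e he
    refine ⟨e', he', h5, h6, ?_⟩
    rcases h7 with h7 | h7
    · exact Or.inl h7
    · exact Or.inr (hB _ _ h7)

/-- concave version of CC. -/
theorem chain_colouring_neg {P : Finset Pt} (hP : Generic P) (i : ℕ) (s t : ℝ) :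
    ∃ col : Edge → Pt, (∀ e ∈ kE P i s t, col e ∈ Act P i s t) ∧
      (∀ e ∈ kE P i s t, ∀ f ∈ kE P i s t, e ≠ f → col e = col f →
        BeforeN e f ∨ BeforeN f e) := by
  obtain ⟨col, h1, h2, h3, h4⟩ := chain_comb (kE P i s t) Prod.fst Prod.snd
    (fun e => - esl e) (fun e he f hf h => kE_inj hP i s t e he f hf (neg_injective h))
    (by
      intro e he f hf hef hlt
      have hlt' : esl f < esl e := by linarith
      obtain ⟨g, hg, hg1, hg2, hg3⟩ := kE_alt hP i s t f hf e he hef.symm hlt'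
      exact ⟨g, hg, hg1.trans hef, by linarith, by linarith⟩)
  have hB : ∀ e f, Relation.TransGen (IsPr (kE P i s t) Prod.fst Prod.snd
      (fun e : Edge => - esl e)) e f → BeforeN e f := by
    intro e f h
    induction h with
    | single h =>
      have := h.2.2.2.1
      exact ⟨by linarith, Or.inl h.2.2.1⟩
    | tail _ hbc ih =>
      have := hbc.2.2.2.1
      exact BeforeN.trans_pr (mem_pairs.mp (mem_kE.mp hbc.1).1).2.2 ih hbc.2.2.1 (by linarith)
  refine ⟨col, ?_, ?_⟩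
  · intro e he
    obtain ⟨e', he', h⟩ := h1 e he
    rw [h]
    exact fst_mem_Act he'
  · intro e he f hf hne hc
    rcases h2 e he f hf hne hc with h | h
    · exact Or.inl (hB _ _ h)
    · exact Or.inr (hB _ _ h)

end Crest.Agent.R51
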