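import Crest.Agent.R51.Flux
import Crest.Agent.R51.Chains

/-!
# Row 51, B2: G8 (AP), helper194
-/

set_option autoImplicit false

noncomputable section

open Classical

namespace Crest.Agent.R51

variable {P : Finset Pt}

/-- `d_A(u)`: number of points of `A` to the left of `u` seen in the window `(s,t)`. -/
def apDeg (A : Finset Pt) (s t : ℝ) (u : Pt) : ℕ :=
  (A.filter (fun p => p.1 < u.1 ∧ s < sl p u ∧ sl p u < t)).card

/-- `d_A` is monotone along `x`-monotone steps with slope in the window. -/
lemma apDeg_mono {A : Finset Pt} {s t : ℝ} {z u : Pt} (hx : z.1 < u.1) (h1 : s < sl z u)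
    (h2 : sl z u < t) : apDeg A s t z ≤ apDeg A s t u := by
  unfold apDeg
  apply Finset.card_le_card
  intro p hp
  rw [Finset.mem_filter] at hp ⊢
  obtain ⟨hpA, h3, h4, h5⟩ := hp
  obtain ⟨h6, h7⟩ := sl_between h3 hx h4 h5 h1 h2
  exact ⟨hpA, h3.trans hx, h6, h7⟩

/-- **G8 (AP).** -/
theorem ap_bound (hG : Generic P) (k b : ℕ) (s t : ℝ) (A : Finset Pt) (d : ℕ) :
    ((nearE P k b s t).filter (fun e => e.2 ∈ A ∧ apDeg A s t e.2 < d)).card ≤
      (2 * b + 1 + d) * (ActN P k b s t).card := by
  choose col hc1 hc2 hc3 _ using fun i => chain_colouring hG i s t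
  set F := (nearE P k b s t).filter (fun e => e.2 ∈ A ∧ apDeg A s t e.2 < d) with hF
  have hFk : ∀ e ∈ F, e ∈ kE P (lv P e) s t ∧ Near P k b e ∧ e.2 ∈ A ∧ apDeg A s t e.2 < d := by
    intro e he
    rw [hF, Finset.mem_filter, mem_nearE] at he
    exact ⟨mem_kE.2 ⟨he.1.1, he.1.2.1, he.1.2.2.1, rfl⟩, he.1.2.2.2, he.2.1, he.2.2⟩
  -- non-first edges
  set nf : Edge → Prop := fun f => ∃ e ∈ F, lv P e = lv P f ∧
    col (lv P e) e = col (lv P f) f ∧ Before e f with hnf
  have hsplit : F.card = (F.filter nf).card + (F.filter (fun f => ¬ nf f)).card :=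
    (Finset.card_filter_add_card_filter_not nf).symm
  have hcls : ∀ e ∈ F, ∀ f ∈ F, e ≠ f → lv P e = lv P f → col (lv P e) e = col (lv P f) f →
      Before e f ∨ Before f e := by
    intro e he f hf hne hl hc
    refine hc2 (lv P f) e (hl ▸ (hFk e he).1) f (hFk f hf).1 hne ?_
    rw [hl] at hc; exact hc
  -- first edges
  have h1 : (F.filter (fun f => ¬ nf f)).card ≤ (2 * b + 1) * (ActN P k b s t).card := by
    have hmap : (F.filter (fun f => ¬ nf f)).card ≤
        ((Finset.Icc (k - b) (k + b)) ×ˢ (ActN P k b s t)).card := by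
      apply Finset.card_le_card_of_injOn (fun f => (lv P f, col (lv P f) f))
      · intro f hf
        rw [Finset.mem_coe, Finset.mem_filter] at hf
        obtain ⟨hk, hn, _, _⟩ := hFk f hf.1
        rw [Finset.mem_coe, Finset.mem_product]
        refine ⟨?_, ?_⟩
        · rw [Finset.mem_Icc]
          unfold Near at hn
          simp only
          omega
        · have := hc1 _ f hk
          simp only
          unfold Act at this
          rw [mem_ends] at this
          obtain ⟨g, hg, hg'⟩ := this
          unfold ActN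
          rw [mem_ends]
          refine ⟨g, ?_, hg'⟩
          rw [mem_kE] at hg
          rw [mem_nearE]
          refine ⟨hg.1, hg.2.1, hg.2.2.1, ?_⟩
          unfold Near at hn ⊢
          rw [hg.2.2.2]; exact hn
      · intro f hf f' hf' heq
        rw [Finset.mem_coe, Finset.mem_filter] at hf hf'
        simp only [Prod.mk.injEq] at heq
        by_contra hne
        rcases hcls f hf.1 f' hf'.1 hne heq.1 heq.2 with h | h
        · exact hf'.2 ⟨f, hf.1, heq.1, heq.2, h⟩
        · exact hf.2 ⟨f', hf'.1, heq.1.symm, heq.2.symm, h⟩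
    refine hmap.trans ?_
    rw [Finset.card_product, Nat.card_Icc]
    apply Nat.mul_le_mul_right
    omega
  -- non-first edges
  set G := (nearE P k b s t).filter (fun g => g.1 ∈ A ∧ apDeg A s t g.2 < d) with hGd
  have h2 : (F.filter nf).card ≤ G.card := by
    refine Finset.card_le_card_of_forall_subsingleton
      (fun f g => ∃ e ∈ F, lv P e = lv P f ∧ col (lv P e) e = col (lv P f) f ∧ Before e f ∧
        (∀ e' ∈ F, lv P e' = lv P f → col (lv P e') e' = col (lv P f) f → Before e' f →
          esl e' ≤ esl e) ∧ g.1 = e.2 ∧ lv P g = lv P f ∧ col (lv P g) g = col (lv P f) f) ?_ ?_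
    · intro f hf
      rw [Finset.mem_filter] at hf
      obtain ⟨hfF, hfn⟩ := hf
      -- maximal predecessor
      set S := F.filter (fun e => lv P e = lv P f ∧ col (lv P e) e = col (lv P f) f ∧ Before e f)
        with hS
      have hSne : S.Nonempty := by
        obtain ⟨e, he, h⟩ := hfn
        exact ⟨e, Finset.mem_filter.2 ⟨he, h⟩⟩
      obtain ⟨e, heS, hemax⟩ := S.exists_max_image esl hSne
      obtain ⟨heF, hel, hec, heb⟩ := Finset.mem_filter.1 heS
      obtain ⟨hfk, hfnear, hfA, hfd⟩ := hFk f hfF
      obtain ⟨hek, henear, heA, hed⟩ := hFk e heF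
      have hek' : e ∈ kE P (lv P f) s t := hel ▸ hek
      have hec' : col (lv P f) e = col (lv P f) f := by rw [hel] at hec; exact hec
      obtain ⟨g, hg, hgc, hg1, hgb, hgf⟩ := hc3 (lv P f) e hek' f hfk hec' heb
      have hgk := mem_kE.1 hg
      refine ⟨g, ?_, e, heF, hel, hec, heb, ?_, hg1, hgk.2.2.2, ?_⟩
      · rw [hGd, Finset.mem_filter, mem_nearE]
        refine ⟨⟨hgk.1, hgk.2.1, hgk.2.2.1, ?_⟩, ?_, ?_⟩
        · unfold Near at hfnear ⊢
          rw [hgk.2.2.2]; exact hfnear
        · rw [hg1]; exact heA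
        · refine lt_of_le_of_lt ?_ hfd
          rcases hgf with rfl | hgf
          · exact le_rfl
          · have hfk' := mem_kE.1 hfk
            have hfx := (mem_pairs.1 hfk'.1).2.2
            obtain ⟨hb1, hb2⟩ := hgf
            rcases hb2 with hb2 | ⟨hb2, hb3, hb4⟩
            · rw [hb2]
              exact apDeg_mono hfx hfk'.2.1 hfk'.2.2.1
            · obtain ⟨h6, h7⟩ := sl_between hb2 hfx (hgk.2.1.trans hb3) (hb4.trans hfk'.2.2.1)
                hfk'.2.1 hfk'.2.2.1
              exact apDeg_mono (hb2.trans hfx) h6 h7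
      · intro e' he' hl' hc' hb'
        exact hemax e' (Finset.mem_filter.2 ⟨he', hl', hc', hb'⟩)
      · rw [hgk.2.2.2, hgc, hec']
    · intro g hg f hf f' hf'
      obtain ⟨hf0, e, heF, hel, hec, heb, hemax, hg1, hgl, hgc⟩ := hf
      obtain ⟨hf0', e', heF', hel', hec', heb', hemax', hg1', hgl', hgc'⟩ := hf'
      rw [Finset.mem_filter] at hf0 hf0'
      have hee : e = e' := by
        by_contra hne
        have hx : e.2.1 = e'.2.1 := by rw [← hg1, ← hg1']
        have hex := (mem_pairs.1 (mem_kE.1 (hFk e heF).1).1).2.2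
        have hex' := (mem_pairs.1 (mem_kE.1 (hFk e' heF').1).1).2.2
        rcases hcls e heF e' heF' hne (by rw [hel, hel', ← hgl, ← hgl'])
          (by rw [hec, hec', ← hgc, ← hgc']) with h | h
        · rcases h.2 with h3 | ⟨h3, _⟩
          · rw [h3] at hx; linarith
          · linarith
        · rcases h.2 with h3 | ⟨h3, _⟩
          · rw [h3] at hx; linarith
          · linarith
      subst hee
      by_contra hne
      rcases hcls f hf0.1 f' hf0'.1 hne (by rw [← hgl, ← hgl']) (by rw [← hgc, ← hgc']) with h | h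
      · have h3 := hemax' f hf0.1 (by rw [← hgl, ← hgl']) (by rw [← hgc, ← hgc']) h
        exact absurd heb.1 (not_lt.2 h3)
      · have h3 := hemax f' hf0'.1 (by rw [← hgl, ← hgl']) (by rw [← hgc, ← hgc']) h
        exact absurd heb'.1 (not_lt.2 h3)
  have h3 : G.card ≤ d * (ActN P k b s t).card := by
    apply Finset.card_le_mul_card_image_of_maps_to (f := fun g : Edge => g.2)
    · intro g hg
      rw [hGd, Finset.mem_filter] at hg
      exact mem_ends.2 ⟨g, hg.1, Or.inr rfl⟩
    · intro z hz
      by_cases hzd : apDeg A s t z < d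
      · refine le_trans ?_ hzd.le
        unfold apDeg
        apply Finset.card_le_card_of_injOn (fun g : Edge => g.1)
        · intro g hg
          rw [Finset.mem_coe, Finset.mem_filter, hGd, Finset.mem_filter, mem_nearE] at hg
          obtain ⟨⟨⟨hgp, h4, h5, _⟩, hgA, _⟩, hgz⟩ := hg
          rw [Finset.mem_coe, Finset.mem_filter]
          have := (mem_pairs.1 hgp).2.2
          subst hgz
          exact ⟨hgA, this, h4, h5⟩
        · intro g hg g' hg' heq
          rw [Finset.mem_coe, Finset.mem_filter] at hg hg'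
          exact Prod.ext heq (hg.2.trans hg'.2.symm)
      · have : (G.filter (fun g => g.2 = z)) = ∅ := by
          rw [Finset.filter_eq_empty_iff]
          intro g hg hgz
          rw [hGd, Finset.mem_filter] at hg
          rw [← hgz] at hzd
          exact hzd hg.2.2
        rw [this]; simp
  calc F.card = (F.filter nf).card + (F.filter (fun f => ¬ nf f)).card := hsplit
    _ ≤ d * (ActN P k b s t).card + (2 * b + 1) * (ActN P k b s t).card :=
        Nat.add_le_add (h2.trans h3) h1
    _ = (2 * b + 1 + d) * (ActN P k b s t).card := by ring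

end Crest.Agent.R51
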