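import Crest.Agent.R51.Defs

/-!
# Row 51: rank changes of one point (B2: G6 (NL), G9 (ACTIVE), G10 (FAST))

* `rk_eq_FF`: explicit rank formula;
* `level_cross_up`, `level_cross_down`, `level_cross`: if the rank of `p` passes the value `i`
  between two directions, there is an `i`-edge at `p` with slope in between;
* `fast_partners` (G10): passing from `a`-central to distance `≥ B` costs `≥ B - a`
  near-`B` partners;
* `active_card` (G9);
* `near_partners_of_Dl` (G6, NL).
-/

set_option autoImplicit false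

noncomputable section

open Classical

namespace Crest.Agent.R51.Active

/-- number of left slopes above plus number of right slopes below -/
def FF {ι : Type*} (L R : Finset ι) (s : ι → ℝ) (θ : ℝ) : ℕ :=
  (L.filter (fun l => θ < s l)).card + (R.filter (fun r => s r < θ)).card

theorem FF_cross_up {ι : Type*} (L R : Finset ι) (s : ι → ℝ)
    (hinj : ∀ a ∈ R, ∀ b ∈ R, s a = s b → a = b) {θ₁ θ₂ : ℝ} (h12 : θ₁ ≤ θ₂) {i : ℕ}
    (h1 : FF L R s θ₁ < i) (h2 : i ≤ FF L R s θ₂) :
    ∃ r ∈ R, θ₁ ≤ s r ∧ s r < θ₂ ∧ FF L R s (s r) + 1 = i := by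
  set G : ℝ → ℕ := fun θ => (L.filter (fun l => θ < s l)).card +
    (R.filter (fun r => s r ≤ θ)).card with hG
  set W := R.filter (fun r => θ₁ ≤ s r ∧ s r < θ₂) with hW
  have hWne : W.Nonempty := by
    by_contra hne
    rw [Finset.not_nonempty_iff_eq_empty] at hne
    have : FF L R s θ₂ ≤ FF L R s θ₁ := by
      unfold FF
      apply Nat.add_le_add
      · apply Finset.card_le_card
        intro l hl
        simp only [Finset.mem_filter] at hl ⊢
        exact ⟨hl.1, lt_of_le_of_lt h12 hl.2⟩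
      · apply Finset.card_le_card
        intro r hr
        simp only [Finset.mem_filter] at hr ⊢
        refine ⟨hr.1, ?_⟩
        by_contra hcon
        have : r ∈ W := by
          rw [hW, Finset.mem_filter]
          exact ⟨hr.1, not_lt.mp hcon, hr.2⟩
        rw [hne] at this
        simp at this
    omega
  set T := W.filter (fun r => i ≤ G (s r)) with hT
  have hTne : T.Nonempty := by
    obtain ⟨r0, hr0, hmax⟩ := W.exists_max_image s hWne
    refine ⟨r0, ?_⟩
    rw [hT, Finset.mem_filter]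
    refine ⟨hr0, h2.trans ?_⟩
    have hr0' := hr0
    rw [hW, Finset.mem_filter] at hr0'
    rw [hG]
    unfold FF
    apply Nat.add_le_add
    · apply Finset.card_le_card
      intro l hl
      simp only [Finset.mem_filter] at hl ⊢
      exact ⟨hl.1, lt_trans hr0'.2.2 hl.2⟩
    · apply Finset.card_le_card
      intro r hr
      simp only [Finset.mem_filter] at hr ⊢
      refine ⟨hr.1, ?_⟩
      by_cases h : θ₁ ≤ s r
      · apply hmax
        rw [hW, Finset.mem_filter]
        exact ⟨hr.1, h, hr.2⟩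
      · exact (not_le.mp h).le.trans hr0'.2.1
  obtain ⟨r1, hr1, hmin⟩ := T.exists_min_image s hTne
  have hr1' := hr1
  rw [hT, Finset.mem_filter, hW, Finset.mem_filter] at hr1'
  obtain ⟨⟨hr1R, hr1a, hr1b⟩, hr1G⟩ := hr1'
  refine ⟨r1, hr1R, hr1a, hr1b, ?_⟩
  -- upper bound on G
  have hup : G (s r1) ≤ FF L R s (s r1) + 1 := by
    rw [hG]
    unfold FF
    have : (R.filter (fun r => s r ≤ s r1)) ⊆ insert r1 (R.filter (fun r => s r < s r1)) := by
      intro r hr
      simp only [Finset.mem_filter, Finset.mem_insert] at hr ⊢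
      rcases lt_or_eq_of_le hr.2 with h | h
      · exact Or.inr ⟨hr.1, h⟩
      · exact Or.inl (hinj r hr.1 r1 hr1R h)
    have := (Finset.card_le_card this).trans (Finset.card_insert_le _ _)
    simp only
    omega
  have hlow : FF L R s (s r1) < i := by
    set V := R.filter (fun r => θ₁ ≤ s r ∧ s r < s r1) with hV
    by_cases hVne : V.Nonempty
    · obtain ⟨r2, hr2, hmax⟩ := V.exists_max_image s hVne
      have hr2' := hr2
      rw [hV, Finset.mem_filter] at hr2'
      have hr2T : r2 ∉ T := by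
        intro h
        have := hmin r2 h
        linarith [hr2'.2.2]
      have hr2W : r2 ∈ W := by
        rw [hW, Finset.mem_filter]
        exact ⟨hr2'.1, hr2'.2.1, hr2'.2.2.trans hr1b⟩
      have hG2 : G (s r2) < i := by
        by_contra hcon
        apply hr2T
        rw [hT, Finset.mem_filter]
        exact ⟨hr2W, not_lt.mp hcon⟩
      refine lt_of_le_of_lt ?_ hG2
      rw [hG]
      unfold FF
      apply Nat.add_le_add
      · apply Finset.card_le_card
        intro l hl
        simp only [Finset.mem_filter] at hl ⊢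
        exact ⟨hl.1, lt_trans hr2'.2.2 hl.2⟩
      · apply Finset.card_le_card
        intro r hr
        simp only [Finset.mem_filter] at hr ⊢
        refine ⟨hr.1, ?_⟩
        by_cases h : θ₁ ≤ s r
        · apply hmax
          rw [hV, Finset.mem_filter]
          exact ⟨hr.1, h, hr.2⟩
        · exact (not_le.mp h).le.trans hr2'.2.1
    · refine lt_of_le_of_lt ?_ h1
      rw [Finset.not_nonempty_iff_eq_empty] at hVne
      unfold FF
      apply Nat.add_le_add
      · apply Finset.card_le_card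
        intro l hl
        simp only [Finset.mem_filter] at hl ⊢
        exact ⟨hl.1, lt_of_le_of_lt hr1a hl.2⟩
      · apply Finset.card_le_card
        intro r hr
        simp only [Finset.mem_filter] at hr ⊢
        refine ⟨hr.1, ?_⟩
        by_contra hcon
        have : r ∈ V := by
          rw [hV, Finset.mem_filter]
          exact ⟨hr.1, not_lt.mp hcon, hr.2⟩
        rw [hVne] at this
        simp at this
  omega

theorem FF_neg {ι : Type*} (L R : Finset ι) (s : ι → ℝ) (θ : ℝ) :
    FF R L (fun a => - s a) (-θ) = FF L R s θ := by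
  unfold FF
  rw [add_comm]
  congr 2
  · apply Finset.filter_congr
    intro x _
    constructor <;> intro h <;> linarith
  · apply Finset.filter_congr
    intro x _
    constructor <;> intro h <;> linarith

theorem FF_cross_down {ι : Type*} (L R : Finset ι) (s : ι → ℝ)
    (hinj : ∀ a ∈ L, ∀ b ∈ L, s a = s b → a = b) {θ₁ θ₂ : ℝ} (h12 : θ₁ ≤ θ₂) {i : ℕ}
    (h1 : i ≤ FF L R s θ₁) (h2 : FF L R s θ₂ < i) :
    ∃ r ∈ L, θ₁ < s r ∧ s r ≤ θ₂ ∧ FF L R s (s r) + 1 = i := by
  obtain ⟨r, hr, ha, hb, hc⟩ := FF_cross_up R L (fun a => - s a)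
    (fun a ha b hb h => hinj a ha b hb (by linarith))
    (θ₁ := -θ₂) (θ₂ := -θ₁) (by linarith) (i := i) (by rw [FF_neg]; exact h2)
    (by rw [FF_neg]; exact h1)
  refine ⟨r, hr, by linarith, by linarith, ?_⟩
  rw [← hc, FF_neg]

/-- Explicit rank formula (points left of `p` with larger slope, points right of `p` with smaller
slope). -/
theorem rk_eq_FF {P : Finset Pt} (hG : Generic P) {p : Pt} (hp : p ∈ P) (θ : ℝ) :
    rk P θ p = FF (P.filter (fun q => q.1 < p.1)) (P.filter (fun q => p.1 < q.1))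
      (fun q => sl p q) θ := by
  unfold rk FF
  rw [← Finset.card_union_of_disjoint]
  · congr 1
    ext q
    simp only [Finset.mem_filter, Finset.mem_union]
    constructor
    · rintro ⟨hq, hlt⟩
      have hne : q ≠ p := by
        rintro rfl
        exact lt_irrefl _ hlt
      rcases hG.x_lt_or_gt hq hp hne with h | h
      · left
        refine ⟨⟨hq, h⟩, ?_⟩
        rw [sl_comm]
        exact (ht_lt_iff h θ).1 hlt
      · right
        exact ⟨⟨hq, h⟩, (ht_gt_iff h θ).1 hlt⟩
    · rintro (⟨⟨hq, h⟩, h2⟩ | ⟨⟨hq, h⟩, h2⟩)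
      · rw [sl_comm] at h2
        exact ⟨hq, (ht_lt_iff h θ).2 h2⟩
      · exact ⟨hq, (ht_gt_iff h θ).2 h2⟩
  · rw [Finset.disjoint_left]
    intro q h1 h2
    simp only [Finset.mem_filter] at h1 h2
    linarith [h1.1.2, h2.1.2]

/-- The rank at a point only depends on its height. -/
theorem rk_congr_ht {P : Finset Pt} {θ : ℝ} {p q : Pt} (h : ht θ p = ht θ q) :
    rk P θ p = rk P θ q := by
  unfold rk
  rw [h]

theorem lv_eq_right {P : Finset Pt} {e : Edge} (he : e.1.1 < e.2.1) :
    lv P e = 1 + rk P (esl e) e.2 := by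
  unfold lv
  rw [rk_congr_ht (ht_esl he)]

/-- Rank of `p` rises through `i` between `θ₁` and `θ₂`: there is an `i`-edge with left end `p`. -/
theorem level_cross_up {P : Finset Pt} (hG : Generic P) {p : Pt} (hp : p ∈ P) {θ₁ θ₂ : ℝ}
    (h12 : θ₁ ≤ θ₂) {i : ℕ} (h1 : rk P θ₁ p < i) (h2 : i ≤ rk P θ₂ p) :
    ∃ e ∈ pairs P, e.1 = p ∧ θ₁ ≤ esl e ∧ esl e < θ₂ ∧ lv P e = i := by
  rw [rk_eq_FF hG hp] at h1 h2
  obtain ⟨r, hr, ha, hb, hc⟩ := FF_cross_up _ _ _ (by
    intro a ha b hb hab
    simp only [Finset.mem_filter] at ha hb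
    exact (hG.sl_inj p hp a ha.1 p hp b hb.1 ha.2 hb.2 hab).2) h12 h1 h2
  rw [← rk_eq_FF hG hp] at hc
  simp only [Finset.mem_filter] at hr
  refine ⟨(p, r), mem_pairs.2 ⟨hp, hr.1, hr.2⟩, rfl, ha, hb, ?_⟩
  unfold lv esl
  simp only
  omega

/-- Rank of `p` falls through `i` between `θ₁` and `θ₂`: there is an `i`-edge with right
end `p`. -/
theorem level_cross_down {P : Finset Pt} (hG : Generic P) {p : Pt} (hp : p ∈ P) {θ₁ θ₂ : ℝ}
    (h12 : θ₁ ≤ θ₂) {i : ℕ} (h1 : i ≤ rk P θ₁ p) (h2 : rk P θ₂ p < i) :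
    ∃ e ∈ pairs P, e.2 = p ∧ θ₁ < esl e ∧ esl e ≤ θ₂ ∧ lv P e = i := by
  rw [rk_eq_FF hG hp] at h1 h2
  obtain ⟨r, hr, ha, hb, hc⟩ := FF_cross_down _ _ _ (by
    intro a ha b hb hab
    simp only [Finset.mem_filter] at ha hb
    have hab' : sl a p = sl b p := by rw [sl_comm a p, sl_comm b p]; exact hab
    exact (hG.sl_inj a ha.1 p hp b hb.1 p hp ha.2 hb.2 hab').1) h12 h1 h2
  rw [← rk_eq_FF hG hp] at hc
  simp only [Finset.mem_filter] at hr
  have hsl : esl (r, p) = sl p r := by
    unfold esl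
    exact sl_comm _ _
  refine ⟨(r, p), mem_pairs.2 ⟨hr.1, hp, hr.2⟩, rfl, ?_, ?_, ?_⟩
  · rw [hsl]; exact ha
  · rw [hsl]; exact hb
  · rw [lv_eq_right hr.2, hsl]
    simp only
    omega

/-- Symmetric version. -/
theorem level_cross {P : Finset Pt} (hG : Generic P) {p : Pt} (hp : p ∈ P) {θ₁ θ₂ : ℝ}
    {i : ℕ} (h1 : rk P θ₁ p < i) (h2 : i ≤ rk P θ₂ p) :
    ∃ e ∈ pairs P, (e.1 = p ∨ e.2 = p) ∧ min θ₁ θ₂ ≤ esl e ∧ esl e ≤ max θ₁ θ₂ ∧
      lv P e = i := by
  rcases le_total θ₁ θ₂ with h | h
  · obtain ⟨e, he, h3, h4, h5, h6⟩ := level_cross_up hG hp h h1 h2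
    exact ⟨e, he, Or.inl h3, by rw [min_eq_left h]; exact h4, by rw [max_eq_right h]; exact h5.le,
      h6⟩
  · obtain ⟨e, he, h3, h4, h5, h6⟩ := level_cross_down hG hp h h2 h1
    exact ⟨e, he, Or.inr h3, by rw [min_eq_right h]; exact h4.le, by rw [max_eq_left h]; exact h5,
      h6⟩

/-- Level crossing inside a window with non-slope ends. -/
theorem level_cross_window {P : Finset Pt} (hG : Generic P) {p : Pt} (hp : p ∈ P) {s t : ℝ}
    (hs : NonSlope P s) (ht : NonSlope P t) {θ₁ θ₂ : ℝ} (h1s : s ≤ θ₁) (h1t : θ₁ ≤ t)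
    (h2s : s ≤ θ₂) (h2t : θ₂ ≤ t) {i : ℕ} (h1 : rk P θ₁ p < i) (h2 : i ≤ rk P θ₂ p) :
    ∃ e ∈ pairs P, (e.1 = p ∨ e.2 = p) ∧ s < esl e ∧ esl e < t ∧ lv P e = i := by
  obtain ⟨e, he, h3, h4, h5, h6⟩ := level_cross hG hp h1 h2
  refine ⟨e, he, h3, lt_of_le_of_ne ((le_min h1s h2s).trans h4) (hs e he).symm,
    lt_of_le_of_ne (h5.trans (max_le h1t h2t)) (ht e he), h6⟩

/-- The near-`b` pairs of the window containing `p`. -/
theorem card_partners {P : Finset Pt} {k b : ℕ} {s t : ℝ} {p : Pt} :
    ((nearE P k b s t).filter (fun e => e.1 = p ∨ e.2 = p)).card =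
      Lp P k b s t p + Rp P k b s t p := by
  unfold Lp Rp
  rw [← Finset.card_union_of_disjoint]
  · congr 1
    ext e
    simp only [Finset.mem_filter, Finset.mem_union]
    tauto
  · rw [Finset.disjoint_left]
    intro e h1 h2
    simp only [Finset.mem_filter, mem_nearE, mem_pairs] at h1 h2
    have h3 := h1.1.1.2.2
    rw [h1.2, h2.2] at h3
    exact lt_irrefl _ h3

/-- **G10 (FAST).** A point which is `a`-central at `θ₁` and at rank distance `≥ B` from `k`
at `θ₂` (both directions in the closed window) has at least `B - a` near-`B` partners in the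
window. -/
theorem fast_partners {P : Finset Pt} (hG : Generic P) {p : Pt} (hp : p ∈ P) {s t : ℝ}
    (hs : NonSlope P s) (ht : NonSlope P t) {k a B : ℕ} {θ₁ θ₂ : ℝ} (h1s : s ≤ θ₁)
    (h1t : θ₁ ≤ t) (h2s : s ≤ θ₂) (h2t : θ₂ ≤ t) (h1 : Central P k a θ₁ p)
    (h2 : k + B ≤ rk P θ₂ p ∨ rk P θ₂ p + B ≤ k) :
    B ≤ Lp P k B s t p + Rp P k B s t p + a := by
  rw [← card_partners]
  by_cases haB : B ≤ a
  · omega
  replace haB := not_le.mp haB
  obtain ⟨hc1, hc2⟩ := h1
  rcases h2 with h2 | h2
  · have hsub : Finset.Ioc (k + a) (k + B) ⊆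
        ((nearE P k B s t).filter (fun e => e.1 = p ∨ e.2 = p)).image (lv P) := by
      intro i hi
      rw [Finset.mem_Ioc] at hi
      obtain ⟨e, he, h3, h4, h5, h6⟩ := level_cross_window hG hp hs ht h1s h1t h2s h2t
        (i := i) (by omega) (by omega)
      rw [Finset.mem_image]
      refine ⟨e, ?_, h6⟩
      rw [Finset.mem_filter, mem_nearE]
      refine ⟨⟨he, h4, h5, ?_, ?_⟩, h3⟩ <;> omega
    have := (Finset.card_le_card hsub).trans Finset.card_image_le
    rw [Nat.card_Ioc] at this
    omega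
  · have hsub : Finset.Ioc (k - B) (k - a) ⊆
        ((nearE P k B s t).filter (fun e => e.1 = p ∨ e.2 = p)).image (lv P) := by
      intro i hi
      rw [Finset.mem_Ioc] at hi
      obtain ⟨e, he, h3, h4, h5, h6⟩ := level_cross_window hG hp hs ht h2s h2t h1s h1t
        (i := i) (by omega) (by omega)
      rw [Finset.mem_image]
      refine ⟨e, ?_, h6⟩
      rw [Finset.mem_filter, mem_nearE]
      refine ⟨⟨he, h4, h5, ?_, ?_⟩, h3⟩ <;> omega
    have := (Finset.card_le_card hsub).trans Finset.card_image_le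
    rw [Nat.card_Ioc] at this
    omega

/-- At a non-slope the rank is strictly monotone in the height. -/
theorem rk_lt_of_ht_lt {P : Finset Pt} {θ : ℝ} {p q : Pt} (hp : p ∈ P)
    (h : ht θ p < ht θ q) : rk P θ p < rk P θ q := by
  unfold rk
  apply Finset.card_lt_card
  rw [Finset.ssubset_iff_of_subset]
  · exact ⟨p, by simp [hp, h], by simp⟩
  · intro x hx
    simp only [Finset.mem_filter] at hx ⊢
    exact ⟨hx.1, hx.2.trans h⟩

theorem rk_le_of_ht_le {P : Finset Pt} {θ : ℝ} {p q : Pt}
    (h : ht θ p ≤ ht θ q) : rk P θ p ≤ rk P θ q := by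
  unfold rk
  apply Finset.card_le_card
  intro x hx
  simp only [Finset.mem_filter] at hx ⊢
  exact ⟨hx.1, lt_of_lt_of_le hx.2 h⟩

theorem rk_inj {P : Finset Pt} (hG : Generic P) {θ : ℝ} (hθ : NonSlope P θ) {p q : Pt}
    (hp : p ∈ P) (hq : q ∈ P) (h : rk P θ p = rk P θ q) : p = q := by
  by_contra hne
  rcases lt_or_gt_of_ne (ht_ne_of_nonSlope hG hθ hp hq hne) with h' | h'
  · have := rk_lt_of_ht_lt (P := P) hp h'
    omega
  · have := rk_lt_of_ht_lt (P := P) hq h'
    omega

/-- At a non-slope, at most `hi + 1 - lo` points have rank in `[lo, hi]`. -/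
theorem card_rk_mem_Icc {P : Finset Pt} (hG : Generic P) {θ : ℝ} (hθ : NonSlope P θ)
    (A : Finset Pt) (hA : A ⊆ P) (lo hi : ℕ) (h : ∀ p ∈ A, lo ≤ rk P θ p ∧ rk P θ p ≤ hi) :
    A.card ≤ hi + 1 - lo := by
  have : (A.image (rk P θ)).card = A.card := by
    apply Finset.card_image_of_injOn
    intro p hp q hq hpq
    exact rk_inj hG hθ (hA hp) (hA hq) hpq
  rw [← this, ← Nat.card_Icc]
  apply Finset.card_le_card
  intro i hi
  rw [Finset.mem_image] at hi
  obtain ⟨p, hp, rfl⟩ := hi
  rw [Finset.mem_Icc]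
  exact h p hp

/-- Double counting of partners. -/
theorem sum_partners_le {P : Finset Pt} {k b : ℕ} {s t : ℝ} (A : Finset Pt) :
    ∑ p ∈ A, (Lp P k b s t p + Rp P k b s t p) ≤ 2 * (nearE P k b s t).card := by
  rw [Finset.sum_add_distrib]
  have h1 : ∑ p ∈ A, Lp P k b s t p ≤ (nearE P k b s t).card := by
    unfold Lp
    have := Finset.card_eq_sum_card_fiberwise (s := (nearE P k b s t).filter (fun e => e.2 ∈ A))
      (t := A) (f := Prod.snd) (by intro e he; simpa using (Finset.mem_filter.1 he).2)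
    calc ∑ p ∈ A, ((nearE P k b s t).filter (fun e => e.2 = p)).card
        = ∑ p ∈ A, (((nearE P k b s t).filter (fun e => e.2 ∈ A)).filter
            (fun e => e.2 = p)).card := by
          apply Finset.sum_congr rfl
          intro p hp
          congr 1
          ext e
          simp only [Finset.mem_filter]
          constructor
          · rintro ⟨h1, h2⟩
            exact ⟨⟨h1, h2 ▸ hp⟩, h2⟩
          · rintro ⟨⟨h1, _⟩, h2⟩
            exact ⟨h1, h2⟩
      _ = ((nearE P k b s t).filter (fun e => e.2 ∈ A)).card := this.symm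
      _ ≤ _ := Finset.card_filter_le _ _
  have h2 : ∑ p ∈ A, Rp P k b s t p ≤ (nearE P k b s t).card := by
    unfold Rp
    have := Finset.card_eq_sum_card_fiberwise (s := (nearE P k b s t).filter (fun e => e.1 ∈ A))
      (t := A) (f := Prod.fst) (by intro e he; simpa using (Finset.mem_filter.1 he).2)
    calc ∑ p ∈ A, ((nearE P k b s t).filter (fun e => e.1 = p)).card
        = ∑ p ∈ A, (((nearE P k b s t).filter (fun e => e.1 ∈ A)).filter
            (fun e => e.1 = p)).card := by
          apply Finset.sum_congr rfl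
          intro p hp
          congr 1
          ext e
          simp only [Finset.mem_filter]
          constructor
          · rintro ⟨h1, h2⟩
            exact ⟨⟨h1, h2 ▸ hp⟩, h2⟩
          · rintro ⟨⟨h1, _⟩, h2⟩
            exact ⟨h1, h2⟩
      _ = ((nearE P k b s t).filter (fun e => e.1 ∈ A)).card := this.symm
      _ ≤ _ := Finset.card_filter_le _ _
  omega

/-- Points that are `b`-central for some direction of the closed window. -/
def Actv (P : Finset Pt) (k b : ℕ) (s t : ℝ) : Finset Pt :=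
  P.filter (fun p => ∃ θ, s ≤ θ ∧ θ ≤ t ∧ Central P k b θ p)

/-- **G9 (ACTIVE).** -/
theorem active_card {P : Finset Pt} (hG : Generic P) {s t : ℝ} (hst : s ≤ t)
    (hs : NonSlope P s) (ht : NonSlope P t) (k b : ℕ) :
    b * (Actv P k b s t).card ≤ b * (4 * b + 1) + 2 * (nearE P k (2 * b) s t).card := by
  set A := Actv P k b s t with hA
  set A1 := A.filter (fun p => Central P k (2 * b) s p) with hA1
  set A2 := A.filter (fun p => ¬ Central P k (2 * b) s p) with hA2
  have hcard : A1.card + A2.card = A.card := Finset.card_filter_add_card_filter_not _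
  have hAP : A ⊆ P := Finset.filter_subset _ _
  have h1 : A1.card ≤ 4 * b + 1 := by
    have := card_rk_mem_Icc hG hs A1 ((Finset.filter_subset _ _).trans hAP) (k - 2 * b)
      (k + 2 * b) (by
        intro p hp
        obtain ⟨h3, h4⟩ := (Finset.mem_filter.1 hp).2
        omega)
    omega
  have h2 : b * A2.card ≤ 2 * (nearE P k (2 * b) s t).card := by
    refine le_trans ?_ (sum_partners_le A2)
    rw [mul_comm, ← smul_eq_mul]
    apply Finset.card_nsmul_le_sum
    intro p hp
    obtain ⟨hpA, hpn⟩ := Finset.mem_filter.1 hp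
    obtain ⟨hpP, θ, h3, h4, h5⟩ := Finset.mem_filter.1 hpA
    have := fast_partners hG hpP hs ht (k := k) (a := b) (B := 2 * b) h3 h4 le_rfl hst h5 (by
      unfold Central at hpn
      omega)
    omega
  calc b * A.card = b * A1.card + b * A2.card := by rw [← hcard]; ring
    _ ≤ b * (4 * b + 1) + 2 * (nearE P k (2 * b) s t).card :=
      Nat.add_le_add (Nat.mul_le_mul_left b h1) h2

/-- **G6 (NL).** If `p` is `b`-central at some direction of the window and `D^k(s,t) > 5b`, then
`p` has at least `b` near-`2b` partners in the window. -/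
theorem near_partners_of_Dl {P : Finset Pt} (hG : Generic P) {p : Pt} (hp : p ∈ P) {s t : ℝ}
    (hst : s ≤ t) (hs : NonSlope P s) (hnt : NonSlope P t) {k b : ℕ} {θ : ℝ} (h1s : s ≤ θ)
    (h1t : θ ≤ t) (h1 : Central P k b θ p) (hD : 5 * b < Dl P k s t) :
    b ≤ Lp P k (2 * b) s t p + Rp P k (2 * b) s t p := by
  by_contra hcon
  replace hcon := not_le.mp hcon
  have hin : ∀ θ', s ≤ θ' → θ' ≤ t → rk P θ' p < k + 2 * b ∧ k < rk P θ' p + 2 * b := by
    intro θ' h2 h3
    by_contra hc
    have := fast_partners hG hp hs hnt (k := k) (a := b) (B := 2 * b) h1s h1t h2 h3 h1 (by omega)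
    omega
  have hss := hin s le_rfl hst
  have htt := hin t hst le_rfl
  set Bs := P.filter (fun q => ht s q < ht s p) with hBs
  set Bt := P.filter (fun q => ht t q < ht t p) with hBt
  have hmid : (Bs \ Bt).card ≤ Lp P k (2 * b) s t p := by
    unfold Lp
    rw [← Finset.card_image_of_injective (Bs \ Bt) (f := fun q => ((q, p) : Edge))
      (fun a b hab => (Prod.ext_iff.1 hab).1)]
    apply Finset.card_le_card
    intro e he
    rw [Finset.mem_image] at he
    obtain ⟨q, hq, rfl⟩ := he
    rw [Finset.mem_sdiff, hBs, hBt, Finset.mem_filter, Finset.mem_filter] at hq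
    obtain ⟨⟨hqP, hqs⟩, hqt⟩ := hq
    have hqt' : ¬ ht t q < ht t p := fun h => hqt ⟨hqP, h⟩
    have hne : q ≠ p := by
      rintro rfl
      exact lt_irrefl _ hqs
    rcases hG.x_lt_or_gt hqP hp hne with h | h
    · rw [ht_lt_iff h] at hqs hqt'
      have hpair : ((q, p) : Edge) ∈ pairs P := mem_pairs.2 ⟨hqP, hp, h⟩
      have hlt : esl (q, p) < t := lt_of_le_of_ne (not_lt.mp hqt') (hnt _ hpair)
      have hlv := lv_eq_right (P := P) (e := (q, p)) h
      have := hin (esl (q, p)) (le_of_lt hqs) hlt.le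
      rw [Finset.mem_filter, mem_nearE]
      refine ⟨⟨hpair, hqs, hlt, ?_, ?_⟩, rfl⟩
      · simp only at hlv
        omega
      · simp only at hlv
        omega
    · rw [ht_gt_iff h] at hqs hqt'
      exact absurd (lt_of_lt_of_le hqs hst) hqt'
  have hlow : (Bel P k s \ Bs).card + rk P s p ≤ max k (rk P s p) := by
    rcases Nat.eq_zero_or_pos (Bel P k s \ Bs).card with h0 | h0
    · rw [h0, zero_add]; exact le_max_right _ _
    · obtain ⟨q0, hq0⟩ := Finset.card_pos.1 h0
      have key : ∀ q ∈ Bel P k s \ Bs, rk P s p ≤ rk P s q ∧ rk P s q ≤ k - 1 := by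
        intro q hq
        rw [Finset.mem_sdiff, mem_Bel, hBs, Finset.mem_filter] at hq
        obtain ⟨⟨hqP, hqk⟩, hqs⟩ := hq
        have hqs' : ht s p ≤ ht s q := not_lt.mp (fun h => hqs ⟨hqP, h⟩)
        exact ⟨rk_le_of_ht_le hqs', by omega⟩
      have h2 := card_rk_mem_Icc hG hs (Bel P k s \ Bs)
        ((Finset.sdiff_subset).trans (Finset.filter_subset _ _)) _ _ key
      have h3 := key q0 hq0
      have h4 : rk P s q0 < k := by
        have := (Finset.mem_sdiff.1 hq0).1
        rw [mem_Bel] at this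
        exact this.2
      have := le_max_left k (rk P s p)
      omega
  have hhigh : (Bt \ Bel P k t).card + k ≤ max k (rk P t p) := by
    rcases Nat.eq_zero_or_pos (Bt \ Bel P k t).card with h0 | h0
    · rw [h0, zero_add]; exact le_max_left _ _
    · obtain ⟨q0, hq0⟩ := Finset.card_pos.1 h0
      have key : ∀ q ∈ Bt \ Bel P k t, k ≤ rk P t q ∧ rk P t q < rk P t p := by
        intro q hq
        rw [Finset.mem_sdiff, mem_Bel, hBt, Finset.mem_filter] at hq
        obtain ⟨⟨hqP, hqk⟩, hqs⟩ := hq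
        have hqs' : ¬ rk P t q < k := fun h => hqs ⟨hqP, h⟩
        exact ⟨not_lt.mp hqs', rk_lt_of_ht_lt hqP hqk⟩
      have h2 := card_rk_mem_Icc hG hnt (Bt \ Bel P k t)
        ((Finset.sdiff_subset).trans (Finset.filter_subset _ _)) k (rk P t p - 1)
        (fun q hq => ⟨(key q hq).1, by have := (key q hq).2; omega⟩)
      have h3 := key q0 hq0
      have := le_max_right k (rk P t p)
      omega
  have hsub : Bel P k s \ Bel P k t ⊆ (Bel P k s \ Bs) ∪ ((Bs \ Bt) ∪ (Bt \ Bel P k t)) := by
    intro q hq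
    simp only [Finset.mem_sdiff, Finset.mem_union] at hq ⊢
    tauto
  have hD' : Dl P k s t ≤ (Bel P k s \ Bs).card + ((Bs \ Bt).card + (Bt \ Bel P k t).card) := by
    unfold Dl
    exact (Finset.card_le_card hsub).trans ((Finset.card_union_le _ _).trans
      (Nat.add_le_add_left (Finset.card_union_le _ _) _))
  have hm1 : max k (rk P s p) < rk P s p + 2 * b := max_lt (by omega) (by omega)
  have hm2 : max k (rk P t p) < k + 2 * b := max_lt (by omega) (by omega)
  omega

end Crest.Agent.R51.Active
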