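import Mathlib
import Crest.Agent.R034.BSG

/-! Row 51, section B9: Balog-Szemeredi-Gowers theorem (group part) and consequences. -/

set_option autoImplicit false
set_option maxHeartbeats 400000

namespace Crest.Agent.R51

open Finset
open scoped Pointwise

/-- Balog-Szemeredi-Gowers, multiplicative notation, exact counting form. -/
@[to_additive bsg_add /-- Balog-Szemeredi-Gowers, additive notation, exact counting form. -/]
theorem bsg_mul {G : Type*} [CommGroup G] [DecidableEq G] (A B : Finset G) (E : Finset (G × G))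
    (hE : E ⊆ A ×ˢ B) (hA : A.Nonempty) (hB : B.Nonempty) (K : ℝ) (hK : 1 ≤ K)
    (hd : (#A : ℝ) * #B ≤ K * #E) :
    ∃ A' ⊆ A, ∃ B' ⊆ B, (#A : ℝ) ≤ 6 * K * #A' ∧ (#B : ℝ) ≤ 4 * K * #B' ∧
      (#(A' * B') : ℝ) * (#A * #B) ≤ 3072 * K ^ 5 * (#(E.image fun p => p.1 * p.2)) ^ 3 := by
  classical
  obtain ⟨A', hA', B', hB', h1, h2, h3⟩ := R034.exists_many_paths A B E hE hA hB K hK hd
  refine ⟨A', hA', B', hB', h1, h2, ?_⟩
  set S : Finset G := E.image fun p => p.1 * p.2 with hS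
  -- for every z in A' * B' : number of triples
  have key : ∀ z ∈ A' * B', (#A : ℝ) * #B ≤ 3072 * K ^ 5 *
      #{t ∈ S ×ˢ (S ×ˢ S) | t.1 / t.2.1 * t.2.2 = z} := by
    intro z hz
    obtain ⟨x, hx, y, hy, rfl⟩ := mem_mul.1 hz
    refine (h3 x hx y hy).trans ?_
    have hK5 : 0 ≤ 3072 * K ^ 5 := by positivity
    refine mul_le_mul_of_nonneg_left ?_ hK5
    have : #{p ∈ B ×ˢ A | (x, p.1) ∈ E ∧ (p.2, p.1) ∈ E ∧ (p.2, y) ∈ E} ≤
        #{t ∈ S ×ˢ (S ×ˢ S) | t.1 / t.2.1 * t.2.2 = x * y} := by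
      refine card_le_card_of_injOn (fun p => (x * p.1, (p.2 * p.1, p.2 * y))) ?_ ?_
      · intro p hp
        simp only [coe_filter, Set.mem_ofPred_eq, mem_product] at hp ⊢
        obtain ⟨_, h1, h2, h3⟩ := hp
        refine ⟨⟨mem_image.2 ⟨_, h1, rfl⟩, mem_image.2 ⟨_, h2, rfl⟩, mem_image.2 ⟨_, h3, rfl⟩⟩, ?_⟩
        show x * p.1 / (p.2 * p.1) * (p.2 * y) = x * y
        rw [mul_div_mul_right_eq_div, ← mul_assoc, div_mul_cancel]
      · intro p hp q hq hpq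
        simp only [Prod.mk.injEq, mul_right_inj, mul_left_inj] at hpq
        exact Prod.ext hpq.1 hpq.2.2
    exact_mod_cast this
  have hsum : (∑ z ∈ A' * B', (#{t ∈ S ×ˢ (S ×ˢ S) | t.1 / t.2.1 * t.2.2 = z} : ℝ)) ≤
      (#S : ℝ) ^ 3 := by
    have h : ∑ z ∈ A' * B', #{t ∈ S ×ˢ (S ×ˢ S) | t.1 / t.2.1 * t.2.2 = z} ≤
        #(S ×ˢ (S ×ˢ S)) := by
      have hdisj := card_eq_sum_card_fiberwise (s := (S ×ˢ (S ×ˢ S)).filter
        (fun t => t.1 / t.2.1 * t.2.2 ∈ A' * B')) (t := A' * B')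
        (f := fun t => t.1 / t.2.1 * t.2.2) (fun t ht => by
          exact_mod_cast (mem_filter.1 ht).2)
      have : ∑ z ∈ A' * B', #{t ∈ S ×ˢ (S ×ˢ S) | t.1 / t.2.1 * t.2.2 = z} =
          #((S ×ˢ (S ×ˢ S)).filter (fun t => t.1 / t.2.1 * t.2.2 ∈ A' * B')) := by
        rw [hdisj]
        refine sum_congr rfl fun z hz => ?_
        congr 1
        ext t
        simp only [mem_filter]
        constructor
        · rintro ⟨h1, h2⟩
          exact ⟨⟨h1, h2 ▸ hz⟩, h2⟩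
        · rintro ⟨⟨h1, _⟩, h2⟩
          exact ⟨h1, h2⟩
      rw [this]
      exact card_filter_le _ _
    have h' : #(S ×ˢ (S ×ˢ S)) = #S ^ 3 := by
      rw [card_product, card_product]; ring
    rw [h'] at h
    exact_mod_cast h
  calc (#(A' * B') : ℝ) * (#A * #B) = ∑ _z ∈ A' * B', ((#A : ℝ) * #B) := by
        rw [sum_const, nsmul_eq_mul]
    _ ≤ ∑ z ∈ A' * B', 3072 * K ^ 5 *
          (#{t ∈ S ×ˢ (S ×ˢ S) | t.1 / t.2.1 * t.2.2 = z} : ℝ) := sum_le_sum key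
    _ = 3072 * K ^ 5 * ∑ z ∈ A' * B',
          (#{t ∈ S ×ˢ (S ×ˢ S) | t.1 / t.2.1 * t.2.2 = z} : ℝ) := by rw [mul_sum]
    _ ≤ 3072 * K ^ 5 * (#S : ℝ) ^ 3 := by
        refine mul_le_mul_of_nonneg_left hsum ?_
        positivity

end Crest.Agent.R51
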