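import Mathlib

/-! Row 51, section B9 (additive theorem): common definitions. -/

set_option autoImplicit false

namespace Crest.Agent.R51.Add

open Finset Classical

/-- `w` is order-convex with respect to `α`. -/
def OrdConv {R : Type*} (α : R → ℝ) (w : R → ℕ) : Prop :=
  ∀ u v x, w u = w v → α u ≤ α x → α x ≤ α v → w x = w u

/-- the interval `I(v,r) = {u : |α u - α v| ≤ r}`. -/
noncomputable def Iv {R : Type*} [Fintype R] (α : R → ℝ) (v : R) (r : ℝ) : Finset R :=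
  univ.filter fun u => |α u - α v| ≤ r

/-- `g(v,r)` = number of labels met by `I(v,r)`. -/
noncomputable def gg {R : Type*} [Fintype R] (α : R → ℝ) (w : R → ℕ) (v : R) (r : ℝ) : ℕ :=
  #((Iv α v r).image w)

/-- fibre of a label -/
noncomputable def fib {R : Type*} [Fintype R] (w : R → ℕ) (a : ℕ) : Finset R :=
  univ.filter fun v => w v = a

/-- The hypotheses (A1), (A2), (A3) of ADD. -/
structure Setting {R : Type*} [Fintype R] (C V : ℝ) (α : Fin 3 → R → ℝ) (w : Fin 3 → R → ℕ) :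
    Prop where
  nonempty : Nonempty R
  one_le_C : 1 ≤ C
  one_le_V : 1 ≤ V
  sum0 : ∀ v, α 0 v + α 1 v + α 2 v = 0
  conv : ∀ i, OrdConv (α i) (w i)
  A1 : ∀ i, (#(univ.image (w i)) : ℝ) ≤ C * V
  A2 : ∀ i a, (#(fib (w i) a) : ℝ) * V ≤ C * Fintype.card R
  A3 : ∀ i j, i ≠ j → ∀ a b, (#(fib (w i) a ∩ fib (w j) b) : ℝ) * V ^ 2 ≤ C * Fintype.card R

/-- `v` is typical with constant `ε` (conclusion of the maximal inequalities 9.1). -/
def Typical {R : Type*} [Fintype R] (ε C V : ℝ) (α : Fin 3 → R → ℝ) (w : Fin 3 → R → ℕ) (v : R) :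
    Prop :=
  (∀ i j, i ≠ j → ∀ r : ℝ, ε * (#(Iv (α i) v r) * #(Iv (α j) v r)) ≤
      #(Iv (α i) v r ∩ Iv (α j) v r) * Fintype.card R) ∧
  (∀ i, ∀ r : ℝ, 3 ≤ gg (α i) (w i) v r → ε * gg (α i) (w i) v r * Fintype.card R ≤
      3 * (C * V) * #(Iv (α i) v r))

/-- `v` is a `(c, q, T)`-jump point for the pair `i, j`. -/
def Jump {R : Type*} [Fintype R] (c q T : ℝ) (α : Fin 3 → R → ℝ) (w : Fin 3 → R → ℕ) (i j : Fin 3)
    (v : R) : Prop :=
  ∃ r : ℝ, 0 < r ∧ (gg (α i) (w i) v (r / q) : ℝ) ≤ c ∧ (gg (α j) (w j) v (r / q) : ℝ) ≤ c ∧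
    T ≤ gg (α i) (w i) v r ∧ T ≤ gg (α j) (w j) v r

/-- Comparison (Comp') of 9.3 at the point `v`. -/
def Comp' {R : Type*} [Fintype R] (c : ℝ) (α : Fin 3 → R → ℝ) (w : Fin 3 → R → ℕ) (v : R) : Prop :=
  ∀ i j, ∀ r : ℝ, 0 < r → (gg (α i) (w i) v r : ℝ) ≤ c * gg (α j) (w j) v (4 * r)

section basic
variable {R : Type*} [Fintype R]

lemma mem_Iv {α : R → ℝ} {v u : R} {r : ℝ} : u ∈ Iv α v r ↔ |α u - α v| ≤ r := by
  simp [Iv]

lemma self_mem_Iv {α : R → ℝ} {v : R} {r : ℝ} (hr : 0 ≤ r) : v ∈ Iv α v r := by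
  simp [Iv, hr]

lemma Iv_mono {α : R → ℝ} {v : R} {r s : ℝ} (h : r ≤ s) : Iv α v r ⊆ Iv α v s := by
  intro u hu; rw [mem_Iv] at *; exact hu.trans h

lemma Iv_empty_of_neg {α : R → ℝ} {v : R} {r : ℝ} (hr : r < 0) : Iv α v r = ∅ := by
  ext u; simp only [mem_Iv, notMem_empty, iff_false, not_le]
  exact hr.trans_le (abs_nonneg _)

lemma mem_fib {w : R → ℕ} {a : ℕ} {v : R} : v ∈ fib w a ↔ w v = a := by simp [fib]

lemma gg_mono {α : R → ℝ} {w : R → ℕ} {v : R} {r s : ℝ} (h : r ≤ s) :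
    gg α w v r ≤ gg α w v s := card_le_card (image_subset_image (Iv_mono h))

lemma one_le_gg {α : R → ℝ} {w : R → ℕ} {v : R} {r : ℝ} (hr : 0 ≤ r) : 1 ≤ gg α w v r :=
  card_pos.2 ⟨w v, mem_image_of_mem _ (self_mem_Iv hr)⟩

/-- equal `α` implies equal label -/
lemma OrdConv.eq_of_eq {α : R → ℝ} {w : R → ℕ} (h : OrdConv α w) {u x : R} (hux : α u = α x) :
    w x = w u := h u u x rfl hux.le hux.ge

lemma gg_zero {α : R → ℝ} {w : R → ℕ} (h : OrdConv α w) (v : R) : gg α w v 0 = 1 := by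
  refine le_antisymm ?_ (one_le_gg le_rfl)
  refine card_le_one.2 ?_
  intro a ha b hb
  obtain ⟨x, hx, rfl⟩ := mem_image.1 ha
  obtain ⟨y, hy, rfl⟩ := mem_image.1 hb
  rw [mem_Iv] at hx hy
  have hx' : α v = α x := by
    have := abs_eq_zero.1 (le_antisymm hx (abs_nonneg _)); linarith
  have hy' : α v = α y := by
    have := abs_eq_zero.1 (le_antisymm hy (abs_nonneg _)); linarith
  rw [h.eq_of_eq hx', h.eq_of_eq hy']

end basic

end Crest.Agent.R51.Add
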