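import Crest.Agent.R51.AddBase

/-! Row 51, section B9, 9.1: the two maximal inequalities. -/

set_option autoImplicit false

namespace Crest.Agent.R51.Add

open Finset Classical

/-- greedy selection by decreasing radius -/
lemma greedy_sel {R : Type*} (S : R → ℝ → Finset R) (hs : ∀ u v ρ, u ∈ S v ρ ↔ v ∈ S u ρ)
    (r : R → ℝ) (B : Finset R) (hself : ∀ v ∈ B, v ∈ S v (r v)) :
    ∃ Sel ⊆ B, (∀ v ∈ B, ∃ u ∈ Sel, v ∈ S u (r u)) ∧
      (∀ u ∈ Sel, ∀ u' ∈ Sel, u ≠ u' → r u' ≤ r u → u' ∉ S u (r u)) := by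
  induction hn : #B using Nat.strong_induction_on generalizing B with
  | _ n ih =>
    rcases B.eq_empty_or_nonempty with h0 | hne
    · subst h0
      exact ⟨∅, subset_rfl, by simp, by simp⟩
    · obtain ⟨u, huB, hmax⟩ := exists_max_image B r hne
      set B' := B \ S u (r u) with hB'
      have hsub : B' ⊆ B := sdiff_subset
      have hlt : #B' < n := by
        rw [← hn]
        refine card_lt_card ⟨hsub, fun h => ?_⟩
        have := h huB
        rw [hB', mem_sdiff] at this
        exact this.2 (hself u huB)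
      obtain ⟨Sel, hSB, hcov, hsep⟩ := ih _ hlt B' (fun v hv => hself v (hsub hv)) rfl
      refine ⟨insert u Sel, insert_subset huB (hSB.trans hsub), ?_, ?_⟩
      · intro v hv
        by_cases hvu : v ∈ S u (r u)
        · exact ⟨u, mem_insert_self _ _, hvu⟩
        · obtain ⟨u', hu', h⟩ := hcov v (mem_sdiff.2 ⟨hv, hvu⟩)
          exact ⟨u', mem_insert_of_mem hu', h⟩
      · intro a ha' b hb hab hr
        rcases mem_insert.1 ha' with hae | ha
        · subst hae
          rcases mem_insert.1 hb with hbe | hb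
          · exact absurd hbe.symm hab
          · exact (mem_sdiff.1 (hSB hb)).2
        · rcases mem_insert.1 hb with hbe | hb
          · subst hbe
            have h1 := (mem_sdiff.1 (hSB ha)).2
            have h2 : r a ≤ r b := hmax a (hsub (hSB ha))
            have h3 : r a = r b := le_antisymm h2 hr
            rw [h3, hs]
            exact h1
          · exact hsep a ha b hb hab hr

section
variable {R : Type*} [Fintype R]

/-- 9.1 (i), for two coordinates -/
lemma max_square (α β : R → ℝ) (ε : ℝ) (hε : 0 ≤ ε) :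
    (#(univ.filter fun v => ∃ r : ℝ, (#(Iv α v r ∩ Iv β v r) : ℝ) * Fintype.card R <
      ε * (#(Iv α v r) * #(Iv β v r))) : ℝ) ≤ 4 * ε * Fintype.card R := by
  set B : Finset R := univ.filter fun v => ∃ r : ℝ, (#(Iv α v r ∩ Iv β v r) : ℝ) * Fintype.card R <
      ε * (#(Iv α v r) * #(Iv β v r)) with hB
  have hB' : ∀ v ∈ B, ∃ r : ℝ, (#(Iv α v r ∩ Iv β v r) : ℝ) * Fintype.card R <
      ε * (#(Iv α v r) * #(Iv β v r)) := fun v hv => (mem_filter.1 hv).2
  choose! r hr using hB'
  have hr0 : ∀ v ∈ B, 0 ≤ r v := by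
    intro v hv
    by_contra h
    push Not at h
    have := hr v hv
    rw [Iv_empty_of_neg h] at this
    simp at this
  obtain ⟨Sel, hSB, hcov, hsep⟩ := greedy_sel (fun v ρ => Iv α v ρ ∩ Iv β v ρ)
    (by intro u v ρ; simp only [mem_inter, mem_Iv, abs_sub_comm]) r B
    (by intro v hv; exact mem_inter.2 ⟨self_mem_Iv (hr0 v hv), self_mem_Iv (hr0 v hv)⟩)
  rcases B.eq_empty_or_nonempty with h0 | ⟨v0, _⟩
  · rw [h0]; simp; positivity
  have hRpos : (0 : ℝ) < Fintype.card R := by
    exact_mod_cast Fintype.card_pos_iff.2 ⟨v0⟩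
  -- covering
  have h1 : (#B : ℝ) ≤ ∑ u ∈ Sel, (#(Iv α u (r u) ∩ Iv β u (r u)) : ℝ) := by
    have : B ⊆ Sel.biUnion fun u => Iv α u (r u) ∩ Iv β u (r u) := by
      intro v hv
      obtain ⟨u, hu, h⟩ := hcov v hv
      exact mem_biUnion.2 ⟨u, hu, h⟩
    exact_mod_cast (card_le_card this).trans card_biUnion_le
  have h2 : (∑ u ∈ Sel, (#(Iv α u (r u) ∩ Iv β u (r u)) : ℝ)) * Fintype.card R ≤
      ε * ∑ u ∈ Sel, ((#(Iv α u (r u)) : ℝ) * #(Iv β u (r u))) := by
    rw [sum_mul, mul_sum]
    exact sum_le_sum fun u hu => (hr u (hSB hu)).le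
  -- overlap
  have h3 : ∑ u ∈ Sel, #(Iv α u (r u)) * #(Iv β u (r u)) ≤ 4 * (Fintype.card R * Fintype.card R) := by
    have e1 : ∀ u ∈ Sel, #(Iv α u (r u)) * #(Iv β u (r u)) =
        ∑ p : R × R, if p.1 ∈ Iv α u (r u) ∧ p.2 ∈ Iv β u (r u) then 1 else 0 := by
      intro u _
      rw [← card_product, ← card_filter]
      congr 1
      ext p
      simp
    rw [sum_congr rfl e1, sum_comm]
    have e2 : ∀ p ∈ (univ : Finset (R × R)), (∑ u ∈ Sel,
        if p.1 ∈ Iv α u (r u) ∧ p.2 ∈ Iv β u (r u) then 1 else 0) ≤ 4 := by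
      intro p _
      rw [← card_filter]
      have hinj : Set.InjOn (fun u : R => (decide (α p.1 ≤ α u), decide (β p.2 ≤ β u)))
          ((Sel.filter fun u => p.1 ∈ Iv α u (r u) ∧ p.2 ∈ Iv β u (r u) : Finset R) : Set R) := by
        intro a ha b hb hab
        simp only [coe_filter, Set.mem_ofPred_eq, mem_Iv] at ha hb
        simp only [Prod.mk.injEq, decide_eq_decide] at hab
        by_contra hne
        obtain ⟨haS, ha1, ha2⟩ := ha
        obtain ⟨hbS, hb1, hb2⟩ := hb
        rw [abs_le] at ha1 ha2 hb1 hb2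
        rcases le_total (r b) (r a) with h | h
        · refine hsep a haS b hbS hne h ?_
          rw [mem_inter, mem_Iv, mem_Iv, abs_le, abs_le]
          refine ⟨?_, ?_⟩
          · by_cases hc : α p.1 ≤ α a
            · have := hab.1.1 hc; constructor <;> linarith [ha1.1, ha1.2, hb1.1, hb1.2]
            · have : ¬ (α p.1 ≤ α b) := fun h' => hc (hab.1.2 h')
              push Not at this hc; constructor <;> linarith [ha1.1, ha1.2, hb1.1, hb1.2]
          · by_cases hc : β p.2 ≤ β a
            · have := hab.2.1 hc; constructor <;> linarith [ha2.1, ha2.2, hb2.1, hb2.2]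
            · have : ¬ (β p.2 ≤ β b) := fun h' => hc (hab.2.2 h')
              push Not at this hc; constructor <;> linarith [ha2.1, ha2.2, hb2.1, hb2.2]
        · refine hsep b hbS a haS (Ne.symm hne) h ?_
          rw [mem_inter, mem_Iv, mem_Iv, abs_le, abs_le]
          refine ⟨?_, ?_⟩
          · by_cases hc : α p.1 ≤ α a
            · have := hab.1.1 hc; constructor <;> linarith [ha1.1, ha1.2, hb1.1, hb1.2]
            · have : ¬ (α p.1 ≤ α b) := fun h' => hc (hab.1.2 h')
              push Not at this hc; constructor <;> linarith [ha1.1, ha1.2, hb1.1, hb1.2]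
          · by_cases hc : β p.2 ≤ β a
            · have := hab.2.1 hc; constructor <;> linarith [ha2.1, ha2.2, hb2.1, hb2.2]
            · have : ¬ (β p.2 ≤ β b) := fun h' => hc (hab.2.2 h')
              push Not at this hc; constructor <;> linarith [ha2.1, ha2.2, hb2.1, hb2.2]
      have := card_le_card_of_injOn _ (fun u _ => mem_univ _) hinj
      simpa using this
    refine (sum_le_sum e2).trans ?_
    simp only [sum_const, card_univ, Fintype.card_prod, smul_eq_mul]
    omega
  have h3' : ∑ u ∈ Sel, ((#(Iv α u (r u)) : ℝ) * #(Iv β u (r u))) ≤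
      4 * (Fintype.card R * Fintype.card R) := by exact_mod_cast h3
  have h4 : (#B : ℝ) * Fintype.card R ≤ (4 * ε * Fintype.card R) * Fintype.card R := by
    calc (#B : ℝ) * Fintype.card R
        ≤ (∑ u ∈ Sel, (#(Iv α u (r u) ∩ Iv β u (r u)) : ℝ)) * Fintype.card R :=
          mul_le_mul_of_nonneg_right h1 hRpos.le
      _ ≤ ε * ∑ u ∈ Sel, ((#(Iv α u (r u)) : ℝ) * #(Iv β u (r u))) := h2
      _ ≤ ε * (4 * (Fintype.card R * Fintype.card R)) := mul_le_mul_of_nonneg_left h3' hε
      _ = _ := by ring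
  exact le_of_mul_le_mul_right h4 hRpos

/-- representatives of the labels: `g ≤ (number of representatives in I) + 2` -/
lemma exists_reps (α : R → ℝ) (w : R → ℕ) (hw : OrdConv α w) :
    ∃ P : Finset R, #P = #(univ.image w) ∧ ∀ v r, gg α w v r ≤ #(P ∩ Iv α v r) + 2 := by
  have hex : ∀ a ∈ univ.image w, ∃ x : R, w x = a := by
    intro a ha
    obtain ⟨x, _, hx⟩ := mem_image.1 ha
    exact ⟨x, hx⟩
  rcases isEmpty_or_nonempty R with he | hneR
  · refine ⟨∅, ?_, ?_⟩
    · simp
    · intro v; exact (he.false v).elim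
  choose! rep hrep using hex
  refine ⟨(univ.image w).image rep, ?_, ?_⟩
  · refine card_image_of_injOn ?_
    intro a ha b hb hab
    rw [← hrep a ha, ← hrep b hb, hab]
  · intro v r
    rcases lt_or_ge r 0 with hr | hr
    · simp [gg, Iv_empty_of_neg hr]
    -- extreme points of the interval
    have hne : (Iv α v r).Nonempty := ⟨v, self_mem_Iv hr⟩
    obtain ⟨y, hy, hymax⟩ := exists_max_image _ α hne
    obtain ⟨z, hz, hzmin⟩ := exists_min_image _ α hne
    have hsub : (Iv α v r).image w ⊆
        ((((univ.image w).image rep) ∩ Iv α v r).image w) ∪ {w y, w z} := by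
      intro a ha
      obtain ⟨x, hx, rfl⟩ := mem_image.1 ha
      have hwx : w x ∈ univ.image w := mem_image_of_mem _ (mem_univ _)
      by_cases hin : rep (w x) ∈ Iv α v r
      · refine mem_union_left _ (mem_image.2 ⟨rep (w x), mem_inter.2 ⟨mem_image_of_mem _ hwx, hin⟩,
          hrep _ hwx⟩)
      · refine mem_union_right _ ?_
        rw [mem_insert, mem_singleton]
        have hx' := mem_Iv.1 hx
        rw [abs_le] at hx'
        rw [mem_Iv, abs_le, not_and_or] at hin
        rcases hin with h | h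
        · right
          -- rep is left of the interval
          push Not at h
          have hz' := mem_Iv.1 hz
          rw [abs_le] at hz'
          exact (hw (rep (w x)) x z (hrep _ hwx) (by linarith [hz'.1]) (hzmin x hx)).trans
            (hrep _ hwx) |>.symm
        · left
          push Not at h
          have hy' := mem_Iv.1 hy
          rw [abs_le] at hy'
          exact (hw x (rep (w x)) y (hrep _ hwx).symm (hymax x hx) (by linarith [hy'.2])).symm
    calc gg α w v r = #((Iv α v r).image w) := rfl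
      _ ≤ #(((((univ.image w).image rep) ∩ Iv α v r).image w) ∪ {w y, w z}) := card_le_card hsub
      _ ≤ #((((univ.image w).image rep) ∩ Iv α v r).image w) + #({w y, w z} : Finset ℕ) :=
          card_union_le _ _
      _ ≤ _ := add_le_add card_image_le (card_le_two)

/-- 9.1 (ii) -/
lemma max_interval (α : R → ℝ) (w : R → ℕ) (hw : OrdConv α w) (ε D : ℝ) (hε : 0 ≤ ε) (hD : 0 < D)
    (hlab : (#(univ.image w) : ℝ) ≤ D) :
    (#(univ.filter fun v => ∃ r : ℝ, 3 ≤ gg α w v r ∧
      3 * D * #(Iv α v r) < ε * gg α w v r * Fintype.card R) : ℝ) ≤ 2 * ε * Fintype.card R := by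
  set B : Finset R := univ.filter fun v => ∃ r : ℝ, 3 ≤ gg α w v r ∧
      3 * D * #(Iv α v r) < ε * gg α w v r * Fintype.card R with hB
  obtain ⟨P, hPc, hP⟩ := exists_reps α w hw
  have hB' : ∀ v ∈ B, ∃ r : ℝ, 0 ≤ r ∧ D * #(Iv α v r) ≤ ε * #(P ∩ Iv α v r) * Fintype.card R := by
    intro v hv
    obtain ⟨r, h3, hlt⟩ := (mem_filter.1 hv).2
    refine ⟨r, ?_, ?_⟩
    · by_contra h
      push Not at h
      simp [gg, Iv_empty_of_neg h] at h3
    · have h := hP v r
      have h' : (gg α w v r : ℝ) ≤ 3 * #(P ∩ Iv α v r) := by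
        have : gg α w v r ≤ 3 * #(P ∩ Iv α v r) := by omega
        exact_mod_cast this
      have h'' : ε * gg α w v r * Fintype.card R ≤ ε * (3 * #(P ∩ Iv α v r)) * Fintype.card R := by
        gcongr
      nlinarith [hlt, h'']
  choose! r hr0 hr using hB'
  obtain ⟨Sel, hSB, hcov, hsep⟩ := greedy_sel (fun v ρ => Iv α v ρ)
    (by intro u v ρ; simp only [mem_Iv, abs_sub_comm]) r B
    (by intro v hv; exact self_mem_Iv (hr0 v hv))
  have h1 : (#B : ℝ) ≤ ∑ u ∈ Sel, (#(Iv α u (r u)) : ℝ) := by
    have : B ⊆ Sel.biUnion fun u => Iv α u (r u) := by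
      intro v hv
      obtain ⟨u, hu, h⟩ := hcov v hv
      exact mem_biUnion.2 ⟨u, hu, h⟩
    exact_mod_cast (card_le_card this).trans card_biUnion_le
  have h2 : D * (∑ u ∈ Sel, (#(Iv α u (r u)) : ℝ)) ≤
      ε * (∑ u ∈ Sel, (#(P ∩ Iv α u (r u)) : ℝ)) * Fintype.card R := by
    rw [mul_sum, mul_assoc, sum_mul, mul_sum]
    refine sum_le_sum fun u hu => ?_
    have := hr u (hSB hu)
    linarith
  have h3 : ∑ u ∈ Sel, #(P ∩ Iv α u (r u)) ≤ 2 * #P := by
    have e1 : ∀ u ∈ Sel, #(P ∩ Iv α u (r u)) = ∑ p ∈ P, if p ∈ Iv α u (r u) then 1 else 0 := by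
      intro u _
      rw [← card_filter]
      congr 1
    rw [sum_congr rfl e1, sum_comm]
    have e2 : ∀ p ∈ P, (∑ u ∈ Sel, if p ∈ Iv α u (r u) then 1 else 0) ≤ 2 := by
      intro p _
      rw [← card_filter]
      have hinj : Set.InjOn (fun u : R => decide (α p ≤ α u))
          ((Sel.filter fun u => p ∈ Iv α u (r u) : Finset R) : Set R) := by
        intro a ha b hb hab
        simp only [coe_filter, Set.mem_ofPred_eq, mem_Iv] at ha hb
        simp only [decide_eq_decide] at hab
        by_contra hne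
        obtain ⟨haS, ha1⟩ := ha
        obtain ⟨hbS, hb1⟩ := hb
        rw [abs_le] at ha1 hb1
        rcases le_total (r b) (r a) with h | h
        · refine hsep a haS b hbS hne h ?_
          rw [mem_Iv, abs_le]
          by_cases hc : α p ≤ α a
          · have := hab.1 hc; constructor <;> linarith [ha1.1, ha1.2, hb1.1, hb1.2]
          · have : ¬ (α p ≤ α b) := fun h' => hc (hab.2 h')
            push Not at this hc; constructor <;> linarith [ha1.1, ha1.2, hb1.1, hb1.2]
        · refine hsep b hbS a haS (Ne.symm hne) h ?_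
          rw [mem_Iv, abs_le]
          by_cases hc : α p ≤ α a
          · have := hab.1 hc; constructor <;> linarith [ha1.1, ha1.2, hb1.1, hb1.2]
          · have : ¬ (α p ≤ α b) := fun h' => hc (hab.2 h')
            push Not at this hc; constructor <;> linarith [ha1.1, ha1.2, hb1.1, hb1.2]
      have := card_le_card_of_injOn _ (fun u _ => mem_univ _) hinj
      simpa using this
    refine (sum_le_sum e2).trans ?_
    rw [sum_const, smul_eq_mul, mul_comm]
  have h3' : (∑ u ∈ Sel, (#(P ∩ Iv α u (r u)) : ℝ)) ≤ 2 * #P := by exact_mod_cast h3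
  have hPD : (#P : ℝ) ≤ D := by rw [hPc]; exact hlab
  have hcR : (0 : ℝ) ≤ Fintype.card R := Nat.cast_nonneg _
  have h4 : D * (#B : ℝ) ≤ D * (2 * ε * Fintype.card R) := by
    calc D * (#B : ℝ) ≤ D * (∑ u ∈ Sel, (#(Iv α u (r u)) : ℝ)) := mul_le_mul_of_nonneg_left h1 hD.le
      _ ≤ ε * (∑ u ∈ Sel, (#(P ∩ Iv α u (r u)) : ℝ)) * Fintype.card R := h2
      _ ≤ ε * (2 * D) * Fintype.card R := by
          refine mul_le_mul_of_nonneg_right (mul_le_mul_of_nonneg_left ?_ hε) hcR
          linarith
      _ = _ := by ring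
  exact le_of_mul_le_mul_left h4 hD

/-- 9.1: all points but a proportion `18 ε` are typical. -/
theorem card_not_typical {C V ε : ℝ} {α : Fin 3 → R → ℝ} {w : Fin 3 → R → ℕ}
    (hS : Setting C V α w) (hε : 0 < ε) :
    (#(univ.filter fun v => ¬ Typical ε C V α w v) : ℝ) ≤ 18 * ε * Fintype.card R := by
  have hD : 0 < C * V := mul_pos (by linarith [hS.one_le_C]) (by linarith [hS.one_le_V])
  set S1 : Fin 3 → Fin 3 → Finset R := fun i j => univ.filter fun v => ∃ r : ℝ,
    (#(Iv (α i) v r ∩ Iv (α j) v r) : ℝ) * Fintype.card R <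
      ε * (#(Iv (α i) v r) * #(Iv (α j) v r)) with hS1
  set S2 : Fin 3 → Finset R := fun i => univ.filter fun v => ∃ r : ℝ, 3 ≤ gg (α i) (w i) v r ∧
      3 * (C * V) * #(Iv (α i) v r) < ε * gg (α i) (w i) v r * Fintype.card R with hS2
  have hsymm : ∀ i j, S1 i j = S1 j i := by
    intro i j
    simp only [hS1]
    ext v
    simp only [mem_filter, mem_univ, true_and]
    refine exists_congr fun r => ?_
    rw [inter_comm, mul_comm (#(Iv (α i) v r) : ℝ)]
  have hsub : (univ.filter fun v => ¬ Typical ε C V α w v) ⊆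
      (S1 0 1 ∪ (S1 0 2 ∪ S1 1 2)) ∪ (S2 0 ∪ (S2 1 ∪ S2 2)) := by
    intro v hv
    have hv' := (mem_filter.1 hv).2
    unfold Typical at hv'
    rw [not_and_or] at hv'
    rcases hv' with h | h
    · push Not at h
      obtain ⟨i, j, hij, r, hr⟩ := h
      have hm : v ∈ S1 i j := mem_filter.2 ⟨mem_univ _, r, hr⟩
      refine mem_union_left _ ?_
      have key : ∀ i j : Fin 3, i ≠ j → S1 i j = S1 0 1 ∨ S1 i j = S1 0 2 ∨ S1 i j = S1 1 2 := by
        intro i j hij
        fin_cases i <;> fin_cases j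
        · exact absurd rfl hij
        · left; rfl
        · right; left; rfl
        · left; exact hsymm _ _
        · exact absurd rfl hij
        · right; right; rfl
        · right; left; exact hsymm _ _
        · right; right; exact hsymm _ _
        · exact absurd rfl hij
      rcases key i j hij with h | h | h
      · rw [h] at hm; exact mem_union_left _ hm
      · rw [h] at hm; exact mem_union_right _ (mem_union_left _ hm)
      · rw [h] at hm; exact mem_union_right _ (mem_union_right _ hm)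
    · push Not at h
      obtain ⟨i, r, hr3, hr⟩ := h
      have hm : v ∈ S2 i := mem_filter.2 ⟨mem_univ _, r, hr3, hr⟩
      refine mem_union_right _ ?_
      fin_cases i
      · exact mem_union_left _ hm
      · exact mem_union_right _ (mem_union_left _ hm)
      · exact mem_union_right _ (mem_union_right _ hm)
  have h1 : ∀ i j, (#(S1 i j) : ℝ) ≤ 4 * ε * Fintype.card R := fun i j => max_square _ _ ε hε.le
  have h2 : ∀ i, (#(S2 i) : ℝ) ≤ 2 * ε * Fintype.card R := fun i =>
    max_interval _ _ (hS.conv i) ε (C * V) hε.le hD (hS.A1 i)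
  have hc : #(univ.filter fun v => ¬ Typical ε C V α w v) ≤
      (#(S1 0 1) + (#(S1 0 2) + #(S1 1 2))) + (#(S2 0) + (#(S2 1) + #(S2 2))) := by
    refine (card_le_card hsub).trans ((card_union_le _ _).trans (add_le_add ?_ ?_))
    · exact (card_union_le _ _).trans (add_le_add le_rfl (card_union_le _ _))
    · exact (card_union_le _ _).trans (add_le_add le_rfl (card_union_le _ _))
  have hc' : (#(univ.filter fun v => ¬ Typical ε C V α w v) : ℝ) ≤
      (#(S1 0 1) + (#(S1 0 2) + #(S1 1 2))) + (#(S2 0) + (#(S2 1) + #(S2 2))) := by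
    exact_mod_cast hc
  linarith [h1 0 1, h1 0 2, h1 1 2, h2 0, h2 1, h2 2]

end

end Crest.Agent.R51.Add
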