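import Mathlib
import Crest.Agent.R51.AddBase
import Crest.Agent.R51.AddMax
import Crest.Agent.R51.AddBSG

/-! Row 51, section B9, part 9.6: cells of a fixed length and Balog-Szemeredi-Gowers (helper821). -/

set_option autoImplicit false

namespace Crest.Agent.R51.Add

open Finset Classical
open scoped Pointwise

noncomputable section

variable {R : Type*} [Fintype R]

/-- the cell of `v` -/
def cel (α : R → ℝ) (rh : ℝ) (v : R) : ℤ := ⌊α v / rh⌋

omit [Fintype R] in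
lemma cel_close {α : R → ℝ} {rh : ℝ} (hrh : 0 < rh) {u v : R} (h : cel α rh u = cel α rh v) :
    |α u - α v| ≤ rh := by
  unfold cel at h
  have h1 := Int.floor_le (α u / rh)
  have h2 := Int.lt_floor_add_one (α u / rh)
  have h3 := Int.floor_le (α v / rh)
  have h4 := Int.lt_floor_add_one (α v / rh)
  rw [h] at h1 h2
  have h5 : |α u / rh - α v / rh| ≤ 1 := by
    rw [abs_le]; constructor <;> linarith
  rw [← sub_div, abs_div, abs_of_pos hrh, div_le_one hrh] at h5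
  exact h5

omit [Fintype R] in
lemma cel_near {α : R → ℝ} {rh : ℝ} (hrh : 0 < rh) {u v : R} (h : |α u - α v| ≤ 4 * rh) :
    cel α rh v ∈ Finset.Icc (cel α rh u - 4) (cel α rh u + 4) := by
  have h5 : |α u / rh - α v / rh| ≤ 4 := by
    rw [← sub_div, abs_div, abs_of_pos hrh, div_le_iff₀ hrh]; exact h
  rw [abs_le] at h5
  unfold cel
  have h1 := Int.floor_le (α u / rh)
  have h2 := Int.lt_floor_add_one (α u / rh)
  have h3 := Int.floor_le (α v / rh)
  have h4 := Int.lt_floor_add_one (α v / rh)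
  rw [Finset.mem_Icc]
  constructor
  · have : ((⌊α u / rh⌋ : ℤ) : ℝ) < ((⌊α v / rh⌋ + 5 : ℤ) : ℝ) := by push_cast; linarith
    have := Int.cast_lt.1 this
    omega
  · have : ((⌊α v / rh⌋ : ℤ) : ℝ) < ((⌊α u / rh⌋ + 5 : ℤ) : ℝ) := by push_cast; linarith
    have := Int.cast_lt.1 this
    omega

/-- number of cells -/
lemma card_cells [Nonempty R] {α : R → ℝ} {w : R → ℕ} (hw : OrdConv α w) {D m rh : ℝ} (hrh : 0 < rh)
    (hD : (#(univ.image w) : ℝ) ≤ D) (hm : 4 ≤ m) (R3 : Finset R)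
    (h : ∀ v ∈ R3, m ≤ gg α w v (4 * rh)) : (#(R3.image (cel α rh)) : ℝ) * m ≤ 18 * D := by
  obtain ⟨P, hPc, hP⟩ := exists_reps α w hw
  have hex : ∀ c ∈ R3.image (cel α rh), ∃ v ∈ R3, cel α rh v = c := fun c hc => by
    simpa using hc
  choose! f hf1 hf2 using hex
  have h1 : ∀ c ∈ R3.image (cel α rh), m / 2 ≤ #(P ∩ Iv α (f c) (4 * rh)) := by
    intro c hc
    have h2 := h _ (hf1 c hc)
    have h3 : (gg α w (f c) (4 * rh) : ℝ) ≤ #(P ∩ Iv α (f c) (4 * rh)) + 2 := by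
      exact_mod_cast hP (f c) (4 * rh)
    linarith
  have h2 : ∑ c ∈ R3.image (cel α rh), #(P ∩ Iv α (f c) (4 * rh)) ≤ 9 * #P := by
    have e1 : ∀ c, #(P ∩ Iv α (f c) (4 * rh)) =
        ∑ p ∈ P, if |α p - α (f c)| ≤ 4 * rh then 1 else 0 := by
      intro c
      rw [← card_filter]
      congr 1
      ext p
      simp only [mem_inter, mem_Iv, mem_filter]
    simp_rw [e1]
    rw [sum_comm]
    calc ∑ p ∈ P, ∑ c ∈ R3.image (cel α rh), (if |α p - α (f c)| ≤ 4 * rh then 1 else 0)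
        ≤ ∑ p ∈ P, 9 := by
          refine sum_le_sum fun p _ => ?_
          rw [← card_filter]
          calc #((R3.image (cel α rh)).filter fun c => |α p - α (f c)| ≤ 4 * rh)
              ≤ #(Finset.Icc (cel α rh p - 4) (cel α rh p + 4)) := by
                refine card_le_card fun c hc => ?_
                obtain ⟨hc1, hc2⟩ := mem_filter.1 hc
                have := cel_near hrh hc2
                rwa [hf2 c hc1] at this
            _ = 9 := by
                rw [Int.card_Icc]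
                have : cel α rh p + 4 + 1 - (cel α rh p - 4) = 9 := by ring
                rw [this]; rfl
      _ = 9 * #P := by rw [sum_const, smul_eq_mul, mul_comm]
  have h3 : (#(R3.image (cel α rh)) : ℝ) * (m / 2) ≤ 9 * #P := by
    calc (#(R3.image (cel α rh)) : ℝ) * (m / 2)
        = ∑ _c ∈ R3.image (cel α rh), m / 2 := by rw [sum_const, nsmul_eq_mul]
      _ ≤ ∑ c ∈ R3.image (cel α rh), (#(P ∩ Iv α (f c) (4 * rh)) : ℝ) := sum_le_sum h1
      _ ≤ 9 * #P := by exact_mod_cast h2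
  have h4 : (#P : ℝ) ≤ D := by rw [hPc]; exact hD
  linarith

lemma card_Iv_le {C V : ℝ} {α : Fin 3 → R → ℝ} {w : Fin 3 → R → ℕ} (hS : Setting C V α w)
    (i : Fin 3) (v : R) (r : ℝ) :
    (#(Iv (α i) v r) : ℝ) * V ≤ gg (α i) (w i) v r * (C * Fintype.card R) := by
  have hV : 0 ≤ V := by linarith [hS.one_le_V]
  have hsub : Iv (α i) v r ⊆ ((Iv (α i) v r).image (w i)).biUnion fun a => fib (w i) a := by
    intro u hu
    rw [mem_biUnion]
    exact ⟨w i u, mem_image_of_mem _ hu, mem_fib.2 rfl⟩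
  have h1 : (#(Iv (α i) v r) : ℝ) ≤ ∑ a ∈ (Iv (α i) v r).image (w i), (#(fib (w i) a) : ℝ) := by
    have := (card_le_card hsub).trans card_biUnion_le
    exact_mod_cast this
  calc (#(Iv (α i) v r) : ℝ) * V ≤
      (∑ a ∈ (Iv (α i) v r).image (w i), (#(fib (w i) a) : ℝ)) * V :=
        mul_le_mul_of_nonneg_right h1 hV
    _ = ∑ a ∈ (Iv (α i) v r).image (w i), (#(fib (w i) a) : ℝ) * V := by rw [sum_mul]
    _ ≤ ∑ _a ∈ (Iv (α i) v r).image (w i), C * Fintype.card R :=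
        sum_le_sum fun a _ => hS.A2 i a
    _ = _ := by rw [sum_const, nsmul_eq_mul]; rfl

lemma card_Iv_inter_le {C V : ℝ} {α : Fin 3 → R → ℝ} {w : Fin 3 → R → ℕ} (hS : Setting C V α w)
    {i j : Fin 3} (hij : i ≠ j) (v : R) (r : ℝ) :
    (#(Iv (α i) v r ∩ Iv (α j) v r) : ℝ) * V ^ 2 ≤
      gg (α i) (w i) v r * gg (α j) (w j) v r * (C * Fintype.card R) := by
  have hsub : Iv (α i) v r ∩ Iv (α j) v r ⊆
      (((Iv (α i) v r).image (w i)) ×ˢ ((Iv (α j) v r).image (w j))).biUnion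
        fun p => fib (w i) p.1 ∩ fib (w j) p.2 := by
    intro u hu
    obtain ⟨h1, h2⟩ := mem_inter.1 hu
    rw [mem_biUnion]
    exact ⟨(w i u, w j u), mem_product.2 ⟨mem_image_of_mem _ h1, mem_image_of_mem _ h2⟩,
      mem_inter.2 ⟨mem_fib.2 rfl, mem_fib.2 rfl⟩⟩
  have h1 : (#(Iv (α i) v r ∩ Iv (α j) v r) : ℝ) ≤
      ∑ p ∈ ((Iv (α i) v r).image (w i)) ×ˢ ((Iv (α j) v r).image (w j)),
        (#(fib (w i) p.1 ∩ fib (w j) p.2) : ℝ) := by
    have := (card_le_card hsub).trans card_biUnion_le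
    exact_mod_cast this
  calc (#(Iv (α i) v r ∩ Iv (α j) v r) : ℝ) * V ^ 2 ≤ (∑ p ∈ ((Iv (α i) v r).image (w i)) ×ˢ
        ((Iv (α j) v r).image (w j)), (#(fib (w i) p.1 ∩ fib (w j) p.2) : ℝ)) * V ^ 2 :=
        mul_le_mul_of_nonneg_right h1 (by positivity)
    _ = ∑ p ∈ ((Iv (α i) v r).image (w i)) ×ˢ ((Iv (α j) v r).image (w j)),
        (#(fib (w i) p.1 ∩ fib (w j) p.2) : ℝ) * V ^ 2 := by rw [sum_mul]
    _ ≤ ∑ _p ∈ ((Iv (α i) v r).image (w i)) ×ˢ ((Iv (α j) v r).image (w j)),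
        C * Fintype.card R := sum_le_sum fun p _ => hS.A3 i j hij p.1 p.2
    _ = _ := by
        rw [sum_const, nsmul_eq_mul, card_product]
        push_cast
        rfl

/-- the fixed constants of 9.6 -/
def kC1 (C K0 : ℝ) : ℝ := 18 * C * K0
def kK (C K0 : ℝ) : ℝ := kC1 C K0 ^ 2 * (2 * C * K0 ^ 3)
def kK1 (C K0 : ℝ) : ℝ := 3072 * kK C K0 ^ 5 * (27 * kC1 C K0 ^ 3) * (2 * C * K0 ^ 3)
def kK2 (C K0 : ℝ) : ℝ := 12 * kK C K0 * C * K0 ^ 3 * kC1 C K0
def kκ (C K0 : ℝ) : ℝ := 1 / (36 * C * K0 ^ 2)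

set_option maxHeartbeats 2000000 in
theorem cell_core {C K0 V : ℝ} (hK0 : 1 ≤ K0) (hV : (4 * K0) ^ 2 ≤ V)
    {α : Fin 3 → R → ℝ} {w : Fin 3 → R → ℕ} (hS : Setting C V α w) {rh : ℝ} (hrh : 0 < rh)
    {R3 : Finset R} (hR3 : (Fintype.card R : ℝ) ≤ K0 * #R3)
    (h1 : ∀ v ∈ R3, ∀ i, (gg (α i) (w i) v rh : ℝ) ≤ K0 * √V)
    (h2 : ∀ v ∈ R3, ∀ i, √V ≤ K0 * gg (α i) (w i) v (4 * rh)) :
    ∃ R' : Finset R, ∃ A' : Finset ℤ, (∀ v ∈ R', cel (α 0) rh v ∈ A') ∧
      (∀ a ∈ A', kκ C K0 * Fintype.card R ≤ √V * #(R'.filter fun v => cel (α 0) rh v = a) ∧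
        √V * #(R'.filter fun v => cel (α 0) rh v = a) ≤ C * K0 * Fintype.card R) ∧
      (#(A' + A') : ℝ) ≤ kK1 C K0 ^ 2 * kK2 C K0 ^ 2 * #A' ∧
      kκ C K0 * Fintype.card R ≤ kK2 C K0 * #R' := by
  have hC := hS.one_le_C
  have := hS.nonempty
  have hV0 : 0 < V := by nlinarith
  set n : ℝ := √V with hn
  have hn2 : n ^ 2 = V := Real.sq_sqrt hV0.le
  have hn0 : 0 < n := Real.sqrt_pos.2 hV0
  have hn4 : 4 * K0 ≤ n := Real.le_sqrt_of_sq_le hV
  have hN0 : (0 : ℝ) < Fintype.card R := by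
    have := hS.nonempty
    exact_mod_cast Fintype.card_pos
  set N : ℝ := (Fintype.card R : ℝ) with hN
  -- constants
  have hc1 : 1 ≤ kC1 C K0 := by unfold kC1; nlinarith
  have hcc : 1 ≤ 2 * C * K0 ^ 3 := by
    have : 1 ≤ K0 ^ 3 := one_le_pow₀ hK0
    nlinarith
  have hkK : 1 ≤ kK C K0 := by
    unfold kK
    have : 1 ≤ kC1 C K0 ^ 2 := one_le_pow₀ hc1
    nlinarith
  have hκ : 0 < kκ C K0 := by unfold kκ; positivity
  -- number of cells
  have hcells : ∀ i, (#(R3.image (cel (α i) rh)) : ℝ) ≤ kC1 C K0 * n := by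
    intro i
    have h := card_cells (hS.conv i) hrh (hS.A1 i) (m := n / K0)
      (by rw [le_div_iff₀ (by linarith)]; exact hn4) R3 (fun v hv => by
        rw [div_le_iff₀ (by linarith), mul_comm]; exact h2 v hv i)
    have h' : (#(R3.image (cel (α i) rh)) : ℝ) * n ≤ (kC1 C K0 * n) * n := by
      calc (#(R3.image (cel (α i) rh)) : ℝ) * n
          = ((#(R3.image (cel (α i) rh)) : ℝ) * (n / K0)) * K0 := by field_simp
        _ ≤ (18 * (C * V)) * K0 := mul_le_mul_of_nonneg_right h (by linarith)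
        _ = (kC1 C K0 * n) * n := by rw [← hn2]; unfold kC1; ring
    exact le_of_mul_le_mul_right h' hn0
  -- mass of cells
  have hmass : ∀ i, ∀ v ∈ R3, n * #(R3.filter fun u => cel (α i) rh u = cel (α i) rh v) ≤
      C * K0 * N := by
    intro i v hv
    have h3 : (#(R3.filter fun u => cel (α i) rh u = cel (α i) rh v) : ℝ) ≤
        #(Iv (α i) v rh) := by
      refine Nat.cast_le.2 (card_le_card fun u hu => ?_)
      rw [mem_Iv]
      exact cel_close hrh (mem_filter.1 hu).2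
    have h4 := card_Iv_le hS i v rh
    have h5 : (#(Iv (α i) v rh) : ℝ) * V ≤ (K0 * n) * (C * N) :=
      h4.trans (mul_le_mul_of_nonneg_right (h1 v hv i) (by positivity))
    have h6 : n * (n * (#(Iv (α i) v rh) : ℝ)) ≤ n * (C * K0 * N) := by
      calc n * (n * (#(Iv (α i) v rh) : ℝ)) = (#(Iv (α i) v rh) : ℝ) * V := by
            rw [← hn2]; ring
        _ ≤ (K0 * n) * (C * N) := h5
        _ = _ := by ring
    have h7 := le_of_mul_le_mul_left h6 hn0
    exact (mul_le_mul_of_nonneg_left h3 hn0.le).trans h7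
  have hpair : ∀ v ∈ R3, n ^ 2 * #(R3.filter fun u => cel (α 0) rh u = cel (α 0) rh v ∧
      cel (α 2) rh u = cel (α 2) rh v) ≤ C * K0 ^ 2 * N := by
    intro v hv
    have h3 : (#(R3.filter fun u => cel (α 0) rh u = cel (α 0) rh v ∧
      cel (α 2) rh u = cel (α 2) rh v) : ℝ) ≤ #(Iv (α 0) v rh ∩ Iv (α 2) v rh) := by
      refine Nat.cast_le.2 (card_le_card fun u hu => ?_)
      have := (mem_filter.1 hu).2
      rw [mem_inter, mem_Iv, mem_Iv]
      exact ⟨cel_close hrh this.1, cel_close hrh this.2⟩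
    have h4 := card_Iv_inter_le hS (i := 0) (j := 2) (by decide) v rh
    have h5 : (#(Iv (α 0) v rh ∩ Iv (α 2) v rh) : ℝ) * V ^ 2 ≤ (K0 * n) * (K0 * n) * (C * N) := by
      refine h4.trans (mul_le_mul_of_nonneg_right ?_ (by positivity))
      exact mul_le_mul (h1 v hv 0) (h1 v hv 2) (by positivity) (by positivity)
    have h6 : n ^ 2 * (n ^ 2 * (#(Iv (α 0) v rh ∩ Iv (α 2) v rh) : ℝ)) ≤
        n ^ 2 * (C * K0 ^ 2 * N) := by
      calc n ^ 2 * (n ^ 2 * (#(Iv (α 0) v rh ∩ Iv (α 2) v rh) : ℝ))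
          = (#(Iv (α 0) v rh ∩ Iv (α 2) v rh) : ℝ) * V ^ 2 := by rw [← hn2]; ring
        _ ≤ (K0 * n) * (K0 * n) * (C * N) := h5
        _ = _ := by ring
    have h7 := le_of_mul_le_mul_left h6 (by positivity)
    exact (mul_le_mul_of_nonneg_left h3 (by positivity)).trans h7
  -- heavy cells
  let heavy : ℤ → Prop := fun a => kκ C K0 * N ≤ n * #(R3.filter fun u => cel (α 0) rh u = a)
  set R4 := R3.filter fun v => heavy (cel (α 0) rh v) with hR4
  have hR4card : N ≤ 2 * K0 * #R4 := by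
    have hsplit : (#(R3.filter fun v => ¬ heavy (cel (α 0) rh v)) : ℝ) * n ≤
        (kC1 C K0 * n) * (kκ C K0 * N) := by
      have hsub : (R3.filter fun v => ¬ heavy (cel (α 0) rh v)) ⊆
          ((R3.image (cel (α 0) rh)).filter fun a => ¬ heavy a).biUnion
            fun a => R3.filter fun u => cel (α 0) rh u = a := by
        intro v hv
        obtain ⟨hv1, hv2⟩ := mem_filter.1 hv
        rw [mem_biUnion]
        exact ⟨cel (α 0) rh v, mem_filter.2 ⟨mem_image_of_mem _ hv1, hv2⟩,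
          mem_filter.2 ⟨hv1, rfl⟩⟩
      have h3 : (#(R3.filter fun v => ¬ heavy (cel (α 0) rh v)) : ℝ) ≤
          ∑ a ∈ (R3.image (cel (α 0) rh)).filter fun a => ¬ heavy a,
            (#(R3.filter fun u => cel (α 0) rh u = a) : ℝ) := by
        have := (card_le_card hsub).trans card_biUnion_le
        exact_mod_cast this
      calc (#(R3.filter fun v => ¬ heavy (cel (α 0) rh v)) : ℝ) * n
          ≤ (∑ a ∈ (R3.image (cel (α 0) rh)).filter fun a => ¬ heavy a,
            (#(R3.filter fun u => cel (α 0) rh u = a) : ℝ)) * n :=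
            mul_le_mul_of_nonneg_right h3 hn0.le
        _ = ∑ a ∈ (R3.image (cel (α 0) rh)).filter fun a => ¬ heavy a,
            n * (#(R3.filter fun u => cel (α 0) rh u = a) : ℝ) := by
            rw [sum_mul]; exact sum_congr rfl fun _ _ => mul_comm _ _
        _ ≤ ∑ _a ∈ (R3.image (cel (α 0) rh)).filter fun a => ¬ heavy a, kκ C K0 * N :=
            sum_le_sum fun a ha => (not_le.1 (mem_filter.1 ha).2).le
        _ = (#((R3.image (cel (α 0) rh)).filter fun a => ¬ heavy a) : ℝ) * (kκ C K0 * N) := by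
            rw [sum_const, nsmul_eq_mul]
        _ ≤ (#(R3.image (cel (α 0) rh)) : ℝ) * (kκ C K0 * N) := by
            refine mul_le_mul_of_nonneg_right ?_ (by positivity)
            exact_mod_cast card_filter_le _ _
        _ ≤ _ := mul_le_mul_of_nonneg_right (hcells 0) (by positivity)
    have h3 : (#(R3.filter fun v => ¬ heavy (cel (α 0) rh v)) : ℝ) ≤ N / (2 * K0) := by
      have h4 : (kC1 C K0 * n) * (kκ C K0 * N) = (N / (2 * K0)) * n := by
        unfold kC1 kκ; field_simp; ring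
      rw [h4] at hsplit
      exact le_of_mul_le_mul_right hsplit hn0
    have h4 : (#R3 : ℝ) = #R4 + #(R3.filter fun v => ¬ heavy (cel (α 0) rh v)) := by
      rw [hR4]
      exact_mod_cast (card_filter_add_card_filter_not (s := R3) _).symm
    have h5 : N ≤ K0 * (#R4 + N / (2 * K0)) := by
      calc N ≤ K0 * #R3 := hR3
        _ ≤ K0 * (#R4 + N / (2 * K0)) := by
            refine mul_le_mul_of_nonneg_left ?_ (by linarith)
            rw [h4]; linarith
    have h6 : K0 * (#R4 + N / (2 * K0)) = K0 * #R4 + N / 2 := by field_simp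
    rw [h6] at h5
    linarith
  have hR43 : R4 ⊆ R3 := filter_subset _ _
  -- occupied pairs
  set Γ : Finset (ℤ × ℤ) := R4.image fun v => (cel (α 0) rh v, cel (α 2) rh v) with hΓ
  set A := R4.image (cel (α 0) rh) with hA
  set B := R4.image (cel (α 2) rh) with hB
  have hΓsub : Γ ⊆ A ×ˢ B := by
    intro p hp
    obtain ⟨v, hv, rfl⟩ := mem_image.1 hp
    exact mem_product.2 ⟨mem_image_of_mem _ hv, mem_image_of_mem _ hv⟩
  have hAcard : (#A : ℝ) ≤ kC1 C K0 * n := by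
    refine le_trans ?_ (hcells 0)
    exact_mod_cast card_le_card (image_subset_image hR43)
  have hBcard : (#B : ℝ) ≤ kC1 C K0 * n := by
    refine le_trans ?_ (hcells 2)
    exact_mod_cast card_le_card (image_subset_image hR43)
  have hΓcard : n ^ 2 ≤ 2 * C * K0 ^ 3 * #Γ := by
    have hsub : R4 ⊆ Γ.biUnion fun p => R3.filter fun u => cel (α 0) rh u = p.1 ∧
        cel (α 2) rh u = p.2 := by
      intro v hv
      rw [mem_biUnion]
      exact ⟨_, mem_image_of_mem _ hv, mem_filter.2 ⟨hR43 hv, rfl, rfl⟩⟩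
    have h3 : (#R4 : ℝ) ≤ ∑ p ∈ Γ, (#(R3.filter fun u => cel (α 0) rh u = p.1 ∧
        cel (α 2) rh u = p.2) : ℝ) := by
      have := (card_le_card hsub).trans card_biUnion_le
      exact_mod_cast this
    have h4 : n ^ 2 * (#R4 : ℝ) ≤ #Γ * (C * K0 ^ 2 * N) := by
      calc n ^ 2 * (#R4 : ℝ) ≤ n ^ 2 * ∑ p ∈ Γ, (#(R3.filter fun u => cel (α 0) rh u = p.1 ∧
            cel (α 2) rh u = p.2) : ℝ) := mul_le_mul_of_nonneg_left h3 (by positivity)
        _ = ∑ p ∈ Γ, n ^ 2 * (#(R3.filter fun u => cel (α 0) rh u = p.1 ∧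
            cel (α 2) rh u = p.2) : ℝ) := by rw [mul_sum]
        _ ≤ ∑ _p ∈ Γ, C * K0 ^ 2 * N := by
            refine sum_le_sum fun p hp => ?_
            obtain ⟨v, hv, rfl⟩ := mem_image.1 hp
            exact hpair v (hR43 hv)
        _ = _ := by rw [sum_const, nsmul_eq_mul]
    have h5 : N * n ^ 2 ≤ N * (2 * C * K0 ^ 3 * #Γ) := by
      calc N * n ^ 2 ≤ (2 * K0 * #R4) * n ^ 2 :=
            mul_le_mul_of_nonneg_right hR4card (by positivity)
        _ = 2 * K0 * (n ^ 2 * (#R4 : ℝ)) := by ring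
        _ ≤ 2 * K0 * (#Γ * (C * K0 ^ 2 * N)) := mul_le_mul_of_nonneg_left h4 (by linarith)
        _ = _ := by ring
    exact le_of_mul_le_mul_left h5 hN0
  have hΓpos : (0 : ℝ) < #Γ := by
    by_contra hcon
    have : (#Γ : ℝ) = 0 := le_antisymm (not_lt.1 hcon) (by positivity)
    rw [this, mul_zero] at hΓcard
    nlinarith
  have hΓne : Γ.Nonempty := card_pos.1 (by exact_mod_cast hΓpos)
  have hAne : A.Nonempty := by
    obtain ⟨p, hp⟩ := hΓne
    exact ⟨p.1, (mem_product.1 (hΓsub hp)).1⟩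
  have hBne : B.Nonempty := by
    obtain ⟨p, hp⟩ := hΓne
    exact ⟨p.2, (mem_product.1 (hΓsub hp)).2⟩
  have hABΓ : (#Γ : ℝ) ≤ #A * #B := by
    have := card_le_card hΓsub
    rw [card_product] at this
    exact_mod_cast this
  -- sums
  set Sm : Finset ℤ := Γ.image fun p => p.1 + p.2 with hSm
  have hSm3 : (#Sm : ℝ) ≤ 3 * (kC1 C K0 * n) := by
    have hsub : Sm ⊆ (R3.image (cel (α 1) rh)).biUnion
        fun b => ({-b, -b - 1, -b - 2} : Finset ℤ) := by
      intro z hz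
      obtain ⟨p, hp, rfl⟩ := mem_image.1 hz
      obtain ⟨v, hv, rfl⟩ := mem_image.1 hp
      rw [mem_biUnion]
      refine ⟨cel (α 1) rh v, mem_image_of_mem _ (hR43 hv), ?_⟩
      simp only [mem_insert, mem_singleton]
      have e := hS.sum0 v
      have e' : α 0 v / rh + α 1 v / rh + α 2 v / rh = 0 := by
        rw [← add_div, ← add_div, e, zero_div]
      unfold cel
      have f1 := Int.floor_le (α 0 v / rh)
      have f2 := Int.lt_floor_add_one (α 0 v / rh)
      have f3 := Int.floor_le (α 1 v / rh)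
      have f4 := Int.lt_floor_add_one (α 1 v / rh)
      have f5 := Int.floor_le (α 2 v / rh)
      have f6 := Int.lt_floor_add_one (α 2 v / rh)
      have g1 : ((⌊α 0 v / rh⌋ + ⌊α 1 v / rh⌋ + ⌊α 2 v / rh⌋ : ℤ) : ℝ) < ((1 : ℤ) : ℝ) := by
        push_cast; linarith
      have g2 : ((-3 : ℤ) : ℝ) < ((⌊α 0 v / rh⌋ + ⌊α 1 v / rh⌋ + ⌊α 2 v / rh⌋ : ℤ) : ℝ) := by
        push_cast; linarith
      have g1' := Int.cast_lt.1 g1
      have g2' := Int.cast_lt.1 g2
      omega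
    have h3 : #Sm ≤ 3 * #(R3.image (cel (α 1) rh)) := by
      calc #Sm ≤ ∑ b ∈ R3.image (cel (α 1) rh), #({-b, -b - 1, -b - 2} : Finset ℤ) :=
            (card_le_card hsub).trans card_biUnion_le
        _ ≤ ∑ _b ∈ R3.image (cel (α 1) rh), 3 := sum_le_sum fun b _ => card_le_three
        _ = _ := by rw [sum_const, smul_eq_mul, mul_comm]
    have h4 : (#Sm : ℝ) ≤ 3 * #(R3.image (cel (α 1) rh)) := by exact_mod_cast h3
    linarith [hcells 1]
  -- BSG
  have hK : (#A : ℝ) * #B ≤ kK C K0 * #Γ := by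
    calc (#A : ℝ) * #B ≤ (kC1 C K0 * n) * (kC1 C K0 * n) :=
          mul_le_mul hAcard hBcard (by positivity) (by positivity)
      _ = kC1 C K0 ^ 2 * n ^ 2 := by ring
      _ ≤ kC1 C K0 ^ 2 * (2 * C * K0 ^ 3 * #Γ) :=
          mul_le_mul_of_nonneg_left hΓcard (by positivity)
      _ = _ := by unfold kK; ring
  obtain ⟨A', hA'A, B', hB'B, hA'1, hB'1, hsumAB⟩ :=
    bsg_add A B Γ hΓsub hAne hBne (kK C K0) hkK hK
  have hsumAB' : (#(A' + B') : ℝ) ≤ kK1 C K0 * n := by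
    have h3 : (#(A' + B') : ℝ) * n ^ 2 ≤ (kK1 C K0 * n) * n ^ 2 := by
      calc (#(A' + B') : ℝ) * n ^ 2 ≤ #(A' + B') * (2 * C * K0 ^ 3 * (#A * #B)) := by
            refine mul_le_mul_of_nonneg_left (hΓcard.trans ?_) (by positivity)
            exact mul_le_mul_of_nonneg_left hABΓ (by positivity)
        _ = (#(A' + B') * (#A * #B)) * (2 * C * K0 ^ 3) := by ring
        _ ≤ (3072 * kK C K0 ^ 5 * (#Sm : ℝ) ^ 3) * (2 * C * K0 ^ 3) :=
            mul_le_mul_of_nonneg_right hsumAB (by positivity)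
        _ ≤ (3072 * kK C K0 ^ 5 * (3 * (kC1 C K0 * n)) ^ 3) * (2 * C * K0 ^ 3) := by
            gcongr
        _ = _ := by unfold kK1; ring
    exact le_of_mul_le_mul_right h3 (by positivity)
  have hlow : ∀ X Y : ℝ, 0 ≤ Y → #Γ ≤ X * Y → Y ≤ kC1 C K0 * n →
      n ≤ 2 * C * K0 ^ 3 * kC1 C K0 * X := by
    intro X Y hY h3 h4
    have hX : 0 ≤ X := by
      by_contra hneg
      rw [not_le] at hneg
      nlinarith
    have h5 : n * n ≤ n * (2 * C * K0 ^ 3 * kC1 C K0 * X) := by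
      calc n * n = n ^ 2 := by ring
        _ ≤ 2 * C * K0 ^ 3 * #Γ := hΓcard
        _ ≤ 2 * C * K0 ^ 3 * (X * Y) := mul_le_mul_of_nonneg_left h3 (by positivity)
        _ ≤ 2 * C * K0 ^ 3 * (X * (kC1 C K0 * n)) := by gcongr
        _ = _ := by ring
    exact le_of_mul_le_mul_left h5 hn0
  have hAn : n ≤ 2 * C * K0 ^ 3 * kC1 C K0 * #A := hlow _ _ (by positivity) hABΓ hBcard
  have hBn : n ≤ 2 * C * K0 ^ 3 * kC1 C K0 * #B :=
    hlow _ _ (by positivity) (by rw [mul_comm]; exact hABΓ) hAcard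
  have hA'n : n ≤ kK2 C K0 * #A' := by
    calc n ≤ 2 * C * K0 ^ 3 * kC1 C K0 * #A := hAn
      _ ≤ 2 * C * K0 ^ 3 * kC1 C K0 * (6 * kK C K0 * #A') :=
          mul_le_mul_of_nonneg_left hA'1 (by positivity)
      _ = _ := by unfold kK2; ring
  have hB'n : n ≤ kK2 C K0 * #B' := by
    calc n ≤ 2 * C * K0 ^ 3 * kC1 C K0 * #B := hBn
      _ ≤ 2 * C * K0 ^ 3 * kC1 C K0 * (4 * kK C K0 * #B') :=
          mul_le_mul_of_nonneg_left hB'1 (by positivity)
      _ ≤ 2 * C * K0 ^ 3 * kC1 C K0 * (6 * kK C K0 * #B') := by gcongr; norm_num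
      _ = _ := by unfold kK2; ring
  have hK1pos : 0 < kK1 C K0 := by unfold kK1; positivity
  have hK2pos : 0 < kK2 C K0 := by unfold kK2; positivity
  -- doubling
  have hdoub : (#(A' + A') : ℝ) ≤ kK1 C K0 ^ 2 * kK2 C K0 ^ 2 * #A' := by
    have hr : (#(A' + A') : ℝ) * #B' ≤ #(A' + B') * #(B' + A') := by
      exact_mod_cast ruzsa_triangle_inequality_add_add_add A' B' A'
    have h3 : (#(A' + A') : ℝ) * #B' ≤ (kK1 C K0 * n) * (kK1 C K0 * n) := by
      refine hr.trans (mul_le_mul hsumAB' ?_ (by positivity) (by positivity))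
      rw [add_comm B' A']
      exact hsumAB'
    have hB'pos : (0 : ℝ) < #B' := by
      by_contra hneg
      have : (#B' : ℝ) = 0 := le_antisymm (not_lt.1 hneg) (by positivity)
      rw [this, mul_zero] at hB'n
      linarith
    have h4 : (#(A' + A') : ℝ) * #B' ≤ (kK1 C K0 ^ 2 * kK2 C K0 ^ 2 * #A') * #B' := by
      calc (#(A' + A') : ℝ) * #B' ≤ (kK1 C K0 * n) * (kK1 C K0 * n) := h3
        _ = kK1 C K0 ^ 2 * (n * n) := by ring
        _ ≤ kK1 C K0 ^ 2 * ((kK2 C K0 * #A') * (kK2 C K0 * #B')) := by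
            refine mul_le_mul_of_nonneg_left ?_ (by positivity)
            exact mul_le_mul hA'n hB'n hn0.le (by positivity)
        _ = _ := by ring
    exact le_of_mul_le_mul_right h4 hB'pos
  -- the set R'
  set R' := R3.filter fun v => cel (α 0) rh v ∈ A' with hR'
  have hfil : ∀ a ∈ A', (R'.filter fun v => cel (α 0) rh v = a) =
      R3.filter fun v => cel (α 0) rh v = a := by
    intro a ha
    ext v
    simp only [hR', mem_filter]
    constructor
    · rintro ⟨⟨h3, _⟩, h4⟩; exact ⟨h3, h4⟩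
    · rintro ⟨h3, h4⟩; exact ⟨⟨h3, h4 ▸ ha⟩, h4⟩
  have hheavy : ∀ a ∈ A', kκ C K0 * N ≤ n * #(R3.filter fun u => cel (α 0) rh u = a) := by
    intro a ha
    obtain ⟨v, hv, rfl⟩ := mem_image.1 (hA'A ha)
    exact (mem_filter.1 hv).2
  refine ⟨R', A', fun v hv => (mem_filter.1 hv).2, fun a ha => ?_, hdoub, ?_⟩
  · rw [hfil a ha]
    refine ⟨hheavy a ha, ?_⟩
    obtain ⟨v, hv, rfl⟩ := mem_image.1 (hA'A ha)
    exact hmass 0 v (hR43 hv)
  · have h3 : (#R' : ℝ) = ∑ a ∈ A', (#(R3.filter fun v => cel (α 0) rh v = a) : ℝ) := by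
      have := card_eq_sum_card_fiberwise (s := R') (t := A') (f := cel (α 0) rh)
        (fun v hv => (mem_filter.1 hv).2)
      rw [this]
      push_cast
      exact sum_congr rfl fun a ha => by rw [hfil a ha]
    have h4 : (#A' : ℝ) * (kκ C K0 * N) ≤ n * #R' := by
      calc (#A' : ℝ) * (kκ C K0 * N) = ∑ _a ∈ A', kκ C K0 * N := by
            rw [sum_const, nsmul_eq_mul]
        _ ≤ ∑ a ∈ A', n * (#(R3.filter fun v => cel (α 0) rh v = a) : ℝ) :=
            sum_le_sum hheavy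
        _ = n * #R' := by rw [← mul_sum, h3]
    have h5 : n * (kκ C K0 * N) ≤ n * (kK2 C K0 * #R') := by
      calc n * (kκ C K0 * N) ≤ (kK2 C K0 * #A') * (kκ C K0 * N) :=
            mul_le_mul_of_nonneg_right hA'n (by positivity)
        _ = kK2 C K0 * ((#A' : ℝ) * (kκ C K0 * N)) := by ring
        _ ≤ kK2 C K0 * (n * #R') := mul_le_mul_of_nonneg_left h4 hK2pos.le
        _ = _ := by ring
    exact le_of_mul_le_mul_left h5 hn0

/-- statement (e) = 9.5 of the split (proved in `AddCommon.lean`) -/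
def Common : Prop := ∀ C : ℝ, 1 ≤ C → ∃ K V0 : ℝ, ∀ (R : Type) [Fintype R] (V : ℝ)
  (α : Fin 3 → R → ℝ) (w : Fin 3 → R → ℕ), V0 ≤ V → Setting C V α w →
  ∃ rh : ℝ, 0 < rh ∧ ∃ R3 : Finset R, (Fintype.card R : ℝ) ≤ K * #R3 ∧
    ∀ v ∈ R3, ∀ i, (gg (α i) (w i) v rh : ℝ) ≤ K * √V ∧ √V ≤ K * gg (α i) (w i) v (4 * rh)

/-- **9.6** -/
theorem cells (hE : Common) : ∀ C : ℝ, 1 ≤ C → ∃ K V0 : ℝ, 1 ≤ K ∧ ∀ (R : Type) [Fintype R] (V : ℝ)
    (α : Fin 3 → R → ℝ) (w : Fin 3 → R → ℕ), V0 ≤ V → Setting C V α w →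
    ∃ rh : ℝ, 0 < rh ∧ ∃ R' : Finset R, ∃ A' : Finset ℤ, (∀ v ∈ R', ⌊α 0 v / rh⌋ ∈ A') ∧
      (∀ a ∈ A', (Fintype.card R : ℝ) ≤ K * √V * #(R'.filter fun v => ⌊α 0 v / rh⌋ = a) ∧
        √V * #(R'.filter fun v => ⌊α 0 v / rh⌋ = a) ≤ K * Fintype.card R) ∧
      (#(A' + A') : ℝ) ≤ K * #A' ∧ (Fintype.card R : ℝ) ≤ K * #R' := by
  intro C hC
  obtain ⟨K, V0, h⟩ := hE C hC
  set K0 := max K 1 with hK0
  have hK01 : 1 ≤ K0 := le_max_right _ _
  have hKK0 : K ≤ K0 := le_max_left _ _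
  have hκ : 0 < kκ C K0 := by unfold kκ; positivity
  have hc1 : 0 < kC1 C K0 := by unfold kC1; positivity
  have hkK : 0 < kK C K0 := by unfold kK; positivity
  have hK1pos : 0 < kK1 C K0 := by unfold kK1; positivity
  have hK2pos : 0 < kK2 C K0 := by unfold kK2; positivity
  set K' : ℝ := 1 + 1 / kκ C K0 + C * K0 + kK1 C K0 ^ 2 * kK2 C K0 ^ 2 +
    kK2 C K0 / kκ C K0 with hK'
  have e1 : 1 / kκ C K0 ≤ K' := by
    have : 0 < C * K0 + kK1 C K0 ^ 2 * kK2 C K0 ^ 2 + kK2 C K0 / kκ C K0 := by positivity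
    linarith
  have e2 : C * K0 ≤ K' := by
    have : 0 < 1 / kκ C K0 + kK1 C K0 ^ 2 * kK2 C K0 ^ 2 + kK2 C K0 / kκ C K0 := by positivity
    linarith
  have e3 : kK1 C K0 ^ 2 * kK2 C K0 ^ 2 ≤ K' := by
    have : 0 < 1 / kκ C K0 + C * K0 + kK2 C K0 / kκ C K0 := by positivity
    linarith
  have e4 : kK2 C K0 / kκ C K0 ≤ K' := by
    have : 0 < 1 / kκ C K0 + C * K0 + kK1 C K0 ^ 2 * kK2 C K0 ^ 2 := by positivity
    linarith
  have e0 : 1 ≤ K' := by
    have : 0 < 1 / kκ C K0 + C * K0 + kK1 C K0 ^ 2 * kK2 C K0 ^ 2 + kK2 C K0 / kκ C K0 := by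
      positivity
    linarith
  refine ⟨K', max V0 ((4 * K0) ^ 2), e0, fun R _ V α w hV hS => ?_⟩
  obtain ⟨rh, hrh, R3, hR3, hg⟩ := h R V α w ((le_max_left _ _).trans hV) hS
  have hsq : 0 ≤ √V := Real.sqrt_nonneg _
  obtain ⟨R', A', h1, h2, h3, h4⟩ := cell_core (K0 := K0) hK01 ((le_max_right _ _).trans hV) hS hrh
    (R3 := R3) (hR3.trans (mul_le_mul_of_nonneg_right hKK0 (by positivity)))
    (fun v hv i => (hg v hv i).1.trans (mul_le_mul_of_nonneg_right hKK0 hsq))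
    (fun v hv i => (hg v hv i).2.trans (mul_le_mul_of_nonneg_right hKK0 (by positivity)))
  refine ⟨rh, hrh, R', A', h1, fun a ha => ?_, ?_, ?_⟩
  · obtain ⟨g1, g2⟩ := h2 a ha
    constructor
    · have : (Fintype.card R : ℝ) ≤ 1 / kκ C K0 *
          (√V * #(R'.filter fun v => cel (α 0) rh v = a)) := by
        rw [one_div, inv_mul_eq_div, le_div_iff₀ hκ, mul_comm]
        exact g1
      calc (Fintype.card R : ℝ) ≤ 1 / kκ C K0 *
          (√V * #(R'.filter fun v => cel (α 0) rh v = a)) := this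
        _ ≤ K' * (√V * #(R'.filter fun v => cel (α 0) rh v = a)) :=
            mul_le_mul_of_nonneg_right e1 (by positivity)
        _ = _ := by rw [mul_assoc]; rfl
    · exact g2.trans (mul_le_mul_of_nonneg_right e2 (by positivity))
  · exact h3.trans (mul_le_mul_of_nonneg_right e3 (by positivity))
  · have : (Fintype.card R : ℝ) ≤ kK2 C K0 / kκ C K0 * #R' := by
      rw [div_mul_eq_mul_div, le_div_iff₀ hκ, mul_comm]
      exact h4
    exact this.trans (mul_le_mul_of_nonneg_right e4 (by positivity))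

end

end Crest.Agent.R51.Add
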