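import Crest.Agent.R51.AddMax

/-! Row 51, section B9, 9.1 (Comp) and 9.3 (Comp'). -/

set_option autoImplicit false

namespace Crest.Agent.R51.Add

/-! small facts on `Fin 3` (before classical instances are opened) -/

lemma fin3_third : ∀ a b : Fin 3, a ≠ b → ∃ c : Fin 3, a ≠ c ∧ b ≠ c := by decide

lemma fin3_eq_c (a b c i : Fin 3) (hab : a ≠ b) (hac : a ≠ c) (hbc : b ≠ c) (hia : i ≠ a)
    (hib : i ≠ b) : i = c := by
  have h1 := a.isLt
  have h2 := b.isLt
  have h3 := c.isLt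
  have h4 := i.isLt
  rw [Ne, Fin.ext_iff] at *
  omega

lemma fin3_card : (Finset.univ.filter fun p : Fin 3 × Fin 3 => p.1 ≠ p.2).card = 6 := by decide

open Finset Classical

lemma gg_monoR {R : Type*} [Fintype R] {α : R → ℝ} {w : R → ℕ} {v : R} {r s : ℝ} (h : r ≤ s) :
    (gg α w v r : ℝ) ≤ gg α w v s := by exact_mod_cast gg_mono (α := α) (w := w) (v := v) h

lemma one_le_ggR {R : Type*} [Fintype R] {α : R → ℝ} {w : R → ℕ} {v : R} {r : ℝ} (h : 0 ≤ r) :
    (1 : ℝ) ≤ gg α w v r := by exact_mod_cast one_le_gg (α := α) (w := w) (v := v) h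

/-- Statement of the no-jump lemma 9.2. -/
def JumpLemma : Prop :=
  ∀ C ε c q : ℝ, 1 ≤ C → 0 < ε → ε ≤ 1 → 1 ≤ c → 1 ≤ q → ∃ C' : ℝ, 0 < C' ∧
    ∀ (R : Type) [Fintype R] (V : ℝ) (α : Fin 3 → R → ℝ) (w : Fin 3 → R → ℕ), Setting C V α w →
      ∀ T : ℝ, 0 < T → ∀ i j : Fin 3, i ≠ j →
        (#(univ.filter fun v => Typical ε C V α w v ∧ Jump c q T α w i j v) : ℝ) * T ≤
          C' * Fintype.card R

section
variable {R : Type*} [Fintype R]

lemma Setting.card_pos {C V : ℝ} {α : Fin 3 → R → ℝ} {w : Fin 3 → R → ℕ} (hS : Setting C V α w) :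
    (0 : ℝ) < Fintype.card R := by
  have := hS.nonempty
  exact_mod_cast Fintype.card_pos

/-- third coordinate -/
lemma Setting.abs_third {C V : ℝ} {α : Fin 3 → R → ℝ} {w : Fin 3 → R → ℕ} (hS : Setting C V α w)
    {i j k : Fin 3} (hij : i ≠ j) (hik : i ≠ k) (hjk : j ≠ k) (u v : R) :
    |α k u - α k v| ≤ |α i u - α i v| + |α j u - α j v| := by
  have h : α k u - α k v = -((α i u - α i v) + (α j u - α j v)) := by
    have h1 := hS.sum0 u
    have h2 := hS.sum0 v
    fin_cases i <;> fin_cases j <;> fin_cases k <;>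
      first
        | exact absurd rfl hij
        | exact absurd rfl hik
        | exact absurd rfl hjk
        | (simp only [Fin.mk_zero, Fin.mk_one, Fin.reduceFinMk, Fin.isValue, Fin.zero_eta] at *
           linarith)
  rw [h, abs_neg]
  exact abs_add_le _ _

/-- a set contained in two intervals has few elements -/
lemma Setting.card_two {C V : ℝ} {α : Fin 3 → R → ℝ} {w : Fin 3 → R → ℕ} (hS : Setting C V α w)
    {i k : Fin 3} (hik : i ≠ k) (X : Finset R) (L M : Finset ℕ) (hL : ∀ v ∈ X, w i v ∈ L)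
    (hM : ∀ v ∈ X, w k v ∈ M) :
    (#X : ℝ) * V ^ 2 ≤ (#L * #M) * (C * Fintype.card R) := by
  have hsub : X ⊆ (L ×ˢ M).biUnion fun p => fib (w i) p.1 ∩ fib (w k) p.2 := by
    intro v hv
    refine mem_biUnion.2 ⟨(w i v, w k v), mem_product.2 ⟨hL v hv, hM v hv⟩, ?_⟩
    rw [mem_inter, mem_fib, mem_fib]
    exact ⟨rfl, rfl⟩
  have h1 : (#X : ℝ) ≤ ∑ p ∈ L ×ˢ M, (#(fib (w i) p.1 ∩ fib (w k) p.2) : ℝ) := by
    exact_mod_cast (card_le_card hsub).trans card_biUnion_le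
  have hV : 0 ≤ V ^ 2 := by positivity
  calc (#X : ℝ) * V ^ 2 ≤ (∑ p ∈ L ×ˢ M, (#(fib (w i) p.1 ∩ fib (w k) p.2) : ℝ)) * V ^ 2 :=
        mul_le_mul_of_nonneg_right h1 hV
    _ = ∑ p ∈ L ×ˢ M, (#(fib (w i) p.1 ∩ fib (w k) p.2) : ℝ) * V ^ 2 := by rw [sum_mul]
    _ ≤ ∑ _p ∈ L ×ˢ M, C * (Fintype.card R : ℝ) :=
        sum_le_sum fun p _ => hS.A3 i k hik p.1 p.2
    _ = (#L * #M) * (C * Fintype.card R) := by
        rw [sum_const, nsmul_eq_mul, card_product]; push_cast; ring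

/-- 9.1 (Comp) -/
theorem comp {C V ε : ℝ} {α : Fin 3 → R → ℝ} {w : Fin 3 → R → ℕ} (hS : Setting C V α w)
    (hε : 0 < ε) (hε1 : ε ≤ 1) {v : R} (hv : Typical ε C V α w v) {i j k : Fin 3} (hij : i ≠ j)
    (hik : i ≠ k) (hjk : j ≠ k) {r : ℝ} (hr : 0 ≤ r) (h3 : 3 ≤ gg (α i) (w i) v r) :
    (gg (α j) (w j) v r : ℝ) ≤ 9 * C ^ 3 / ε ^ 3 * gg (α k) (w k) v (2 * r) := by
  have hC := hS.one_le_C
  have hV := hS.one_le_V
  have hN := hS.card_pos
  have hC1 : 9 ≤ 9 * C ^ 3 / ε ^ 3 := by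
    rw [le_div_iff₀ (by positivity)]
    have h1 : ε ^ 3 ≤ 1 := pow_le_one₀ hε.le hε1
    have h2 : 1 ≤ C ^ 3 := one_le_pow₀ hC
    nlinarith
  have hk1 : (1 : ℝ) ≤ gg (α k) (w k) v (2 * r) := one_le_ggR (by linarith : (0:ℝ) ≤ 2 * r)
  by_cases hj : gg (α j) (w j) v r < 3
  · have : (gg (α j) (w j) v r : ℝ) ≤ 2 := by
      have : gg (α j) (w j) v r ≤ 2 := by omega
      exact_mod_cast this
    nlinarith
  · push Not at hj
    have T1 := hv.1 i j hij r
    have T2 := hv.2 i r h3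
    have T3 := hv.2 j r hj
    have T4 := hS.card_two hik (Iv (α i) v r ∩ Iv (α j) v r) ((Iv (α i) v r).image (w i))
      ((Iv (α k) v (2 * r)).image (w k))
      (fun u hu => mem_image_of_mem _ (mem_inter.1 hu).1)
      (fun u hu => by
        refine mem_image_of_mem _ ?_
        rw [mem_inter, mem_Iv, mem_Iv] at hu
        rw [mem_Iv]
        have := hS.abs_third hij hik hjk u v
        linarith [hu.1, hu.2])
    change _ ≤ ((gg (α i) (w i) v r : ℝ) * (gg (α k) (w k) v (2 * r) : ℝ)) * _ at T4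
    set gi : ℝ := (gg (α i) (w i) v r : ℝ) with hgi
    set gj : ℝ := (gg (α j) (w j) v r : ℝ) with hgj
    set gk : ℝ := (gg (α k) (w k) v (2 * r) : ℝ) with hgk
    set N : ℝ := (Fintype.card R : ℝ) with hNdef
    set x : ℝ := (#(Iv (α i) v r) : ℝ) with hx
    set y : ℝ := (#(Iv (α j) v r) : ℝ) with hy
    set z : ℝ := (#(Iv (α i) v r ∩ Iv (α j) v r) : ℝ) with hz
    have hgi3 : 3 ≤ gi := by rw [hgi]; exact_mod_cast h3
    have hgj3 : 3 ≤ gj := by rw [hgj]; exact_mod_cast hj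
    have hx0 : 0 ≤ x := Nat.cast_nonneg _
    have hy0 : 0 ≤ y := Nat.cast_nonneg _
    have hz0 : 0 ≤ z := Nat.cast_nonneg _
    -- multiply
    have e1 : (ε * gi * N) * (ε * gj * N) ≤ (3 * (C * V) * x) * (3 * (C * V) * y) := by
      have ha : 0 ≤ ε * gi * N := by positivity
      have hb : 0 ≤ ε * gj * N := by positivity
      exact mul_le_mul T2 T3 hb (ha.trans T2)
    have e2 : ε * ((ε * gi * N) * (ε * gj * N)) ≤ 9 * C ^ 2 * V ^ 2 * (z * N) := by
      calc ε * ((ε * gi * N) * (ε * gj * N)) ≤ ε * ((3 * (C * V) * x) * (3 * (C * V) * y)) :=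
            mul_le_mul_of_nonneg_left e1 hε.le
        _ = 9 * C ^ 2 * V ^ 2 * (ε * (x * y)) := by ring
        _ ≤ 9 * C ^ 2 * V ^ 2 * (z * N) := mul_le_mul_of_nonneg_left T1 (by positivity)
    have e3 : 9 * C ^ 2 * V ^ 2 * (z * N) ≤ 9 * C ^ 2 * N * ((gi * gk) * (C * N)) := by
      calc 9 * C ^ 2 * V ^ 2 * (z * N) = 9 * C ^ 2 * N * (z * V ^ 2) := by ring
        _ ≤ 9 * C ^ 2 * N * ((gi * gk) * (C * N)) := mul_le_mul_of_nonneg_left T4 (by positivity)
    have e4 : (gi * N ^ 2) * (ε ^ 3 * gj) ≤ (gi * N ^ 2) * (9 * C ^ 3 * gk) := by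
      calc (gi * N ^ 2) * (ε ^ 3 * gj) = ε * ((ε * gi * N) * (ε * gj * N)) := by ring
        _ ≤ _ := e2.trans e3
        _ = _ := by ring
    have e5 : ε ^ 3 * gj ≤ 9 * C ^ 3 * gk := le_of_mul_le_mul_left e4 (by positivity)
    rw [div_mul_eq_mul_div, le_div_iff₀ (by positivity)]
    linarith

/-- 9.3, first half: comparison when two coordinates see three labels. -/
lemma comp2 {C V ε : ℝ} {α : Fin 3 → R → ℝ} {w : Fin 3 → R → ℕ} (hS : Setting C V α w)
    (hε : 0 < ε) (hε1 : ε ≤ 1) {v : R} (hv : Typical ε C V α w v) {a b : Fin 3} (hab : a ≠ b)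
    {r : ℝ} (hr : 0 ≤ r) (ha : 3 ≤ gg (α a) (w a) v r) (hb : 3 ≤ gg (α b) (w b) v r)
    (i j : Fin 3) :
    (gg (α i) (w i) v r : ℝ) ≤ (9 * C ^ 3 / ε ^ 3) ^ 2 * gg (α j) (w j) v (4 * r) := by
  have hC := hS.one_le_C
  set C1 : ℝ := 9 * C ^ 3 / ε ^ 3 with hC1def
  have hC1 : 9 ≤ C1 := by
    rw [hC1def, le_div_iff₀ (by positivity)]
    have h1 : ε ^ 3 ≤ 1 := pow_le_one₀ hε.le hε1
    have h2 : 1 ≤ C ^ 3 := one_le_pow₀ hC
    nlinarith
  have m4 : ∀ i, (gg (α i) (w i) v (2 * r) : ℝ) ≤ gg (α i) (w i) v (4 * r) := fun i =>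
    gg_monoR (by linarith : 2 * r ≤ 4 * r)
  have m2 : ∀ i, gg (α i) (w i) v r ≤ gg (α i) (w i) v (2 * r) := fun i =>
    gg_mono (by linarith : r ≤ 2 * r)
  have m1 : ∀ i, (gg (α i) (w i) v r : ℝ) ≤ gg (α i) (w i) v (4 * r) := fun i =>
    gg_monoR (by linarith : r ≤ 4 * r)
  have pos4 : ∀ i, (0 : ℝ) ≤ gg (α i) (w i) v (4 * r) := fun i => Nat.cast_nonneg _
  -- third index
  obtain ⟨c, hac, hbc⟩ := fin3_third a b hab
  have step : ∀ {i j k : Fin 3}, i ≠ j → i ≠ k → j ≠ k → 3 ≤ gg (α i) (w i) v r →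
      (gg (α j) (w j) v r : ℝ) ≤ C1 ^ 2 * gg (α k) (w k) v (4 * r) := by
    intro i j k hij hik hjk h3
    have h := comp hS hε hε1 hv hij hik hjk hr h3
    have h' := m4 k
    have h'' := pos4 k
    nlinarith
  -- a versus b through c
  have thr : ∀ {a b : Fin 3}, a ≠ b → a ≠ c → b ≠ c → 3 ≤ gg (α b) (w b) v r →
      3 ≤ gg (α a) (w a) v r →
      (gg (α a) (w a) v r : ℝ) ≤ C1 ^ 2 * gg (α b) (w b) v (4 * r) := by
    intro a b hab hac hbc hb ha
    have h1 := comp hS hε hε1 hv (Ne.symm hab) hbc hac hr hb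
    have h2 := comp hS hε hε1 hv hac hab (Ne.symm hbc) (by linarith : 0 ≤ 2 * r)
      (ha.trans (m2 a))
    rw [show 2 * (2 * r) = 4 * r by ring] at h2
    have h3 : C1 * gg (α c) (w c) v (2 * r) ≤ C1 * (C1 * gg (α b) (w b) v (4 * r)) :=
      mul_le_mul_of_nonneg_left h2 (by linarith)
    calc (gg (α a) (w a) v r : ℝ) ≤ _ := h1
      _ ≤ _ := h3
      _ = _ := by ring
  by_cases hij : i = j
  · subst hij
    have h1 := m1 i
    have h2 := pos4 i
    have h3 : 1 ≤ C1 ^ 2 := one_le_pow₀ (by linarith)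
    nlinarith
  · by_cases hi : i = a
    · subst hi
      by_cases hj : j = b
      · subst hj
        exact thr hab hac hbc hb ha
      · have hjc : j = c := fin3_eq_c i b c j hab hac hbc (Ne.symm hij) hj
        subst hjc
        exact step (Ne.symm hab) hbc hac hb
    · by_cases hi' : i = b
      · subst hi'
        by_cases hj : j = a
        · subst hj
          exact thr (Ne.symm hab) hbc hac ha hb
        · have hjc : j = c := fin3_eq_c a i c j hab hac hbc hj (Ne.symm hij)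
          subst hjc
          exact step hab hac hbc ha
      · have hic : i = c := fin3_eq_c a b c i hab hac hbc hi hi'
        subst hic
        by_cases hj : j = a
        · subst hj
          exact step hbc (Ne.symm hab) (Ne.symm hac) hb
        · have hjb : j = b := fin3_eq_c a i b j hac hab (Ne.symm hbc) hj (Ne.symm hij)
          subst hjb
          exact step hac hab (Ne.symm hbc) ha

/-- number of labels is at least `V / C` -/
lemma Setting.labels_ge {C V : ℝ} {α : Fin 3 → R → ℝ} {w : Fin 3 → R → ℕ} (hS : Setting C V α w)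
    (i : Fin 3) : V ≤ C * #(univ.image (w i)) := by
  have hN := hS.card_pos
  have hsub : (univ : Finset R) ⊆ (univ.image (w i)).biUnion fun a => fib (w i) a := by
    intro v _
    exact mem_biUnion.2 ⟨w i v, mem_image_of_mem _ (mem_univ _), mem_fib.2 rfl⟩
  have h1 : (Fintype.card R : ℝ) ≤ ∑ a ∈ univ.image (w i), (#(fib (w i) a) : ℝ) := by
    exact_mod_cast (card_le_card hsub).trans card_biUnion_le
  have hV : 0 ≤ V := by linarith [hS.one_le_V]
  have h2 : (Fintype.card R : ℝ) * V ≤ (C * #(univ.image (w i))) * Fintype.card R := by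
    calc (Fintype.card R : ℝ) * V ≤ (∑ a ∈ univ.image (w i), (#(fib (w i) a) : ℝ)) * V :=
          mul_le_mul_of_nonneg_right h1 hV
      _ = ∑ a ∈ univ.image (w i), (#(fib (w i) a) : ℝ) * V := by rw [sum_mul]
      _ ≤ ∑ _a ∈ univ.image (w i), C * (Fintype.card R : ℝ) := sum_le_sum fun a _ => hS.A2 i a
      _ = _ := by rw [sum_const, nsmul_eq_mul]; ring
  have h3 : V * Fintype.card R ≤ (C * #(univ.image (w i))) * Fintype.card R := by linarith
  exact le_of_mul_le_mul_right h3 hN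

/-- for large radius all labels are met -/
lemma exists_radius (α : Fin 3 → R → ℝ) (w : Fin 3 → R → ℕ) (v : R) :
    ∃ r0 : ℝ, 0 < r0 ∧ ∀ r, r0 ≤ r → ∀ i, gg (α i) (w i) v r = #(univ.image (w i)) := by
  refine ⟨(∑ i, ∑ u, |α i u - α i v|) + 1, ?_, ?_⟩
  · have : 0 ≤ ∑ i, ∑ u, |α i u - α i v| := sum_nonneg fun i _ => sum_nonneg fun u _ => abs_nonneg _
    linarith
  · intro r hr i
    have : Iv (α i) v r = univ := by
      ext u
      simp only [mem_Iv, mem_univ, iff_true]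
      have h1 : |α i u - α i v| ≤ ∑ u, |α i u - α i v| :=
        single_le_sum (f := fun u => |α i u - α i v|) (fun u _ => abs_nonneg _) (mem_univ u)
      have h2 : (∑ u, |α i u - α i v|) ≤ ∑ i, ∑ u, |α i u - α i v| :=
        single_le_sum (f := fun i => ∑ u, |α i u - α i v|)
          (fun i _ => sum_nonneg fun u _ => abs_nonneg _) (mem_univ i)
      linarith
    rw [gg, this]

/-- 9.3: a typical point which is not a jump point satisfies (Comp'). -/
theorem comp'_of_not_jump {C V ε T : ℝ} {α : Fin 3 → R → ℝ} {w : Fin 3 → R → ℕ}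
    (hS : Setting C V α w) (hVC : 3 * C ≤ V)
    (hε : 0 < ε) (hε1 : ε ≤ 1) (hT : 1 ≤ T) {v : R} (hv : Typical ε C V α w v)
    (hj : ∀ a b, a ≠ b → ¬ Jump 2 8 T α w a b v) :
    Comp' ((9 * C ^ 3 / ε ^ 3) ^ 2 * T) α w v := by
  intro i j r hr
  have hC := hS.one_le_C
  set C1 : ℝ := 9 * C ^ 3 / ε ^ 3 with hC1def
  have hC1 : 9 ≤ C1 := by
    rw [hC1def, le_div_iff₀ (by positivity)]
    have h1 : ε ^ 3 ≤ 1 := pow_le_one₀ hε.le hε1
    have h2 : 1 ≤ C ^ 3 := one_le_pow₀ hC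
    nlinarith
  set P : ℝ → Prop := fun ρ => ∃ a b : Fin 3, a ≠ b ∧ 3 ≤ gg (α a) (w a) v ρ ∧
    3 ≤ gg (α b) (w b) v ρ with hP
  have main : ∀ ρ, 0 < ρ → P ρ → ∀ i j, (gg (α i) (w i) v ρ : ℝ) ≤
      C1 ^ 2 * gg (α j) (w j) v (4 * ρ) := by
    rintro ρ hρ ⟨a, b, hab, ha, hb⟩ i j
    exact comp2 hS hε hε1 hv hab hρ.le ha hb i j
  have hgj1 : (1 : ℝ) ≤ gg (α j) (w j) v (4 * r) := one_le_ggR (by linarith : (0:ℝ) ≤ 4 * r)
  by_cases hPr : P r
  · refine (main r hr hPr i j).trans ?_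
    have : C1 ^ 2 * 1 ≤ C1 ^ 2 * T := mul_le_mul_of_nonneg_left hT (by positivity)
    nlinarith
  · -- find the doubling scale
    have hex : ∃ n : ℕ, P (2 ^ n * r) := by
      obtain ⟨r0, hr0, hall⟩ := exists_radius α w v
      obtain ⟨n, hn⟩ := pow_unbounded_of_one_lt (r0 / r) (by norm_num : (1:ℝ) < 2)
      have hge : ∀ i : Fin 3, 3 ≤ gg (α i) (w i) v (2 ^ n * r) := by
        intro i
        rw [hall _ (by rw [div_lt_iff₀ hr] at hn; exact hn.le)]
        have h3 : (3 : ℝ) ≤ (#(univ.image (w i)) : ℝ) := by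
          have h := hS.labels_ge i
          by_contra hcon
          push Not at hcon
          nlinarith
        exact_mod_cast h3
      exact ⟨n, 0, 1, by decide, hge 0, hge 1⟩
    set n := Nat.find hex with hn
    have hPn : P (2 ^ n * r) := Nat.find_spec hex
    have hn0 : n ≠ 0 := by
      intro h0
      rw [h0] at hPn
      simp only [pow_zero, one_mul] at hPn
      exact hPr hPn
    obtain ⟨m, hm⟩ := Nat.exists_eq_succ_of_ne_zero hn0
    have hPm : ¬ P (2 ^ m * r) := Nat.find_min hex (by omega)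
    set ρ : ℝ := 2 ^ m * r with hρdef
    have hρ : 0 < ρ := by positivity
    have hP2 : P (2 * ρ) := by
      have : (2:ℝ) ^ n * r = 2 * ρ := by rw [hm, hρdef, Nat.succ_eq_add_one, pow_succ]; ring
      rw [this] at hPn; exact hPn
    have hrρ : r ≤ ρ := by
      have : (1:ℝ) ≤ 2 ^ m := one_le_pow₀ (by norm_num)
      rw [hρdef]; nlinarith
    -- two coordinates with at most two labels
    obtain ⟨a, b, hab, ha, hb⟩ : ∃ a b : Fin 3, a ≠ b ∧ gg (α a) (w a) v ρ ≤ 2 ∧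
        gg (α b) (w b) v ρ ≤ 2 := by
      by_contra hcon
      push Not at hcon
      apply hPm
      by_cases h0 : 3 ≤ gg (α 0) (w 0) v ρ
      · by_cases h1 : 3 ≤ gg (α 1) (w 1) v ρ
        · exact ⟨0, 1, by decide, h0, h1⟩
        · have := hcon 1 2 (by decide) (by omega)
          exact ⟨0, 2, by decide, h0, by omega⟩
      · have h1 := hcon 0 1 (by decide) (by omega)
        have h2 := hcon 0 2 (by decide) (by omega)
        exact ⟨1, 2, by decide, by omega, by omega⟩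
    have hnj := hj a b hab
    unfold Jump at hnj
    push Not at hnj
    have h8 := hnj (8 * ρ) (by positivity)
    rw [show 8 * ρ / 8 = ρ by ring] at h8
    have ha' : (gg (α a) (w a) v ρ : ℝ) ≤ 2 := by exact_mod_cast ha
    have hb' : (gg (α b) (w b) v ρ : ℝ) ≤ 2 := by exact_mod_cast hb
    have h9 := h8 ha' hb'
    -- one of them is < T at 8ρ
    have hk : ∃ k, (gg (α k) (w k) v (8 * ρ) : ℝ) ≤ T := by
      by_cases hT' : T ≤ gg (α a) (w a) v (8 * ρ)
      · exact ⟨b, (h9 hT').le⟩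
      · push Not at hT'
        exact ⟨a, hT'.le⟩
    obtain ⟨k, hk⟩ := hk
    have h10 := main (2 * ρ) (by positivity) hP2 i k
    rw [show 4 * (2 * ρ) = 8 * ρ by ring] at h10
    have h11 : (gg (α i) (w i) v r : ℝ) ≤ gg (α i) (w i) v (2 * ρ) :=
      gg_monoR (by linarith : r ≤ 2 * ρ)
    have h12 : C1 ^ 2 * (gg (α k) (w k) v (8 * ρ) : ℝ) ≤ C1 ^ 2 * T :=
      mul_le_mul_of_nonneg_left hk (by positivity)
    have h13 : 0 ≤ C1 ^ 2 * T := by positivity
    nlinarith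

end

/-- 9.3: for all but `δ |R|` points: typical and (Comp'). -/
theorem exists_comp' (hJ : JumpLemma) (C : ℝ) (hC : 1 ≤ C) (δ : ℝ) (hδ : 0 < δ) :
    ∃ ε C5 V0 : ℝ, 0 < ε ∧ ε ≤ 1 ∧ 1 ≤ C5 ∧ 1 ≤ V0 ∧
      ∀ (R : Type) [Fintype R] (V : ℝ) (α : Fin 3 → R → ℝ) (w : Fin 3 → R → ℕ), V0 ≤ V →
        Setting C V α w →
        (#(univ.filter fun v => ¬ (Typical ε C V α w v ∧ Comp' C5 α w v)) : ℝ) ≤
          δ * Fintype.card R := by
  set ε : ℝ := min 1 (δ / 36) with hε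
  have hε0 : 0 < ε := lt_min one_pos (by positivity)
  have hε1 : ε ≤ 1 := min_le_left _ _
  have hε2 : ε ≤ δ / 36 := min_le_right _ _
  obtain ⟨C', hC', hjump⟩ := hJ C ε 2 8 hC hε0 hε1 (by norm_num) (by norm_num)
  set T : ℝ := max 1 (12 * C' / δ) with hT
  have hT1 : 1 ≤ T := le_max_left _ _
  have hT2 : 12 * C' / δ ≤ T := le_max_right _ _
  refine ⟨ε, (9 * C ^ 3 / ε ^ 3) ^ 2 * T, max 1 (3 * C), hε0, hε1, ?_, le_max_left _ _, ?_⟩
  · have hC1 : 9 ≤ 9 * C ^ 3 / ε ^ 3 := by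
      rw [le_div_iff₀ (by positivity)]
      have h1 : ε ^ 3 ≤ 1 := pow_le_one₀ hε0.le hε1
      have h2 : 1 ≤ C ^ 3 := one_le_pow₀ hC
      nlinarith
    have h2 : 1 ≤ (9 * C ^ 3 / ε ^ 3) ^ 2 := one_le_pow₀ (by linarith)
    nlinarith
  · intro R _ V α w hV hS
    have hVC : 3 * C ≤ V := (le_max_right _ _).trans hV
    have hN := hS.card_pos
    have hsub : (univ.filter fun v => ¬ (Typical ε C V α w v ∧
        Comp' ((9 * C ^ 3 / ε ^ 3) ^ 2 * T) α w v)) ⊆
        (univ.filter fun v => ¬ Typical ε C V α w v) ∪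
        (univ.filter fun p : Fin 3 × Fin 3 => p.1 ≠ p.2).biUnion fun p =>
          univ.filter fun v => Typical ε C V α w v ∧ Jump 2 8 T α w p.1 p.2 v := by
      intro v hv
      have hv' := (mem_filter.1 hv).2
      by_cases ht : Typical ε C V α w v
      · have hnc : ¬ Comp' ((9 * C ^ 3 / ε ^ 3) ^ 2 * T) α w v := fun h => hv' ⟨ht, h⟩
        have : ∃ a b, a ≠ b ∧ Jump 2 8 T α w a b v := by
          by_contra hcon
          push Not at hcon
          exact hnc (comp'_of_not_jump hS hVC hε0 hε1 hT1 ht hcon)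
        obtain ⟨a, b, hab, hjj⟩ := this
        refine mem_union_right _ (mem_biUnion.2 ⟨(a, b), mem_filter.2 ⟨mem_univ _, hab⟩, ?_⟩)
        exact mem_filter.2 ⟨mem_univ _, ht, hjj⟩
      · exact mem_union_left _ (mem_filter.2 ⟨mem_univ _, ht⟩)
    have h1 := card_not_typical hS hε0
    have h2 : ∀ p : Fin 3 × Fin 3, p.1 ≠ p.2 →
        (#(univ.filter fun v => Typical ε C V α w v ∧ Jump 2 8 T α w p.1 p.2 v) : ℝ) ≤
          δ / 12 * Fintype.card R := by
      intro p hp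
      have h := hjump R V α w hS T (by linarith) p.1 p.2 hp
      have hTpos : 0 < T := by linarith
      have : (#(univ.filter fun v => Typical ε C V α w v ∧ Jump 2 8 T α w p.1 p.2 v) : ℝ) * T ≤
          (δ / 12 * Fintype.card R) * T := by
        refine h.trans ?_
        have h3 : C' ≤ δ / 12 * T := by
          rw [div_le_iff₀ hδ] at hT2
          linarith
        calc C' * (Fintype.card R : ℝ) ≤ (δ / 12 * T) * Fintype.card R :=
              mul_le_mul_of_nonneg_right h3 hN.le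
          _ = _ := by ring
      exact le_of_mul_le_mul_right this hTpos
    have h3 : (#(univ.filter fun v => ¬ (Typical ε C V α w v ∧
        Comp' ((9 * C ^ 3 / ε ^ 3) ^ 2 * T) α w v)) : ℝ) ≤
        #(univ.filter fun v => ¬ Typical ε C V α w v) +
        ∑ p ∈ (univ.filter fun p : Fin 3 × Fin 3 => p.1 ≠ p.2),
          (#(univ.filter fun v => Typical ε C V α w v ∧ Jump 2 8 T α w p.1 p.2 v) : ℝ) := by
      have := (card_le_card hsub).trans ((card_union_le _ _).trans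
        (add_le_add le_rfl card_biUnion_le))
      exact_mod_cast this
    have h4 : (∑ p ∈ (univ.filter fun p : Fin 3 × Fin 3 => p.1 ≠ p.2),
          (#(univ.filter fun v => Typical ε C V α w v ∧ Jump 2 8 T α w p.1 p.2 v) : ℝ)) ≤
          ∑ _p ∈ (univ.filter fun p : Fin 3 × Fin 3 => p.1 ≠ p.2), δ / 12 * (Fintype.card R : ℝ) :=
      sum_le_sum fun p hp => h2 p (mem_filter.1 hp).2
    have hcard : #(univ.filter fun p : Fin 3 × Fin 3 => p.1 ≠ p.2) = 6 := by
      rw [← fin3_card]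
    rw [sum_const, hcard] at h4
    have h5 : 18 * ε * Fintype.card R ≤ δ / 2 * (Fintype.card R : ℝ) :=
      mul_le_mul_of_nonneg_right (by linarith) hN.le
    simp only [nsmul_eq_mul, Nat.cast_ofNat] at h4
    linarith

end Crest.Agent.R51.Add
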