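/-
Row 51 (S0070), section B9 (additive theorem), 9.4 + 9.5 : COMMON SCALE (helper789).
-/
import Crest.Agent.R51.AddComp

set_option autoImplicit false

noncomputable section

open Finset Classical

namespace Crest.Agent.R51.Add

section basic
variable {R : Type*} [Fintype R] {a : R → ℝ} {w : R → ℕ}

lemma gg_near789 {v v' : R} {r δ : ℝ} (h : |a v - a v'| ≤ δ) :
    gg a w v r ≤ gg a w v' (r + δ) := by
  unfold gg
  apply card_le_card
  apply image_subset_image
  intro u hu
  rw [mem_Iv] at hu ⊢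
  calc |a u - a v'| = |(a u - a v) + (a v - a v')| := by ring_nf
    _ ≤ |a u - a v| + |a v - a v'| := abs_add_le _ _
    _ ≤ r + δ := add_le_add hu h

lemma gg_neg789 {v : R} {r : ℝ} (hr : r < 0) : gg a w v r = 0 := by
  unfold gg
  rw [Iv_empty_of_neg hr]
  simp

/-- threshold property : `σ` is the least radius with `t ≤ gg` -/
def Thr (a : R → ℝ) (w : R → ℕ) (t : ℝ) (v : R) (σ : ℝ) : Prop :=
  0 ≤ σ ∧ t ≤ (gg a w v σ : ℝ) ∧ ∀ r : ℝ, r < σ → (gg a w v r : ℝ) < t

/-- existence of the threshold radius -/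
lemma exists_thr (v : R) {t : ℝ} (ht : 0 < t) (htR : t ≤ (#(univ.image w) : ℝ)) :
    ∃ σ : ℝ, Thr a w t v σ := by
  set D : Finset ℝ := (univ.image fun u => |a u - a v|).filter
    fun ρ => t ≤ (gg a w v ρ : ℝ) with hD
  obtain ⟨u0, -, hmax⟩ := Finset.exists_max_image univ (fun u => |a u - a v|) ⟨v, mem_univ v⟩
  have hDne : D.Nonempty := by
    refine ⟨|a u0 - a v|, ?_⟩
    rw [hD, mem_filter]
    refine ⟨mem_image_of_mem _ (mem_univ _), ?_⟩
    have : Iv a v (|a u0 - a v|) = univ := by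
      ext u
      simp only [mem_Iv, mem_univ, iff_true]
      exact hmax u (mem_univ _)
    unfold gg
    rw [this]
    exact htR
  refine ⟨D.min' hDne, ?_, ?_, ?_⟩
  · have h1 := (mem_filter.1 (D.min'_mem hDne)).1
    obtain ⟨u, _, hu⟩ := mem_image.1 h1
    rw [← hu]
    exact abs_nonneg _
  · exact (mem_filter.1 (D.min'_mem hDne)).2
  · intro r hr
    by_contra hcon
    push Not at hcon
    have hr0 : 0 ≤ r := by
      by_contra h
      push Not at h
      rw [gg_neg789 h] at hcon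
      simp at hcon
      linarith
    have hne : (Iv a v r).Nonempty := ⟨v, self_mem_Iv hr0⟩
    obtain ⟨u1, hu1, hmax1⟩ := Finset.exists_max_image _ (fun u => |a u - a v|) hne
    rw [mem_Iv] at hu1
    have heq : Iv a v r = Iv a v (|a u1 - a v|) := by
      ext u
      constructor
      · intro h1
        rw [mem_Iv]
        exact hmax1 u h1
      · intro h1
        rw [mem_Iv] at h1 ⊢
        exact h1.trans hu1
    have hmem : |a u1 - a v| ∈ D := by
      rw [hD, mem_filter]
      refine ⟨mem_image_of_mem _ (mem_univ _), ?_⟩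
      unfold gg at hcon ⊢
      rw [← heq]
      exact hcon
    have := D.min'_le _ hmem
    linarith

/-- another label within `s/2` on the left -/
def Lft (a : R → ℝ) (w : R → ℕ) (v : R) (s : ℝ) : Prop :=
  ∃ p, w p ≠ w v ∧ a p ≤ a v ∧ a v - a p ≤ s / 2

/-- another label within `s/2` on the right -/
def Rgt (a : R → ℝ) (w : R → ℕ) (v : R) (s : ℝ) : Prop :=
  ∃ p, w p ≠ w v ∧ a v ≤ a p ∧ a p - a v ≤ s / 2

lemma side_of_two {v : R} {s : ℝ} (h : 2 ≤ gg a w v (s / 2)) :
    Lft a w v s ∨ Rgt a w v s := by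
  unfold gg at h
  have h1 : 1 < #((Iv a v (s / 2)).image w) := h
  rw [Finset.one_lt_card_iff_nontrivial] at h1
  obtain ⟨b, hb, hbv⟩ := h1.exists_ne (w v)
  obtain ⟨p, hp', rfl⟩ := Finset.mem_image.1 hb
  have hp1 := mem_Iv.1 hp'
  rcases le_total (a p) (a v) with h2 | h2
  · left
    refine ⟨p, hbv, h2, ?_⟩
    rw [abs_le] at hp1
    linarith [hp1.1]
  · right
    refine ⟨p, hbv, h2, ?_⟩
    rw [abs_le] at hp1
    linarith [hp1.2]

lemma Thr.le_of {t : ℝ} {v : R} {σ r : ℝ} (h : Thr a w t v σ) (hr : t ≤ (gg a w v r : ℝ)) :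
    σ ≤ r := by
  by_contra hc
  push Not at hc
  linarith [h.2.2 r hc]

lemma Thr.lip {t : ℝ} {v v' : R} {σ σ' δ : ℝ} (h : Thr a w t v σ) (h' : Thr a w t v' σ')
    (hd : |a v - a v'| ≤ δ) : σ' ≤ σ + δ := by
  apply h'.le_of
  refine h.2.1.trans ?_
  exact_mod_cast gg_near789 hd

lemma Thr.pos (hoc : OrdConv a w) {t : ℝ} (ht : 1 < t) {v : R} {σ : ℝ} (h : Thr a w t v σ) :
    0 < σ := by
  rcases h.1.eq_or_lt with h0 | h0
  · exfalso
    have := h.2.1
    rw [← h0, gg_zero hoc v] at this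
    simp at this
    linarith
  · exact h0

lemma cmp_left (hoc : OrdConv a w) {t : ℝ} {v v' : R} {σ σ' : ℝ}
    (hw : w v = w v') (hvv : a v ≤ a v') (h : Thr a w t v σ) (h' : Thr a w t v' σ')
    (hL : Lft a w v' σ') : σ' ≤ 2 * σ ∧ σ ≤ 2 * σ' := by
  obtain ⟨p, hpw, hp1, hp2⟩ := hL
  have hpv : a p < a v := by
    by_contra hc
    push Not at hc
    exact hpw ((hoc v v' p hw hc hp1).trans hw)
  have hd : |a v - a v'| ≤ σ' / 2 := by
    rw [abs_le]; constructor <;> linarith
  have hd' : |a v' - a v| ≤ σ' / 2 := by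
    rw [abs_sub_comm]; exact hd
  have h1 := h.lip h' hd
  have h2 := h'.lip h hd'
  constructor
  · linarith
  · linarith [h'.1]

lemma cmp_right (hoc : OrdConv a w) {t : ℝ} {v v' : R} {σ σ' : ℝ}
    (hw : w v = w v') (hvv : a v ≤ a v') (h : Thr a w t v σ) (h' : Thr a w t v' σ')
    (hL : Rgt a w v σ) : σ' ≤ 2 * σ ∧ σ ≤ 2 * σ' := by
  obtain ⟨p, hpw, hp1, hp2⟩ := hL
  have hpv : a v' < a p := by
    by_contra hc
    push Not at hc
    exact hpw (hoc v v' p hw hp1 hc)
  have hd : |a v - a v'| ≤ σ / 2 := by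
    rw [abs_le]; constructor <;> linarith
  have hd' : |a v' - a v| ≤ σ / 2 := by
    rw [abs_sub_comm]; exact hd
  have h1 := h.lip h' hd
  have h2 := h'.lip h hd'
  constructor
  · linarith [h.1]
  · linarith

/-- 9.4 : two points of the same label and the same side have comparable thresholds -/
lemma cmp_same (hoc : OrdConv a w) {t : ℝ} {v v' : R} {σ σ' : ℝ}
    (hw : w v = w v') (h : Thr a w t v σ) (h' : Thr a w t v' σ')
    (h2 : 2 ≤ gg a w v (σ / 2)) (h2' : 2 ≤ gg a w v' (σ' / 2))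
    (hty : Lft a w v σ ↔ Lft a w v' σ') : σ' ≤ 2 * σ ∧ σ ≤ 2 * σ' := by
  by_cases hL : Lft a w v σ
  · have hL' := hty.1 hL
    rcases le_total (a v) (a v') with hvv | hvv
    · exact cmp_left hoc hw hvv h h' hL'
    · exact (cmp_left hoc hw.symm hvv h' h hL).symm
  · have hL' : ¬ Lft a w v' σ' := fun hc => hL (hty.2 hc)
    have hR : Rgt a w v σ := (side_of_two h2).resolve_left hL
    have hR' : Rgt a w v' σ' := (side_of_two h2').resolve_left hL'
    rcases le_total (a v) (a v') with hvv | hvv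
    · exact cmp_right hoc hw hvv h h' hR
    · exact (cmp_right hoc hw.symm hvv h' h hR').symm

end basic

/-! ### fibre counting with real bounds -/

lemma card_le_real {α β : Type*} [DecidableEq β] (s : Finset α) (f : α → β) (B : ℝ)
    (h : ∀ b ∈ s.image f, ((s.filter fun x => f x = b).card : ℝ) ≤ B) :
    (s.card : ℝ) ≤ (s.image f).card * B := by
  rw [Finset.card_eq_sum_card_image f s]
  push_cast
  calc ∑ b ∈ s.image f, ((s.filter fun x => f x = b).card : ℝ)
      ≤ ∑ b ∈ s.image f, B := Finset.sum_le_sum h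
    _ = (s.image f).card * B := by rw [Finset.sum_const, nsmul_eq_mul]

lemma card_ge_real {α β : Type*} [DecidableEq β] (s : Finset α) (f : α → β) (A : Finset β) (B : ℝ)
    (h : ∀ b ∈ A, B ≤ ((s.filter fun x => f x = b).card : ℝ)) :
    (A.card : ℝ) * B ≤ (s.card : ℝ) := by
  have h1 : ∑ b ∈ A, (s.filter fun x => f x = b).card ≤ s.card := by
    rw [← Finset.card_biUnion]
    · apply Finset.card_le_card
      intro x hx
      simp only [mem_biUnion, mem_filter] at hx
      obtain ⟨b, _, hx, _⟩ := hx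
      exact hx
    · intro b _ c _ hbc
      rw [Function.onFun, Finset.disjoint_left]
      intro x hx hx'
      simp only [mem_filter] at hx hx'
      exact hbc (hx.2.symm.trans hx'.2)
  calc (A.card : ℝ) * B = ∑ b ∈ A, B := by rw [Finset.sum_const, nsmul_eq_mul]
    _ ≤ ∑ b ∈ A, ((s.filter fun x => f x = b).card : ℝ) := Finset.sum_le_sum h
    _ ≤ s.card := by exact_mod_cast h1

lemma exists_fiber {α β : Type*} [DecidableEq β] (s : Finset α) (hs : s.Nonempty) (f : α → β) :
    ∃ b ∈ s.image f, (s.card : ℝ) ≤ (s.image f).card * (s.filter fun x => f x = b).card := by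
  obtain ⟨b, hb, hmax⟩ := Finset.exists_max_image (s.image f)
    (fun b => ((s.filter fun x => f x = b).card : ℝ)) (hs.image f)
  exact ⟨b, hb, card_le_real s f _ hmax⟩

section setting
variable {R : Type*} [Fintype R] {C V : ℝ} {α : Fin 3 → R → ℝ} {w : Fin 3 → R → ℕ}

lemma Setting.V_pos789 (hS : Setting C V α w) : 0 < V := lt_of_lt_of_le one_pos hS.one_le_V

lemma Setting.C_pos789 (hS : Setting C V α w) : 0 < C := lt_of_lt_of_le one_pos hS.one_le_C

lemma Setting.fib_le789 (hS : Setting C V α w) (i : Fin 3) (b : ℕ) :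
    (#(fib (w i) b) : ℝ) ≤ C * Fintype.card R / V := by
  rw [le_div_iff₀ hS.V_pos789]
  exact hS.A2 i b

/-- number of labels is at least `V / C` -/
lemma Setting.labels_ge789 (hS : Setting C V α w) (i : Fin 3) : V / C ≤ (#(univ.image (w i)) : ℝ) := by
  have h := card_le_real (univ : Finset R) (w i) (C * Fintype.card R / V) (by
    intro b _
    have := hS.fib_le789 i b
    unfold fib at this
    exact this)
  rw [card_univ] at h
  have hN := hS.card_pos
  have hV := hS.V_pos789
  have hC := hS.C_pos789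
  have h2 : (Fintype.card R : ℝ) * V ≤ (#(univ.image (w i)) : ℝ) * (C * Fintype.card R) := by
    calc (Fintype.card R : ℝ) * V ≤ (#(univ.image (w i)) : ℝ) * (C * Fintype.card R / V) * V :=
          mul_le_mul_of_nonneg_right h hV.le
      _ = _ := by field_simp
  rw [div_le_iff₀ hC]
  have h3 : (Fintype.card R : ℝ) * V ≤ Fintype.card R * ((#(univ.image (w i)) : ℝ) * C) := by
    linarith
  exact le_of_mul_le_mul_left h3 hN

/-- mass of an interval -/
lemma Setting.iv_le789 (hS : Setting C V α w) (i : Fin 3) (v : R) (r : ℝ) :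
    (#(Iv (α i) v r) : ℝ) ≤ gg (α i) (w i) v r * (C * Fintype.card R / V) := by
  apply card_le_real
  intro b _
  refine le_trans ?_ (hS.fib_le789 i b)
  have : (Iv (α i) v r).filter (fun x => w i x = b) ⊆ fib (w i) b := by
    intro x hx
    rw [mem_fib]
    exact (mem_filter.1 hx).2
  exact_mod_cast card_le_card this

/-- exceptional points are jump points -/
lemma exc_jump {C5 t σ : ℝ} (hC5 : 1 ≤ C5) (ht : 1 < t) {v : R} {i j : Fin 3}
    (hoc : OrdConv (α i) (w i))
    (hc : Comp' C5 α w v) (h : Thr (α i) (w i) t v σ) (hg : ¬ 2 ≤ gg (α i) (w i) v (σ / 2)) :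
    Jump C5 32 (t / C5) α w i j v := by
  have hσ : 0 < σ := h.pos hoc ht
  have hC5' : 0 < C5 := lt_of_lt_of_le one_pos hC5
  have hg' : (gg (α i) (w i) v (σ / 2) : ℝ) ≤ 1 := by
    have : gg (α i) (w i) v (σ / 2) ≤ 1 := by omega
    exact_mod_cast this
  refine ⟨4 * σ, by linarith, ?_, ?_, ?_, ?_⟩
  · have h1 : gg (α i) (w i) v (4 * σ / 32) ≤ gg (α i) (w i) v (σ / 2) := gg_mono (by linarith)
    have h2 : (gg (α i) (w i) v (4 * σ / 32) : ℝ) ≤ gg (α i) (w i) v (σ / 2) := by exact_mod_cast h1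
    linarith
  · have h1 := hc j i (4 * σ / 32) (by linarith)
    have h3 : 4 * (4 * σ / 32) = σ / 2 := by ring
    rw [h3] at h1
    calc (gg (α j) (w j) v (4 * σ / 32) : ℝ) ≤ C5 * gg (α i) (w i) v (σ / 2) := h1
      _ ≤ C5 * 1 := mul_le_mul_of_nonneg_left hg' hC5'.le
      _ = C5 := mul_one _
  · have h1 : gg (α i) (w i) v σ ≤ gg (α i) (w i) v (4 * σ) := gg_mono (by linarith)
    have h2 : (gg (α i) (w i) v σ : ℝ) ≤ gg (α i) (w i) v (4 * σ) := by exact_mod_cast h1
    have h3 : t / C5 ≤ t := div_le_self (by linarith) hC5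
    linarith [h.2.1]
  · have h1 := hc i j σ hσ
    rw [div_le_iff₀ hC5']
    linarith [h.2.1]

/-- fixed-scale regularity -/
lemma Setting.reg (hS : Setting C V α w) (i : Fin 3) (S : Finset R) {r D : ℝ} (hr : 0 < r)
    (hD : 0 ≤ D)
    (h4 : ∀ v ∈ S, 4 ≤ gg (α i) (w i) v (2048 * r))
    (hbad : ∀ v ∈ S, D * gg (α i) (w i) v r ≤ gg (α i) (w i) v (2048 * r)) :
    (#S : ℝ) * D ≤ 8194 * C ^ 2 * Fintype.card R := by
  obtain ⟨P, hPc, hP⟩ := exists_reps (α i) (w i) (hS.conv i)
  set κ : R → ℤ := fun v => ⌊α i v / r⌋ with hκ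
  have hch : ∀ k ∈ S.image κ, ∃ v ∈ S, κ v = k := by
    intro k hk
    obtain ⟨v, hv, hvk⟩ := mem_image.1 hk
    exact ⟨v, hv, hvk⟩
  have := hS.nonempty
  choose! pt hpt hptk using hch
  have hN := hS.card_pos
  have hV := hS.V_pos789
  have hC := hS.C_pos789
  set N : ℝ := (Fintype.card R : ℝ) with hNdef
  -- mass of one cell
  have hcell : ∀ k ∈ S.image κ, (#(S.filter fun x => κ x = k) : ℝ) * D ≤
      2 * (#(P ∩ Iv (α i) (pt k) (2048 * r)) : ℝ) * (C * N / V) := by
    intro k hk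
    have hsub : (S.filter fun x => κ x = k) ⊆ Iv (α i) (pt k) r := by
      intro x hx
      have hx2 := (mem_filter.1 hx).2
      have hk2 := hptk k hk
      rw [mem_Iv]
      simp only [hκ] at hx2 hk2
      have h1 : ⌊α i x / r⌋ = ⌊α i (pt k) / r⌋ := hx2.trans hk2.symm
      have h2 := Int.abs_sub_lt_one_of_floor_eq_floor h1
      rw [← sub_div, abs_div, abs_of_pos hr, div_lt_one hr] at h2
      exact h2.le
    have h1 : (#(S.filter fun x => κ x = k) : ℝ) ≤ #(Iv (α i) (pt k) r) := by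
      exact_mod_cast card_le_card hsub
    have h2 := hS.iv_le789 i (pt k) r
    have h3 := hbad (pt k) (hpt k hk)
    have h5 := h4 (pt k) (hpt k hk)
    have h6 := hP (pt k) (2048 * r)
    have h7 : gg (α i) (w i) (pt k) (2048 * r) ≤ 2 * #(P ∩ Iv (α i) (pt k) (2048 * r)) := by
      omega
    have h8 : (gg (α i) (w i) (pt k) (2048 * r) : ℝ) ≤
        2 * #(P ∩ Iv (α i) (pt k) (2048 * r)) := by exact_mod_cast h7
    have h9 : 0 ≤ C * N / V := by positivity
    calc (#(S.filter fun x => κ x = k) : ℝ) * D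
        ≤ (gg (α i) (w i) (pt k) r * (C * N / V)) * D :=
          mul_le_mul_of_nonneg_right (h1.trans h2) hD
      _ = (D * gg (α i) (w i) (pt k) r) * (C * N / V) := by ring
      _ ≤ (2 * #(P ∩ Iv (α i) (pt k) (2048 * r))) * (C * N / V) :=
          mul_le_mul_of_nonneg_right (h3.trans h8) h9
  -- total number of representatives
  have hrep : ∑ k ∈ S.image κ, #(P ∩ Iv (α i) (pt k) (2048 * r)) ≤ #P * 4097 := by
    have h1 : ∀ k, #(P ∩ Iv (α i) (pt k) (2048 * r)) =
        ∑ p ∈ P, if |α i p - α i (pt k)| ≤ 2048 * r then 1 else 0 := by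
      intro k
      rw [← Finset.card_filter]
      congr 1
      ext p
      simp only [mem_inter, mem_Iv, mem_filter]
    simp_rw [h1]
    rw [Finset.sum_comm]
    have h2 : ∀ p ∈ P, (∑ k ∈ S.image κ, if |α i p - α i (pt k)| ≤ 2048 * r then 1 else 0) ≤
        4097 := by
      intro p _
      rw [← Finset.card_filter]
      have hsub : ((S.image κ).filter fun k => |α i p - α i (pt k)| ≤ 2048 * r) ⊆
          Finset.Icc (⌊α i p / r⌋ - 2048) (⌊α i p / r⌋ + 2048) := by
        intro k hk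
        obtain ⟨hk1, hk2⟩ := mem_filter.1 hk
        have hk3 := hptk k hk1
        simp only [hκ] at hk3
        rw [abs_le] at hk2
        rw [mem_Icc, ← hk3]
        constructor
        · have : ⌊α i p / r⌋ - 2048 = ⌊α i p / r - 2048⌋ := by
            rw [show (2048 : ℝ) = ((2048 : ℤ) : ℝ) by norm_num, Int.floor_sub_intCast]
          rw [this]
          apply Int.floor_mono
          rw [le_div_iff₀ hr, sub_mul, div_mul_cancel₀ _ hr.ne']
          linarith [hk2.2]
        · have : ⌊α i p / r⌋ + 2048 = ⌊α i p / r + 2048⌋ := by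
            rw [show (2048 : ℝ) = ((2048 : ℤ) : ℝ) by norm_num, Int.floor_add_intCast]
          rw [this]
          apply Int.floor_mono
          rw [div_le_iff₀ hr, add_mul, div_mul_cancel₀ _ hr.ne']
          linarith [hk2.1]
      refine (card_le_card hsub).trans ?_
      rw [Int.card_Icc]
      omega
    calc (∑ p ∈ P, ∑ k ∈ S.image κ, if |α i p - α i (pt k)| ≤ 2048 * r then 1 else 0)
        ≤ ∑ p ∈ P, 4097 := Finset.sum_le_sum h2
      _ = #P * 4097 := by rw [Finset.sum_const, smul_eq_mul]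
  have hPle : (#P : ℝ) ≤ C * V := by
    rw [hPc]
    exact hS.A1 i
  have h9 : 0 ≤ C * N / V := by positivity
  calc (#S : ℝ) * D = (∑ k ∈ S.image κ, (#(S.filter fun x => κ x = k) : ℝ)) * D := by
        rw [Finset.card_eq_sum_card_image κ S]
        push_cast
        rfl
    _ = ∑ k ∈ S.image κ, (#(S.filter fun x => κ x = k) : ℝ) * D := by rw [Finset.sum_mul]
    _ ≤ ∑ k ∈ S.image κ, 2 * (#(P ∩ Iv (α i) (pt k) (2048 * r)) : ℝ) * (C * N / V) :=
        Finset.sum_le_sum hcell
    _ = 2 * (∑ k ∈ S.image κ, (#(P ∩ Iv (α i) (pt k) (2048 * r)) : ℝ)) * (C * N / V) := by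
        rw [Finset.mul_sum, Finset.sum_mul]
    _ ≤ 2 * ((#P : ℝ) * 4097) * (C * N / V) := by
        apply mul_le_mul_of_nonneg_right _ h9
        apply mul_le_mul_of_nonneg_left _ (by norm_num)
        exact_mod_cast hrep
    _ ≤ 2 * ((C * V) * 4097) * (C * N / V) := by
        apply mul_le_mul_of_nonneg_right _ h9
        apply mul_le_mul_of_nonneg_left _ (by norm_num)
        exact mul_le_mul_of_nonneg_right hPle (by norm_num)
    _ = 8194 * C ^ 2 * N := by
        field_simp
        ring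

end setting

end Crest.Agent.R51.Add
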