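/-
Row 51 (S0070), section B9 (additive theorem), 9.5 : COMMON SCALE, main statement (helper789).
-/
import Crest.Agent.R51.AddScale

set_option autoImplicit false

noncomputable section

open Finset Classical

namespace Crest.Agent.R51.Add

section main
variable {R : Type*} [Fintype R] {C V : ℝ} {α : Fin 3 → R → ℝ} {w : Fin 3 → R → ℕ}

set_option maxHeartbeats 2000000 in
theorem common_scale_core (hS : Setting C V α w) {C5 CJ T : ℝ} (hC5 : 1 ≤ C5) (hCJ : 1 ≤ CJ)
    (hT0 : 0 < T) (hTV : T * T = V) (hT : 24 * C * C5 * CJ ≤ T) (Ty : Finset R)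
    (hTy : 3 * (Fintype.card R : ℝ) ≤ 4 * #Ty) (hcomp : ∀ v ∈ Ty, Comp' C5 α w v)
    (hjump : ∀ t : ℝ, 0 < t → ∀ i j, i ≠ j →
      (#(Ty.filter fun v => Jump C5 32 (t / C5) α w i j v) : ℝ) * t ≤ CJ * Fintype.card R) :
    ∃ rh : ℝ, 0 < rh ∧ ∃ R3 : Finset R, R3 ⊆ Ty ∧
      (Fintype.card R : ℝ) ≤ (256 * C ^ 3) * #R3 ∧
      ∀ v ∈ R3, ∀ i, (gg (α i) (w i) v rh : ℝ) ≤ (2 ^ 22 * C ^ 5 * C5 ^ 2) * T ∧
        T ≤ C5 ^ 2 * gg (α i) (w i) v (4 * rh) := by
  have hN := hS.card_pos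
  have hV := hS.V_pos789
  have hC := hS.C_pos789
  have hC1 := hS.one_le_C
  have hC50 : 0 < C5 := lt_of_lt_of_le one_pos hC5
  have hCJ0 : 0 < CJ := lt_of_lt_of_le one_pos hCJ
  set N : ℝ := (Fintype.card R : ℝ) with hNdef
  -- products
  have hCC5 : C * C5 ≤ C * C5 * CJ := by
    have : C * C5 * 1 ≤ C * C5 * CJ := mul_le_mul_of_nonneg_left hCJ (by positivity)
    linarith
  have hT1 : 24 * (C * C5) ≤ T := by nlinarith
  have h1CC5 : 1 ≤ C * C5 := by nlinarith
  have hC5le : C5 ≤ C * C5 := by nlinarith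
  have hT24 : 24 * C5 ≤ T := by linarith
  have hTge : 24 ≤ T := by linarith
  -- the thresholds exist
  have hlab : ∀ i : Fin 3, C5 * T ≤ (#(univ.image (w i)) : ℝ) := by
    intro i
    refine le_trans ?_ (hS.labels_ge789 i)
    rw [le_div_iff₀ hC, ← hTV]
    have : C5 * T * C = (C * C5) * T := by ring
    rw [this]
    exact mul_le_mul_of_nonneg_right (by linarith) hT0.le
  have hTC5 : T ≤ C5 * T := by nlinarith
  have hTdiv : T / C5 ≤ T := div_le_self hT0.le hC5
  have hTdivpos : 1 < T / C5 := by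
    rw [lt_div_iff₀ hC50]; linarith
  have hTdiv4 : 4 ≤ T / C5 := by
    rw [le_div_iff₀ hC50]; linarith
  have e3 : ∀ v : R, ∃ σ : ℝ, Thr (α 2) (w 2) T v σ := fun v =>
    exists_thr v hT0 (hTC5.trans (hlab 2))
  have el : ∀ v : R, ∃ σ : ℝ, Thr (α 0) (w 0) (T / C5) v σ := fun v =>
    exists_thr v (by linarith) (hTdiv.trans (hTC5.trans (hlab 0)))
  have eh : ∀ v : R, ∃ σ : ℝ, Thr (α 0) (w 0) (C5 * T) v σ := fun v =>
    exists_thr v (by linarith) (hlab 0)
  choose s3 hs3 using e3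
  choose sl hsl using el
  choose sh hsh using eh
  -- exceptional points
  set R0 : Finset R := Ty.filter fun v => 2 ≤ gg (α 2) (w 2) v (s3 v / 2) ∧
    2 ≤ gg (α 0) (w 0) v (sl v / 2) ∧ 2 ≤ gg (α 0) (w 0) v (sh v / 2) with hR0
  have h24 : ∀ n : ℕ, ∀ t : ℝ, T / C5 ≤ t → (n : ℝ) * t ≤ CJ * N → (n : ℝ) ≤ N / 24 := by
    intro n t ht hn
    have h1 : (n : ℝ) * (T / C5) ≤ CJ * N :=
      (mul_le_mul_of_nonneg_left ht (Nat.cast_nonneg n)).trans hn
    have h2 : (n : ℝ) * T ≤ C5 * CJ * N := by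
      rw [mul_div_assoc', div_le_iff₀ hC50] at h1
      linarith
    have h3 : 24 * (C5 * CJ) ≤ T := by
      have : C5 * CJ ≤ C * (C5 * CJ) := by
        have h0 : 0 ≤ C5 * CJ := by positivity
        nlinarith
      nlinarith
    have h4 : (n : ℝ) * (24 * (C5 * CJ)) ≤ C5 * CJ * N :=
      (mul_le_mul_of_nonneg_left h3 (Nat.cast_nonneg n)).trans h2
    have h5 : 0 < C5 * CJ := by positivity
    have h6 : (C5 * CJ) * ((n : ℝ) * 24) ≤ (C5 * CJ) * N := by linarith
    have := le_of_mul_le_mul_left h6 h5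
    linarith
  have hR0card : 5 / 8 * N ≤ (#R0 : ℝ) := by
    have hE : ∀ (i j : Fin 3) (hij : i ≠ j) (t : ℝ) (s : R → ℝ), T / C5 ≤ t → 
        (∀ v, Thr (α i) (w i) t v (s v)) →
        (#(Ty.filter fun v => ¬ 2 ≤ gg (α i) (w i) v (s v / 2)) : ℝ) ≤ N / 24 := by
      intro i j hij t s ht hs
      refine h24 _ t ht (le_trans ?_ (hjump t (by linarith) i j hij))
      apply mul_le_mul_of_nonneg_right _ (by linarith)
      have : (Ty.filter fun v => ¬ 2 ≤ gg (α i) (w i) v (s v / 2)) ⊆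
          Ty.filter fun v => Jump C5 32 (t / C5) α w i j v := by
        intro v hv
        rw [mem_filter] at hv ⊢
        exact ⟨hv.1, exc_jump hC5 (by linarith) (hS.conv i) (hcomp v hv.1) (hs v) hv.2⟩
      exact_mod_cast card_le_card this
    have h3 := hE 2 0 (by decide) T s3 hTdiv hs3
    have hl := hE 0 1 (by decide) (T / C5) sl le_rfl hsl
    have hh := hE 0 1 (by decide) (C5 * T) sh (hTdiv.trans hTC5) hsh
    have hsub : Ty ⊆ R0 ∪ ((Ty.filter fun v => ¬ 2 ≤ gg (α 2) (w 2) v (s3 v / 2)) ∪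
        ((Ty.filter fun v => ¬ 2 ≤ gg (α 0) (w 0) v (sl v / 2)) ∪
        (Ty.filter fun v => ¬ 2 ≤ gg (α 0) (w 0) v (sh v / 2)))) := by
      intro v hv
      simp only [hR0, mem_union, mem_filter]
      tauto
    have h1 := card_le_card hsub
    have h2 : (#Ty : ℝ) ≤ #R0 + (N / 24 + (N / 24 + N / 24)) := by
      have := (h1.trans (card_union_le _ _)).trans (Nat.add_le_add_left
        ((card_union_le _ _).trans (Nat.add_le_add_left (card_union_le _ _) _)) _)
      have h4 : (#Ty : ℝ) ≤ #R0 + (#(Ty.filter fun v => ¬ 2 ≤ gg (α 2) (w 2) v (s3 v / 2)) +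
        (#(Ty.filter fun v => ¬ 2 ≤ gg (α 0) (w 0) v (sl v / 2)) +
        #(Ty.filter fun v => ¬ 2 ≤ gg (α 0) (w 0) v (sh v / 2)))) := by exact_mod_cast this
      linarith
    linarith
  -- typed labels
  set τ : R → ℕ × Bool × Bool := fun v => (w 0 v, decide (Lft (α 0) (w 0) v (sl v)),
    decide (Lft (α 0) (w 0) v (sh v))) with hτ
  set R1 : Finset R := R0.filter fun v => N ≤ 32 * C * V * #(R0.filter fun u => τ u = τ v) with hR1
  have hR1card : N / 2 ≤ (#R1 : ℝ) := by
    have h1 := card_le_real (R0.filter fun v => ¬ N ≤ 32 * C * V * #(R0.filter fun u => τ u = τ v))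
      τ (N / (32 * C * V)) (by
        intro b hb
        obtain ⟨v, hv, rfl⟩ := mem_image.1 hb
        rw [mem_filter] at hv
        have h2 := hv.2
        push Not at h2
        rw [le_div_iff₀ (by positivity)]
        have h3 : (#((R0.filter fun v => ¬ N ≤ 32 * C * V *
            #(R0.filter fun u => τ u = τ v)).filter fun x => τ x = τ v) : ℝ) ≤
            #(R0.filter fun u => τ u = τ v) := by
          have : ((R0.filter fun v => ¬ N ≤ 32 * C * V *
            #(R0.filter fun u => τ u = τ v)).filter fun x => τ x = τ v) ⊆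
              R0.filter fun u => τ u = τ v := by
            intro x hx
            rw [mem_filter, mem_filter] at hx
            rw [mem_filter]
            exact ⟨hx.1.1, hx.2⟩
          exact_mod_cast card_le_card this
        nlinarith [mul_le_mul_of_nonneg_left h3 (by positivity : (0 : ℝ) ≤ 32 * C * V)])
    have h2 : (#((R0.filter fun v => ¬ N ≤ 32 * C * V *
        #(R0.filter fun u => τ u = τ v)).image τ) : ℝ) ≤ C * V * 4 := by
      have h3 : ((R0.filter fun v => ¬ N ≤ 32 * C * V *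
        #(R0.filter fun u => τ u = τ v)).image τ) ⊆
          (univ.image (w 0)) ×ˢ (univ : Finset (Bool × Bool)) := by
        intro b hb
        obtain ⟨v, hv, rfl⟩ := mem_image.1 hb
        rw [mem_product]
        exact ⟨mem_image_of_mem _ (mem_univ _), mem_univ _⟩
      have h4 := card_le_card h3
      rw [card_product] at h4
      have h5 : #(univ : Finset (Bool × Bool)) = 4 := by decide
      rw [h5] at h4
      have h6 : (#((R0.filter fun v => ¬ N ≤ 32 * C * V *
        #(R0.filter fun u => τ u = τ v)).image τ) : ℝ) ≤ #(univ.image (w 0)) * 4 := by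
        exact_mod_cast h4
      linarith [hS.A1 0]
    have h3 : (#(R0.filter fun v => ¬ N ≤ 32 * C * V * #(R0.filter fun u => τ u = τ v)) : ℝ) ≤
        N / 8 := by
      refine h1.trans ?_
      calc _ ≤ C * V * 4 * (N / (32 * C * V)) := mul_le_mul_of_nonneg_right h2 (by positivity)
        _ = N / 8 := by field_simp; norm_num
    have h4 : (#R0 : ℝ) = #R1 +
        #(R0.filter fun v => ¬ N ≤ 32 * C * V * #(R0.filter fun u => τ u = τ v)) := by
      rw [hR1]
      exact_mod_cast (card_filter_add_card_filter_not _).symm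
    linarith
  have hR1ne : R1.Nonempty := by
    rw [← card_pos]
    have : (0 : ℝ) < #R1 := by linarith
    exact_mod_cast this
  -- choice of the label c0 and the side
  set κ : R → ℕ × Bool := fun v => (w 2 v, decide (Lft (α 2) (w 2) v (s3 v))) with hκ
  obtain ⟨b, hb, hBcard⟩ := exists_fiber R1 hR1ne κ
  set B : Finset R := R1.filter fun x => κ x = b with hB
  have hB1 : N / (4 * C * V) ≤ (#B : ℝ) := by
    have h2 : (#(R1.image κ) : ℝ) ≤ C * V * 2 := by
      have h3 : (R1.image κ) ⊆ (univ.image (w 2)) ×ˢ (univ : Finset Bool) := by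
        intro b hb
        obtain ⟨v, hv, rfl⟩ := mem_image.1 hb
        rw [mem_product]
        exact ⟨mem_image_of_mem _ (mem_univ _), mem_univ _⟩
      have h4 := card_le_card h3
      rw [card_product] at h4
      have h5 : #(univ : Finset Bool) = 2 := by decide
      rw [h5] at h4
      have h6 : (#(R1.image κ) : ℝ) ≤ #(univ.image (w 2)) * 2 := by
        exact_mod_cast h4
      linarith [hS.A1 2]
    have h3 : N / 2 ≤ C * V * 2 * #B :=
      (hR1card.trans hBcard).trans (mul_le_mul_of_nonneg_right h2 (Nat.cast_nonneg _))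
    rw [div_le_iff₀ (by positivity)]
    linarith
  have hBpos : (0 : ℝ) < #B := lt_of_lt_of_le (by positivity) hB1
  have hBne : B.Nonempty := by
    rw [← card_pos]
    exact_mod_cast hBpos
  -- number of labels of coordinate 0 on B
  have hL : V / (4 * C ^ 2) ≤ (#(B.image (w 0)) : ℝ) := by
    have h1 := card_le_real B (w 0) (C * N / V ^ 2) (by
      intro a ha
      have h2 := hS.A3 0 2 (by decide) a b.1
      rw [le_div_iff₀ (by positivity)]
      refine le_trans ?_ h2
      apply mul_le_mul_of_nonneg_right _ (by positivity)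
      have : (B.filter fun x => w 0 x = a) ⊆ fib (w 0) a ∩ fib (w 2) b.1 := by
        intro x hx
        rw [mem_filter, hB, mem_filter] at hx
        rw [mem_inter, mem_fib, mem_fib]
        refine ⟨hx.2, ?_⟩
        rw [← hx.1.2]
      exact_mod_cast card_le_card this)
    have h2 := hB1.trans h1
    have h3 : N / (4 * C * V) * (V ^ 2 / (C * N)) ≤
        (#(B.image (w 0)) : ℝ) * (C * N / V ^ 2) * (V ^ 2 / (C * N)) :=
      mul_le_mul_of_nonneg_right h2 (by positivity)
    have h4 : N / (4 * C * V) * (V ^ 2 / (C * N)) = V / (4 * C ^ 2) := by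
      field_simp
    have h5 : (#(B.image (w 0)) : ℝ) * (C * N / V ^ 2) * (V ^ 2 / (C * N)) = #(B.image (w 0)) := by
      field_simp
    rw [h4, h5] at h3
    exact h3
  -- R2
  set R2 : Finset R := R0.filter fun v' => ∃ v ∈ B, τ v' = τ v with hR2
  have hR2card : N / (128 * C ^ 3) ≤ (#R2 : ℝ) := by
    have h1 := card_ge_real R2 (w 0) (B.image (w 0)) (N / (32 * C * V)) (by
      intro a ha
      obtain ⟨v, hv, rfl⟩ := mem_image.1 ha
      have hv1 : v ∈ R1 := (mem_filter.1 hv).1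
      have h2 : N ≤ 32 * C * V * #(R0.filter fun u => τ u = τ v) := (mem_filter.1 hv1).2
      have h3 : (#(R0.filter fun u => τ u = τ v) : ℝ) ≤ #(R2.filter fun x => w 0 x = w 0 v) := by
        have : (R0.filter fun u => τ u = τ v) ⊆ R2.filter fun x => w 0 x = w 0 v := by
          intro x hx
          rw [mem_filter] at hx
          rw [mem_filter, hR2, mem_filter]
          refine ⟨⟨hx.1, v, hv, hx.2⟩, ?_⟩
          have := congrArg Prod.fst hx.2
          exact this
        exact_mod_cast card_le_card this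
      rw [div_le_iff₀ (by positivity)]
      have := mul_le_mul_of_nonneg_left h3 (by positivity : (0 : ℝ) ≤ 32 * C * V)
      linarith)
    have h2 : V / (4 * C ^ 2) * (N / (32 * C * V)) ≤ (#(B.image (w 0)) : ℝ) * (N / (32 * C * V)) :=
      mul_le_mul_of_nonneg_right hL (by positivity)
    have h3 : V / (4 * C ^ 2) * (N / (32 * C * V)) = N / (128 * C ^ 3) := by
      field_simp
      norm_num
    rw [h3] at h2
    exact h2.trans h1
  -- the scale
  obtain ⟨v0, hv0⟩ := hBne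
  set x : ℝ := s3 v0 with hx
  have hBR0 : ∀ v ∈ B, v ∈ R0 := fun v hv => (mem_filter.1 (mem_filter.1 hv).1).1
  have hR0Ty : ∀ v ∈ R0, v ∈ Ty := fun v hv => (mem_filter.1 hv).1
  have hxpos : 0 < x := (hs3 v0).pos (hS.conv 2) (by linarith)
  have h3cmp : ∀ v ∈ B, s3 v ≤ 2 * x ∧ x ≤ 2 * s3 v := by
    intro v hv
    have h1 : κ v0 = κ v := by
      rw [(mem_filter.1 hv0).2, (mem_filter.1 hv).2]
    have h2 : w 2 v0 = w 2 v := congrArg Prod.fst h1
    have h3 : (Lft (α 2) (w 2) v0 (s3 v0) ↔ Lft (α 2) (w 2) v (s3 v)) := by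
      have := congrArg Prod.snd h1
      simpa only [hκ, decide_eq_decide] using this
    exact cmp_same (hS.conv 2) h2 (hs3 v0) (hs3 v) (mem_filter.1 (hBR0 v0 hv0)).2.1
      (mem_filter.1 (hBR0 v hv)).2.1 h3
  have hlB : ∀ v ∈ B, sl v ≤ 8 * x := by
    intro v hv
    apply (hsl v).le_of
    have h1 := hcomp v (hR0Ty v (hBR0 v hv)) 2 0 (2 * x) (by linarith)
    have h2 : (4 * (2 * x)) = 8 * x := by ring
    rw [h2] at h1
    have h3 : (gg (α 2) (w 2) v (s3 v) : ℝ) ≤ gg (α 2) (w 2) v (2 * x) := by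
      exact Nat.cast_le.2 (gg_mono (h3cmp v hv).1)
    rw [div_le_iff₀ hC50]
    linarith [(hs3 v).2.1]
  have hhB : ∀ v ∈ B, x / 8 ≤ sh v := by
    intro v hv
    by_contra hcon
    push Not at hcon
    have hpos : 0 < sh v := (hsh v).pos (hS.conv 0) (by linarith)
    have h1 := hcomp v (hR0Ty v (hBR0 v hv)) 0 2 (sh v) hpos
    have h2 := (hs3 v).2.2 (4 * sh v) (by linarith [(h3cmp v hv).2])
    have h3 := (hsh v).2.1
    have h4 : C5 * (gg (α 2) (w 2) v (4 * sh v) : ℝ) < C5 * T := mul_lt_mul_of_pos_left h2 hC50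
    linarith
  have hR2R0 : ∀ v ∈ R2, v ∈ R0 := fun v hv => (mem_filter.1 hv).1
  have hlo : ∀ v ∈ R2, T / C5 ≤ (gg (α 0) (w 0) v (16 * x) : ℝ) := by
    intro v' hv'
    obtain ⟨v, hv, hvt⟩ := (mem_filter.1 hv').2
    have h2 : w 0 v = w 0 v' := (congrArg Prod.fst hvt).symm
    have h3 : (Lft (α 0) (w 0) v (sl v) ↔ Lft (α 0) (w 0) v' (sl v')) := by
      have := congrArg (fun z => z.2.1) hvt.symm
      simpa only [hτ, decide_eq_decide] using this
    have h4 := cmp_same (hS.conv 0) h2 (hsl v) (hsl v') (mem_filter.1 (hBR0 v hv)).2.2.1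
      (mem_filter.1 (hR2R0 v' hv')).2.2.1 h3
    have h5 : (gg (α 0) (w 0) v' (sl v') : ℝ) ≤ gg (α 0) (w 0) v' (16 * x) := by
      exact Nat.cast_le.2 (gg_mono (by linarith [hlB v hv, h4.1]))
    linarith [(hsl v').2.1]
  have hhi : ∀ v ∈ R2, (gg (α 0) (w 0) v (x / 32) : ℝ) < C5 * T := by
    intro v' hv'
    obtain ⟨v, hv, hvt⟩ := (mem_filter.1 hv').2
    have h2 : w 0 v = w 0 v' := (congrArg Prod.fst hvt).symm
    have h3 : (Lft (α 0) (w 0) v (sh v) ↔ Lft (α 0) (w 0) v' (sh v')) := by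
      have := congrArg (fun z => z.2.2) hvt.symm
      simpa only [hτ, decide_eq_decide] using this
    have h4 := cmp_same (hS.conv 0) h2 (hsh v) (hsh v') (mem_filter.1 (hBR0 v hv)).2.2.2
      (mem_filter.1 (hR2R0 v' hv')).2.2.2 h3
    exact (hsh v').2.2 _ (by linarith [hhB v hv, h4.2])
  -- fixed scale regularity
  set D : ℝ := 2 ^ 22 * C ^ 5 with hD
  have hDpos : 0 < D := by positivity
  set S : Finset R := R2.filter fun v => ¬ (gg (α 0) (w 0) v (64 * x) : ℝ) <
    D * gg (α 0) (w 0) v (x / 32) with hSdef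
  set R3 : Finset R := R2.filter fun v => (gg (α 0) (w 0) v (64 * x) : ℝ) <
    D * gg (α 0) (w 0) v (x / 32) with hR3
  have h64 : ∀ v ∈ R2, (4 : ℝ) ≤ gg (α 0) (w 0) v (64 * x) := by
    intro v hv
    have h1 : (gg (α 0) (w 0) v (16 * x) : ℝ) ≤ gg (α 0) (w 0) v (64 * x) := by
      exact Nat.cast_le.2 (gg_mono (by linarith))
    linarith [hlo v hv]
  have hScard : (#S : ℝ) * D ≤ 8194 * C ^ 2 * N := by
    have h2048 : 2048 * (x / 32) = 64 * x := by ring
    apply hS.reg 0 S (r := x / 32) (by linarith) hDpos.le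
    · intro v hv
      rw [h2048]
      exact_mod_cast h64 v (mem_filter.1 hv).1
    · intro v hv
      rw [h2048]
      have := (mem_filter.1 hv).2
      push Not at this
      exact this
  have hS2 : (#S : ℝ) ≤ N / (256 * C ^ 3) := by
    rw [le_div_iff₀ (by positivity)]
    have h1 : (#S : ℝ) * (256 * C ^ 3) * (2 ^ 14 * C ^ 2) ≤ N * (2 ^ 14 * C ^ 2) := by
      calc (#S : ℝ) * (256 * C ^ 3) * (2 ^ 14 * C ^ 2) = (#S : ℝ) * D := by rw [hD]; ring
        _ ≤ 8194 * C ^ 2 * N := hScard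
        _ = 8194 * (C ^ 2 * N) := by ring
        _ ≤ 2 ^ 14 * (C ^ 2 * N) := mul_le_mul_of_nonneg_right (by norm_num) (by positivity)
        _ = N * (2 ^ 14 * C ^ 2) := by ring
    exact le_of_mul_le_mul_right h1 (by positivity)
  have hsplit : (#R2 : ℝ) = #R3 + #S := by
    rw [hR3, hSdef]
    exact_mod_cast (card_filter_add_card_filter_not _).symm
  refine ⟨16 * x, by linarith, R3, ?_, ?_, ?_⟩
  · intro v hv
    exact hR0Ty v (hR2R0 v (mem_filter.1 hv).1)
  · have h1 : N / (256 * C ^ 3) ≤ (#R3 : ℝ) := by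
      have : N / (128 * C ^ 3) = N / (256 * C ^ 3) + N / (256 * C ^ 3) := by
        field_simp
        norm_num
      linarith
    rw [div_le_iff₀ (by positivity)] at h1
    linarith
  · intro v hv i
    obtain ⟨hv2, hv3⟩ := mem_filter.1 hv
    have hvTy := hR0Ty v (hR2R0 v hv2)
    have h416 : 4 * (16 * x) = 64 * x := by ring
    constructor
    · have h1 := hcomp v hvTy i 0 (16 * x) (by linarith)
      rw [h416] at h1
      have h2 : (gg (α 0) (w 0) v (64 * x) : ℝ) ≤ D * (C5 * T) :=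
        hv3.le.trans (mul_le_mul_of_nonneg_left (hhi v hv2).le hDpos.le)
      calc (gg (α i) (w i) v (16 * x) : ℝ) ≤ C5 * gg (α 0) (w 0) v (64 * x) := h1
        _ ≤ C5 * (D * (C5 * T)) := mul_le_mul_of_nonneg_left h2 hC50.le
        _ = (2 ^ 22 * C ^ 5 * C5 ^ 2) * T := by rw [hD]; ring
    · have h1 := hcomp v hvTy 0 i (16 * x) (by linarith)
      have h2 := hlo v hv2
      rw [div_le_iff₀ hC50] at h2
      have h3 := mul_le_mul_of_nonneg_left h1 hC50.le
      linarith

/-- 9.5 (common scale). -/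
theorem common_scale {C C5 CJ : ℝ} (hC : 1 ≤ C) (hC5 : 1 ≤ C5) (hCJ : 1 ≤ CJ) :
    ∃ K V0 : ℝ, 1 ≤ K ∧ ∀ (R : Type) [Fintype R] (V : ℝ) (α : Fin 3 → R → ℝ)
      (w : Fin 3 → R → ℕ), V0 ≤ V → Setting C V α w → ∀ Ty : Finset R,
      3 * (Fintype.card R : ℝ) ≤ 4 * #Ty → (∀ v ∈ Ty, Comp' C5 α w v) →
      (∀ t : ℝ, 0 < t → ∀ i j, i ≠ j →
        (#(Ty.filter fun v => Jump C5 32 (t / C5) α w i j v) : ℝ) * t ≤ CJ * Fintype.card R) →
      ∃ rh : ℝ, 0 < rh ∧ ∃ R3 : Finset R, R3 ⊆ Ty ∧ (Fintype.card R : ℝ) ≤ K * #R3 ∧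
        ∀ v ∈ R3, ∀ i, (gg (α i) (w i) v rh : ℝ) ≤ K * √V ∧
          √V ≤ K * gg (α i) (w i) v (4 * rh) := by
  have hC0 : 0 < C := by linarith
  have hC50 : 0 < C5 := by linarith
  have hCp : (1 : ℝ) ≤ C ^ 5 := one_le_pow₀ hC
  have hC3p : (1 : ℝ) ≤ C ^ 3 := one_le_pow₀ hC
  have hC5p : (1 : ℝ) ≤ C5 ^ 2 := one_le_pow₀ hC5
  have hC35 : C ^ 3 ≤ C ^ 5 := pow_le_pow_right₀ hC (by norm_num)
  have hK1 : (1 : ℝ) ≤ C ^ 5 * C5 ^ 2 := by nlinarith
  refine ⟨2 ^ 22 * C ^ 5 * C5 ^ 2, (24 * C * C5 * CJ) ^ 2, by nlinarith, ?_⟩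
  intro R _ V α w hV0 hS Ty hTy hcomp hjump
  have hV := hS.V_pos789
  have hT : 24 * C * C5 * CJ ≤ √V := Real.le_sqrt_of_sq_le hV0
  obtain ⟨rh, hrh, R3, hR3, hcard, hmain⟩ := common_scale_core hS hC5 hCJ (T := √V)
    (Real.sqrt_pos.2 hV) (Real.mul_self_sqrt hV.le) hT Ty hTy hcomp hjump
  refine ⟨rh, hrh, R3, hR3, hcard.trans ?_, ?_⟩
  · apply mul_le_mul_of_nonneg_right _ (Nat.cast_nonneg _)
    nlinarith
  · intro v hv i
    refine ⟨(hmain v hv i).1, (hmain v hv i).2.trans ?_⟩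
    apply mul_le_mul_of_nonneg_right _ (Nat.cast_nonneg _)
    nlinarith

end main

/-- 9.5 (e): the common scale, from the no-jump lemma. -/
theorem exists_common_scale (hJ : JumpLemma) (C : ℝ) (hC : 1 ≤ C) :
    ∃ K V0 : ℝ, 1 ≤ K ∧ 1 ≤ V0 ∧ ∀ (R : Type) [Fintype R] (V : ℝ) (α : Fin 3 → R → ℝ)
      (w : Fin 3 → R → ℕ), V0 ≤ V → Setting C V α w →
      ∃ rh : ℝ, 0 < rh ∧ ∃ R3 : Finset R, (Fintype.card R : ℝ) ≤ K * #R3 ∧
        ∀ v ∈ R3, ∀ i, (gg (α i) (w i) v rh : ℝ) ≤ K * √V ∧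
          √V ≤ K * gg (α i) (w i) v (4 * rh) := by
  obtain ⟨ε, C5, V1, hε, hε1, hC5, hV1, hmain⟩ := exists_comp' hJ C hC (1 / 4) (by norm_num)
  obtain ⟨CJ, hCJ, hjump⟩ := hJ C ε C5 32 hC hε hε1 hC5 (by norm_num)
  obtain ⟨K, V2, hK, hcs⟩ := common_scale hC hC5 (CJ := max 1 (CJ * C5)) (le_max_left _ _)
  refine ⟨K, max V1 V2, hK, hV1.trans (le_max_left _ _), ?_⟩
  intro R _ V α w hV hS
  set Ty : Finset R := univ.filter fun v => Typical ε C V α w v ∧ Comp' C5 α w v with hTy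
  have hC50 : 0 < C5 := by linarith
  have hN := hS.card_pos
  obtain ⟨rh, hrh, R3, _, hcard, h3⟩ := hcs R V α w ((le_max_right _ _).trans hV) hS Ty
    (by
      have h1 := hmain R V α w ((le_max_left _ _).trans hV) hS
      have h2 : (Fintype.card R : ℝ) = #Ty +
          #(univ.filter fun v => ¬ (Typical ε C V α w v ∧ Comp' C5 α w v)) := by
        rw [hTy, ← card_univ]
        exact_mod_cast (card_filter_add_card_filter_not _).symm
      linarith)
    (fun v hv => (mem_filter.1 hv).2.2)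
    (by
      intro t ht i j hij
      have h1 := hjump R V α w hS (t / C5) (by positivity) i j hij
      have h2 : (#(Ty.filter fun v => Jump C5 32 (t / C5) α w i j v) : ℝ) ≤
          #(univ.filter fun v => Typical ε C V α w v ∧ Jump C5 32 (t / C5) α w i j v) := by
        have : (Ty.filter fun v => Jump C5 32 (t / C5) α w i j v) ⊆
            univ.filter fun v => Typical ε C V α w v ∧ Jump C5 32 (t / C5) α w i j v := by
          intro v hv
          rw [mem_filter, hTy, mem_filter] at hv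
          rw [mem_filter]
          exact ⟨mem_univ _, hv.1.2.1, hv.2⟩
        exact_mod_cast card_le_card this
      have h3 : (#(univ.filter fun v => Typical ε C V α w v ∧
          Jump C5 32 (t / C5) α w i j v) : ℝ) * t ≤ CJ * C5 * Fintype.card R := by
        rw [mul_div_assoc', div_le_iff₀ hC50] at h1
        linarith
      calc (#(Ty.filter fun v => Jump C5 32 (t / C5) α w i j v) : ℝ) * t
          ≤ (#(univ.filter fun v => Typical ε C V α w v ∧
              Jump C5 32 (t / C5) α w i j v) : ℝ) * t := mul_le_mul_of_nonneg_right h2 ht.le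
        _ ≤ CJ * C5 * Fintype.card R := h3
        _ ≤ max 1 (CJ * C5) * Fintype.card R :=
            mul_le_mul_of_nonneg_right (le_max_right _ _) hN.le)
  exact ⟨rh, hrh, R3, hcard, h3⟩

end Crest.Agent.R51.Add
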