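import Crest.Agent.R51.AddBase
import Crest.Agent.R51.AddGrowth

/-! Row 51, section B9: (H3), averaging over levels, and the contradiction from the cells. -/

set_option autoImplicit false

namespace Crest.Agent.R51.H3

open Finset Classical Pointwise
open Crest.Agent.R51.Growth
open Crest.Agent.R51.Add (fib mem_fib)

/-- Level `j` is good at the point `v` (conditions (a), (b) of (A5)). -/
def Good {R : Type*} (Λ : ℝ) (α : R → ℝ) (wl : ℕ → R → ℕ) (v : R) (j : ℕ) : Prop :=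
  ∃ ρ : ℝ, 0 < ρ ∧ (∀ u, wl j u = wl j v → |α u - α v| ≤ ρ) ∧
    ((∀ u, 0 ≤ α u - α v → α u - α v ≤ Λ * ρ → wl (j - 1) u = wl (j - 1) v) ∨
     (∀ u, 0 ≤ α v - α u → α v - α u ≤ Λ * ρ → wl (j - 1) u = wl (j - 1) v))

/-- The output of the cell decomposition 9.5-9.6. `n = √V`. -/
structure Cells {R : Type*} [Fintype R] (K n : ℝ) (α : R → ℝ) (rh : ℝ) (R' : Finset R)
    (A : Finset ℤ) : Prop where
  rh_pos : 0 < rh
  mem : ∀ v ∈ R', ⌊α v / rh⌋ ∈ A
  low : ∀ a ∈ A, (Fintype.card R : ℝ) ≤ K * n * #(R'.filter fun v => ⌊α v / rh⌋ = a)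
  up : ∀ a ∈ A, n * #(R'.filter fun v => ⌊α v / rh⌋ = a) ≤ K * Fintype.card R
  dbl : (#(A + A) : ℝ) ≤ K * #A
  big : (Fintype.card R : ℝ) ≤ K * #R'

section one
variable {R : Type*} [Fintype R] {K n rh : ℝ} {α : R → ℝ} {R' : Finset R} {A : Finset ℤ}

lemma f_le_two (A : Finset ℤ) (k : ℕ) {r : ℝ} (hr : 0 ≤ r) : (f A k r : ℝ) ≤ 2 * r + 1 := by
  have hsub : Sr A k r ⊆ Icc (-⌊r⌋) ⌊r⌋ := by
    intro z hz
    have hz' := abs_lt.1 (mem_Sr.1 hz).2
    refine mem_Icc.2 ⟨?_, Int.le_floor.2 hz'.2.le⟩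
    have : -z ≤ ⌊r⌋ := Int.le_floor.2 (by push_cast; linarith [hz'.1])
    linarith
  have h1 := card_le_card hsub
  rw [Int.card_Icc] at h1
  have h2 : (f A k r : ℝ) ≤ ((⌊r⌋ + 1 - -⌊r⌋).toNat : ℝ) := by exact_mod_cast h1
  have h0 : (0 : ℤ) ≤ ⌊r⌋ := Int.floor_nonneg.2 hr
  have h3 : (((⌊r⌋ + 1 - -⌊r⌋).toNat : ℤ) : ℝ) = 2 * (⌊r⌋ : ℝ) + 1 := by
    rw [Int.toNat_of_nonneg (by linarith)]; push_cast; ring
  have h4 : ((⌊r⌋ + 1 - -⌊r⌋).toNat : ℝ) = 2 * (⌊r⌋ : ℝ) + 1 := by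
    rw [← h3]; norm_cast
  rw [h4] at h2
  linarith [Int.floor_le r]

/-- count of cells fully inside a set. -/
lemma upper_count (hc : Cells K n α rh R' A) (hK : 0 ≤ K) (hn : 0 ≤ n) (Y : Finset ℤ) (hY : Y ⊆ A)
    (F : Finset R) (hF : ∀ b ∈ Y, ∀ u ∈ R', ⌊α u / rh⌋ = b → u ∈ F) :
    (#Y : ℝ) * Fintype.card R ≤ K * n * #F := by
  have h1 : (#Y : ℝ) * Fintype.card R ≤
      ∑ b ∈ Y, K * n * (#(R'.filter fun v => ⌊α v / rh⌋ = b) : ℝ) := by
    rw [← nsmul_eq_mul, ← sum_const]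
    exact sum_le_sum fun b hb => hc.low b (hY hb)
  rw [← mul_sum] at h1
  refine h1.trans ?_
  apply mul_le_mul_of_nonneg_left _ (mul_nonneg hK hn)
  have h2 : ∑ b ∈ Y, #(R'.filter fun v => ⌊α v / rh⌋ = b) =
      #(Y.biUnion fun b => R'.filter fun v => ⌊α v / rh⌋ = b) := by
    rw [card_biUnion]
    intro x _ y _ hxy
    rw [Function.onFun, disjoint_left]
    intro u hu hu'
    exact hxy ((mem_filter.1 hu).2.symm.trans (mem_filter.1 hu').2)
  have h3 : #(Y.biUnion fun b => R'.filter fun v => ⌊α v / rh⌋ = b) ≤ #F := by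
    apply card_le_card
    intro u hu
    obtain ⟨b, hb, hu⟩ := mem_biUnion.1 hu
    exact hF b hb u (mem_filter.1 hu).1 (mem_filter.1 hu).2
  exact_mod_cast h2.le.trans h3

/-- mass of a set meeting few cells -/
lemma lower_count (hc : Cells K n α rh R' A) (hn : 0 ≤ n) (X : Finset R) (hX : X ⊆ R') :
    n * #X ≤ K * Fintype.card R * #(X.image fun v => ⌊α v / rh⌋) := by
  have hsub : X ⊆ (X.image fun v => ⌊α v / rh⌋).biUnion
      fun b => R'.filter fun v => ⌊α v / rh⌋ = b := by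
    intro u hu
    exact mem_biUnion.2 ⟨_, mem_image_of_mem _ hu, mem_filter.2 ⟨hX hu, rfl⟩⟩
  have h1 := (card_le_card hsub).trans card_biUnion_le
  calc n * #X ≤ n * (∑ b ∈ X.image fun v => ⌊α v / rh⌋,
        #(R'.filter fun v => ⌊α v / rh⌋ = b) : ℕ) :=
        mul_le_mul_of_nonneg_left (by exact_mod_cast h1) hn
    _ = ∑ b ∈ X.image fun v => ⌊α v / rh⌋, n * #(R'.filter fun v => ⌊α v / rh⌋ = b) := by
        push_cast; rw [mul_sum]
    _ ≤ ∑ b ∈ X.image fun v => ⌊α v / rh⌋, K * Fintype.card R := by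
        apply sum_le_sum
        intro b hb
        obtain ⟨u, hu, rfl⟩ := mem_image.1 hb
        exact hc.up _ (hc.mem u (hX hu))
    _ = _ := by rw [sum_const, nsmul_eq_mul]; ring

lemma floor_diff {x y : ℝ} : |((⌊x⌋ - ⌊y⌋ : ℤ) : ℝ)| < |x - y| + 1 := by
  push_cast
  have h1 := Int.floor_le x
  have h2 := Int.lt_floor_add_one x
  have h3 := Int.floor_le y
  have h4 := Int.lt_floor_add_one y
  have h5 := le_abs_self (x - y)
  have h6 := neg_abs_le (x - y)
  rw [abs_lt]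
  constructor <;> linarith

/-- (H3), lower bound -/
lemma h3_lower (hc : Cells K n α rh R' A) (hK : 1 ≤ K) (hn : 0 ≤ n) {v : R} (hv : v ∈ R')
    {ρ : ℝ} (hρ : 0 < ρ) (X : Finset R) (hX : X ⊆ R') (hXρ : ∀ u ∈ X, |α u - α v| ≤ ρ) :
    n * #X ≤ K * Fintype.card R * f A 1 (2 * ρ / rh + 2) := by
  refine (lower_count hc hn X hX).trans ?_
  apply mul_le_mul_of_nonneg_left _ (by positivity)
  have : #(X.image fun v => ⌊α v / rh⌋) ≤ f A 1 (2 * ρ / rh + 2) := by
    apply card_le_card_of_injOn (fun b => b - ⌊α v / rh⌋)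
    · intro b hb
      obtain ⟨u, hu, rfl⟩ := mem_image.1 (mem_coe.1 hb)
      refine mem_coe.2 (mem_Sr.2 ⟨?_, ?_⟩)
      · rw [S, one_nsmul]
        exact sub_mem_sub (hc.mem u (hX hu)) (hc.mem v hv)
      · have h1 := @floor_diff (α u / rh) (α v / rh)
        have h2 : |α u / rh - α v / rh| ≤ ρ / rh := by
          rw [← sub_div, abs_div, abs_of_pos hc.rh_pos]
          exact div_le_div_of_nonneg_right (hXρ u hu) hc.rh_pos.le
        have h3 : 0 < ρ / rh := div_pos hρ hc.rh_pos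
        have h4 : 2 * ρ / rh = 2 * (ρ / rh) := by ring
        rw [h4]
        exact h1.trans_le (by linarith : |α u / rh - α v / rh| + 1 ≤ 2 * (ρ / rh) + 2)
    · intro x _ y _ h
      simpa using h
  exact_mod_cast this

/-- (H3), upper bound, right side -/
lemma h3_upper_right (hc : Cells K n α rh R' A) (hK : 1 ≤ K) (hn : 0 ≤ n) {v : R}
    {ρ Λ : ℝ} (hρ : 2 * rh ≤ ρ) (hΛ : 2 ≤ Λ) (F : Finset R)
    (hF : ∀ u, 0 ≤ α u - α v → α u - α v ≤ Λ * ρ → u ∈ F) :
    ((#(A.filter fun a : ℤ => ((⌊α v / rh⌋ : ℤ) : ℝ) ≤ a ∧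
        (a : ℝ) < (⌊α v / rh⌋ : ℤ) + Λ / 4 * (2 * ρ / rh + 2)) : ℝ) - 1) * Fintype.card R ≤
      K * n * #F := by
  set a0 := ⌊α v / rh⌋ with ha0
  set Y := A.filter fun a : ℤ => (a0 : ℝ) ≤ a ∧ (a : ℝ) < a0 + Λ / 4 * (2 * ρ / rh + 2) with hY
  have hrh := hc.rh_pos
  have h1 : (#(Y.erase a0) : ℝ) * Fintype.card R ≤ K * n * #F := by
    refine upper_count hc (by linarith) hn _ ((erase_subset _ _).trans (filter_subset _ _)) F ?_
    intro b hb u hu hub
    obtain ⟨hb0, hb⟩ := mem_erase.1 hb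
    obtain ⟨hbA, hb1, hb2⟩ := mem_filter.1 hb
    have hlt : a0 < b := lt_of_le_of_ne (by exact_mod_cast hb1) (Ne.symm hb0)
    have hu1 : (b : ℝ) ≤ α u / rh := by rw [← hub]; exact Int.floor_le _
    have hu2 : α u / rh < b + 1 := by rw [← hub]; exact Int.lt_floor_add_one _
    have hv1 : (a0 : ℝ) ≤ α v / rh := Int.floor_le _
    have hv2 : α v / rh < a0 + 1 := Int.lt_floor_add_one _
    have hab : (a0 : ℝ) + 1 ≤ b := by exact_mod_cast hlt
    have e1 : α u = α u / rh * rh := by field_simp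
    have e2 : α v = α v / rh * rh := by field_simp
    apply hF
    · have : α v / rh ≤ α u / rh := by linarith
      rw [e1, e2]
      nlinarith
    · have h3 : α u / rh - α v / rh ≤ Λ / 4 * (2 * ρ / rh + 2) + 1 := by linarith
      have h4 : α u - α v = (α u / rh - α v / rh) * rh := by field_simp
      have h5 : (Λ / 4 * (2 * ρ / rh + 2) + 1) * rh = Λ * ρ / 2 + Λ * rh / 2 + rh := by
        field_simp; ring
      rw [h4]
      refine (mul_le_mul_of_nonneg_right h3 hrh.le).trans ?_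
      rw [h5]
      nlinarith
  refine le_trans ?_ h1
  apply mul_le_mul_of_nonneg_right _ (Nat.cast_nonneg _)
  have : #Y ≤ #(Y.erase a0) + 1 := by
    have := Finset.pred_card_le_card_erase (s := Y) (a := a0); omega
  have : (#Y : ℝ) ≤ #(Y.erase a0) + 1 := by exact_mod_cast this
  linarith

/-- (H3), upper bound, left side -/
lemma h3_upper_left (hc : Cells K n α rh R' A) (hK : 1 ≤ K) (hn : 0 ≤ n) {v : R}
    {ρ Λ : ℝ} (hρ : 2 * rh ≤ ρ) (hΛ : 2 ≤ Λ) (F : Finset R)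
    (hF : ∀ u, 0 ≤ α v - α u → α v - α u ≤ Λ * ρ → u ∈ F) :
    ((#(A.filter fun a : ℤ => ((⌊α v / rh⌋ : ℤ) : ℝ) - Λ / 4 * (2 * ρ / rh + 2) < a ∧
        (a : ℝ) ≤ (⌊α v / rh⌋ : ℤ)) : ℝ) - 1) * Fintype.card R ≤
      K * n * #F := by
  set a0 := ⌊α v / rh⌋ with ha0
  set Y := A.filter fun a : ℤ => (a0 : ℝ) - Λ / 4 * (2 * ρ / rh + 2) < a ∧ (a : ℝ) ≤ a0 with hY
  have hrh := hc.rh_pos
  have h1 : (#(Y.erase a0) : ℝ) * Fintype.card R ≤ K * n * #F := by
    refine upper_count hc (by linarith) hn _ ((erase_subset _ _).trans (filter_subset _ _)) F ?_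
    intro b hb u hu hub
    obtain ⟨hb0, hb⟩ := mem_erase.1 hb
    obtain ⟨hbA, hb1, hb2⟩ := mem_filter.1 hb
    have hlt : b < a0 := lt_of_le_of_ne (by exact_mod_cast hb2) hb0
    have hu1 : (b : ℝ) ≤ α u / rh := by rw [← hub]; exact Int.floor_le _
    have hu2 : α u / rh < b + 1 := by rw [← hub]; exact Int.lt_floor_add_one _
    have hv1 : (a0 : ℝ) ≤ α v / rh := Int.floor_le _
    have hv2 : α v / rh < a0 + 1 := Int.lt_floor_add_one _
    have hab : (b : ℝ) + 1 ≤ a0 := by exact_mod_cast hlt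
    have e1 : α u = α u / rh * rh := by field_simp
    have e2 : α v = α v / rh * rh := by field_simp
    apply hF
    · have : α u / rh ≤ α v / rh := by linarith
      rw [e1, e2]
      nlinarith
    · have h3 : α v / rh - α u / rh ≤ Λ / 4 * (2 * ρ / rh + 2) + 1 := by linarith
      have h4 : α v - α u = (α v / rh - α u / rh) * rh := by field_simp
      have h5 : (Λ / 4 * (2 * ρ / rh + 2) + 1) * rh = Λ * ρ / 2 + Λ * rh / 2 + rh := by
        field_simp; ring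
      rw [h4]
      refine (mul_le_mul_of_nonneg_right h3 hrh.le).trans ?_
      rw [h5]
      nlinarith
  refine le_trans ?_ h1
  apply mul_le_mul_of_nonneg_right _ (Nat.cast_nonneg _)
  have : #Y ≤ #(Y.erase a0) + 1 := by
    have := Finset.pred_card_le_card_erase (s := Y) (a := a0); omega
  have : (#Y : ℝ) ≤ #(Y.erase a0) + 1 := by exact_mod_cast this
  linarith

end one

section two
variable {R : Type*} [Fintype R] {K n rh : ℝ} {α : R → ℝ} {R' : Finset R} {A : Finset ℤ}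

/-- (H3) for one good heavy level. -/
lemma level_radius (hc : Cells K n α rh R' A) (hK : 1 ≤ K) (hn : 0 ≤ n) (hR : 0 < Fintype.card R)
    {v : R} (hv : v ∈ R') {C M Λ ε ε' : ℝ} {wl : ℕ → R → ℕ} {j : ℕ} (hΛ : 2 ≤ Λ) (hM : 1 ≤ M)
    (hC : 1 ≤ C) (hε' : 0 < ε')
    (hnM : 13 * K * M ^ j ≤ ε * n) (hnM1 : M ^ (j - 1) ≤ n)
    (hgr : ∀ r : ℝ, 0 < r → ε' * f A 1 r < #(A.filter fun a : ℤ =>
      ((⌊α v / rh⌋ : ℤ) : ℝ) ≤ a ∧ (a : ℝ) < (⌊α v / rh⌋ : ℤ) + r))
    (hgl : ∀ r : ℝ, 0 < r → ε' * f A 1 r < #(A.filter fun a : ℤ =>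
      ((⌊α v / rh⌋ : ℤ) : ℝ) - r < a ∧ (a : ℝ) ≤ (⌊α v / rh⌋ : ℤ)))
    (hg : Good Λ α wl v j)
    (hfib : (#(fib (wl (j - 1)) (wl (j - 1) v)) : ℝ) * M ^ (j - 1) ≤ C * Fintype.card R)
    (hheavy : ε * Fintype.card R ≤ #(R'.filter fun u => wl j u = wl j v) * M ^ j) :
    ∃ r : ℝ, 0 < r ∧ ε * n ≤ K * M ^ j * f A 1 r ∧
      ε' * f A 1 (Λ / 4 * r) * M ^ (j - 1) ≤ (C * K + 1) * n := by
  obtain ⟨ρ, hρ, hga, hgb⟩ := hg
  have hrh := hc.rh_pos
  have hRr : (0 : ℝ) < Fintype.card R := by exact_mod_cast hR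
  have hMj : 0 < M ^ j := by positivity
  have hMj1 : 0 < M ^ (j - 1) := by positivity
  set r := 2 * ρ / rh + 2 with hr
  have hr0 : 0 < r := by positivity
  have hlow : ε * n ≤ K * M ^ j * f A 1 r := by
    have h1 := h3_lower hc hK hn hv hρ (R'.filter fun u => wl j u = wl j v) (filter_subset _ _)
      (fun u hu => hga u (mem_filter.1 hu).2)
    rw [← hr] at h1
    have h2 : (ε * n) * Fintype.card R ≤ (K * M ^ j * f A 1 r) * Fintype.card R := by
      calc (ε * n) * Fintype.card R = n * (ε * Fintype.card R) := by ring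
        _ ≤ n * (#(R'.filter fun u => wl j u = wl j v) * M ^ j) :=
            mul_le_mul_of_nonneg_left hheavy hn
        _ = (n * #(R'.filter fun u => wl j u = wl j v)) * M ^ j := by ring
        _ ≤ (K * Fintype.card R * f A 1 r) * M ^ j := mul_le_mul_of_nonneg_right h1 hMj.le
        _ = _ := by ring
    exact le_of_mul_le_mul_right h2 hRr
  have hρ2 : 2 * rh ≤ ρ := by
    have h1 := f_le_two A 1 hr0.le
    have h2 : 13 * (K * M ^ j) ≤ (2 * r + 1) * (K * M ^ j) := by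
      calc 13 * (K * M ^ j) = 13 * K * M ^ j := by ring
        _ ≤ ε * n := hnM
        _ ≤ K * M ^ j * f A 1 r := hlow
        _ ≤ K * M ^ j * (2 * r + 1) := mul_le_mul_of_nonneg_left h1 (by positivity)
        _ = _ := by ring
    have h3 : 13 ≤ 2 * r + 1 := le_of_mul_le_mul_right h2 (by positivity)
    have h4 : 2 ≤ ρ / rh := by
      have : 2 * ρ / rh = 2 * (ρ / rh) := by ring
      rw [hr, this] at h3; linarith
    rwa [le_div_iff₀ hrh] at h4
  refine ⟨r, hr0, hlow, ?_⟩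
  have hr' : 0 < Λ / 4 * r := by positivity
  have key : ∀ y : ℝ, (y - 1) * Fintype.card R ≤
      K * n * #(fib (wl (j - 1)) (wl (j - 1) v)) → ε' * f A 1 (Λ / 4 * r) < y →
      ε' * f A 1 (Λ / 4 * r) * M ^ (j - 1) ≤ (C * K + 1) * n := by
    intro y hy1 hy2
    have h1 : (y - 1) * M ^ (j - 1) ≤ C * K * n := by
      have : ((y - 1) * M ^ (j - 1)) * Fintype.card R ≤ (C * K * n) * Fintype.card R := by
        calc ((y - 1) * M ^ (j - 1)) * Fintype.card R
            = ((y - 1) * Fintype.card R) * M ^ (j - 1) := by ring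
          _ ≤ (K * n * #(fib (wl (j - 1)) (wl (j - 1) v))) * M ^ (j - 1) :=
              mul_le_mul_of_nonneg_right hy1 hMj1.le
          _ = (K * n) * (#(fib (wl (j - 1)) (wl (j - 1) v)) * M ^ (j - 1)) := by ring
          _ ≤ (K * n) * (C * Fintype.card R) :=
              mul_le_mul_of_nonneg_left hfib (by positivity)
          _ = _ := by ring
      exact le_of_mul_le_mul_right this hRr
    calc ε' * f A 1 (Λ / 4 * r) * M ^ (j - 1) ≤ y * M ^ (j - 1) :=
          mul_le_mul_of_nonneg_right hy2.le hMj1.le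
      _ = (y - 1) * M ^ (j - 1) + M ^ (j - 1) := by ring
      _ ≤ C * K * n + n := add_le_add h1 hnM1
      _ = _ := by ring
  rcases hgb with hgb | hgb
  · exact key _ (h3_upper_right hc hK hn hρ2 hΛ (fib (wl (j - 1)) (wl (j - 1) v))
      (fun u h1 h2 => mem_fib.2 (hgb u h1 h2))) (hgr _ hr')
  · exact key _ (h3_upper_left hc hK hn hρ2 hΛ (fib (wl (j - 1)) (wl (j - 1) v))
      (fun u h1 h2 => mem_fib.2 (hgb u h1 h2))) (hgl _ hr')

/-- averaging over levels -/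
lemma averaging (n1 : ℕ) (η : ℝ) (G : R → Finset ℕ) (hG : ∀ v, G v ⊆ Icc 1 n1)
    (hGη : ∀ v, η * n1 ≤ #(G v)) (R2 : Finset R) (hne : R2.Nonempty) (P : R → ℕ → Prop) (D : ℝ)
    (hD : ∀ j ∈ Icc 1 n1, (#(R2.filter fun v => j ∈ G v ∧ ¬ P v j) : ℝ) ≤ D)
    (hD2 : D ≤ η / 2 * #R2) :
    η / 2 * n1 ≤ #((Icc 1 n1).filter fun j => ∃ v ∈ R2, j ∈ G v ∧ P v j) := by
  set J := (Icc 1 n1).filter fun j => ∃ v ∈ R2, j ∈ G v ∧ P v j with hJ
  have hR2 : (0 : ℝ) < #R2 := by exact_mod_cast card_pos.2 hne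
  have h1 : ∀ v ∈ R2, η * n1 ≤ (#J : ℝ) + #((Icc 1 n1).filter fun j => j ∈ G v ∧ ¬ P v j) := by
    intro v hv
    refine (hGη v).trans ?_
    have : G v ⊆ J ∪ ((Icc 1 n1).filter fun j => j ∈ G v ∧ ¬ P v j) := by
      intro j hj
      by_cases hP : P v j
      · exact mem_union_left _ (mem_filter.2 ⟨hG v hj, v, hv, hj, hP⟩)
      · exact mem_union_right _ (mem_filter.2 ⟨hG v hj, hj, hP⟩)
    exact_mod_cast (card_le_card this).trans (card_union_le _ _)
  have h2 := sum_le_sum h1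
  rw [sum_const, nsmul_eq_mul, sum_add_distrib, sum_const, nsmul_eq_mul] at h2
  have h3 : ∑ v ∈ R2, (#((Icc 1 n1).filter fun j => j ∈ G v ∧ ¬ P v j) : ℝ) =
      ∑ j ∈ Icc 1 n1, (#(R2.filter fun v => j ∈ G v ∧ ¬ P v j) : ℝ) := by
    exact_mod_cast sum_card_bipartiteAbove_eq_sum_card_bipartiteBelow
      (fun v j => j ∈ G v ∧ ¬ P v j)
  have h4 : ∑ j ∈ Icc 1 n1, (#(R2.filter fun v => j ∈ G v ∧ ¬ P v j) : ℝ) ≤ n1 * D := by
    calc ∑ j ∈ Icc 1 n1, (#(R2.filter fun v => j ∈ G v ∧ ¬ P v j) : ℝ) ≤ ∑ j ∈ Icc 1 n1, D :=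
          sum_le_sum hD
      _ = n1 * D := by rw [sum_const, nsmul_eq_mul, Nat.card_Icc]; simp
  have h5 : (n1 : ℝ) * D ≤ n1 * (η / 2 * #R2) :=
    mul_le_mul_of_nonneg_left hD2 (Nat.cast_nonneg _)
  have h6 : (η / 2 * n1) * #R2 ≤ #J * #R2 := by
    rw [h3] at h2
    nlinarith
  exact le_of_mul_le_mul_right h6 hR2

/-- few points in light fibres -/
lemma light_count (w : R → ℕ) (R' R2 : Finset R) (hsub : R2 ⊆ R') {C M' ε : ℝ} (hM' : 0 < M')
    (hε : 0 ≤ ε) (hL : (#(univ.image w) : ℝ) ≤ C * M') :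
    (#(R2.filter fun v => ¬ (ε * Fintype.card R ≤ #(R'.filter fun u => w u = w v) * M')) : ℝ) ≤
      C * ε * Fintype.card R := by
  set B := R2.filter fun v => ¬ (ε * Fintype.card R ≤ #(R'.filter fun u => w u = w v) * M')
    with hB
  have h1 : #B = ∑ a ∈ univ.image w, #(B.filter fun v => w v = a) :=
    card_eq_sum_card_fiberwise (fun v _ => mem_coe.2 (mem_image_of_mem _ (mem_univ v)))
  have h2 : (#B : ℝ) * M' ≤ (C * ε * Fintype.card R) * M' := by
    rw [h1]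
    push_cast
    rw [sum_mul]
    calc ∑ a ∈ univ.image w, (#(B.filter fun v => w v = a) : ℝ) * M'
        ≤ ∑ a ∈ univ.image w, ε * Fintype.card R := by
          apply sum_le_sum
          intro a _
          rcases (B.filter fun v => w v = a).eq_empty_or_nonempty with h | ⟨v, hv⟩
          · rw [h]; simp; positivity
          · obtain ⟨hvB, hva⟩ := mem_filter.1 hv
            obtain ⟨hv2, hvl⟩ := mem_filter.1 hvB
            push Not at hvl
            refine le_trans ?_ hvl.le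
            apply mul_le_mul_of_nonneg_right _ hM'.le
            have : (B.filter fun v => w v = a) ⊆ R'.filter fun u => w u = w v := by
              intro u hu
              obtain ⟨huB, hua⟩ := mem_filter.1 hu
              exact mem_filter.2 ⟨hsub (mem_filter.1 huB).1, hua.trans hva.symm⟩
            exact_mod_cast card_le_card this
      _ = #(univ.image w) * (ε * Fintype.card R) := by rw [sum_const, nsmul_eq_mul]
      _ ≤ (C * M') * (ε * Fintype.card R) :=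
          mul_le_mul_of_nonneg_right hL (by positivity)
      _ = _ := by ring
  exact le_of_mul_le_mul_right h2 hM'

end two

lemma exists_spaced (J : Finset ℕ) : ∃ s : ℕ → ℕ, ∀ i, i < #J / 3 →
    s i ∈ J ∧ (i + 1 < #J / 3 → s (i + 1) + 3 ≤ s i) := by
  set m := #J with hm
  let e := J.orderEmbOfFin hm.symm
  have hmono : StrictMono e := e.strictMono
  refine ⟨fun i => if h : m - 1 - 3 * i < m then e ⟨m - 1 - 3 * i, h⟩ else 0, ?_⟩
  intro i hi
  have h1 : m - 1 - 3 * i < m := by omega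
  refine ⟨?_, ?_⟩
  · simp only [h1, dif_pos]
    exact Finset.orderEmbOfFin_mem J hm.symm _
  · intro hi'
    have h2 : m - 1 - 3 * (i + 1) < m := by omega
    simp only [h1, h2, dif_pos]
    have h3 : m - 1 - 3 * (i + 1) + 1 < m := by omega
    have h4 : m - 1 - 3 * (i + 1) + 2 < m := by omega
    have a1 : e ⟨m - 1 - 3 * (i + 1), h2⟩ < e ⟨m - 1 - 3 * (i + 1) + 1, h3⟩ := by
      apply hmono; exact Fin.mk_lt_mk.2 (by omega)
    have a2 : e ⟨m - 1 - 3 * (i + 1) + 1, h3⟩ < e ⟨m - 1 - 3 * (i + 1) + 2, h4⟩ := by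
      apply hmono; exact Fin.mk_lt_mk.2 (by omega)
    have a3 : e ⟨m - 1 - 3 * (i + 1) + 2, h4⟩ < e ⟨m - 1 - 3 * i, h1⟩ := by
      apply hmono; exact Fin.mk_lt_mk.2 (by omega)
    omega

lemma Good.of_sign {R : Type*} {Λ ρ s : ℝ} {α : R → ℝ} {wl : ℕ → R → ℕ} {v : R} {j : ℕ}
    (hρ : 0 < ρ) (hs : s = 1 ∨ s = -1) (ha : ∀ u, wl j u = wl j v → |α u - α v| ≤ ρ)
    (hb : ∀ u, 0 ≤ s * (α u - α v) → s * (α u - α v) ≤ Λ * ρ → wl (j - 1) u = wl (j - 1) v) :
    Good Λ α wl v j := by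
  refine ⟨ρ, hρ, ha, ?_⟩
  rcases hs with rfl | rfl
  · left
    intro u h1 h2
    exact hb u (by linarith) (by linarith)
  · right
    intro u h1 h2
    exact hb u (by linarith) (by linarith)

set_option maxHeartbeats 1000000 in
/-- The contradiction of 9.7 from the cell decomposition. -/
theorem cells_contradiction (C K η : ℝ) (hC : 1 ≤ C) (hK : 1 ≤ K) (hη : 0 < η) :
    ∃ mu0 : ℕ, ∀ mu : ℕ, mu0 ≤ mu → ∃ N1 : ℕ, ∀ n1 : ℕ, N1 ≤ n1 → ∀ n : ℝ,
      ((mu : ℝ) ^ 10) ^ (2 * n1) ≤ n →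
      ∀ (R : Type) [Fintype R] [Nonempty R] (α : R → ℝ) (wl : ℕ → R → ℕ) (G : R → Finset ℕ)
        (rh : ℝ) (R' : Finset R) (A : Finset ℤ), Cells K n α rh R' A →
      (∀ v, G v ⊆ Finset.Icc 1 n1 ∧ η * n1 ≤ #(G v)) →
      (∀ v, ∀ j ∈ G v, ∃ ρ : ℝ, 0 < ρ ∧ ∃ s : ℝ, (s = 1 ∨ s = -1) ∧
        (∀ u, wl j u = wl j v → |α u - α v| ≤ ρ) ∧
        (∀ u, 0 ≤ s * (α u - α v) → s * (α u - α v) ≤ (mu : ℝ) ^ 11 * ρ →
          wl (j - 1) u = wl (j - 1) v) ∧
        (#(fib (wl (j - 1)) (wl (j - 1) v)) : ℝ) * ((mu : ℝ) ^ 10) ^ (j - 1) ≤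
          C * Fintype.card R ∧
        (#(univ.image (wl j)) : ℝ) ≤ C * ((mu : ℝ) ^ 10) ^ j) → False := by
  -- constants
  set ε' : ℝ := 1 / (8 * K ^ 6) with hε'
  set ε : ℝ := η / (4 * K * C) with hε
  have hK0 : 0 < K := by linarith
  have hC0 : 0 < C := by linarith
  have hε'0 : 0 < ε' := by positivity
  have hε0 : 0 < ε := by positivity
  set C3 : ℝ := (C * K + 1) * K / (ε * ε') with hC3
  have hC30 : 0 < C3 := by positivity
  obtain ⟨mug, hmug⟩ := growth_contradiction K (max C3 1) hK (le_max_right _ _)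
  refine ⟨max mug (⌈C3⌉₊ + 2), fun mu hmu => ?_⟩
  have hmu1 : mug ≤ mu := (le_max_left _ _).trans hmu
  have hmu2 : ⌈C3⌉₊ + 2 ≤ mu := (le_max_right _ _).trans hmu
  obtain ⟨L0, hL0⟩ := hmug mu hmu1
  have hmu2r : C3 + 2 ≤ mu := by
    have h1 := Nat.le_ceil C3
    have h2 : ((⌈C3⌉₊ + 2 : ℕ) : ℝ) ≤ mu := by exact_mod_cast hmu2
    push_cast at h2; linarith
  have hmur : (2 : ℝ) ≤ mu := by linarith
  set M : ℝ := (mu : ℝ) ^ 10 with hM
  set Λ : ℝ := (mu : ℝ) ^ 11 with hΛ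
  have hmuM : (mu : ℝ) ≤ M := by
    calc (mu : ℝ) = (mu : ℝ) ^ 1 := (pow_one _).symm
      _ ≤ (mu : ℝ) ^ 10 := pow_le_pow_right₀ (by linarith) (by norm_num)
  have hM2 : 2 ≤ M := hmur.trans hmuM
  have hM1 : 1 ≤ M := by linarith
  have hM0 : 0 < M := by linarith
  have hΛ2 : 2 ≤ Λ := by
    have : (mu : ℝ) ^ 1 ≤ (mu : ℝ) ^ 11 := pow_le_pow_right₀ (by linarith) (by norm_num)
    rw [pow_one] at this
    linarith
  have hMC3 : C3 ≤ M := by linarith
  -- choose N1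
  obtain ⟨N2, hN2⟩ := pow_unbounded_of_one_lt (13 * K / ε) (by linarith : 1 < M)
  refine ⟨max N2 ⌈(2 / η) * (3 * L0 + 3)⌉₊, fun n1 hn1 n hn => ?_⟩
  intro R _ _ α wl G rh R' A hc hG hlev
  have hn1a : N2 ≤ n1 := (le_max_left _ _).trans hn1
  have hn1b : (2 / η) * (3 * L0 + 3) ≤ n1 := by
    have h1 := Nat.le_ceil ((2 / η) * (3 * L0 + 3) : ℝ)
    have h2 : ((⌈(2 / η) * (3 * L0 + 3)⌉₊ : ℕ) : ℝ) ≤ n1 := by
      exact_mod_cast (le_max_right _ _).trans hn1
    linarith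
  have hR : 0 < Fintype.card R := Fintype.card_pos
  have hRr : (0 : ℝ) < Fintype.card R := by exact_mod_cast hR
  have hn0 : 0 < n := lt_of_lt_of_le (by positivity) hn
  have hMn : 13 * K / ε ≤ M ^ n1 := hN2.le.trans (pow_le_pow_right₀ hM1 hn1a)
  have hnM : ∀ j ≤ n1, 13 * K * M ^ j ≤ ε * n := by
    intro j hj
    have h1 : M ^ j ≤ M ^ n1 := pow_le_pow_right₀ hM1 hj
    have h2 : 13 * K ≤ M ^ n1 * ε := by rwa [div_le_iff₀ hε0] at hMn
    calc 13 * K * M ^ j ≤ (M ^ n1 * ε) * M ^ n1 :=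
          mul_le_mul h2 h1 (by positivity) (by positivity)
      _ = ε * M ^ (2 * n1) := by rw [two_mul, pow_add]; ring
      _ ≤ ε * n := mul_le_mul_of_nonneg_left hn hε0.le
  have hnM1 : ∀ j ≤ n1, M ^ (j - 1) ≤ n := by
    intro j hj
    exact (pow_le_pow_right₀ hM1 (by omega)).trans hn
  -- R' nonempty, A nonempty
  have hR'ne : R'.Nonempty := by
    rw [nonempty_iff_ne_empty]; intro h
    have := hc.big; rw [h] at this; simp at this
  have hAne : A.Nonempty := by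
    obtain ⟨v, hv⟩ := hR'ne
    exact ⟨_, hc.mem v hv⟩
  have hP : ∀ m k : ℕ, ((m • A - k • A).card : ℝ) ≤ K ^ (m + k) * A.card :=
    plunnecke hAne hc.dbl
  -- good cells
  let br : Finset ℤ := A.filter fun b => ∃ r : ℝ, 0 < r ∧
      ((A.filter (fun a : ℤ => (b : ℝ) ≤ a ∧ (a : ℝ) < b + r)).card : ℝ) ≤ ε' * f A 1 r
  let bl : Finset ℤ := A.filter fun b => ∃ r : ℝ, 0 < r ∧
      ((A.filter (fun a : ℤ => (b : ℝ) - r < a ∧ (a : ℝ) ≤ b)).card : ℝ) ≤ ε' * f A 1 r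
  have hbr : (#br : ℝ) ≤ 2 * ε' * (K ^ 3 * #A) :=
    H2_right' A hP hε'0.le br (filter_subset _ _) (fun b hb => (mem_filter.1 hb).2)
  have hbl : (#bl : ℝ) ≤ 2 * ε' * (K ^ 3 * #A) :=
    H2_left' A hP hε'0.le bl (filter_subset _ _) (fun b hb => (mem_filter.1 hb).2)
  have hAn : (#A : ℝ) ≤ K * n := by
    have h1 := upper_count hc hK0.le hn0.le A (Subset.refl _) univ (fun _ _ _ _ _ => mem_univ _)
    rw [card_univ] at h1
    exact le_of_mul_le_mul_right h1 hRr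
  let R2 : Finset R := R'.filter fun v => ⌊α v / rh⌋ ∉ br ∪ bl
  have hR2 : (Fintype.card R : ℝ) ≤ 2 * K * #R2 := by
    have h1 : (#(R'.filter fun v => ⌊α v / rh⌋ ∈ br ∪ bl) : ℝ) * n ≤
        K * Fintype.card R * #(br ∪ bl) := by
      have h2 := lower_count hc hn0.le (R'.filter fun v => ⌊α v / rh⌋ ∈ br ∪ bl)
        (filter_subset _ _)
      rw [mul_comm]
      refine h2.trans ?_
      apply mul_le_mul_of_nonneg_left _ (by positivity)
      have : ((R'.filter fun v => ⌊α v / rh⌋ ∈ br ∪ bl).image fun v => ⌊α v / rh⌋) ⊆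
          br ∪ bl := by
        intro b hb
        obtain ⟨v, hv, rfl⟩ := mem_image.1 hb
        exact (mem_filter.1 hv).2
      exact_mod_cast card_le_card this
    have h3 : (#(br ∪ bl) : ℝ) ≤ 4 * ε' * K ^ 3 * (K * n) := by
      have h4 : (#(br ∪ bl) : ℝ) ≤ #br + #bl := by exact_mod_cast card_union_le _ _
      have h5 : 2 * ε' * (K ^ 3 * #A) ≤ 2 * ε' * (K ^ 3 * (K * n)) := by gcongr
      linarith
    have h6 : (#(R'.filter fun v => ⌊α v / rh⌋ ∈ br ∪ bl) : ℝ) ≤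
        1 / (2 * K) * Fintype.card R := by
      have h7 : (#(R'.filter fun v => ⌊α v / rh⌋ ∈ br ∪ bl) : ℝ) * n ≤
          (1 / (2 * K) * Fintype.card R) * n := by
        calc (#(R'.filter fun v => ⌊α v / rh⌋ ∈ br ∪ bl) : ℝ) * n
            ≤ K * Fintype.card R * #(br ∪ bl) := h1
          _ ≤ K * Fintype.card R * (4 * ε' * K ^ 3 * (K * n)) :=
              mul_le_mul_of_nonneg_left h3 (by positivity)
          _ = (1 / (2 * K) * Fintype.card R) * n := by
              rw [hε']; field_simp; ring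
      exact le_of_mul_le_mul_right h7 hn0
    have h8 : (#R' : ℝ) = #R2 + #(R'.filter fun v => ⌊α v / rh⌋ ∈ br ∪ bl) := by
      have := card_filter_add_card_filter_not (s := R') (fun v => ⌊α v / rh⌋ ∉ br ∪ bl)
      simp only [not_not] at this
      exact_mod_cast this.symm
    have h9 := hc.big
    rw [h8] at h9
    have h10 : K * (1 / (2 * K) * Fintype.card R) = Fintype.card R / 2 := by field_simp
    have h11 := mul_le_mul_of_nonneg_left h6 hK0.le
    rw [h10] at h11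
    nlinarith
  have hR2ne : R2.Nonempty := by
    rw [nonempty_iff_ne_empty]; intro h
    rw [h] at hR2; simp at hR2
  -- qualifying levels
  let P : R → ℕ → Prop := fun v j =>
    ε * Fintype.card R ≤ #(R'.filter fun u => wl j u = wl j v) * M ^ j
  have hJ := averaging n1 η G (fun v => (hG v).1) (fun v => (hG v).2) R2 hR2ne P
    (C * ε * Fintype.card R) (by
      intro j hj
      by_cases hex : ∃ v ∈ R2, j ∈ G v
      · obtain ⟨v, hv, hjv⟩ := hex
        obtain ⟨ρ, hρ, s, hs, ha, hb, hcc, hd⟩ := hlev v j hjv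
        have h1 := light_count (wl j) R' R2 (filter_subset _ _) (M' := M ^ j) (by positivity)
          hε0.le hd
        refine le_trans ?_ h1
        have : (R2.filter fun v => j ∈ G v ∧ ¬ P v j) ⊆ (R2.filter fun v =>
            ¬ (ε * Fintype.card R ≤ #(R'.filter fun u => wl j u = wl j v) * M ^ j)) := by
          intro u hu
          obtain ⟨hu1, hu2, hu3⟩ := mem_filter.1 hu
          exact mem_filter.2 ⟨hu1, hu3⟩
        exact_mod_cast card_le_card this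
      · have : (R2.filter fun v => j ∈ G v ∧ ¬ P v j) = ∅ := by
          apply filter_eq_empty_iff.2
          intro v hv h
          exact hex ⟨v, hv, h.1⟩
        rw [this]; simp; positivity) (by
      have : C * ε = η / (4 * K) := by rw [hε]; field_simp
      rw [this]
      calc η / (4 * K) * Fintype.card R ≤ η / (4 * K) * (2 * K * #R2) :=
            mul_le_mul_of_nonneg_left hR2 (by positivity)
        _ = η / 2 * #R2 := by field_simp; ring)
  set J := (Icc 1 n1).filter fun j => ∃ v ∈ R2, j ∈ G v ∧ P v j with hJdef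
  have hJc : 3 * L0 + 3 ≤ #J := by
    have h1 : ((3 * L0 + 3 : ℕ) : ℝ) ≤ #J := by
      push_cast
      refine le_trans ?_ hJ
      calc (3 * (L0 : ℝ) + 3) = η / 2 * ((2 / η) * (3 * L0 + 3)) := by field_simp
        _ ≤ η / 2 * n1 := mul_le_mul_of_nonneg_left hn1b (by positivity)
    exact_mod_cast h1
  -- radii
  have hrad : ∀ j ∈ J, ∃ r : ℝ, 0 < r ∧ ε * n ≤ K * M ^ j * f A 1 r ∧
      ε' * f A 1 (Λ / 4 * r) * M ^ (j - 1) ≤ (C * K + 1) * n := by
    intro j hj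
    obtain ⟨hj1, v, hv, hjv, hPv⟩ := mem_filter.1 hj
    obtain ⟨hvR', hvg⟩ := mem_filter.1 hv
    obtain ⟨ρ, hρ, s, hs, ha, hb, hcc, hd⟩ := hlev v j hjv
    have hjn := (mem_Icc.1 hj1).2
    have hcell := hc.mem v hvR'
    rw [mem_union, not_or] at hvg
    refine level_radius hc hK hn0.le hR hvR' hΛ2 hM1 hC hε'0 (hnM j hjn) (hnM1 j hjn) ?_ ?_
      (Good.of_sign hρ hs ha hb) hcc hPv
    · intro r hr
      by_contra hcon
      push Not at hcon
      exact hvg.1 (mem_filter.2 ⟨hcell, r, hr, hcon⟩)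
    · intro r hr
      by_contra hcon
      push Not at hcon
      exact hvg.2 (mem_filter.2 ⟨hcell, r, hr, hcon⟩)
  choose! rr hrr0 hrrL hrrU using hrad
  obtain ⟨sq, hsq⟩ := exists_spaced J
  have hJ3 : L0 + 1 ≤ #J / 3 := by omega
  have hJpos : ∀ j ∈ J, 1 ≤ j := fun j hj => (mem_Icc.1 (mem_filter.1 hj).1).1
  -- (H3)
  have hH3 : ∀ j ∈ J, (f A 1 (Λ / 4 * rr j) : ℝ) ≤ C3 * M * f A 1 (rr j) := by
    intro j hj
    have h1 := hrrU j hj
    have h2 := hrrL j hj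
    have hMj : M ^ j = M ^ (j - 1) * M := by
      rw [← pow_succ, Nat.sub_add_cancel (hJpos j hj)]
    have hMp : 0 < M ^ (j - 1) := by positivity
    have h3 : (ε * ε' * M ^ (j - 1)) * f A 1 (Λ / 4 * rr j) ≤
        (ε * ε' * M ^ (j - 1)) * (C3 * M * f A 1 (rr j)) := by
      calc (ε * ε' * M ^ (j - 1)) * f A 1 (Λ / 4 * rr j)
          = ε * (ε' * f A 1 (Λ / 4 * rr j) * M ^ (j - 1)) := by ring
        _ ≤ ε * ((C * K + 1) * n) := mul_le_mul_of_nonneg_left h1 hε0.le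
        _ = (C * K + 1) * (ε * n) := by ring
        _ ≤ (C * K + 1) * (K * M ^ j * f A 1 (rr j)) :=
            mul_le_mul_of_nonneg_left h2 (by positivity)
        _ = (ε * ε' * M ^ (j - 1)) * (C3 * M * f A 1 (rr j)) := by
            rw [hMj, hC3]; field_simp
    exact le_of_mul_le_mul_left h3 (by positivity)
  have hH3' : ∀ j ∈ J, ∀ j' ∈ J, j' + 3 ≤ j →
      M * (f A 1 (Λ / 4 * rr j) : ℝ) ≤ f A 1 (rr j') := by
    intro j hj j' hj' hjj
    have h1 := hrrU j hj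
    have h2 := hrrL j' hj'
    obtain ⟨d, rfl⟩ := Nat.exists_eq_add_of_le hjj
    have hMj : M ^ (j' + 3 + d - 1) = M ^ j' * M ^ 2 * M ^ d := by
      rw [← pow_add, ← pow_add]; congr 1; omega
    have hMp : 0 < M ^ j' := by positivity
    have hMd : 1 ≤ M ^ d := one_le_pow₀ hM1
    have h3 : (ε * ε' * (M ^ j' * M ^ 2)) * f A 1 (Λ / 4 * rr (j' + 3 + d)) ≤
        (ε * ε' * (M ^ j')) * (C3 * f A 1 (rr j')) := by
      calc (ε * ε' * (M ^ j' * M ^ 2)) * f A 1 (Λ / 4 * rr (j' + 3 + d))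
          ≤ (ε * ε' * (M ^ j' * M ^ 2)) * f A 1 (Λ / 4 * rr (j' + 3 + d)) * M ^ d :=
            le_mul_of_one_le_right (by positivity) hMd
        _ = ε * (ε' * f A 1 (Λ / 4 * rr (j' + 3 + d)) * M ^ (j' + 3 + d - 1)) := by
            rw [hMj]; ring
        _ ≤ ε * ((C * K + 1) * n) := mul_le_mul_of_nonneg_left h1 hε0.le
        _ = (C * K + 1) * (ε * n) := by ring
        _ ≤ (C * K + 1) * (K * M ^ j' * f A 1 (rr j')) :=
            mul_le_mul_of_nonneg_left h2 (by positivity)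
        _ = (ε * ε' * (M ^ j')) * (C3 * f A 1 (rr j')) := by
            rw [hC3]; field_simp
    have h4 : (ε * ε' * (M ^ j')) * (M ^ 2 * f A 1 (Λ / 4 * rr (j' + 3 + d))) ≤
        (ε * ε' * (M ^ j')) * (M * f A 1 (rr j')) := by
      calc (ε * ε' * (M ^ j')) * (M ^ 2 * f A 1 (Λ / 4 * rr (j' + 3 + d)))
          = (ε * ε' * (M ^ j' * M ^ 2)) * f A 1 (Λ / 4 * rr (j' + 3 + d)) := by ring
        _ ≤ (ε * ε' * (M ^ j')) * (C3 * f A 1 (rr j')) := h3
        _ ≤ (ε * ε' * (M ^ j')) * (M * f A 1 (rr j')) := by gcongr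
    have h5 := le_of_mul_le_mul_left h4 (by positivity)
    have h6 : M * (M * f A 1 (Λ / 4 * rr (j' + 3 + d))) ≤ M * f A 1 (rr j') := by
      calc M * (M * f A 1 (Λ / 4 * rr (j' + 3 + d)))
          = M ^ 2 * f A 1 (Λ / 4 * rr (j' + 3 + d)) := by ring
        _ ≤ _ := h5
    exact le_of_mul_le_mul_left h6 hM0
  refine hL0 A hAne hP (fun i => rr (sq i)) (#J / 3) (by omega)
    (hrr0 _ (hsq 0 (by omega)).1) ?_ ?_ ?_
  · intro i hi
    refine (hH3 _ (hsq i hi).1).trans ?_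
    have : C3 ≤ max C3 1 := le_max_left _ _
    gcongr
  · intro i hi
    have hi' : i < #J / 3 := by omega
    have hj := (hsq i hi').1
    have hj' := (hsq (i + 1) hi).1
    have h1 := hH3' _ hj _ hj' ((hsq i hi').2 hi)
    by_contra hcon
    push Not at hcon
    have h2 : (f A 1 (rr (sq (i + 1))) : ℝ) ≤ f A 1 (Λ / 4 * rr (sq i)) := by
      exact_mod_cast f_mono A 1 hcon.le
    have h3 : (1 : ℝ) ≤ f A 1 (Λ / 4 * rr (sq i)) := by
      exact_mod_cast f_pos hAne 1 (by have := hrr0 _ hj; positivity)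
    nlinarith
  · intro i hi
    have hi' : i < #J / 3 := by omega
    exact hH3' _ (hsq i hi').1 _ (hsq (i + 1) hi).1 ((hsq i hi').2 hi)

end Crest.Agent.R51.H3
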