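import Crest.Agent.R51.AddBase

/-! Row 51, section 9.2: the no-jump lemma.  (helper617) -/

set_option autoImplicit false

namespace Crest.Agent.R51.Jump

open Finset Classical Crest.Agent.R51.Add

/-! ### Laminar families: branching elements are at most the minimal ones -/

section laminar
variable {ι : Type*} [PartialOrder ι]

/-- minimal elements -/
noncomputable def Mn (F : Finset ι) : Finset ι := F.filter fun Q => ∀ Z ∈ F, ¬ Z < Q

/-- maximal elements -/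
noncomputable def Mx (F : Finset ι) : Finset ι := F.filter fun Q => ∀ Z ∈ F, ¬ Q < Z

/-- branching -/
def Brn (F : Finset ι) (Q : ι) : Prop :=
  ∃ Q' ∈ F, ∃ Q'' ∈ F, Q' < Q ∧ Q'' < Q ∧ ∀ Z ∈ F, Z < Q → ¬ (Q' ≤ Z ∧ Q'' ≤ Z)

/-- laminar (elements above a common element are comparable) -/
def Lami (F : Finset ι) : Prop :=
  ∀ Q ∈ F, ∀ Q' ∈ F, ∀ Z ∈ F, Z ≤ Q → Z ≤ Q' → Q ≤ Q' ∨ Q' ≤ Q

theorem branch_le (F : Finset ι) (hF : Lami F) :
    #(F.filter (Brn F)) + #(Mx F) ≤ #(Mn F) := by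
  induction F using Finset.strongInduction with
  | H F ih =>
    rcases F.eq_empty_or_nonempty with rfl | hne
    · simp [Mx, Mn]
    obtain ⟨Q₀, hQ₀⟩ := F.exists_maximal hne
    have hQ₀F : Q₀ ∈ F := hQ₀.prop
    have hmax : ∀ Z ∈ F, ¬ Q₀ < Z := fun Z hZ h => h.not_ge (hQ₀.2 hZ h.le)
    set F' := F.erase Q₀ with hF'
    have hsub : F' ⊂ F := erase_ssubset hQ₀F
    have hF'F : ∀ Z ∈ F', Z ∈ F := fun Z hZ => mem_of_mem_erase hZ
    have hF'ne : ∀ Z ∈ F', Z ≠ Q₀ := fun Z hZ => ne_of_mem_erase hZ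
    have hmemF' : ∀ Z ∈ F, Z ≠ Q₀ → Z ∈ F' := fun Z hZ h => mem_erase.2 ⟨h, hZ⟩
    have hF'L : Lami F' := fun Q hQ Q' hQ' Z hZ h h' =>
      hF Q (hF'F Q hQ) Q' (hF'F Q' hQ') Z (hF'F Z hZ) h h'
    have ih' := ih F' hsub hF'L
    set C₀ := (Mx F').filter (fun Z => Z < Q₀) with hC₀
    -- every element below Q₀ lies below an element of C₀
    have key : ∀ Z ∈ F, Z < Q₀ → ∃ Z' ∈ C₀, Z ≤ Z' := by
      intro Z hZ hlt
      have hZ' : Z ∈ F' := hmemF' Z hZ hlt.ne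
      obtain ⟨Z', hZZ', hZ'max⟩ := F'.exists_le_maximal hZ'
      have hZ'F' : Z' ∈ F' := hZ'max.prop
      refine ⟨Z', ?_, hZZ'⟩
      rw [hC₀, mem_filter, Mx, mem_filter]
      refine ⟨⟨hZ'F', fun Y hY h => h.not_ge (hZ'max.2 hY h.le)⟩, ?_⟩
      rcases hF Z' (hF'F _ hZ'F') Q₀ hQ₀F Z hZ hZZ' hlt.le with h | h
      · exact lt_of_le_of_ne h (hF'ne _ hZ'F')
      · exact absurd (lt_of_le_of_ne h (hF'ne _ hZ'F').symm) (hmax _ (hF'F _ hZ'F'))
    have hMx : #(Mx F) + #C₀ ≤ 1 + #(Mx F') := by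
      have h1 : Mx F ⊆ insert Q₀ (Mx F' \ C₀) := by
        intro Q hQ
        rw [Mx, mem_filter] at hQ
        by_cases h : Q = Q₀
        · simp [h]
        · refine mem_insert_of_mem (mem_sdiff.2 ⟨?_, ?_⟩)
          · rw [Mx, mem_filter]
            exact ⟨hmemF' Q hQ.1 h, fun Z hZ => hQ.2 Z (hF'F Z hZ)⟩
          · rw [hC₀, mem_filter]
            exact fun h' => hQ.2 Q₀ hQ₀F h'.2
      have h2 : #(Mx F' \ C₀) = #(Mx F') - #C₀ := by
        rw [card_sdiff_of_subset]; exact filter_subset _ _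
      have h3 : #C₀ ≤ #(Mx F') := card_le_card (filter_subset _ _)
      have h4 := (card_le_card h1).trans (card_insert_le _ _)
      omega
    have hMn : Mn F' ⊆ Mn F := by
      intro Z hZ
      rw [Mn, mem_filter] at hZ ⊢
      refine ⟨hF'F Z hZ.1, fun Y hY h => ?_⟩
      by_cases hY0 : Y = Q₀
      · subst hY0; exact hmax Z (hF'F Z hZ.1) h
      · exact hZ.2 Y (hmemF' Y hY hY0) h
    have hBr : ∀ Q ∈ F', Brn F Q → Brn F' Q := by
      rintro Q hQ ⟨Q', hQ', Q'', hQ'', h1, h2, h3⟩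
      refine ⟨Q', hmemF' Q' hQ' ?_, Q'', hmemF' Q'' hQ'' ?_, h1, h2,
        fun Z hZ => h3 Z (hF'F Z hZ)⟩
      · rintro rfl; exact hmax Q (hF'F Q hQ) h1
      · rintro rfl; exact hmax Q (hF'F Q hQ) h2
    by_cases hb : Brn F Q₀
    · have hC2 : 2 ≤ #C₀ := by
        obtain ⟨Q', hQ', Q'', hQ'', h1, h2, h3⟩ := hb
        obtain ⟨Z', hZ', hle'⟩ := key Q' hQ' h1
        obtain ⟨Z'', hZ'', hle''⟩ := key Q'' hQ'' h2
        have hne : Z' ≠ Z'' := by
          rintro rfl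
          rw [hC₀, mem_filter, Mx, mem_filter] at hZ'
          exact h3 Z' (hF'F _ hZ'.1.1) hZ'.2 ⟨hle', hle''⟩
        have : ({Z', Z''} : Finset ι) ⊆ C₀ := by
          intro x hx
          rcases mem_insert.1 hx with rfl | hx
          · exact hZ'
          · rw [mem_singleton.1 hx]; exact hZ''
        have h5 := card_le_card this
        rwa [card_pair hne] at h5
      have hcard : #(F.filter (Brn F)) ≤ #(F'.filter (Brn F')) + 1 := by
        have : F.filter (Brn F) ⊆ insert Q₀ (F'.filter (Brn F')) := by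
          intro Q hQ
          rw [mem_filter] at hQ
          by_cases h : Q = Q₀
          · simp [h]
          · have hQ' := hmemF' Q hQ.1 h
            exact mem_insert_of_mem (mem_filter.2 ⟨hQ', hBr Q hQ' hQ.2⟩)
        exact (card_le_card this).trans (card_insert_le _ _)
      have := card_le_card hMn
      omega
    · have hcard : #(F.filter (Brn F)) ≤ #(F'.filter (Brn F')) := by
        refine card_le_card fun Q hQ => ?_
        rw [mem_filter] at hQ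
        by_cases h : Q = Q₀
        · exact absurd (h ▸ hQ.2) hb
        · have hQ' := hmemF' Q hQ.1 h
          exact mem_filter.2 ⟨hQ', hBr Q hQ' hQ.2⟩
      rcases C₀.eq_empty_or_nonempty with h0 | h0
      · have hQ₀M : Q₀ ∈ Mn F := by
          rw [Mn, mem_filter]
          refine ⟨hQ₀F, fun Z hZ hlt => ?_⟩
          obtain ⟨Z', hZ', -⟩ := key Z hZ hlt
          rw [h0] at hZ'; exact absurd hZ' (notMem_empty _)
        have hQ₀M' : Q₀ ∉ Mn F' := by
          rw [Mn, mem_filter]; exact fun h => hF'ne _ h.1 rfl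
        have h6 : insert Q₀ (Mn F') ⊆ Mn F := insert_subset hQ₀M hMn
        have h7 := card_le_card h6
        rw [card_insert_of_notMem hQ₀M'] at h7
        have : #C₀ = 0 := by rw [h0]; rfl
        omega
      · have : 0 < #C₀ := card_pos.2 h0
        have := card_le_card hMn
        omega

end laminar

/-! ### Convex blocks of points -/

section blocks
variable {R : Type*}

/-- convex subset of `R` w.r.t. the coordinate `α` -/
def Cvx (α : R → ℝ) (S : Finset R) : Prop :=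
  ∀ u ∈ S, ∀ v ∈ S, ∀ x, α u ≤ α x → α x ≤ α v → x ∈ S

/-- label `a` crosses `S` to the right -/
def RC (α : R → ℝ) (w : R → ℕ) (S : Finset R) (a : ℕ) : Prop :=
  (∃ u ∈ S, w u = a) ∧ ∃ x, w x = a ∧ ∀ y ∈ S, α y < α x

lemma ordConv_neg {α : R → ℝ} {w : R → ℕ} (h : OrdConv α w) : OrdConv (fun v => - α v) w := by
  intro u v x huv h1 h2
  rw [h v u x huv.symm (by simpa using h2) (by simpa using h1), huv]

lemma Cvx.neg {α : R → ℝ} {S : Finset R} (h : Cvx α S) : Cvx (fun v => - α v) S := by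
  intro u hu v hv x h1 h2
  exact h v hv u hu x (by simpa using h2) (by simpa using h1)

lemma Cvx.dich {α : R → ℝ} {S : Finset R} (h : Cvx α S) {x : R} (hx : x ∉ S) :
    (∀ y ∈ S, α y < α x) ∨ (∀ y ∈ S, α x < α y) := by
  by_contra hcon
  push Not at hcon
  obtain ⟨⟨y, hy, hy'⟩, ⟨y', hy1, hy2⟩⟩ := hcon
  exact hx (h y' hy1 y hy x hy2 hy')

lemma RC.unique {α : R → ℝ} {w : R → ℕ} (hw : OrdConv α w) {S : Finset R} {a b : ℕ}
    (ha : RC α w S a) (hb : RC α w S b) : a = b := by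
  obtain ⟨⟨u, hu, rfl⟩, x, hx, hx'⟩ := ha
  obtain ⟨⟨u', hu', rfl⟩, x', hx1, hx1'⟩ := hb
  rcases le_total (α u) (α u') with h | h
  · exact (hw u x u' hx.symm h (hx' u' hu').le).symm
  · exact hw u' x' u hx1.symm h (hx1' u hu).le

lemma RC.mono {α : R → ℝ} {w : R → ℕ} {S S' S'' : Finset R} {a : ℕ} (h' : RC α w S' a)
    (h : RC α w S a) (h1 : S' ⊆ S'') (h2 : S'' ⊆ S) : RC α w S'' a := by
  obtain ⟨⟨u, hu, hua⟩, -⟩ := h'
  obtain ⟨-, x, hx, hx'⟩ := h
  exact ⟨⟨u, h1 hu, hua⟩, x, hx, fun y hy => hx' y (h2 hy)⟩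

/-- labels inside a block -/
noncomputable def Ins (w : R → ℕ) (S : Finset R) : Finset ℕ :=
  (S.image w).filter fun a => ∀ u, w u = a → u ∈ S

lemma mem_Ins {w : R → ℕ} {S : Finset R} {a : ℕ} :
    a ∈ Ins w S ↔ (∃ u ∈ S, w u = a) ∧ ∀ u, w u = a → u ∈ S := by
  rw [Ins, mem_filter, mem_image]

lemma card_Ins {α : R → ℝ} {w : R → ℕ} (hw : OrdConv α w) {S : Finset R} (hS : Cvx α S) :
    #(S.image w) ≤ #(Ins w S) + 2 := by
  set P := (S.image w).filter (RC α w S) with hP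
  set P' := (S.image w).filter (RC (fun v => - α v) w S) with hP'
  have h1 : #P ≤ 1 := card_le_one.2 fun a ha b hb =>
    RC.unique hw (mem_filter.1 ha).2 (mem_filter.1 hb).2
  have h2 : #P' ≤ 1 := card_le_one.2 fun a ha b hb =>
    RC.unique (ordConv_neg hw) (mem_filter.1 ha).2 (mem_filter.1 hb).2
  have h3 : S.image w ⊆ Ins w S ∪ (P ∪ P') := by
    intro a ha
    by_cases h : ∀ u, w u = a → u ∈ S
    · exact mem_union_left _ (mem_filter.2 ⟨ha, h⟩)
    · push Not at h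
      obtain ⟨x, hx, hxS⟩ := h
      obtain ⟨u, hu, hua⟩ := mem_image.1 ha
      rcases hS.dich hxS with h | h
      · exact mem_union_right _ (mem_union_left _ (mem_filter.2 ⟨ha, ⟨u, hu, hua⟩, x, hx, h⟩))
      · refine mem_union_right _ (mem_union_right _ (mem_filter.2 ⟨ha, ⟨u, hu, hua⟩, x, hx, ?_⟩))
        intro y hy; simpa using h y hy
  have h4 := card_le_card h3
  have h5 := card_union_le (Ins w S) (P ∪ P')
  have h6 := card_union_le P P'
  omega

variable [Fintype R]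

/-- disjoint blocks each meeting at least `T` labels -/
lemma disjoint_blocks {κ : Type*} {α : R → ℝ} {w : R → ℕ} (hw : OrdConv α w) {T : ℝ}
    (K : Finset κ) (S : κ → Finset R) (hS : ∀ k ∈ K, Cvx α (S k))
    (hd : ∀ k ∈ K, ∀ l ∈ K, k ≠ l → Disjoint (S k) (S l))
    (hT : ∀ k ∈ K, T ≤ #((S k).image w)) :
    (#K : ℝ) * (T - 2) ≤ #(univ.image w) := by
  have h1 : ∑ k ∈ K, #(Ins w (S k)) ≤ #(univ.image w) := by
    rw [← card_biUnion]
    · refine card_le_card fun a ha => ?_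
      obtain ⟨k, -, hk⟩ := mem_biUnion.1 ha
      obtain ⟨u, -, hu⟩ := (mem_Ins.1 hk).1
      exact mem_image.2 ⟨u, mem_univ _, hu⟩
    · intro k hk l hl hkl
      change Disjoint (Ins w (S k)) (Ins w (S l))
      rw [disjoint_left]
      intro a ha ha'
      obtain ⟨u, hu, hua⟩ := (mem_Ins.1 ha).1
      exact disjoint_left.1 (hd k hk l hl hkl) hu ((mem_Ins.1 ha').2 u hua)
  have h2 : ∀ k ∈ K, T - 2 ≤ (#(Ins w (S k)) : ℝ) := by
    intro k hk
    have h3 : (#((S k).image w) : ℝ) ≤ #(Ins w (S k)) + 2 := by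
      exact_mod_cast card_Ins hw (hS k hk)
    linarith [hT k hk]
  calc (#K : ℝ) * (T - 2) = ∑ k ∈ K, (T - 2) := by rw [sum_const, nsmul_eq_mul]
    _ ≤ ∑ k ∈ K, (#(Ins w (S k)) : ℝ) := sum_le_sum h2
    _ = ((∑ k ∈ K, #(Ins w (S k)) : ℕ) : ℝ) := by push_cast; rfl
    _ ≤ _ := by exact_mod_cast h1

/-- the leftmost point of a label crossing a block to the right lies in the block -/
lemma RC.leftmost {α : R → ℝ} {w : R → ℕ} (hw : OrdConv α w) {S : Finset R} (hS : Cvx α S)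
    (h2 : 2 ≤ #(S.image w)) {a : ℕ} (ha : RC α w S a) {u₀ : R} (hu₀ : w u₀ = a)
    (hmin : ∀ u, w u = a → α u₀ ≤ α u) : u₀ ∈ S := by
  obtain ⟨⟨u, hu, hua⟩, x, hx, hx'⟩ := ha
  by_contra hcon
  rcases hS.dich hcon with h | h
  · exact absurd (h u hu) (not_lt.2 (hmin u hua))
  · have h3 : S.image w ⊆ {a} := by
      intro b hb
      obtain ⟨y, hy, rfl⟩ := mem_image.1 hb
      rw [mem_singleton, ← hu₀]
      exact hw u₀ x y (hu₀.trans hx.symm) (h y hy).le (hx' y hy).le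
    have h4 := card_le_card h3
    rw [card_singleton] at h4
    omega

section rr
variable {ι : Type*} [PartialOrder ι]

theorem rr_count {α β : R → ℝ} {w z : R → ℕ} (hw : OrdConv α w) (hz : OrdConv β z) {T μ : ℝ}
    (hT3 : 3 ≤ T) (hμ : 0 < μ) (F : Finset ι) (A B : ι → Finset R)
    (hmono : ∀ i ∈ F, ∀ j ∈ F, i ≤ j → A i ⊆ A j ∧ B i ⊆ B j)
    (hlam : ∀ i ∈ F, ∀ j ∈ F, (A i ∩ A j).Nonempty → (B i ∩ B j).Nonempty → i ≤ j ∨ j ≤ i)
    (hcA : ∀ i ∈ F, Cvx α (A i)) (hcB : ∀ i ∈ F, Cvx β (B i))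
    (hTA : ∀ i ∈ F, T ≤ #((A i).image w)) (hTB : ∀ i ∈ F, T ≤ #((B i).image z))
    (hmass : ∀ i ∈ F, μ ≤ #(A i ∩ B i)) (P : Finset (ℕ × ℕ))
    (hP : ∀ c ∈ P, ∃ i ∈ F, RC α w (A i) c.1 ∧ RC β z (B i) c.2) :
    (#P : ℝ) ≤ Fintype.card R / μ +
      2 * ((#(univ.image w) : ℝ) * #(univ.image z) / (T - 2)) := by
  have hne : ∀ i ∈ F, (A i ∩ B i).Nonempty := by
    intro i hi
    rw [← card_pos]
    have := hmass i hi
    have h : (0:ℝ) < #(A i ∩ B i) := hμ.trans_le this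
    exact_mod_cast h
  have hA2 : ∀ i ∈ F, 2 ≤ #((A i).image w) := by
    intro i hi
    have h : (2:ℝ) ≤ #((A i).image w) := by linarith [hTA i hi]
    exact_mod_cast h
  have hB2 : ∀ i ∈ F, 2 ≤ #((B i).image z) := by
    intro i hi
    have h : (2:ℝ) ≤ #((B i).image z) := by linarith [hTB i hi]
    exact_mod_cast h
  have hLam : Lami F := by
    intro Q hQ Q' hQ' Z hZ h h'
    obtain ⟨y, hy⟩ := hne Z hZ
    rw [mem_inter] at hy
    have h1 := hmono Z hZ Q hQ h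
    have h2 := hmono Z hZ Q' hQ' h'
    exact hlam Q hQ Q' hQ' ⟨y, mem_inter.2 ⟨h1.1 hy.1, h2.1 hy.1⟩⟩
      ⟨y, mem_inter.2 ⟨h1.2 hy.2, h2.2 hy.2⟩⟩
  -- minimal elements
  have hMn : (#(Mn F) : ℝ) ≤ Fintype.card R / μ := by
    rw [le_div_iff₀ hμ]
    have h1 : ∑ i ∈ Mn F, #(A i ∩ B i) ≤ Fintype.card R := by
      rw [← card_biUnion]
      · exact card_le_univ _
      · intro k hk l hl hkl
        change Disjoint (A k ∩ B k) (A l ∩ B l)
        rw [disjoint_left]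
        intro y hy hy'
        rw [mem_inter] at hy hy'
        have hk' := mem_filter.1 hk
        have hl' := mem_filter.1 hl
        rcases hlam k hk'.1 l hl'.1 ⟨y, mem_inter.2 ⟨hy.1, hy'.1⟩⟩
          ⟨y, mem_inter.2 ⟨hy.2, hy'.2⟩⟩ with h | h
        · exact hl'.2 k hk'.1 (lt_of_le_of_ne h hkl)
        · exact hk'.2 l hl'.1 (lt_of_le_of_ne h (Ne.symm hkl))
    calc (#(Mn F) : ℝ) * μ = ∑ i ∈ Mn F, μ := by rw [sum_const, nsmul_eq_mul]
      _ ≤ ∑ i ∈ Mn F, (#(A i ∩ B i) : ℝ) := sum_le_sum fun i hi =>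
          hmass i (mem_filter.1 hi).1
      _ = ((∑ i ∈ Mn F, #(A i ∩ B i) : ℕ) : ℝ) := by push_cast; rfl
      _ ≤ _ := by exact_mod_cast h1
  have hBr : (#(F.filter (Brn F)) : ℝ) ≤ Fintype.card R / μ := by
    refine le_trans ?_ hMn
    have := branch_le F hLam
    have h : #(F.filter (Brn F)) ≤ #(Mn F) := by omega
    exact_mod_cast h
  -- a-minimal squares
  have gen : ∀ (α β : R → ℝ) (w z : R → ℕ) (A B : ι → Finset R), OrdConv α w → OrdConv β z →
      (∀ i ∈ F, ∀ j ∈ F, (A i ∩ A j).Nonempty → (B i ∩ B j).Nonempty → i ≤ j ∨ j ≤ i) →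
      (∀ i ∈ F, Cvx α (A i)) → (∀ i ∈ F, Cvx β (B i)) → (∀ i ∈ F, 2 ≤ #((A i).image w)) →
      (∀ i ∈ F, T ≤ #((B i).image z)) →
      (#(F.filter fun i => ∃ a, RC α w (A i) a ∧ ∀ Z ∈ F, Z < i → ¬ RC α w (A Z) a) : ℝ) ≤
        (#(univ.image w) : ℝ) * #(univ.image z) / (T - 2) := by
    intro α β w z A B hw hz hlam hcA hcB hA2 hTB
    set am := F.filter fun i => ∃ a, RC α w (A i) a ∧ ∀ Z ∈ F, Z < i → ¬ RC α w (A Z) a with ham
    have hsub : am ⊆ (univ.image w).biUnion fun a =>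
        F.filter fun i => RC α w (A i) a ∧ ∀ Z ∈ F, Z < i → ¬ RC α w (A Z) a := by
      intro i hi
      obtain ⟨hiF, a, ha⟩ := mem_filter.1 hi
      obtain ⟨⟨u, hu, hua⟩, -⟩ := ha.1
      exact mem_biUnion.2 ⟨a, mem_image.2 ⟨u, mem_univ _, hua⟩, mem_filter.2 ⟨hiF, ha⟩⟩
    have hone : ∀ a ∈ univ.image w,
        (#(F.filter fun i => RC α w (A i) a ∧ ∀ Z ∈ F, Z < i → ¬ RC α w (A Z) a) : ℝ) ≤
          #(univ.image z) / (T - 2) := by
      intro a ha
      rw [le_div_iff₀ (by linarith)]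
      refine disjoint_blocks hz _ B (fun k hk => hcB k (mem_filter.1 hk).1) ?_
        (fun k hk => hTB k (mem_filter.1 hk).1)
      intro k hk l hl hkl
      obtain ⟨hkF, hkR, hkm⟩ := mem_filter.1 hk
      obtain ⟨hlF, hlR, hlm⟩ := mem_filter.1 hl
      by_contra hdis
      rw [not_disjoint_iff_nonempty_inter] at hdis
      -- leftmost point of a
      have hfib : (fib w a).Nonempty := by
        obtain ⟨u, -, hu⟩ := mem_image.1 ha
        exact ⟨u, mem_fib.2 hu⟩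
      obtain ⟨u₀, hu₀, hmin⟩ := exists_min_image (fib w a) α hfib
      have hu₀' := mem_fib.1 hu₀
      have hmin' : ∀ u, w u = a → α u₀ ≤ α u := fun u hu => hmin u (mem_fib.2 hu)
      have h1 := hkR.leftmost hw (hcA k hkF) (hA2 k hkF) hu₀' hmin'
      have h2 := hlR.leftmost hw (hcA l hlF) (hA2 l hlF) hu₀' hmin'
      rcases hlam k hkF l hlF ⟨u₀, mem_inter.2 ⟨h1, h2⟩⟩ hdis with h | h
      · exact hlm k hkF (lt_of_le_of_ne h hkl) hkR
      · exact hkm l hlF (lt_of_le_of_ne h (Ne.symm hkl)) hlR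
    calc (#am : ℝ) ≤ ((∑ a ∈ univ.image w,
          #(F.filter fun i => RC α w (A i) a ∧ ∀ Z ∈ F, Z < i → ¬ RC α w (A Z) a) : ℕ) : ℝ) := by
          exact_mod_cast (card_le_card hsub).trans card_biUnion_le
      _ = ∑ a ∈ univ.image w,
          (#(F.filter fun i => RC α w (A i) a ∧ ∀ Z ∈ F, Z < i → ¬ RC α w (A Z) a) : ℝ) := by
          push_cast; rfl
      _ ≤ ∑ a ∈ univ.image w, (#(univ.image z) / (T - 2) : ℝ) := sum_le_sum hone
      _ = _ := by rw [sum_const, nsmul_eq_mul]; ring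
  have ha := gen α β w z A B hw hz hlam hcA hcB hA2 hTB
  have hb := gen β α z w B A hz hw (fun i hi j hj h1 h2 => hlam i hi j hj h2 h1) hcB hcA hB2 hTA
  -- choose minimal squares
  have hch : ∀ c ∈ P, ∃ i ∈ F, (RC α w (A i) c.1 ∧ RC β z (B i) c.2) ∧
      ∀ Z ∈ F, Z < i → ¬ (RC α w (A Z) c.1 ∧ RC β z (B Z) c.2) := by
    intro c hc
    obtain ⟨i, hi, hi'⟩ := hP c hc
    have hne : (F.filter fun i => RC α w (A i) c.1 ∧ RC β z (B i) c.2).Nonempty :=
      ⟨i, mem_filter.2 ⟨hi, hi'⟩⟩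
    obtain ⟨m, hm⟩ := Finset.exists_minimal hne
    have hm1 := mem_filter.1 hm.prop
    refine ⟨m, hm1.1, hm1.2, fun Z hZ hlt hR => ?_⟩
    exact hlt.not_ge (hm.2 (mem_filter.2 ⟨hZ, hR⟩) hlt.le)
  rcases P.eq_empty_or_nonempty with hP0 | ⟨c₀, hc₀⟩
  · subst hP0
    have h0 : (0:ℝ) ≤ Fintype.card R / μ := by positivity
    have h1 : (0:ℝ) ≤ (#(univ.image w) : ℝ) * #(univ.image z) / (T - 2) :=
      div_nonneg (by positivity) (by linarith)
    simp only [card_empty, Nat.cast_zero]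
    positivity
  haveI : Nonempty ι := ⟨(hch c₀ hc₀).choose⟩
  choose! f hf1 hf2 hf3 using hch
  have hcard : #P ≤ #(F.filter (Brn F) ∪
      ((F.filter fun i => ∃ a, RC α w (A i) a ∧ ∀ Z ∈ F, Z < i → ¬ RC α w (A Z) a) ∪
      (F.filter fun i => ∃ b, RC β z (B i) b ∧ ∀ Z ∈ F, Z < i → ¬ RC β z (B Z) b))) := by
    refine card_le_card_of_injOn f ?_ ?_
    · intro c hc
      have hc' : c ∈ P := hc
      by_cases h1 : ∀ Z ∈ F, Z < f c → ¬ RC α w (A Z) c.1
      · exact mem_coe.2 (mem_union_right _ (mem_union_left _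
          (mem_filter.2 ⟨hf1 c hc', c.1, (hf2 c hc').1, h1⟩)))
      by_cases h2 : ∀ Z ∈ F, Z < f c → ¬ RC β z (B Z) c.2
      · exact mem_coe.2 (mem_union_right _ (mem_union_right _
          (mem_filter.2 ⟨hf1 c hc', c.2, (hf2 c hc').2, h2⟩)))
      push Not at h1 h2
      obtain ⟨Z', hZ', hlt', hR'⟩ := h1
      obtain ⟨Z'', hZ'', hlt'', hR''⟩ := h2
      refine mem_coe.2 (mem_union_left _ (mem_filter.2 ⟨hf1 c hc', Z', hZ', Z'', hZ'', hlt', hlt'',
        fun Z hZ hlt hcon => hf3 c hc' Z hZ hlt ⟨?_, ?_⟩⟩))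
      · exact hR'.mono (hf2 c hc').1 (hmono Z' hZ' Z hZ hcon.1).1
          (hmono Z hZ _ (hf1 c hc') hlt.le).1
      · exact hR''.mono (hf2 c hc').2 (hmono Z'' hZ'' Z hZ hcon.2).2
          (hmono Z hZ _ (hf1 c hc') hlt.le).2
    · intro c hc c' hc' hcc
      have h1 := hf2 c hc
      have h2 := hf2 c' hc'
      rw [hcc] at h1
      exact Prod.ext (RC.unique hw h1.1 h2.1) (RC.unique hz h1.2 h2.2)
  have h7 := card_union_le (F.filter (Brn F))
      ((F.filter fun i => ∃ a, RC α w (A i) a ∧ ∀ Z ∈ F, Z < i → ¬ RC α w (A Z) a) ∪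
      (F.filter fun i => ∃ b, RC β z (B i) b ∧ ∀ Z ∈ F, Z < i → ¬ RC β z (B Z) b))
  have h8 := card_union_le
      (F.filter fun i => ∃ a, RC α w (A i) a ∧ ∀ Z ∈ F, Z < i → ¬ RC α w (A Z) a)
      (F.filter fun i => ∃ b, RC β z (B i) b ∧ ∀ Z ∈ F, Z < i → ¬ RC β z (B Z) b)
  have h9 : (#P : ℝ) ≤ #(F.filter (Brn F)) +
      (#(F.filter fun i => ∃ a, RC α w (A i) a ∧ ∀ Z ∈ F, Z < i → ¬ RC α w (A Z) a) +
      #(F.filter fun i => ∃ b, RC β z (B i) b ∧ ∀ Z ∈ F, Z < i → ¬ RC β z (B Z) b)) := by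
    exact_mod_cast hcard.trans (h7.trans (Nat.add_le_add_left h8 _))
  have h10 : (#(univ.image z) : ℝ) * #(univ.image w) / (T - 2) =
      (#(univ.image w) : ℝ) * #(univ.image z) / (T - 2) := by ring
  rw [h10] at hb
  linarith

end rr

end blocks

end Crest.Agent.R51.Jump
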