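import Crest.Agent.R51.AddJump

/-! Row 51, section 9.2: the no-jump lemma, second part (grids and count).  (helper617) -/

set_option autoImplicit false

namespace Crest.Agent.R51.Jump

open Finset Classical Crest.Agent.R51.Add

/-! ### The grids -/

/-- cell index of `x` at scale `4 ^ t`, shift `x0`. -/
noncomputable def idx (x0 : ℝ) (t : ℤ) (x : ℝ) : ℤ := ⌊x / (4:ℝ) ^ t - x0⌋

/-- the two shifts -/
noncomputable def shf (b : Bool) : ℝ := if b then 1 / 3 else 0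

lemma shf_three (b : Bool) : ∃ k : ℤ, 3 * shf b = k := by
  cases b
  · exact ⟨0, by simp [shf]⟩
  · exact ⟨1, by simp [shf]⟩

lemma idx_mono {x0 : ℝ} {t : ℤ} {x y : ℝ} (h : x ≤ y) : idx x0 t x ≤ idx x0 t y := by
  unfold idx
  refine Int.floor_le_floor ?_
  have : (0:ℝ) < 4 ^ t := by positivity
  gcongr

lemma idx_succ {x0 : ℝ} {k : ℤ} (hk : 3 * x0 = k) {t : ℤ} {x y : ℝ} (h : idx x0 t x = idx x0 t y) :
    idx x0 (t + 1) x = idx x0 (t + 1) y := by
  have key : ∀ x : ℝ, idx x0 (t + 1) x = (idx x0 t x - k) / 4 := by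
    intro x
    set n := idx x0 t x with hn
    have h1 : (n : ℝ) ≤ x / (4:ℝ) ^ t - x0 ∧ x / (4:ℝ) ^ t - x0 < n + 1 := by
      rw [← Int.floor_eq_iff]; rfl
    have h2 : x / (4:ℝ) ^ (t + 1) - x0 = (x / (4:ℝ) ^ t - x0 - k) / 4 := by
      rw [zpow_add_one₀ (by norm_num), ← hk]
      have : (4:ℝ) ^ t ≠ 0 := by positivity
      field_simp
      ring
    rw [idx, Int.floor_eq_iff, h2]
    have h3 : 4 * ((n - k) / 4) ≤ n - k := by omega
    have h4 : n - k + 1 ≤ 4 * ((n - k) / 4) + 4 := by omega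
    have h3' : (4:ℝ) * (((n - k) / 4 : ℤ) : ℝ) ≤ n - k := by exact_mod_cast h3
    have h4' : (n : ℝ) - k + 1 ≤ 4 * (((n - k) / 4 : ℤ) : ℝ) + 4 := by exact_mod_cast h4
    constructor <;> linarith [h1.1, h1.2]
  rw [key, key, h]

lemma idx_nested (b : Bool) {s t : ℤ} (hst : s ≤ t) {x y : ℝ}
    (h : idx (shf b) s x = idx (shf b) s y) : idx (shf b) t x = idx (shf b) t y := by
  obtain ⟨k, hk⟩ := shf_three b
  obtain ⟨n, rfl⟩ := Int.le.dest hst
  induction n with
  | zero => simpa using h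
  | succ n ih =>
    have := idx_succ hk (ih (by omega))
    rw [add_assoc] at this
    exact_mod_cast this

lemma idx_diam {x0 : ℝ} {t : ℤ} {x y : ℝ} (h : idx x0 t x = idx x0 t y) : |x - y| ≤ 4 ^ t := by
  have h1 := Int.abs_sub_lt_one_of_floor_eq_floor h
  have h4 : (0:ℝ) < 4 ^ t := by positivity
  have h2 : x / (4:ℝ) ^ t - x0 - (y / (4:ℝ) ^ t - x0) = (x - y) / 4 ^ t := by ring
  rw [h2, abs_div, abs_of_pos h4, div_lt_one h4] at h1
  exact h1.le

lemma exists_grid (a r : ℝ) (hr : 0 < r) (t : ℤ) (h6 : 6 * r < 4 ^ t) :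
    ∃ b : Bool, idx (shf b) t (a - r) = idx (shf b) t (a + r) := by
  have h4 : (0:ℝ) < 4 ^ t := by positivity
  set X := (a - r) / (4:ℝ) ^ t with hX
  set Y := (a + r) / (4:ℝ) ^ t with hY
  have hXY : X ≤ Y := by rw [hX, hY]; gcongr; linarith
  have hYX : Y < X + 1 / 3 := by
    have h1 : Y - X = 2 * r / 4 ^ t := by rw [hX, hY]; ring
    have h2 : 2 * r / (4:ℝ) ^ t < 1 / 3 := by
      rw [div_lt_div_iff₀ h4 (by norm_num)]; linarith
    linarith
  by_cases h : ⌊X⌋ = ⌊Y⌋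
  · refine ⟨false, ?_⟩
    simp only [idx, shf, Bool.false_eq_true, if_false, sub_zero]
    exact h
  · refine ⟨true, ?_⟩
    have hlt : ⌊X⌋ < ⌊Y⌋ := lt_of_le_of_ne (Int.floor_le_floor hXY) h
    have h1 : X < ⌊Y⌋ := Int.floor_lt.1 hlt
    have h2 : (⌊Y⌋ : ℝ) ≤ Y := Int.floor_le Y
    simp only [idx, shf, if_true]
    have e1 : ⌊X - 1 / 3⌋ = ⌊Y⌋ - 1 := by
      rw [Int.floor_eq_iff]; push_cast; constructor <;> linarith
    have e2 : ⌊Y - 1 / 3⌋ = ⌊Y⌋ - 1 := by
      rw [Int.floor_eq_iff]; push_cast; constructor <;> linarith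
    rw [← hX, ← hY, e1, e2]

lemma exists_scale (r : ℝ) (hr : 0 < r) : ∃ t : ℤ, 6 * r < 4 ^ t ∧ (4:ℝ) ^ t ≤ 24 * r := by
  obtain ⟨n, hn1, hn2⟩ := exists_mem_Ico_zpow (x := 24 * r) (y := 4) (by linarith) (by norm_num)
  refine ⟨n, ?_, hn1⟩
  rw [zpow_add_one₀ (by norm_num)] at hn2
  linarith

section counting
variable {R : Type*} [Fintype R]

/-- the block of points in the cell of `v` -/
noncomputable def blk (x0 : ℝ) (t : ℤ) (α : R → ℝ) (v : R) : Finset R :=
  univ.filter fun u => idx x0 t (α u) = idx x0 t (α v)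

lemma mem_blk {x0 : ℝ} {t : ℤ} {α : R → ℝ} {v u : R} :
    u ∈ blk x0 t α v ↔ idx x0 t (α u) = idx x0 t (α v) := by simp [blk]

lemma self_mem_blk {x0 : ℝ} {t : ℤ} {α : R → ℝ} {v : R} : v ∈ blk x0 t α v := by simp [mem_blk]

lemma cvx_cell (x0 : ℝ) (t : ℤ) (α : R → ℝ) (n : ℤ) :
    Cvx α (univ.filter fun u => idx x0 t (α u) = n) := by
  intro u hu v hv x h1 h2
  rw [mem_filter] at hu hv ⊢
  refine ⟨mem_univ _, le_antisymm ?_ ?_⟩
  · rw [← hv.2]; exact idx_mono h2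
  · rw [← hu.2]; exact idx_mono h1

lemma cvx_blk (x0 : ℝ) (t : ℤ) (α : R → ℝ) (v : R) : Cvx α (blk x0 t α v) :=
  cvx_cell x0 t α _

lemma cover_labels {β : R → ℝ} {z : R → ℕ} (x0 : ℝ) (t : ℤ) (K : ℕ) (hK : 0 < K) {c : ℝ}
    (hc : 0 ≤ c) (S : Finset R) (n : ℤ) (hn : ∀ v ∈ S, idx x0 t (β v) = n)
    (hsm : ∀ v ∈ S, (gg β z v (4 ^ t / K) : ℝ) ≤ c) : (#(S.image z) : ℝ) ≤ K * c := by
  have h4 : (0:ℝ) < 4 ^ t := by positivity
  have hK' : (0:ℝ) < K := by exact_mod_cast hK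
  set κ : R → ℤ := fun v => ⌊K * (β v / 4 ^ t - x0 - n)⌋ with hκ
  have hrange : ∀ v ∈ S, κ v ∈ Ico (0:ℤ) K := by
    intro v hv
    have h1 : (n : ℝ) ≤ β v / (4:ℝ) ^ t - x0 ∧ β v / (4:ℝ) ^ t - x0 < n + 1 := by
      rw [← Int.floor_eq_iff]; exact hn v hv
    rw [mem_Ico]
    constructor
    · exact Int.floor_nonneg.2 (mul_nonneg hK'.le (by linarith [h1.1]))
    · rw [hκ, Int.floor_lt]
      have : (K:ℝ) * (β v / 4 ^ t - x0 - n) < K * 1 :=
        mul_lt_mul_of_pos_left (by linarith [h1.2]) hK'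
      simpa using this
  have hsub : S.image z ⊆ (Ico (0:ℤ) K).biUnion fun k => (S.filter fun v => κ v = k).image z := by
    intro b hb
    obtain ⟨v, hv, rfl⟩ := mem_image.1 hb
    exact mem_biUnion.2 ⟨κ v, hrange v hv, mem_image_of_mem _ (mem_filter.2 ⟨hv, rfl⟩)⟩
  have hone : ∀ k ∈ Ico (0:ℤ) K, (#((S.filter fun v => κ v = k).image z) : ℝ) ≤ c := by
    intro k _
    rcases (S.filter fun v => κ v = k).eq_empty_or_nonempty with h0 | ⟨v, hv⟩
    · rw [h0]; simpa using hc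
    · refine le_trans ?_ (hsm v (mem_filter.1 hv).1)
      rw [gg]
      refine Nat.cast_le.2 (card_le_card (image_subset_image fun u hu => ?_))
      rw [mem_Iv]
      have h1 := Int.abs_sub_lt_one_of_floor_eq_floor
        ((mem_filter.1 hu).2.trans (mem_filter.1 hv).2.symm)
      have h2 : (K:ℝ) * (β u / 4 ^ t - x0 - n) - K * (β v / 4 ^ t - x0 - n) =
          (β u - β v) / (4 ^ t / K) := by field_simp; ring
      have h5 : (0:ℝ) < 4 ^ t / K := by positivity
      rw [h2, abs_div, abs_of_pos h5, div_lt_one h5] at h1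
      exact h1.le
  calc (#(S.image z) : ℝ) ≤ ((∑ k ∈ Ico (0:ℤ) K, #((S.filter fun v => κ v = k).image z) : ℕ) : ℝ) := by
        exact_mod_cast (card_le_card hsub).trans card_biUnion_le
    _ = ∑ k ∈ Ico (0:ℤ) K, (#((S.filter fun v => κ v = k).image z) : ℝ) := by push_cast; rfl
    _ ≤ ∑ k ∈ Ico (0:ℤ) K, c := sum_le_sum hone
    _ = K * c := by simp

lemma contained_count {α β : R → ℝ} {w z : R → ℕ} (hz : OrdConv β z) {T c : ℝ} (hT : 3 ≤ T)
    (hc : 0 ≤ c) (hcT : c < T) (m0 K : ℕ) (hK : 0 < K) (hKm : (K:ℝ) ≤ 4 ^ m0) (x0 y0 : ℝ)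
    (J : Finset R) (t : R → ℤ) (ht : ∀ v ∈ J, ∀ v' ∈ J, t v < t v' → t v + m0 ≤ t v')
    (hTA : ∀ v ∈ J, T ≤ #((blk x0 (t v) α v).image w))
    (hTB : ∀ v ∈ J, T ≤ #((blk y0 (t v) β v).image z))
    (hsA : ∀ v ∈ J, (gg α w v (4 ^ (t v) / K) : ℝ) ≤ c)
    (hsB : ∀ v ∈ J, (gg β z v (4 ^ (t v) / K) : ℝ) ≤ c)
    (hin : ∀ v ∈ J, ∀ u, w u = w v → u ∈ blk x0 (t v) α v) :
    (#(J.image fun v => (w v, z v)) : ℝ) ≤
      #(univ.image w) * (#(univ.image z) / (T - 2) * (K * c)) := by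
  have hK' : (0:ℝ) < K := by exact_mod_cast hK
  have hsame : ∀ v ∈ J, ∀ v' ∈ J, w v = w v' → ¬ t v < t v' := by
    intro v hv v' hv' hww hlt
    have h1 : v' ∈ blk x0 (t v) α v := hin v hv v' hww.symm
    have h2 : blk x0 (t v) α v ⊆ Iv α v' (4 ^ (t v') / K) := by
      intro u hu
      rw [mem_Iv]
      have h3 := idx_diam ((mem_blk.1 hu).trans (mem_blk.1 h1).symm)
      refine h3.trans ?_
      rw [le_div_iff₀ hK']
      have h4 : (4:ℝ) ^ (t v) * 4 ^ m0 ≤ 4 ^ (t v') := by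
        rw [← zpow_natCast, ← zpow_add₀ (by norm_num)]
        exact zpow_le_zpow_right₀ (by norm_num) (ht v hv v' hv' hlt)
      refine le_trans ?_ h4
      exact mul_le_mul_of_nonneg_left hKm (by positivity)
    have h3 : #((blk x0 (t v) α v).image w) ≤ gg α w v' (4 ^ (t v') / K) :=
      card_le_card (image_subset_image h2)
    have h4 : (#((blk x0 (t v) α v).image w) : ℝ) ≤ gg α w v' (4 ^ (t v') / K) := by
      exact_mod_cast h3
    linarith [hTA v hv, hsA v' hv']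
  have hN2 : (0:ℝ) ≤ #(univ.image z) / (T - 2) := div_nonneg (by positivity) (by linarith)
  have hsub : J.image (fun v => (w v, z v)) ⊆ (univ.image w).biUnion fun a =>
      ((J.filter fun v => w v = a).image z).image fun b => (a, b) := by
    intro x hx
    obtain ⟨v, hv, rfl⟩ := mem_image.1 hx
    exact mem_biUnion.2 ⟨w v, mem_image_of_mem _ (mem_univ _),
      mem_image.2 ⟨z v, mem_image_of_mem _ (mem_filter.2 ⟨hv, rfl⟩), rfl⟩⟩
  have hone : ∀ a ∈ univ.image w,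
      (#(((J.filter fun v => w v = a).image z).image fun b => (a, b)) : ℝ) ≤
        #(univ.image z) / (T - 2) * (K * c) := by
    intro a _
    have hle : (#(((J.filter fun v => w v = a).image z).image fun b => (a, b)) : ℝ) ≤
        #((J.filter fun v => w v = a).image z) := by exact_mod_cast card_image_le
    refine hle.trans ?_
    set Ja := J.filter fun v => w v = a with hJa
    rcases Ja.eq_empty_or_nonempty with h0 | ⟨v₀, hv₀⟩
    · rw [h0]; simp only [image_empty, card_empty, Nat.cast_zero]; positivity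
    have hmem : ∀ v ∈ Ja, v ∈ J ∧ t v = t v₀ := by
      intro v hv
      have h1 := mem_filter.1 hv
      have h2 := mem_filter.1 hv₀
      refine ⟨h1.1, le_antisymm ?_ ?_⟩
      · exact not_lt.1 (hsame v₀ h2.1 v h1.1 (h2.2.trans h1.2.symm))
      · exact not_lt.1 (hsame v h1.1 v₀ h2.1 (h1.2.trans h2.2.symm))
    set t₀ := t v₀ with ht₀
    set 𝒩 := Ja.image fun v => idx y0 t₀ (β v) with h𝒩
    have h𝒩c : (#𝒩 : ℝ) ≤ #(univ.image z) / (T - 2) := by
      rw [le_div_iff₀ (by linarith)]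
      refine disjoint_blocks hz 𝒩 (fun n => univ.filter fun u => idx y0 t₀ (β u) = n)
        (fun n _ => cvx_cell y0 t₀ β n) ?_ ?_
      · intro n _ n' _ hnn
        rw [disjoint_left]
        intro u hu hu'
        exact hnn ((mem_filter.1 hu).2.symm.trans (mem_filter.1 hu').2)
      · intro n hn
        obtain ⟨v, hv, rfl⟩ := mem_image.1 hn
        have := hTB v (hmem v hv).1
        rw [(hmem v hv).2] at this
        exact this
    have hsub2 : Ja.image z ⊆ 𝒩.biUnion fun n =>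
        (Ja.filter fun v => idx y0 t₀ (β v) = n).image z := by
      intro b hb
      obtain ⟨v, hv, rfl⟩ := mem_image.1 hb
      exact mem_biUnion.2 ⟨_, mem_image_of_mem _ hv, mem_image_of_mem _ (mem_filter.2 ⟨hv, rfl⟩)⟩
    have hone2 : ∀ n ∈ 𝒩, (#((Ja.filter fun v => idx y0 t₀ (β v) = n).image z) : ℝ) ≤ K * c := by
      intro n _
      refine cover_labels y0 t₀ K hK hc _ n (fun v hv => (mem_filter.1 hv).2) fun v hv => ?_
      have h1 := hmem v (mem_filter.1 hv).1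
      have := hsB v h1.1
      rwa [h1.2] at this
    calc (#(Ja.image z) : ℝ)
        ≤ ((∑ n ∈ 𝒩, #((Ja.filter fun v => idx y0 t₀ (β v) = n).image z) : ℕ) : ℝ) := by
          exact_mod_cast (card_le_card hsub2).trans card_biUnion_le
      _ = ∑ n ∈ 𝒩, (#((Ja.filter fun v => idx y0 t₀ (β v) = n).image z) : ℝ) := by push_cast; rfl
      _ ≤ ∑ n ∈ 𝒩, (K * c : ℝ) := sum_le_sum hone2
      _ = #𝒩 * (K * c) := by rw [sum_const, nsmul_eq_mul]
      _ ≤ _ := by gcongr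
  calc (#(J.image fun v => (w v, z v)) : ℝ)
      ≤ ((∑ a ∈ univ.image w,
          #(((J.filter fun v => w v = a).image z).image fun b => (a, b)) : ℕ) : ℝ) := by
        exact_mod_cast (card_le_card hsub).trans card_biUnion_le
    _ = ∑ a ∈ univ.image w,
          (#(((J.filter fun v => w v = a).image z).image fun b => (a, b)) : ℝ) := by push_cast; rfl
    _ ≤ ∑ a ∈ univ.image w, (#(univ.image z) / (T - 2) * (K * c) : ℝ) := sum_le_sum hone
    _ = _ := by rw [sum_const, nsmul_eq_mul]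

end counting

end Crest.Agent.R51.Jump
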