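import Crest.Agent.R51.AddJump2

/-! Row 51, section 9.2: the no-jump lemma, final part.  (helper617) -/

set_option autoImplicit false

namespace Crest.Agent.R51.Jump

open Finset Classical Crest.Agent.R51.Add

section counting
variable {R : Type*} [Fintype R]

/-- squares of the grids -/
noncomputable def sq (x0 y0 : ℝ) (t : ℤ) (α β : R → ℝ) (v : R) : Set ℝ × Set ℝ :=
  ({x | idx x0 t x = idx x0 t (α v)}, {y | idx y0 t y = idx y0 t (β v)})

lemma rr_squares {α β α' β' : R → ℝ} {w z : R → ℕ} (hw : OrdConv α' w) (hz : OrdConv β' z)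
    {T μ : ℝ} (hT3 : 3 ≤ T) (hμ : 0 < μ) (b₁ b₂ : Bool) (J : Finset R) (t : R → ℤ)
    (hcA : ∀ v ∈ J, Cvx α' (blk (shf b₁) (t v) α v)) (hcB : ∀ v ∈ J, Cvx β' (blk (shf b₂) (t v) β v))
    (hTA : ∀ v ∈ J, T ≤ #((blk (shf b₁) (t v) α v).image w))
    (hTB : ∀ v ∈ J, T ≤ #((blk (shf b₂) (t v) β v).image z))
    (hmass : ∀ v ∈ J, μ ≤ #(blk (shf b₁) (t v) α v ∩ blk (shf b₂) (t v) β v))
    (hRA : ∀ v ∈ J, RC α' w (blk (shf b₁) (t v) α v) (w v))
    (hRB : ∀ v ∈ J, RC β' z (blk (shf b₂) (t v) β v) (z v)) :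
    (#(J.image fun v => (w v, z v)) : ℝ) ≤ Fintype.card R / μ +
      2 * ((#(univ.image w) : ℝ) * #(univ.image z) / (T - 2)) := by
  set F : Finset (Set ℝ × Set ℝ) :=
    J.image fun v => sq (shf b₁) (shf b₂) (t v) α β v with hF
  set A : Set ℝ × Set ℝ → Finset R := fun S => univ.filter fun u => α u ∈ S.1 with hA
  set B : Set ℝ × Set ℝ → Finset R := fun S => univ.filter fun u => β u ∈ S.2 with hB
  have hAe : ∀ v, A (sq (shf b₁) (shf b₂) (t v) α β v) = blk (shf b₁) (t v) α v := by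
    intro v; ext u; simp [hA, sq, blk]
  have hBe : ∀ v, B (sq (shf b₁) (shf b₂) (t v) α β v) = blk (shf b₂) (t v) β v := by
    intro v; ext u; simp [hB, sq, blk]
  refine rr_count hw hz hT3 hμ F A B ?_ ?_ ?_ ?_ ?_ ?_ ?_ _ ?_
  · intro i _ j _ hij
    constructor
    · intro u hu
      rw [hA, mem_filter] at hu ⊢
      exact ⟨mem_univ _, hij.1 hu.2⟩
    · intro u hu
      rw [hB, mem_filter] at hu ⊢
      exact ⟨mem_univ _, hij.2 hu.2⟩
  · -- laminar
    have key : ∀ v v' : R, t v ≤ t v' →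
        (blk (shf b₁) (t v) α v ∩ blk (shf b₁) (t v') α v').Nonempty →
        (blk (shf b₂) (t v) β v ∩ blk (shf b₂) (t v') β v').Nonempty →
        sq (shf b₁) (shf b₂) (t v) α β v ≤ sq (shf b₁) (shf b₂) (t v') α β v' := by
      intro v v' htt ⟨u, hu⟩ ⟨u', hu'⟩
      rw [mem_inter, mem_blk, mem_blk] at hu hu'
      constructor
      · intro x hx
        have hx' : idx (shf b₁) (t v) x = idx (shf b₁) (t v) (α v) := hx
        have h1 := idx_nested b₁ htt (hx'.trans hu.1.symm)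
        exact h1.trans hu.2
      · intro x hx
        have hx' : idx (shf b₂) (t v) x = idx (shf b₂) (t v) (β v) := hx
        have h1 := idx_nested b₂ htt (hx'.trans hu'.1.symm)
        exact h1.trans hu'.2
    intro i hi j hj h1 h2
    obtain ⟨v, -, rfl⟩ := mem_image.1 hi
    obtain ⟨v', -, rfl⟩ := mem_image.1 hj
    rw [hAe, hAe] at h1
    rw [hBe, hBe] at h2
    rcases le_total (t v) (t v') with h | h
    · exact Or.inl (key v v' h h1 h2)
    · refine Or.inr (key v' v h ?_ ?_)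
      · rwa [inter_comm]
      · rwa [inter_comm]
  · intro i hi
    obtain ⟨v, hv, rfl⟩ := mem_image.1 hi
    rw [hAe]; exact hcA v hv
  · intro i hi
    obtain ⟨v, hv, rfl⟩ := mem_image.1 hi
    rw [hBe]; exact hcB v hv
  · intro i hi
    obtain ⟨v, hv, rfl⟩ := mem_image.1 hi
    rw [hAe]; exact hTA v hv
  · intro i hi
    obtain ⟨v, hv, rfl⟩ := mem_image.1 hi
    rw [hBe]; exact hTB v hv
  · intro i hi
    obtain ⟨v, hv, rfl⟩ := mem_image.1 hi
    rw [hAe, hBe]; exact hmass v hv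
  · intro c hc
    obtain ⟨v, hv, rfl⟩ := mem_image.1 hc
    refine ⟨_, mem_image_of_mem _ hv, ?_⟩
    rw [hAe, hBe]
    exact ⟨hRA v hv, hRB v hv⟩

lemma class_count {α β : R → ℝ} {w z : R → ℕ} (hw : OrdConv α w) (hz : OrdConv β z)
    {T c μ : ℝ} (hT3 : 3 ≤ T) (hμ : 0 < μ) (hc : 0 ≤ c) (hcT : c < T) (m0 K : ℕ) (hK : 0 < K)
    (hKm : (K:ℝ) ≤ 4 ^ m0) (b₁ b₂ : Bool) (J : Finset R) (t : R → ℤ)
    (ht : ∀ v ∈ J, ∀ v' ∈ J, t v < t v' → t v + m0 ≤ t v')
    (hTA : ∀ v ∈ J, T ≤ #((blk (shf b₁) (t v) α v).image w))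
    (hTB : ∀ v ∈ J, T ≤ #((blk (shf b₂) (t v) β v).image z))
    (hsA : ∀ v ∈ J, (gg α w v (4 ^ (t v) / K) : ℝ) ≤ c)
    (hsB : ∀ v ∈ J, (gg β z v (4 ^ (t v) / K) : ℝ) ≤ c)
    (hmass : ∀ v ∈ J, μ ≤ #(blk (shf b₁) (t v) α v ∩ blk (shf b₂) (t v) β v)) :
    (#(J.image fun v => (w v, z v)) : ℝ) ≤
      2 * ((#(univ.image w) : ℝ) * #(univ.image z) / (T - 2) * (K * c)) +
      4 * (Fintype.card R / μ + 2 * ((#(univ.image w) : ℝ) * #(univ.image z) / (T - 2))) := by
  set p : R → ℕ × ℕ := fun v => (w v, z v) with hp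
  set J₁ := J.filter fun v => ∀ u, w u = w v → u ∈ blk (shf b₁) (t v) α v with hJ₁
  set J₂ := J.filter fun v => ∀ u, z u = z v → u ∈ blk (shf b₂) (t v) β v with hJ₂
  set G : (R → ℝ) → (R → ℝ) → Finset R := fun α' β' => J.filter fun v =>
    RC α' w (blk (shf b₁) (t v) α v) (w v) ∧ RC β' z (blk (shf b₂) (t v) β v) (z v) with hG
  have hsubJ : J ⊆ J₁ ∪ (J₂ ∪ ((G α β ∪ G α (fun v => - β v)) ∪
      (G (fun v => - α v) β ∪ G (fun v => - α v) (fun v => - β v)))) := by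
    intro v hv
    by_cases h1 : ∀ u, w u = w v → u ∈ blk (shf b₁) (t v) α v
    · exact mem_union_left _ (mem_filter.2 ⟨hv, h1⟩)
    refine mem_union_right _ ?_
    by_cases h2 : ∀ u, z u = z v → u ∈ blk (shf b₂) (t v) β v
    · exact mem_union_left _ (mem_filter.2 ⟨hv, h2⟩)
    refine mem_union_right _ ?_
    push Not at h1 h2
    obtain ⟨x, hx, hxA⟩ := h1
    obtain ⟨y, hy, hyB⟩ := h2
    have hA : RC α w (blk (shf b₁) (t v) α v) (w v) ∨
        RC (fun v => - α v) w (blk (shf b₁) (t v) α v) (w v) := by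
      rcases (cvx_blk (shf b₁) (t v) α v).dich hxA with h | h
      · exact Or.inl ⟨⟨v, self_mem_blk, rfl⟩, x, hx, h⟩
      · exact Or.inr ⟨⟨v, self_mem_blk, rfl⟩, x, hx, fun u hu => by simpa using h u hu⟩
    have hB : RC β z (blk (shf b₂) (t v) β v) (z v) ∨
        RC (fun v => - β v) z (blk (shf b₂) (t v) β v) (z v) := by
      rcases (cvx_blk (shf b₂) (t v) β v).dich hyB with h | h
      · exact Or.inl ⟨⟨v, self_mem_blk, rfl⟩, y, hy, h⟩
      · exact Or.inr ⟨⟨v, self_mem_blk, rfl⟩, y, hy, fun u hu => by simpa using h u hu⟩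
    rcases hA with hA | hA <;> rcases hB with hB | hB
    · exact mem_union_left _ (mem_union_left _ (mem_filter.2 ⟨hv, hA, hB⟩))
    · exact mem_union_left _ (mem_union_right _ (mem_filter.2 ⟨hv, hA, hB⟩))
    · exact mem_union_right _ (mem_union_left _ (mem_filter.2 ⟨hv, hA, hB⟩))
    · exact mem_union_right _ (mem_union_right _ (mem_filter.2 ⟨hv, hA, hB⟩))
  have hrr : ∀ α' β' : R → ℝ, OrdConv α' w → OrdConv β' z →
      (∀ v, Cvx α' (blk (shf b₁) (t v) α v)) → (∀ v, Cvx β' (blk (shf b₂) (t v) β v)) →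
      (#((G α' β').image p) : ℝ) ≤ Fintype.card R / μ +
        2 * ((#(univ.image w) : ℝ) * #(univ.image z) / (T - 2)) := by
    intro α' β' hw' hz' hcA hcB
    refine rr_squares (α := α) (β := β) hw' hz' hT3 hμ b₁ b₂ (G α' β') t (fun v _ => hcA v)
      (fun v _ => hcB v)
      (fun v hv => hTA v (mem_filter.1 hv).1) (fun v hv => hTB v (mem_filter.1 hv).1)
      (fun v hv => hmass v (mem_filter.1 hv).1) (fun v hv => (mem_filter.1 hv).2.1)
      (fun v hv => (mem_filter.1 hv).2.2)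
  have e1 := hrr α β hw hz (fun v => cvx_blk _ _ _ _) (fun v => cvx_blk _ _ _ _)
  have e2 := hrr α (fun v => - β v) hw (ordConv_neg hz) (fun v => cvx_blk _ _ _ _)
    (fun v => (cvx_blk _ _ _ _).neg)
  have e3 := hrr (fun v => - α v) β (ordConv_neg hw) hz (fun v => (cvx_blk _ _ _ _).neg)
    (fun v => cvx_blk _ _ _ _)
  have e4 := hrr (fun v => - α v) (fun v => - β v) (ordConv_neg hw) (ordConv_neg hz)
    (fun v => (cvx_blk _ _ _ _).neg) (fun v => (cvx_blk _ _ _ _).neg)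
  have e5 : (#(J₁.image p) : ℝ) ≤
      #(univ.image w) * (#(univ.image z) / (T - 2) * (K * c)) :=
    contained_count hz hT3 hc hcT m0 K hK hKm (shf b₁) (shf b₂) J₁ t
      (fun v hv v' hv' => ht v (mem_filter.1 hv).1 v' (mem_filter.1 hv').1)
      (fun v hv => hTA v (mem_filter.1 hv).1) (fun v hv => hTB v (mem_filter.1 hv).1)
      (fun v hv => hsA v (mem_filter.1 hv).1) (fun v hv => hsB v (mem_filter.1 hv).1)
      (fun v hv => (mem_filter.1 hv).2)
  have e6 : (#(J₂.image p) : ℝ) ≤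
      #(univ.image z) * (#(univ.image w) / (T - 2) * (K * c)) := by
    have h := contained_count hw hT3 hc hcT m0 K hK hKm (shf b₂) (shf b₁) J₂ t
      (fun v hv v' hv' => ht v (mem_filter.1 hv).1 v' (mem_filter.1 hv').1)
      (fun v hv => hTB v (mem_filter.1 hv).1) (fun v hv => hTA v (mem_filter.1 hv).1)
      (fun v hv => hsB v (mem_filter.1 hv).1) (fun v hv => hsA v (mem_filter.1 hv).1)
      (fun v hv => (mem_filter.1 hv).2)
    refine le_trans ?_ h
    have h1 : J₂.image p = (J₂.image fun v => (z v, w v)).image Prod.swap := by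
      rw [image_image]; rfl
    rw [h1]
    exact_mod_cast card_image_le
  have hcard : #(J.image p) ≤ #(J₁.image p) + (#(J₂.image p) +
      ((#((G α β).image p) + #((G α (fun v => - β v)).image p)) +
      (#((G (fun v => - α v) β).image p) +
        #((G (fun v => - α v) (fun v => - β v)).image p)))) := by
    refine (card_le_card (image_subset_image hsubJ)).trans ?_
    simp only [image_union]
    refine (card_union_le _ _).trans (Nat.add_le_add_left ?_ _)
    refine (card_union_le _ _).trans (Nat.add_le_add_left ?_ _)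
    refine (card_union_le _ _).trans (Nat.add_le_add ?_ ?_)
    · exact card_union_le _ _
    · exact card_union_le _ _
  have hcard' : (#(J.image p) : ℝ) ≤ #(J₁.image p) + (#(J₂.image p) +
      ((#((G α β).image p) + #((G α (fun v => - β v)).image p)) +
      (#((G (fun v => - α v) β).image p) +
        #((G (fun v => - α v) (fun v => - β v)).image p)))) := by exact_mod_cast hcard
  have e5' : (#(univ.image w) : ℝ) * (#(univ.image z) / (T - 2) * (K * c)) =
      (#(univ.image w) : ℝ) * #(univ.image z) / (T - 2) * (K * c) := by ring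
  have e6' : (#(univ.image z) : ℝ) * (#(univ.image w) / (T - 2) * (K * c)) =
      (#(univ.image w) : ℝ) * #(univ.image z) / (T - 2) * (K * c) := by ring
  rw [e5'] at e5
  rw [e6'] at e6
  linarith

/-- **No-jump lemma**, pair count. -/
theorem jump_pairs {α β : R → ℝ} {w z : R → ℕ} (hw : OrdConv α w) (hz : OrdConv β z)
    {T c μ q : ℝ} (hT3 : 3 ≤ T) (hμ : 0 < μ) (hc : 0 ≤ c) (hcT : c < T) (hq : 1 ≤ q) (K : ℕ)
    (hK : 24 * q ≤ K) (J : Finset R)
    (hJ : ∀ v ∈ J, ∃ r : ℝ, 0 < r ∧ (gg α w v (r / q) : ℝ) ≤ c ∧ (gg β z v (r / q) : ℝ) ≤ c ∧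
      T ≤ gg α w v r ∧ T ≤ gg β z v r ∧ μ ≤ #(Iv α v r ∩ Iv β v r)) :
    (#(J.image fun v => (w v, z v)) : ℝ) ≤ 4 * K * (
      2 * ((#(univ.image w) : ℝ) * #(univ.image z) / (T - 2) * (K * c)) +
      4 * (Fintype.card R / μ + 2 * ((#(univ.image w) : ℝ) * #(univ.image z) / (T - 2)))) := by
  have hKr : (24:ℝ) ≤ K := by linarith
  have hK0 : 0 < K := by
    have : (0:ℝ) < K := by linarith
    exact_mod_cast this
  -- choose data
  have hch : ∀ v ∈ J, ∃ (t : ℤ) (b₁ b₂ : Bool),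
      T ≤ #((blk (shf b₁) t α v).image w) ∧ T ≤ #((blk (shf b₂) t β v).image z) ∧
      (gg α w v (4 ^ t / K) : ℝ) ≤ c ∧ (gg β z v (4 ^ t / K) : ℝ) ≤ c ∧
      μ ≤ #(blk (shf b₁) t α v ∩ blk (shf b₂) t β v) := by
    intro v hv
    obtain ⟨r, hr, h1, h2, h3, h4, h5⟩ := hJ v hv
    obtain ⟨t, ht1, ht2⟩ := exists_scale r hr
    obtain ⟨b₁, hb₁⟩ := exists_grid (α v) r hr t ht1
    obtain ⟨b₂, hb₂⟩ := exists_grid (β v) r hr t ht1
    have hsub : ∀ (b : Bool) (γ : R → ℝ), idx (shf b) t (γ v - r) = idx (shf b) t (γ v + r) →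
        Iv γ v r ⊆ blk (shf b) t γ v := by
      intro b γ hb u hu
      rw [mem_Iv, abs_le] at hu
      rw [mem_blk]
      have g1 : idx (shf b) t (γ v - r) ≤ idx (shf b) t (γ u) := idx_mono (by linarith)
      have g2 : idx (shf b) t (γ u) ≤ idx (shf b) t (γ v + r) := idx_mono (by linarith)
      have g3 : idx (shf b) t (γ v - r) ≤ idx (shf b) t (γ v) := idx_mono (by linarith)
      have g4 : idx (shf b) t (γ v) ≤ idx (shf b) t (γ v + r) := idx_mono (by linarith)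
      omega
    have hA := hsub b₁ α hb₁
    have hB := hsub b₂ β hb₂
    have hrad : (4:ℝ) ^ t / K ≤ r / q := by
      rw [div_le_div_iff₀ (by linarith) (by linarith)]
      calc (4:ℝ) ^ t * q ≤ 24 * r * q := by
            exact mul_le_mul_of_nonneg_right ht2 (by linarith)
        _ = r * (24 * q) := by ring
        _ ≤ r * K := mul_le_mul_of_nonneg_left hK hr.le
    refine ⟨t, b₁, b₂, ?_, ?_, ?_, ?_, ?_⟩
    · exact h3.trans (Nat.cast_le.2 (card_le_card (image_subset_image hA)))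
    · exact h4.trans (Nat.cast_le.2 (card_le_card (image_subset_image hB)))
    · exact le_trans (Nat.cast_le.2 (gg_mono hrad)) h1
    · exact le_trans (Nat.cast_le.2 (gg_mono hrad)) h2
    · exact h5.trans (Nat.cast_le.2 (card_le_card (inter_subset_inter hA hB)))
  choose! t b₁ b₂ hTA hTB hsA hsB hms using hch
  set p : R → ℕ × ℕ := fun v => (w v, z v) with hp
  set Bd : ℝ := 2 * ((#(univ.image w) : ℝ) * #(univ.image z) / (T - 2) * (K * c)) +
      4 * (Fintype.card R / μ + 2 * ((#(univ.image w) : ℝ) * #(univ.image z) / (T - 2))) with hBd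
  set I : Finset (Bool × Bool × ℤ) := univ ×ˢ (univ ×ˢ Ico (0:ℤ) K) with hI
  set Jc : Bool × Bool × ℤ → Finset R := fun i =>
    J.filter fun v => b₁ v = i.1 ∧ b₂ v = i.2.1 ∧ t v % K = i.2.2 with hJc
  have hsub : J.image p ⊆ I.biUnion fun i => (Jc i).image p := by
    intro x hx
    obtain ⟨v, hv, rfl⟩ := mem_image.1 hx
    have hKz : (0:ℤ) < K := by exact_mod_cast hK0
    refine mem_biUnion.2 ⟨(b₁ v, b₂ v, t v % K), ?_, mem_image_of_mem _
      (mem_filter.2 ⟨hv, rfl, rfl, rfl⟩)⟩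
    rw [hI, mem_product, mem_product, mem_Ico]
    exact ⟨mem_univ _, mem_univ _, Int.emod_nonneg _ hKz.ne', Int.emod_lt_of_pos _ hKz⟩
  have hone : ∀ i ∈ I, (#((Jc i).image p) : ℝ) ≤ Bd := by
    rintro ⟨c₁, c₂, ρ⟩ _
    have hKm : (K:ℝ) ≤ 4 ^ K := by
      have : K ≤ 4 ^ K := (Nat.lt_pow_self (by norm_num)).le
      exact_mod_cast this
    refine class_count hw hz hT3 hμ hc hcT K K hK0 hKm c₁ c₂ (Jc (c₁, c₂, ρ)) t ?_ ?_ ?_ ?_ ?_ ?_
    · intro v hv v' hv' hlt
      have h1 := (mem_filter.1 hv).2.2.2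
      have h2 := (mem_filter.1 hv').2.2.2
      have h3 : (K:ℤ) ∣ t v' - t v := by
        exact Int.ModEq.dvd (show t v ≡ t v' [ZMOD K] from h1.trans h2.symm)
      have h4 := Int.le_of_dvd (by omega) h3
      omega
    · intro v hv
      obtain ⟨hvJ, h1, h2, h3⟩ := mem_filter.1 hv
      have := hTA v hvJ
      rwa [h1] at this
    · intro v hv
      obtain ⟨hvJ, h1, h2, h3⟩ := mem_filter.1 hv
      have := hTB v hvJ
      rwa [h2] at this
    · intro v hv
      exact hsA v (mem_filter.1 hv).1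
    · intro v hv
      exact hsB v (mem_filter.1 hv).1
    · intro v hv
      obtain ⟨hvJ, h1, h2, h3⟩ := mem_filter.1 hv
      have := hms v hvJ
      rwa [h1, h2] at this
  calc (#(J.image p) : ℝ) ≤ ((∑ i ∈ I, #((Jc i).image p) : ℕ) : ℝ) := by
        exact_mod_cast (card_le_card hsub).trans card_biUnion_le
    _ = ∑ i ∈ I, (#((Jc i).image p) : ℝ) := by push_cast; rfl
    _ ≤ ∑ i ∈ I, Bd := sum_le_sum hone
    _ = 4 * K * Bd := by
        rw [sum_const, nsmul_eq_mul]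
        congr 1
        rw [hI, card_product, card_product]
        simp
        ring

end counting

/-- **No-jump lemma** (9.2), frozen form of the interface. -/
theorem no_jump (C ε c q : ℝ) (hC : 1 ≤ C) (hε : 0 < ε) (hε1 : ε ≤ 1) (hc : 1 ≤ c) (hq : 1 ≤ q) :
    ∃ C' : ℝ, 0 < C' ∧ ∀ (R : Type*) [Fintype R] (V : ℝ) (α : Fin 3 → R → ℝ) (w : Fin 3 → R → ℕ),
      Setting C V α w → ∀ T : ℝ, 0 < T → ∀ i j, i ≠ j →
      (#(univ.filter fun v => Typical ε C V α w v ∧ Jump c q T α w i j v) : ℝ) * T ≤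
        C' * Fintype.card R := by
  obtain ⟨K, hK⟩ := exists_nat_ge (24 * q)
  have hK24 : (24:ℝ) ≤ K := by linarith
  set T₀ : ℝ := 4 + c with hT₀
  set C₁ : ℝ := 4 * K * (4 * (K * c) * C ^ 2 + 4 * (9 * C ^ 2 / ε ^ 3 + 4 * C ^ 2)) * C with hC₁
  have hC₁0 : 0 ≤ C₁ := by rw [hC₁]; positivity
  refine ⟨T₀ + C₁, by positivity, ?_⟩
  intro R _ V α w hS T hT i j hij
  set J := univ.filter fun v => Typical ε C V α w v ∧ Jump c q T α w i j v with hJ
  have hn := hS.nonempty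
  have hcard : (0:ℝ) < Fintype.card R := by exact_mod_cast Fintype.card_pos
  have hJle : (#J : ℝ) ≤ Fintype.card R := by exact_mod_cast card_le_univ _
  rcases le_or_gt T T₀ with hTle | hTgt
  · calc (#J : ℝ) * T ≤ Fintype.card R * T₀ := by gcongr
      _ ≤ (T₀ + C₁) * Fintype.card R := by nlinarith
  have hV := hS.one_le_V
  have hVp : 0 < V := by linarith
  have hCp : 0 < C := by linarith
  set n : ℝ := (Fintype.card R : ℝ) with hn'
  set μ : ℝ := ε ^ 3 * T ^ 2 * n / (9 * C ^ 2 * V ^ 2) with hμ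
  have hμ0 : 0 < μ := by rw [hμ]; positivity
  have hT3 : 3 ≤ T := by linarith
  have hcT : c < T := by linarith
  have hJ' : ∀ v ∈ J, ∃ r : ℝ, 0 < r ∧ (gg (α i) (w i) v (r / q) : ℝ) ≤ c ∧
      (gg (α j) (w j) v (r / q) : ℝ) ≤ c ∧ T ≤ gg (α i) (w i) v r ∧ T ≤ gg (α j) (w j) v r ∧
      μ ≤ #(Iv (α i) v r ∩ Iv (α j) v r) := by
    intro v hv
    obtain ⟨-, ⟨ht1, ht2⟩, r, hr, h1, h2, h3, h4⟩ := mem_filter.1 hv
    refine ⟨r, hr, h1, h2, h3, h4, ?_⟩
    have key : ∀ k, T ≤ gg (α k) (w k) v r → ε * T * n ≤ 3 * (C * V) * #(Iv (α k) v r) := by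
      intro k hk
      have h5 : 3 ≤ gg (α k) (w k) v r := by
        have : (3:ℝ) ≤ gg (α k) (w k) v r := hT3.trans hk
        exact_mod_cast this
      refine le_trans ?_ (ht2 k r h5)
      gcongr
    have ki := key i h3
    have kj := key j h4
    have hij' := ht1 i j hij r
    have h6 : (ε * T * n) * (ε * T * n) ≤
        (3 * (C * V) * #(Iv (α i) v r)) * (3 * (C * V) * #(Iv (α j) v r)) :=
      mul_le_mul ki kj (by positivity) (by positivity)
    have h7 : ε * ((ε * T * n) * (ε * T * n)) ≤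
        9 * C ^ 2 * V ^ 2 * (#(Iv (α i) v r ∩ Iv (α j) v r) * n) := by
      calc ε * ((ε * T * n) * (ε * T * n)) ≤
          ε * ((3 * (C * V) * #(Iv (α i) v r)) * (3 * (C * V) * #(Iv (α j) v r))) := by gcongr
        _ = 9 * C ^ 2 * V ^ 2 * (ε * (#(Iv (α i) v r) * #(Iv (α j) v r))) := by ring
        _ ≤ _ := by gcongr
    rw [hμ, div_le_iff₀ (by positivity)]
    have h8 : (ε ^ 3 * T ^ 2 * n) * n ≤
        (#(Iv (α i) v r ∩ Iv (α j) v r) * (9 * C ^ 2 * V ^ 2)) * n := by nlinarith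
    exact le_of_mul_le_mul_right h8 hcard
  have hpairs := jump_pairs (hS.conv i) (hS.conv j) hT3 hμ0 (by linarith : (0:ℝ) ≤ c) hcT hq K hK
    J hJ'
  -- bounds
  have hN1 := hS.A1 i
  have hN2 := hS.A1 j
  set N1 : ℝ := (#(univ.image (w i)) : ℝ) with hN1'
  set N2 : ℝ := (#(univ.image (w j)) : ℝ) with hN2'
  have hN : N1 * N2 / (T - 2) * T ≤ 2 * C ^ 2 * V ^ 2 := by
    have h1 : N1 * N2 ≤ (C * V) * (C * V) := mul_le_mul hN1 hN2 (by positivity) (by positivity)
    have h2 : 0 < T - 2 := by linarith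
    rw [div_mul_eq_mul_div, div_le_iff₀ h2]
    have h3 : T ≤ 2 * (T - 2) := by linarith
    calc N1 * N2 * T ≤ (C * V) * (C * V) * (2 * (T - 2)) := by gcongr
      _ = _ := by ring
  have hM : n / μ * T ≤ 9 * C ^ 2 / ε ^ 3 * V ^ 2 := by
    rw [hμ]
    have h1 : n / (ε ^ 3 * T ^ 2 * n / (9 * C ^ 2 * V ^ 2)) * T = 9 * C ^ 2 / ε ^ 3 * V ^ 2 / T := by
      field_simp
    rw [h1]
    exact div_le_self (by positivity) (by linarith)
  have hP : (#(J.image fun v => (w i v, w j v)) : ℝ) * T ≤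
      4 * K * (4 * (K * c) * C ^ 2 + 4 * (9 * C ^ 2 / ε ^ 3 + 4 * C ^ 2)) * V ^ 2 := by
    calc (#(J.image fun v => (w i v, w j v)) : ℝ) * T
        ≤ (4 * K * (2 * (N1 * N2 / (T - 2) * (K * c)) +
          4 * (n / μ + 2 * (N1 * N2 / (T - 2))))) * T := by gcongr
      _ = 4 * K * (2 * (K * c) * (N1 * N2 / (T - 2) * T) +
          4 * (n / μ * T + 2 * (N1 * N2 / (T - 2) * T))) := by ring
      _ ≤ 4 * K * (2 * (K * c) * (2 * C ^ 2 * V ^ 2) +
          4 * (9 * C ^ 2 / ε ^ 3 * V ^ 2 + 2 * (2 * C ^ 2 * V ^ 2))) := by gcongr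
      _ = _ := by ring
  -- mass
  have hmass : (#J : ℝ) * V ^ 2 ≤ #(J.image fun v => (w i v, w j v)) * (C * n) := by
    have h1 : #J ≤ ∑ x ∈ J.image fun v => (w i v, w j v), #(fib (w i) x.1 ∩ fib (w j) x.2) := by
      refine le_trans (card_le_card ?_) card_biUnion_le
      intro v hv
      refine mem_biUnion.2 ⟨(w i v, w j v), mem_image_of_mem _ hv, ?_⟩
      rw [mem_inter, mem_fib, mem_fib]
      exact ⟨rfl, rfl⟩
    calc (#J : ℝ) * V ^ 2
        ≤ ((∑ x ∈ J.image fun v => (w i v, w j v), #(fib (w i) x.1 ∩ fib (w j) x.2) : ℕ) : ℝ) *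
          V ^ 2 := by
          refine mul_le_mul_of_nonneg_right ?_ (by positivity)
          exact_mod_cast h1
      _ = ∑ x ∈ J.image fun v => (w i v, w j v),
          (#(fib (w i) x.1 ∩ fib (w j) x.2) : ℝ) * V ^ 2 := by
          push_cast; rw [sum_mul]
      _ ≤ ∑ x ∈ J.image fun v => (w i v, w j v), (C * n : ℝ) :=
          sum_le_sum fun x _ => hS.A3 i j hij x.1 x.2
      _ = _ := by rw [sum_const, nsmul_eq_mul]
  have hfin : ((#J : ℝ) * T) * V ^ 2 ≤ (C₁ * n) * V ^ 2 := by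
    calc ((#J : ℝ) * T) * V ^ 2 = (#J * V ^ 2) * T := by ring
      _ ≤ (#(J.image fun v => (w i v, w j v)) * (C * n)) * T := by gcongr
      _ = (#(J.image fun v => (w i v, w j v)) * T) * (C * n) := by ring
      _ ≤ (4 * K * (4 * (K * c) * C ^ 2 + 4 * (9 * C ^ 2 / ε ^ 3 + 4 * C ^ 2)) * V ^ 2) * (C * n) := by
          gcongr
      _ = _ := by rw [hC₁]; ring
  have hfin' := le_of_mul_le_mul_right hfin (by positivity)
  have : 0 ≤ T₀ * n := by positivity
  linarith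

end Crest.Agent.R51.Jump
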