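import Crest.Agent.R51.AddJump3
import Crest.Agent.R51.AddCommon
import Crest.Agent.R51.AddCell
import Crest.Agent.R51.AddH3

/-! Row 51, section B9: the additive theorem ADD. -/

set_option autoImplicit false

namespace Crest.Agent.R51.Add

open Finset Classical Pointwise

theorem jumpLemma : JumpLemma := by
  intro C ε c q hC hε hε1 hc hq
  obtain ⟨C', hC', h⟩ := Crest.Agent.R51.Jump.no_jump C ε c q hC hε hε1 hc hq
  exact ⟨C', hC', fun R _ V α w hS T hT i j hij => h R V α w hS T hT i j hij⟩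

theorem common : Common := by
  intro C hC
  obtain ⟨K, V0, _, _, h⟩ := exists_common_scale jumpLemma C hC
  exact ⟨K, V0, h⟩

/-- **THEOREM ADD** (section B9 of the blueprint). -/
theorem ADD (C η : ℝ) (hC : 1 ≤ C) (hη : 0 < η) :
    ∃ mu0 : ℕ, ∀ mu : ℕ, mu0 ≤ mu → ∃ N1 N0 : ℕ, ∀ n1 n0 : ℕ, N1 ≤ n1 → N0 ≤ n0 → 4 * n1 ≤ n0 →
      ∀ (R : Type) [Fintype R] (α : Fin 3 → R → ℝ) (w : Fin 3 → R → ℕ) (wl : ℕ → R → ℕ)
        (G : R → Finset ℕ), Setting C (((mu : ℝ) ^ 10) ^ n0) α w →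
      (∀ v, G v ⊆ Finset.Icc 1 n1 ∧ η * n1 ≤ #(G v)) →
      (∀ v, ∀ j ∈ G v, ∃ ρ : ℝ, 0 < ρ ∧ ∃ s : ℝ, (s = 1 ∨ s = -1) ∧
        (∀ u, wl j u = wl j v → |α 0 u - α 0 v| ≤ ρ) ∧
        (∀ u, 0 ≤ s * (α 0 u - α 0 v) → s * (α 0 u - α 0 v) ≤ (mu : ℝ) ^ 11 * ρ →
          wl (j - 1) u = wl (j - 1) v) ∧
        (#(fib (wl (j - 1)) (wl (j - 1) v)) : ℝ) * ((mu : ℝ) ^ 10) ^ (j - 1) ≤
          C * Fintype.card R ∧
        (#(univ.image (wl j)) : ℝ) ≤ C * ((mu : ℝ) ^ 10) ^ j) → False := by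
  obtain ⟨K, V0, hK, hcells⟩ := cells common C hC
  obtain ⟨mu0, hmu0⟩ := H3.cells_contradiction C K η hC hK hη
  refine ⟨max mu0 2, fun mu hmu => ?_⟩
  obtain ⟨N1, hN1⟩ := hmu0 mu ((le_max_left _ _).trans hmu)
  have hmu2 : 2 ≤ mu := (le_max_right _ _).trans hmu
  have hmur : (2 : ℝ) ≤ mu := by exact_mod_cast hmu2
  have hM : (1 : ℝ) < (mu : ℝ) ^ 10 := one_lt_pow₀ (by linarith) (by norm_num)
  obtain ⟨N0, hN0⟩ := pow_unbounded_of_one_lt V0 hM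
  refine ⟨N1, N0, ?_⟩
  intro n1 n0 hn1 hn0 hn10 R _ α w wl G hS hG hlev
  haveI : Nonempty R := hS.nonempty
  have hV : V0 ≤ ((mu : ℝ) ^ 10) ^ n0 := hN0.le.trans (pow_le_pow_right₀ hM.le hn0)
  obtain ⟨rh, hrh, R', A', hmem, hlu, hdbl, hbig⟩ := hcells R _ α w hV hS
  have hn : ((mu : ℝ) ^ 10) ^ (2 * n1) ≤ √(((mu : ℝ) ^ 10) ^ n0) := by
    apply Real.le_sqrt_of_sq_le
    rw [← pow_mul]
    exact pow_le_pow_right₀ hM.le (by omega)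
  exact hN1 n1 hn1 _ hn R (α 0) wl G rh R' A'
    ⟨hrh, hmem, fun a ha => (hlu a ha).1, fun a ha => (hlu a ha).2, hdbl, hbig⟩ hG hlev

end Crest.Agent.R51.Add
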