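import Mathlib

/-! Row 51: Bernoulli sampling sums over subsets of a finset. -/

set_option autoImplicit false
open Finset

namespace Crest.Agent.R51

/-- Bernoulli weight of a subset `X` of `P` -/
noncomputable def bw {α : Type*} [DecidableEq α] (P : Finset α) (p : ℝ) (X : Finset α) : ℝ :=
  p ^ X.card * (1 - p) ^ (P \ X).card

theorem bw_nonneg {α : Type*} [DecidableEq α] (P : Finset α) {p : ℝ} (h0 : 0 ≤ p) (h1 : p ≤ 1)
    (X : Finset α) : 0 ≤ bw P p X := by
  unfold bw
  have : 0 ≤ 1 - p := by linarith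
  positivity

/-- `P(A ⊆ X, B ∩ X = ∅) = p^|A| (1-p)^|B|` -/
theorem sum_bw {α : Type*} [DecidableEq α] (P A B : Finset α) (hA : A ⊆ P) (hB : B ⊆ P)
    (hd : Disjoint A B) (p : ℝ) :
    ∑ X ∈ P.powerset, bw P p X * (if A ⊆ X ∧ Disjoint B X then 1 else 0)
      = p ^ A.card * (1 - p) ^ B.card := by
  classical
  have h := Finset.prod_add (fun i : α => if i ∈ B then 0 else p)
    (fun i => if i ∈ A then 0 else 1 - p) P
  have h1 : ∏ i ∈ P, ((if i ∈ B then 0 else p) + (if i ∈ A then 0 else 1 - p))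
      = p ^ A.card * (1 - p) ^ B.card := by
    have e1 : ∀ i ∈ P, ((if i ∈ B then (0:ℝ) else p) + (if i ∈ A then 0 else 1 - p))
        = (if i ∈ A then p else 1) * (if i ∈ B then (1 - p) else 1) := by
      intro i _
      by_cases hiA : i ∈ A
      · have hiB : i ∉ B := Finset.disjoint_left.1 hd hiA
        simp [hiA, hiB]
      · by_cases hiB : i ∈ B
        · simp [hiA, hiB]
        · simp [hiA, hiB]
    rw [Finset.prod_congr rfl e1, Finset.prod_mul_distrib]
    congr 1
    · rw [Finset.prod_ite, Finset.prod_const_one, mul_one, Finset.prod_const]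
      congr 2
      ext i
      simp only [Finset.mem_filter]
      exact ⟨fun hh => hh.2, fun hh => ⟨hA hh, hh⟩⟩
    · rw [Finset.prod_ite, Finset.prod_const_one, mul_one, Finset.prod_const]
      congr 2
      ext i
      simp only [Finset.mem_filter]
      exact ⟨fun hh => hh.2, fun hh => ⟨hB hh, hh⟩⟩
  rw [h1] at h
  rw [h]
  refine Finset.sum_congr rfl fun X hX => ?_
  rw [Finset.mem_powerset] at hX
  unfold bw
  by_cases hAX : A ⊆ X
  · by_cases hBX : Disjoint B X
    · rw [if_pos ⟨hAX, hBX⟩, mul_one]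
      congr 1
      · rw [Finset.prod_congr rfl (g := fun _ => p), Finset.prod_const]
        intro i hi
        rw [if_neg (Finset.disjoint_right.1 hBX hi)]
      · rw [Finset.prod_congr rfl (g := fun _ => 1 - p), Finset.prod_const]
        intro i hi
        rw [if_neg]
        intro hiA
        exact (Finset.mem_sdiff.1 hi).2 (hAX hiA)
    · rw [if_neg (fun hh => hBX hh.2), mul_zero]
      symm
      rw [Finset.not_disjoint_iff] at hBX
      obtain ⟨i, hi1, hi2⟩ := hBX
      rw [Finset.prod_eq_zero hi2 (by rw [if_pos hi1]), zero_mul]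
  · rw [if_neg (fun hh => hAX hh.1), mul_zero]
    symm
    rw [Finset.not_subset] at hAX
    obtain ⟨i, hi1, hi2⟩ := hAX
    rw [Finset.prod_eq_zero (i := i) (s := P \ X) (Finset.mem_sdiff.2 ⟨hA hi1, hi2⟩)
      (by rw [if_pos hi1]), mul_zero]

theorem sum_bw_subset {α : Type*} [DecidableEq α] (P A : Finset α) (hA : A ⊆ P) (p : ℝ) :
    ∑ X ∈ P.powerset, bw P p X * (if A ⊆ X then 1 else 0) = p ^ A.card := by
  have := sum_bw P A ∅ hA (Finset.empty_subset _) (Finset.disjoint_empty_right _) p
  simpa using this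

theorem sum_bw_one {α : Type*} [DecidableEq α] (P : Finset α) (p : ℝ) :
    ∑ X ∈ P.powerset, bw P p X = 1 := by
  have := sum_bw_subset P ∅ (Finset.empty_subset _) p
  simpa using this

/-- `E|X| = p |P|` -/
theorem sum_bw_card {α : Type*} [DecidableEq α] (P : Finset α) (p : ℝ) :
    ∑ X ∈ P.powerset, bw P p X * (X.card : ℝ) = p * P.card := by
  have e : ∀ X ∈ P.powerset, bw P p X * (X.card : ℝ)
      = ∑ z ∈ P, bw P p X * (if {z} ⊆ X then 1 else 0) := by
    intro X hX
    rw [Finset.mem_powerset] at hX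
    rw [← Finset.mul_sum]
    congr 1
    rw [Finset.sum_ite, Finset.sum_const_zero, add_zero, Finset.sum_const, nsmul_eq_mul, mul_one]
    congr 2
    ext z
    simp only [Finset.mem_filter, Finset.singleton_subset_iff]
    exact ⟨fun hz => ⟨hX hz, hz⟩, fun hz => hz.2⟩
  rw [Finset.sum_congr rfl e, Finset.sum_comm]
  have e2 : ∀ z ∈ P, ∑ X ∈ P.powerset, bw P p X * (if {z} ⊆ X then 1 else 0) = p := by
    intro z hz
    rw [sum_bw_subset P {z} (Finset.singleton_subset_iff.2 hz) p]
    simp
  rw [Finset.sum_congr rfl e2, Finset.sum_const, nsmul_eq_mul, mul_comm]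

/-- expectation of the size of a random family: if each member `h ∈ H` belongs to `K X` only if
`A h ⊆ X`, the expected size is at most `∑ p^|A h|`. -/
theorem sum_bw_card_le {α β : Type*} [DecidableEq α] [DecidableEq β] (P : Finset α) {p : ℝ}
    (h0 : 0 ≤ p) (h1 : p ≤ 1) (H : Finset β) (A : β → Finset α) (hA : ∀ h ∈ H, A h ⊆ P)
    (K : Finset α → Finset β) (hK : ∀ X, X ⊆ P → K X ⊆ H.filter (fun h => A h ⊆ X)) :
    ∑ X ∈ P.powerset, bw P p X * ((K X).card : ℝ) ≤ ∑ h ∈ H, p ^ (A h).card := by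
  calc ∑ X ∈ P.powerset, bw P p X * ((K X).card : ℝ)
      ≤ ∑ X ∈ P.powerset, bw P p X * ((H.filter (fun h => A h ⊆ X)).card : ℝ) := by
        apply Finset.sum_le_sum
        intro X hX
        rw [Finset.mem_powerset] at hX
        apply mul_le_mul_of_nonneg_left _ (bw_nonneg P h0 h1 X)
        exact_mod_cast Finset.card_le_card (hK X hX)
    _ = ∑ X ∈ P.powerset, ∑ h ∈ H, bw P p X * (if A h ⊆ X then 1 else 0) := by
        apply Finset.sum_congr rfl
        intro X _
        rw [← Finset.mul_sum]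
        congr 1
        rw [Finset.sum_ite, Finset.sum_const_zero, add_zero, Finset.sum_const, nsmul_eq_mul, mul_one]
    _ = ∑ h ∈ H, ∑ X ∈ P.powerset, bw P p X * (if A h ⊆ X then 1 else 0) := Finset.sum_comm
    _ = ∑ h ∈ H, p ^ (A h).card := by
        apply Finset.sum_congr rfl
        intro h hh
        exact sum_bw_subset P (A h) (hA h hh) p

end Crest.Agent.R51
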