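import Crest.Agent.R51.WinDefs

/-!
# Row 51, section B6: interface (helper422)

`HSys` is exactly what B6 consumes from B5 (the set `H` of good 2-walks), `Alive` the notion of an
alive pair (point, finest window), `FinalConf` the final configuration handed over to B7 and B8.
`Cf` are the cuts of the finest level `V`, `Cb` the cuts of the level `V_b = β V`.
-/

set_option autoImplicit false

noncomputable section

open Classical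

namespace Crest.Agent.R51

/-- the elements of a set of edges with slope in the window `J` -/
def inWin (E : Finset Edge) (J : ℝ × ℝ) : Finset Edge :=
  E.filter (fun e => J.1 < esl e ∧ esl e < J.2)

lemma mem_inWin {E : Finset Edge} {J : ℝ × ℝ} {e : Edge} :
    e ∈ inWin E J ↔ e ∈ E ∧ J.1 < esl e ∧ esl e < J.2 := by
  unfold inWin
  rw [Finset.mem_filter]

/-- What B6 needs to know about `H v = {(w,x)}` (the good 2-walks `(v,w,x)`; `(w,x)` as an edge). -/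
structure HSys (P : Finset Pt) (k V β L : ℕ) (Cf Cb : Finset ℝ)
    (lam1 lam2 lam3 κ c2 c8 δ1 D' : ℝ) (Rel : ℝ × ℝ → ℝ × ℝ → Prop)
    (H : Pt → Finset Edge) : Prop where
  /-- everything lives in `P` -/
  mem : ∀ v, ∀ e ∈ H v, v ∈ P ∧ e ∈ pairs P
  /-- `|H_v| ≤ λ₁² D'²` -/
  card_le : ∀ v, ((H v).card : ℝ) ≤ lam1 ^ 2 * D' ^ 2
  /-- `|H_v ∩ J| ≤ λ₁ λ₂ D'² / V` for the finest windows -/
  win_le : ∀ v, ∀ J ∈ wins Cf, ((inWin (H v) J).card : ℝ) ≤ lam1 * lam2 * D' ^ 2 / V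
  /-- `|H_v ∩ j| ≤ λ₁ λ₂ D'² / V_b` for the windows of level `V_b` -/
  winb_le : ∀ v, ∀ J ∈ wins Cb, ((inWin (H v) J).card : ℝ) ≤ lam1 * lam2 * D' ^ 2 / (β * V)
  /-- not (t2) -/
  cent : ∀ v, ∀ e ∈ H v, Central P k ⌊κ * (bb P.card (β * V) : ℝ)⌋₊ (esl e) v
  /-- not (t4) -/
  dl : ∀ v, ∀ e ∈ H v, ∀ J ∈ wins Cb, J.1 < esl e → esl e < J.2 →
    12 * κ * (bb P.card (β * V) : ℝ) < (Dl P k J.1 J.2 : ℝ)
  /-- not (t5) -/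
  centL : ∀ v, ∀ e ∈ H v, ∀ J ∈ wins Cf, J.1 < esl e → esl e < J.2 →
    ∀ θ, J.1 < θ → θ < J.2 → Central P k (L * bb P.card V) θ v
  /-- not (t6) at the finest level -/
  few : ∀ v, (H v).Nonempty →
    (((wins Cf).filter (fun J => v ∈ cen P k (bb P.card V) J.1 J.2)).card : ℝ) ≤ lam3 * V
  /-- `|H| ≥ (c₂/4) N D'²` -/
  total : c2 / 4 * P.card * D' ^ 2 ≤ ∑ v ∈ P, ((H v).card : ℝ)
  /-- the relation `N_{n0}(K₁)` between finest windows is symmetric -/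
  rel_symm : ∀ I J, Rel I J → Rel J I
  /-- and irreflexive -/
  rel_irr : ∀ J, ¬ Rel J J
  /-- robustness (5.4) -/
  robust : ∀ v, ∀ S ⊆ H v, δ1 * D' ^ 2 ≤ (S.card : ℝ) →
    c8 * (S.card : ℝ) ^ 3 / D' ^ 2 ≤
      (((S ×ˢ S).filter
        (fun x : Edge × Edge => Rel (winOf Cf (esl x.1)) (winOf Cf (esl x.2)))).card : ℝ)

/-- `(v, J)` is alive: `J` is a finest window with `|H_v ∩ J| ≥ ε₁ D'² / V`. -/
def Alive (V : ℕ) (Cf : Finset ℝ) (ε1 D' : ℝ) (H : Pt → Finset Edge) (v : Pt) (J : ℝ × ℝ) :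
    Prop :=
  J ∈ wins Cf ∧ ε1 * D' ^ 2 / V ≤ ((inWin (H v) J).card : ℝ)

/-- The final configuration `p₁, p₂, p₃, R` of B6. -/
structure FinalConf (P : Finset Pt) (V : ℕ) (Cf : Finset ℝ) (ε1 c5 D' : ℝ)
    (Rel : ℝ × ℝ → ℝ × ℝ → Prop) (H : Pt → Finset Edge) (p : Fin 3 → Pt) (R : Finset Pt) :
    Prop where
  inj : Function.Injective p
  p_mem : ∀ i, p i ∈ P
  R_sub : R ⊆ P
  card : c5 * ((P.card : ℝ) / (V : ℝ) ^ 2) ≤ (R.card : ℝ)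
  left : ∀ v ∈ R, ∀ i, (p i).1 < v.1
  alive_p : ∀ v ∈ R, ∀ i, Alive V Cf ε1 D' H (p i) (winOf Cf (sl (p i) v))
  alive_v : ∀ v ∈ R, ∀ i, Alive V Cf ε1 D' H v (winOf Cf (sl (p i) v))
  rel : ∀ v ∈ R, ∀ i j, i ≠ j → Rel (winOf Cf (sl (p i) v)) (winOf Cf (sl (p j) v))

/-- **B6**: existence of the final configuration. -/
def B6 : Prop :=
  ∀ (Cw lam1 lam2 lam3 κ c2 c8 : ℝ) (L : ℕ), 1 ≤ Cw → 1 ≤ lam1 → 1 ≤ lam2 → 1 ≤ lam3 →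
    0 < κ → κ ≤ 1 / 2 → 0 < c2 → c2 ≤ 1 → 0 < c8 → c8 ≤ 1 → 1 ≤ L →
    ∃ δ1 : ℝ, 0 < δ1 ∧ ∃ ε1 : ℝ, 0 < ε1 ∧ ∃ c5 : ℝ, 0 < c5 ∧ ∃ β : ℕ, 2 ≤ β ∧
    ∀ V : ℕ, 1 ≤ V → ∃ N0 : ℕ, ∀ P : Finset Pt, Generic P → N0 ≤ P.card → ∀ k : ℕ,
    ∀ (Vs : ℕ → ℕ) (Lw : ℕ) (W : WSys P k Vs Lw Cw) (l0 : ℕ), l0 + 1 ≤ Lw → Vs l0 = V →
      Vs (l0 + 1) = β * V → ∀ D' : ℝ, 0 < D' → ∀ (Rel : ℝ × ℝ → ℝ × ℝ → Prop)
      (H : Pt → Finset Edge),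
      HSys P k V β L (W.cuts l0) (W.cuts (l0 + 1)) lam1 lam2 lam3 κ c2 c8 δ1 D' Rel H →
      ∃ (p : Fin 3 → Pt) (R : Finset Pt),
        FinalConf P V (W.cuts l0) ε1 c5 D' Rel H p R

end Crest.Agent.R51
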