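import Crest.Agent.R51.HSys
import Crest.Agent.R51.QuadDefs

/-!
# Row 51: `B6` (helper422's form) implies `FinalExists` (integration: helper169)
-/

set_option autoImplicit false

noncomputable section

open Classical

namespace Crest.Agent.R51

/-- windows given by `inWin` are fibres of `W.J` -/
lemma inWin_subset {P : Finset Pt} {k : ℕ} {V : ℕ → ℕ} {L : ℕ} {Cw : ℝ} (W : WSys P k V L Cw)
    {l : ℕ} {E : Finset Edge} {J : ℝ × ℝ} (hJ : J ∈ wins (W.cuts l)) :
    inWin E J ⊆ E.filter (fun e => W.J l (esl e) = J) := by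
  intro e he
  obtain ⟨h1, h2, h3⟩ := mem_inWin.1 he
  exact Finset.mem_filter.2 ⟨h1, winOf_eq hJ h2 h3⟩

lemma lev_of_le {mu n0 be l : ℕ} (h : l ≤ n0) : lev mu n0 be l = mu ^ (10 * l) := if_pos h

lemma lev_self (mu n0 be : ℕ) : lev mu n0 be n0 = mu ^ (10 * n0) := lev_of_le le_rfl

lemma lev_succ (mu n0 be : ℕ) : lev mu n0 be (n0 + 1) = be * mu ^ (10 * n0) := by
  unfold lev
  rw [if_neg (by omega)]

theorem finalExists_of_B6 (hB : B6) : FinalExists := by
  intro a ha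
  obtain ⟨d1, hd1, e1, he1, c5, hc5, be, hbe, hB1⟩ := hB a.Cw a.lam1 a.lam2 a.lam3 a.kap a.c2 a.c8
    a.LL ha.Cw ha.lam1 ha.lam2 ha.lam3 ha.kap_pos ha.kap_le ha.c2 ha.c2_le ha.c8 ha.c8_le ha.LL
  refine ⟨d1, hd1, be, hbe, e1, he1, c5, hc5, fun K1 hK1 d8 hd8 => ?_⟩
  refine ⟨1, fun mu hmu => ⟨0, fun n2 _ => ⟨0, fun n0 _ => ⟨1, fun Vp hVp => ?_⟩⟩⟩⟩
  have hV : 1 ≤ mu ^ (10 * n0) := Nat.one_le_pow _ _ hmu
  obtain ⟨N0, hN0⟩ := hB1 (mu ^ (10 * n0)) hV
  refine ⟨max N0 1, fun P hP hPN k W H hH => ?_⟩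
  have hP0 : 0 < P.card := by omega
  have hPR : (0 : ℝ) < P.card := by exact_mod_cast hP0
  have hVpR : (0 : ℝ) < Vp := by exact_mod_cast hVp
  set D' : ℝ := (P.card : ℝ) / (Vp : ℝ) ^ 2 with hD'
  have hD'0 : 0 < D' := by positivity
  have hsubP : ∀ z ∈ H, z.1 ∈ P := fun z hz => (mem_T0' (hH.sub hz)).1
  -- windows of the slopes of the last edges
  have hwin : ∀ l, l ≤ n0 + 1 → ∀ z ∈ H, W.J l (esl (lastE z)) ∈ wins (W.cuts l) ∧
      (W.J l (esl (lastE z))).1 < esl (lastE z) ∧ esl (lastE z) < (W.J l (esl (lastE z))).2 := by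
    intro l hl z hz
    obtain ⟨h1, h2, h3, h4, h5, h6, h7, -⟩ := mem_T0' (hH.sub hz)
    have he : lastE z ∈ pairs P := mem_pairs.2 ⟨h2, h3, h5⟩
    have hlo : W.lo ∈ W.cuts l := W.sub 0 l (Nat.zero_le _) hl W.lo_mem
    have hhi : W.hi ∈ W.cuts l := W.sub 0 l (Nat.zero_le _) hl W.hi_mem
    exact winOf_spec (exists_win hlo hhi (W.lo_lt_slope _ he) (W.slope_lt_hi _ he)
      (fun hc => W.nons l hl _ hc (lastE z) he rfl))
  have hfib : ∀ {v : Pt} {e : Edge}, e ∈ fib H v → (v, e.1, e.2) ∈ H := fun h => mem_fib.1 h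
  have hlast : ∀ (v : Pt) (e : Edge), lastE (v, e.1, e.2) = e := fun v e => rfl
  have hHS : HSys P k (mu ^ (10 * n0)) be a.LL (W.cuts n0) (W.cuts (n0 + 1)) a.lam1 a.lam2 a.lam3
      a.kap a.c2 a.c8 d1 D' (W.NK a.lam3 K1 n0) (fib H) := by
    refine ⟨?_, ?_, ?_, ?_, ?_, ?_, ?_, ?_, ?_, ?_, ?_, ?_⟩
    · intro v e he
      obtain ⟨h1, h2, h3, h4, h5, -⟩ := mem_T0' (hH.sub (hfib he))
      exact ⟨h1, mem_pairs.2 ⟨h2, h3, h5⟩⟩
    · exact hH.fib_le
    · intro v J hJ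
      have h1 := hH.t3 n0 (Or.inr (Or.inr (Or.inl rfl))) v J hJ
      rw [lev_self] at h1
      refine le_trans ?_ (h1.trans (le_of_eq (by push_cast; rfl)))
      exact_mod_cast Finset.card_le_card (inWin_subset W hJ)
    · intro v J hJ
      have h1 := hH.t3 (n0 + 1) (Or.inr (Or.inr (Or.inr rfl))) v J hJ
      rw [lev_succ] at h1
      refine le_trans ?_ (h1.trans (le_of_eq (by push_cast; rfl)))
      exact_mod_cast Finset.card_le_card (inWin_subset W hJ)
    · intro v e he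
      have h1 := hH.t2 _ (hfib he)
      rw [lev_succ] at h1
      exact h1
    · intro v e he J hJ h1 h2
      have h3 := hH.t4 _ (hfib he)
      rw [lev_succ, hlast] at h3
      have h4 : W.J (n0 + 1) (esl e) = J := winOf_eq hJ h1 h2
      rwa [h4] at h3
    · intro v e he J hJ h1 h2 θ h3 h4
      have h5 := hH.t5 _ (hfib he)
      rw [hlast, lev_self] at h5
      have h6 : W.J n0 (esl e) = J := winOf_eq hJ h1 h2
      rw [h6] at h5
      exact h5 θ h3 h4
    · rintro v ⟨e, he⟩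
      have h1 := hH.t6 _ (hfib he)
      rw [WSys.T6, not_lt, lev_self] at h1
      have h2 : W.act n0 v = (wins (W.cuts n0)).filter
          (fun J => v ∈ cen P k (bb P.card (mu ^ (10 * n0))) J.1 J.2) := by
        unfold WSys.act WSys.A
        rw [lev_self]
      rw [h2] at h1
      exact h1
    · have h1 := hH.big
      rw [card_eq_sum_fib hsubP] at h1
      push_cast at h1
      exact h1
    · rintro I J ⟨h1, h2⟩
      refine ⟨h1.symm, ?_⟩
      have h3 : W.cc a.lam3 n0 J I = W.cc a.lam3 n0 I J := by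
        unfold WSys.cc
        ext v
        simp only [Finset.mem_filter]
        tauto
      rw [h3]
      exact h2
    · rintro J ⟨h1, -⟩
      exact h1 rfl
    · intro v S hS h1
      exact hH.rob v S hS h1
  obtain ⟨p, R, hF⟩ := hN0 P hP (by omega) k (lev mu n0 be) (n0 + 1) W n0 le_rfl
    (lev_self _ _ _) (lev_succ _ _ _) D' hD'0 (W.NK a.lam3 K1 n0) (fib H) hHS
  have hlevR : ((lev mu n0 be n0 : ℕ) : ℝ) = ((mu ^ (10 * n0) : ℕ) : ℝ) := by rw [lev_self]
  have hpos : (0 : ℝ) < ((mu ^ (10 * n0) : ℕ) : ℝ) := by exact_mod_cast hV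
  -- an alive pair has an edge
  have halive : ∀ (v : Pt) (J : ℝ × ℝ), Alive (mu ^ (10 * n0)) (W.cuts n0) e1 D' (fib H) v J →
      ∃ e ∈ fib H v, J.1 < esl e ∧ esl e < J.2 := by
    rintro v J ⟨-, h1⟩
    have h2 : (0 : ℝ) < ((inWin (fib H v) J).card : ℝ) :=
      lt_of_lt_of_le (by positivity) h1
    have h3 : 0 < (inWin (fib H v) J).card := by exact_mod_cast h2
    obtain ⟨e, he⟩ := Finset.card_pos.1 h3
    exact ⟨e, mem_inWin.1 he⟩
  refine ⟨p, R, hF.p_mem, hF.R_sub, hF.inj, ?_, hF.left, ?_, ?_, ?_, ?_⟩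
  · rw [hlevR]; exact hF.card
  · intro v hv i
    obtain ⟨h1, h2⟩ := hF.alive_p v hv i
    rw [hlevR]
    refine h2.trans ?_
    exact_mod_cast Finset.card_le_card (inWin_subset W h1)
  · intro v hv i
    obtain ⟨e, he, h1, h2⟩ := halive _ _ (hF.alive_v v hv i)
    have h3 := hH.t2 _ (hfib he)
    rw [hlast, lev_succ] at h3
    have h4 : v ∈ P := hF.R_sub hv
    refine mem_cen.2 ⟨h4, esl e, h1, h2, h3.mono ?_⟩
    rw [lev_self]
    have h5 : bb P.card (be * mu ^ (10 * n0)) ≤ bb P.card (mu ^ (10 * n0)) := by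
      unfold bb
      exact Nat.div_le_div_left (Nat.pow_le_pow_left (Nat.le_mul_of_pos_left _ (by omega)) 3)
        (by positivity)
    refine le_trans ?_ h5
    have h6 : a.kap * (bb P.card (be * mu ^ (10 * n0)) : ℝ)
        ≤ (bb P.card (be * mu ^ (10 * n0)) : ℝ) := by
      have := ha.kap_le
      have h7 : (0 : ℝ) ≤ (bb P.card (be * mu ^ (10 * n0)) : ℝ) := Nat.cast_nonneg _
      nlinarith [ha.kap_pos]
    exact Nat.floor_le_of_le h6
  · intro v hv i j hij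
    exact hF.rel v hv i j hij
  · intro v hv
    obtain ⟨e, he, -, -⟩ := halive _ _ (hF.alive_v v hv 0)
    exact hH.t6 _ (hfib he)

end Crest.Agent.R51
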