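import Crest.Agent.R51.Defs

/-!
# Row 51, section B8: Ceva relation for slopes

For four points `p₁ p₂ p₃ r` with pairwise distinct abscissae the slopes satisfy
`(s(p₁r) - s(p₁p₂)) (s(p₂r) - s(p₂p₃)) (s(p₃r) - s(p₃p₁))
  = (s(p₁r) - s(p₁p₃)) (s(p₂r) - s(p₂p₁)) (s(p₃r) - s(p₃p₂))`.
Taking logarithms of absolute values gives the additive relation `α₁ + α₂ + α₃ = 0` with
`αᵢ = lr (s(pᵢr)) (s(pᵢpⱼ)) (s(pᵢpₖ))`, `lr s a b = log |s - a| - log |s - b|`; `lr · a b` is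
strictly monotone on every component of `ℝ \ {a, b}`.
-/

set_option autoImplicit false

noncomputable section

open Classical

namespace Crest.Agent.R51

/-- Orientation determinant. -/
def ori (p q r : Pt) : ℝ := (q.1 - p.1) * (r.2 - p.2) - (q.2 - p.2) * (r.1 - p.1)

lemma sl_sub_sl {p q r : Pt} (hq : p.1 ≠ q.1) (hr : p.1 ≠ r.1) :
    sl p r - sl p q = ori p q r / ((r.1 - p.1) * (q.1 - p.1)) := by
  have h1 : r.1 - p.1 ≠ 0 := sub_ne_zero.2 (Ne.symm hr)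
  have h2 : q.1 - p.1 ≠ 0 := sub_ne_zero.2 (Ne.symm hq)
  unfold sl ori
  field_simp

/-- Ceva relation for slopes, with signs. -/
theorem ceva {a b c r : Pt} (hab : a.1 ≠ b.1) (hac : a.1 ≠ c.1) (hbc : b.1 ≠ c.1)
    (har : a.1 ≠ r.1) (hbr : b.1 ≠ r.1) (hcr : c.1 ≠ r.1) :
    (sl a r - sl a b) * (sl b r - sl b c) * (sl c r - sl c a) =
      (sl a r - sl a c) * (sl b r - sl b a) * (sl c r - sl c b) := by
  have h1 : r.1 - a.1 ≠ 0 := sub_ne_zero.2 (Ne.symm har)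
  have h2 : r.1 - b.1 ≠ 0 := sub_ne_zero.2 (Ne.symm hbr)
  have h3 : r.1 - c.1 ≠ 0 := sub_ne_zero.2 (Ne.symm hcr)
  have h4 : b.1 - a.1 ≠ 0 := sub_ne_zero.2 (Ne.symm hab)
  have h5 : c.1 - a.1 ≠ 0 := sub_ne_zero.2 (Ne.symm hac)
  have h6 : c.1 - b.1 ≠ 0 := sub_ne_zero.2 (Ne.symm hbc)
  have h4' : a.1 - b.1 ≠ 0 := sub_ne_zero.2 hab
  have h5' : a.1 - c.1 ≠ 0 := sub_ne_zero.2 hac
  have h6' : b.1 - c.1 ≠ 0 := sub_ne_zero.2 hbc
  rw [sl_sub_sl hab har, sl_sub_sl hbc hbr, sl_sub_sl (Ne.symm hac) hcr,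
    sl_sub_sl hac har, sl_sub_sl (Ne.symm hab) hbr, sl_sub_sl (Ne.symm hbc) hcr]
  rw [div_mul_div_comm, div_mul_div_comm, div_mul_div_comm, div_mul_div_comm,
    div_eq_div_iff (by positivity) (by positivity)]
  unfold ori
  ring

/-- Log-ratio coordinate. -/
def lr (s a b : ℝ) : ℝ := Real.log |s - a| - Real.log |s - b|

/-- Additive form of the Ceva relation. -/
theorem ceva_log {a b c r : Pt} (hab : a.1 ≠ b.1) (hac : a.1 ≠ c.1) (hbc : b.1 ≠ c.1)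
    (har : a.1 ≠ r.1) (hbr : b.1 ≠ r.1) (hcr : c.1 ≠ r.1)
    (h1 : sl a r ≠ sl a b) (h2 : sl a r ≠ sl a c) (h3 : sl b r ≠ sl b c) (h4 : sl b r ≠ sl b a)
    (h5 : sl c r ≠ sl c a) (h6 : sl c r ≠ sl c b) :
    lr (sl a r) (sl a b) (sl a c) + lr (sl b r) (sl b c) (sl b a) +
      lr (sl c r) (sl c a) (sl c b) = 0 := by
  have h := ceva hab hac hbc har hbr hcr
  have h1' := abs_ne_zero.2 (sub_ne_zero.2 h1)
  have h2' := abs_ne_zero.2 (sub_ne_zero.2 h2)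
  have h3' := abs_ne_zero.2 (sub_ne_zero.2 h3)
  have h4' := abs_ne_zero.2 (sub_ne_zero.2 h4)
  have h5' := abs_ne_zero.2 (sub_ne_zero.2 h5)
  have h6' := abs_ne_zero.2 (sub_ne_zero.2 h6)
  have h' := congrArg (fun x => Real.log |x|) h
  simp only [abs_mul] at h'
  rw [Real.log_mul (mul_ne_zero h1' h3') h5', Real.log_mul h1' h3',
    Real.log_mul (mul_ne_zero h2' h4') h6', Real.log_mul h2' h4'] at h'
  unfold lr
  linarith

end Crest.Agent.R51
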