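import Crest.Agent.R51.CevaMono
import Crest.Agent.R51.AddBase

/-!
# Row 51, section B8: window labels and the coordinate `lr`

Abstract part: `f` strictly monotone or strictly antitone on an order-connected set `I`
(`f = lr · a b`, `I` = a component of `ℝ \ {a, b}`).
-/

set_option autoImplicit false

noncomputable section

open Classical

namespace Crest.Agent.R51

/-- component of `ℝ \ {a, b}` containing `θ₀` -/
def Cmp (a b θ₀ : ℝ) : Set ℝ := {θ | SameSide a θ₀ θ ∧ SameSide b θ₀ θ}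

lemma ordConnected_Cmp (a b θ₀ : ℝ) : (Cmp a b θ₀).OrdConnected := by
  constructor
  rintro x ⟨hxa, hxb⟩ y ⟨hya, hyb⟩ z ⟨h1, h2⟩
  exact ⟨hxa.trans ((hxa.symm.trans hya).between h1 h2),
    hxb.trans ((hxb.symm.trans hyb).between h1 h2)⟩

/-- `lr · a b` is strictly monotone or strictly antitone on the component. -/
lemma lr_mono_or_anti {a b : ℝ} (hab : a ≠ b) (θ₀ : ℝ) :
    StrictMonoOn (fun s => lr s a b) (Cmp a b θ₀) ∨
      StrictAntiOn (fun s => lr s a b) (Cmp a b θ₀) := by
  by_cases hne : (Cmp a b θ₀).Nonempty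
  swap
  · left
    intro x hx
    exact (hne ⟨x, hx⟩).elim
  obtain ⟨z, hza, hzb⟩ := hne
  have h0a : θ₀ - a ≠ 0 := hza.ne_left
  have h0b : θ₀ - b ≠ 0 := hzb.ne_left
  have hab' : a - b ≠ 0 := sub_ne_zero.2 hab
  have key : ∀ x, SameSide a θ₀ x → SameSide b θ₀ x →
      0 < ((x - a) * (x - b) * (a - b)) * ((θ₀ - a) * (θ₀ - b) * (a - b)) := by
    intro x h1 h2
    unfold SameSide at h1 h2
    have h3 : 0 < (a - b) ^ 2 := by positivity
    have h4 := mul_pos (mul_pos h1 h2) h3
    nlinarith [h4]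
  have hc0 : (θ₀ - a) * (θ₀ - b) * (a - b) ≠ 0 := mul_ne_zero (mul_ne_zero h0a h0b) hab'
  rcases lt_or_gt_of_ne hc0 with hc | hc
  · right
    intro x hx y hy hxy
    have hxc : (x - a) * (x - b) * (a - b) < 0 := by
      have := key x hx.1 hx.2
      by_contra hcon
      have := mul_nonpos_of_nonneg_of_nonpos (not_lt.1 hcon) hc.le
      linarith
    have hyc : (y - a) * (y - b) * (a - b) < 0 := by
      have := key y hy.1 hy.2
      by_contra hcon
      have := mul_nonpos_of_nonneg_of_nonpos (not_lt.1 hcon) hc.le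
      linarith
    show lr y a b < lr x a b
    rw [lr_lt_iff (hy.1.symm.trans hx.1) (hy.2.symm.trans hx.2)]
    exact mul_pos_of_neg_of_neg hyc (by linarith)
  · left
    intro x hx y hy hxy
    have hxc : 0 < (x - a) * (x - b) * (a - b) := by
      have := key x hx.1 hx.2
      exact (pos_iff_pos_of_mul_pos this).2 hc
    show lr x a b < lr y a b
    rw [lr_lt_iff (hx.1.symm.trans hy.1) (hx.2.symm.trans hy.2)]
    exact mul_pos hxc (by linarith)

/-- label of `θ` in the partition given by the cuts `S` -/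
def lab (S : Finset ℝ) (θ : ℝ) : ℕ := (S.filter (fun c => c ≤ θ)).card

lemma lab_mono (S : Finset ℝ) : Monotone (lab S) := by
  intro x y hxy
  apply Finset.card_le_card
  intro c hc
  simp only [Finset.mem_filter] at hc ⊢
  exact ⟨hc.1, hc.2.trans hxy⟩

/-- equal labels iff no cut in between -/
lemma lab_eq_of_no_cut {S : Finset ℝ} {x y : ℝ} (hxy : x ≤ y) (h : ∀ c ∈ S, ¬ (x < c ∧ c ≤ y)) :
    lab S x = lab S y := by
  unfold lab
  congr 1
  ext c
  simp only [Finset.mem_filter]
  refine and_congr_right fun hc => ⟨fun h' => h'.trans hxy, fun h' => ?_⟩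
  by_contra hcon
  exact h c hc ⟨not_le.1 hcon, h'⟩

lemma no_cut_of_lab_eq {S : Finset ℝ} {x y : ℝ} (h : lab S x = lab S y) :
    ∀ c ∈ S, ¬ (x < c ∧ c ≤ y) := by
  rintro c hc ⟨h1, h2⟩
  have hsub : S.filter (fun c => c ≤ x) ⊂ S.filter (fun c => c ≤ y) := by
    refine Finset.ssubset_iff_subset_ne.2 ⟨?_, ?_⟩
    · intro d hd
      simp only [Finset.mem_filter] at hd ⊢
      exact ⟨hd.1, hd.2.trans (h1.le.trans h2)⟩
    · intro heq
      have : c ∈ S.filter (fun c => c ≤ x) := by
        rw [heq, Finset.mem_filter]; exact ⟨hc, h2⟩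
      rw [Finset.mem_filter] at this
      linarith [this.2]
  have := Finset.card_lt_card hsub
  unfold lab at h
  omega

/-- coarser cuts: equality of the fine label implies equality of the coarse label -/
lemma lab_eq_of_subset {S T : Finset ℝ} (hST : S ⊆ T) {x y : ℝ} (h : lab T x = lab T y) :
    lab S x = lab S y := by
  rcases le_total x y with hxy | hxy
  · exact lab_eq_of_no_cut hxy fun c hc => no_cut_of_lab_eq h c (hST hc)
  · exact (lab_eq_of_no_cut hxy fun c hc => no_cut_of_lab_eq h.symm c (hST hc)).symm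

section abstract

variable {f : ℝ → ℝ} {I : Set ℝ}

/-- order-convexity of the window labels -/
theorem ordConv_lab {R : Type*} (hf : StrictMonoOn f I ∨ StrictAntiOn f I) (S : Finset ℝ)
    (θ : R → ℝ) (hθ : ∀ v, θ v ∈ I) :
    Add.OrdConv (fun v => f (θ v)) (fun v => lab S (θ v)) := by
  intro u v x huv h1 h2
  simp only at huv h1 h2 ⊢
  have hm := lab_mono S
  rcases hf with hf | hf
  · have h1' := (hf.le_iff_le (hθ u) (hθ x)).1 h1
    have h2' := (hf.le_iff_le (hθ x) (hθ v)).1 h2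
    exact le_antisymm ((hm h2').trans huv.ge) (hm h1')
  · have h1' := (hf.le_iff_ge (hθ u) (hθ x)).1 h1
    have h2' := (hf.le_iff_ge (hθ x) (hθ v)).1 h2
    exact le_antisymm (hm h1') (huv.le.trans (hm h2'))

/-- (A5)(a): oscillation of `f` on a window -/
theorem abs_sub_le_window (hf : StrictMonoOn f I ∨ StrictAntiOn f I) {s t x y : ℝ}
    (hs : s ∈ I) (ht : t ∈ I) (hx : x ∈ I) (hy : y ∈ I) (h1 : s ≤ x) (h2 : x ≤ t) (h3 : s ≤ y)
    (h4 : y ≤ t) : |f x - f y| ≤ |f t - f s| := by
  rcases hf with hf | hf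
  · have a1 := hf.monotoneOn hs hx h1
    have a2 := hf.monotoneOn hx ht h2
    have a3 := hf.monotoneOn hs hy h3
    have a4 := hf.monotoneOn hy ht h4
    rw [abs_of_nonneg (show 0 ≤ f t - f s by linarith), abs_le]
    constructor <;> linarith
  · have a1 := hf.antitoneOn hs hx h1
    have a2 := hf.antitoneOn hx ht h2
    have a3 := hf.antitoneOn hs hy h3
    have a4 := hf.antitoneOn hy ht h4
    rw [abs_of_nonpos (show f t - f s ≤ 0 by linarith), abs_le]
    constructor <;> linarith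

/-- (A5)(b): if a side block `[t, t']` (or `[s', s]`) of the window `[s, t]` inside the parent
`[p₀, p₁]` has `f`-length at least `Lam` times that of the window, then points of `I` whose
`f`-value is within `Lam * ρ` on the corresponding side lie in the parent. -/
theorem side_block (hf : StrictMonoOn f I ∨ StrictAntiOn f I) {p₀ p₁ s t Lam : ℝ}
    (hp : Set.Icc p₀ p₁ ⊆ I) (hs0 : p₀ ≤ s) (hst : s < t) (ht1 : t ≤ p₁)
    (hblock : (∃ t', t ≤ t' ∧ t' ≤ p₁ ∧ Lam * |f t - f s| ≤ |f t' - f t|) ∨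
      (∃ s', p₀ ≤ s' ∧ s' ≤ s ∧ Lam * |f t - f s| ≤ |f s - f s'|)) {x : ℝ} (hx1 : s < x)
    (hx2 : x < t) :
    ∃ sg : ℝ, (sg = 1 ∨ sg = -1) ∧ ∀ y ∈ I, 0 ≤ sg * (f y - f x) →
      sg * (f y - f x) ≤ Lam * |f t - f s| → p₀ < y ∧ y < p₁ := by
  have hsI : s ∈ I := hp ⟨hs0, hst.le.trans ht1⟩
  have htI : t ∈ I := hp ⟨hs0.trans hst.le, ht1⟩
  have hxI : x ∈ I := hp ⟨hs0.trans hx1.le, hx2.le.trans ht1⟩
  rcases hblock with ⟨t', h1, h2, h3⟩ | ⟨s', h1, h2, h3⟩
  · have ht'I : t' ∈ I := hp ⟨hs0.trans (hst.le.trans h1), h2⟩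
    rcases hf with hf | hf
    · refine ⟨1, Or.inl rfl, fun y hy h4 h5 => ?_⟩
      rw [one_mul] at h4 h5
      have h6 : x ≤ y := (hf.le_iff_le hxI hy).1 (by linarith)
      have h7 : f x < f t := hf hxI htI hx2
      have h8 : f t ≤ f t' := hf.monotoneOn htI ht'I h1
      rw [abs_of_nonneg (show 0 ≤ f t' - f t by linarith)] at h3
      have h9 : f y < f t' := by linarith
      have h10 : y < t' := (hf.lt_iff_lt hy ht'I).1 h9
      exact ⟨by linarith, by linarith⟩
    · refine ⟨-1, Or.inr rfl, fun y hy h4 h5 => ?_⟩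
      have h6 : x ≤ y := (hf.le_iff_ge hy hxI).1 (by linarith)
      have h7 : f t < f x := hf hxI htI hx2
      have h8 : f t' ≤ f t := hf.antitoneOn htI ht'I h1
      rw [abs_of_nonpos (show f t' - f t ≤ 0 by linarith)] at h3
      have h9 : f t' < f y := by linarith
      have h10 : y < t' := (hf.lt_iff_gt ht'I hy).1 h9
      exact ⟨by linarith, by linarith⟩
  · have hs'I : s' ∈ I := hp ⟨h1, h2.trans (hst.le.trans ht1)⟩
    rcases hf with hf | hf
    · refine ⟨-1, Or.inr rfl, fun y hy h4 h5 => ?_⟩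
      have h6 : y ≤ x := (hf.le_iff_le hy hxI).1 (by linarith)
      have h7 : f s < f x := hf hsI hxI hx1
      have h8 : f s' ≤ f s := hf.monotoneOn hs'I hsI h2
      rw [abs_of_nonneg (show 0 ≤ f s - f s' by linarith)] at h3
      have h9 : f s' < f y := by linarith
      have h10 : s' < y := (hf.lt_iff_lt hs'I hy).1 h9
      exact ⟨by linarith, by linarith⟩
    · refine ⟨1, Or.inl rfl, fun y hy h4 h5 => ?_⟩
      rw [one_mul] at h4 h5
      have h6 : y ≤ x := (hf.le_iff_ge hxI hy).1 (by linarith)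
      have h7 : f x < f s := hf hsI hxI hx1
      have h8 : f s ≤ f s' := hf.antitoneOn hs'I hsI h2
      rw [abs_of_nonpos (show f s - f s' ≤ 0 by linarith)] at h3
      have h9 : f y < f s' := by linarith
      have h10 : s' < y := (hf.lt_iff_gt hy hs'I).1 h9
      exact ⟨by linarith, by linarith⟩

end abstract

end Crest.Agent.R51
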