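import Crest.Agent.R51.CevaLab

/-!
# Row 51, section B8: from the final configuration to the additive theorem ADD

`ADDProp` is the statement of the additive theorem (helper635, B9).  `CevaCfg` collects what B8 needs
from B5, B6, B7: the three points `p 0, p 1, p 2`, the set `R` of points `v` to the right of them, the
bounds for the window labels `lab (cuts l) (sl (p i) v)` and the good levels `G v` of 7.5.
`ceva_main : ADDProp → no CevaCfg`.
-/

set_option autoImplicit false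

noncomputable section

open Classical Finset

namespace Crest.Agent.R51

/-- the statement of ADD (B9) -/
def ADDProp : Prop :=
  ∀ (C η : ℝ), 1 ≤ C → 0 < η → ∃ mu0 : ℕ, ∀ mu : ℕ, mu0 ≤ mu → ∃ N1 N0 : ℕ, ∀ n1 n0 : ℕ,
    N1 ≤ n1 → N0 ≤ n0 → 4 * n1 ≤ n0 → ∀ (R : Type) [Fintype R] (α : Fin 3 → R → ℝ)
    (w : Fin 3 → R → ℕ) (wl : ℕ → R → ℕ) (G : R → Finset ℕ),
    Add.Setting C (((mu : ℝ) ^ 10) ^ n0) α w →
    (∀ v, G v ⊆ Finset.Icc 1 n1 ∧ η * n1 ≤ #(G v)) →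
    (∀ v, ∀ j ∈ G v, ∃ ρ : ℝ, 0 < ρ ∧ ∃ s : ℝ, (s = 1 ∨ s = -1) ∧
      (∀ u, wl j u = wl j v → |α 0 u - α 0 v| ≤ ρ) ∧
      (∀ u, 0 ≤ s * (α 0 u - α 0 v) → s * (α 0 u - α 0 v) ≤ (mu : ℝ) ^ 11 * ρ →
        wl (j - 1) u = wl (j - 1) v) ∧
      (#(Add.fib (wl (j - 1)) (wl (j - 1) v)) : ℝ) * ((mu : ℝ) ^ 10) ^ (j - 1) ≤
        C * Fintype.card R ∧
      (#(univ.image (wl j)) : ℝ) ≤ C * ((mu : ℝ) ^ 10) ^ j) → False

/-- the windows of the finite set of cuts `S` have a side block: `(s,t)` is the window of `θ` for the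
cuts `S`, `(p₀,p₁)` the window of `θ` for the coarser cuts `S'`, the closure of the latter contains
neither `a` nor `b`, and to one side of `(s,t)` inside `(p₀,p₁)` there is a block whose `lr · a b`-length
is at least `Lam` times that of `(s,t)`. -/
def SideBlock (S S' : Finset ℝ) (a b Lam θ : ℝ) : Prop :=
  ∃ p₀ p₁ s t : ℝ, p₀ ≤ s ∧ s < θ ∧ θ < t ∧ t ≤ p₁ ∧ s ∈ S ∧ t ∈ S ∧
    (∀ c ∈ S', ¬ (p₀ < c ∧ c < p₁)) ∧ a ∉ Set.Icc p₀ p₁ ∧ b ∉ Set.Icc p₀ p₁ ∧
    ((∃ t', t ≤ t' ∧ t' ≤ p₁ ∧ Lam * |lr t a b - lr s a b| ≤ |lr t' a b - lr t a b|) ∨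
      (∃ s', p₀ ≤ s' ∧ s' ≤ s ∧ Lam * |lr t a b - lr s a b| ≤ |lr s a b - lr s' a b|))

/-- what B8 needs -/
structure CevaCfg (C c η : ℝ) (mu n1 n0 : ℕ) (D : ℝ) (p : Fin 3 → Pt) (R : Finset Pt)
    (cuts : ℕ → Finset ℝ) (G : Pt → Finset ℕ) : Prop where
  D_pos : 0 < D
  card : c * D ≤ (#R : ℝ)
  xne : ∀ i j, i ≠ j → (p i).1 ≠ (p j).1
  xv : ∀ v ∈ R, ∀ i, (p i).1 ≠ v.1
  ab : ∀ i, sl (p i) (p (i + 1)) ≠ sl (p i) (p (i + 2))
  sv : ∀ v ∈ R, ∀ i j, i ≠ j → sl (p i) v ≠ sl (p i) (p j)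
  A1 : ∀ i, (#(R.image (fun v => lab (cuts n0) (sl (p i) v))) : ℝ) ≤ C * ((mu : ℝ) ^ 10) ^ n0
  A2 : ∀ i a, (#(R.filter (fun v => lab (cuts n0) (sl (p i) v) = a)) : ℝ) * ((mu : ℝ) ^ 10) ^ n0 ≤
    C * D
  A3 : ∀ i j, i ≠ j → ∀ a b, (#(R.filter (fun v => lab (cuts n0) (sl (p i) v) = a ∧
    lab (cuts n0) (sl (p j) v) = b)) : ℝ) * (((mu : ℝ) ^ 10) ^ n0) ^ 2 ≤ C * D
  G_sub : ∀ v ∈ R, G v ⊆ Finset.Icc 1 n1 ∧ η * n1 ≤ (#(G v) : ℝ)
  block : ∀ v ∈ R, ∀ j ∈ G v, SideBlock (cuts j) (cuts (j - 1)) (sl (p 0) (p 1)) (sl (p 0) (p 2))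
    ((mu : ℝ) ^ 11) (sl (p 0) v)
  fibre : ∀ v ∈ R, ∀ j ∈ G v, (#(R.filter (fun u => lab (cuts (j - 1)) (sl (p 0) u) =
    lab (cuts (j - 1)) (sl (p 0) v))) : ℝ) * ((mu : ℝ) ^ 10) ^ (j - 1) ≤ C * D
  labels : ∀ v ∈ R, ∀ j ∈ G v, (#(R.image (fun u => lab (cuts j) (sl (p 0) u))) : ℝ) ≤
    C * ((mu : ℝ) ^ 10) ^ j

/-- side of `θ` with respect to `a` and `b` -/
def side (a b θ : ℝ) : Bool × Bool := (decide (a < θ), decide (b < θ))

lemma sameSide_of_decide {a x y : ℝ} (hx : x ≠ a) (hy : y ≠ a)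
    (h : decide (a < x) = decide (a < y)) : SameSide a x y := by
  unfold SameSide
  rw [decide_eq_decide] at h
  rcases lt_or_gt_of_ne hx with h1 | h1
  · have h2 : ¬ a < y := fun h3 => absurd (h.2 h3) (not_lt.2 h1.le)
    have h3 : y < a := lt_of_le_of_ne (not_lt.1 h2) hy
    exact mul_pos_of_neg_of_neg (by linarith) (by linarith)
  · have h3 : a < y := h.1 h1
    exact mul_pos (by linarith) (by linarith)

lemma sameSide_of_notMem {a p₀ p₁ x y : ℝ} (ha : a ∉ Set.Icc p₀ p₁) (hx : x ∈ Set.Icc p₀ p₁)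
    (hy : y ∈ Set.Icc p₀ p₁) : SameSide a x y := by
  unfold SameSide
  rw [Set.mem_Icc, not_and_or, not_le, not_le] at ha
  rcases ha with ha | ha
  · exact mul_pos (by linarith [hx.1]) (by linarith [hy.1])
  · exact mul_pos_of_neg_of_neg (by linarith [hx.2]) (by linarith [hy.2])

/-- the coordinate `α_i` -/
def alp (p : Fin 3 → Pt) (i : Fin 3) (v : Pt) : ℝ :=
  lr (sl (p i) v) (sl (p i) (p (i + 1))) (sl (p i) (p (i + 2)))

theorem alp_sum {p : Fin 3 → Pt} {v : Pt} (xne : ∀ i j, i ≠ j → (p i).1 ≠ (p j).1)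
    (xv : ∀ i, (p i).1 ≠ v.1) (sv : ∀ i j, i ≠ j → sl (p i) v ≠ sl (p i) (p j)) :
    alp p 0 v + alp p 1 v + alp p 2 v = 0 := by
  have h := ceva_log (a := p 0) (b := p 1) (c := p 2) (r := v)
    (xne 0 1 (by decide)) (xne 0 2 (by decide)) (xne 1 2 (by decide)) (xv 0) (xv 1) (xv 2)
    (sv 0 1 (by decide)) (sv 0 2 (by decide)) (sv 1 2 (by decide)) (sv 1 0 (by decide))
    (sv 2 0 (by decide)) (sv 2 1 (by decide))
  exact h

/-- the pigeonhole class -/
theorem exists_class (p : Fin 3 → Pt) (R : Finset Pt) : ∃ R' ⊆ R, (#R : ℝ) ≤ 64 * #R' ∧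
    ∀ u ∈ R', ∀ v ∈ R', ∀ i, side (sl (p i) (p (i + 1))) (sl (p i) (p (i + 2))) (sl (p i) u) =
      side (sl (p i) (p (i + 1))) (sl (p i) (p (i + 2))) (sl (p i) v) := by
  let f : Pt → (Fin 3 → Bool × Bool) := fun v i =>
    side (sl (p i) (p (i + 1))) (sl (p i) (p (i + 2))) (sl (p i) v)
  have hcard : Fintype.card (Fin 3 → Bool × Bool) = 64 := by
    simp
  obtain ⟨y, -, hy⟩ := Finset.exists_le_card_fiber_of_nsmul_le_card_of_maps_to
    (s := R) (t := (Finset.univ : Finset (Fin 3 → Bool × Bool))) (f := f)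
    (b := (#R : ℝ) / 64) (fun a _ => Finset.mem_univ _) ⟨fun _ => (true, true), Finset.mem_univ _⟩
    (by
      rw [Finset.card_univ, hcard, nsmul_eq_mul]
      push_cast
      linarith)
  refine ⟨R.filter (fun x => f x = y), Finset.filter_subset _ _, ?_, ?_⟩
  · linarith
  · intro u hu v hv i
    rw [Finset.mem_filter] at hu hv
    have := congrFun (hu.2.trans hv.2.symm) i
    exact this

lemma card_image_subtype_le {R' R : Finset Pt} (hsub : R' ⊆ R) (f : Pt → ℕ) :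
    #((univ : Finset {x // x ∈ R'}).image (fun v => f v.1)) ≤ #(R.image f) := by
  apply Finset.card_le_card
  intro a ha
  obtain ⟨v, -, rfl⟩ := Finset.mem_image.1 ha
  exact Finset.mem_image_of_mem _ (hsub v.2)

lemma card_filter_subtype_le {R' R : Finset Pt} (hsub : R' ⊆ R) (q : Pt → Prop)
    [i1 : DecidablePred q] (F : Finset {x // x ∈ R'}) (hF : ∀ v ∈ F, q v.1) :
    #F ≤ #(R.filter q) := by
  apply Finset.card_le_card_of_injOn Subtype.val
  · intro v hv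
    rw [Finset.mem_coe] at hv
    rw [Finset.mem_coe, Finset.mem_filter]
    exact ⟨hsub v.2, hF v hv⟩
  · exact Subtype.val_injective.injOn

lemma mem_fib_inter {R : Type*} [Fintype R] {w w' : R → ℕ} {a b : ℕ} {v : R}
    (h : v ∈ Add.fib w a ∩ Add.fib w' b) : w v = a ∧ w' v = b := by
  rw [Finset.mem_inter, Add.mem_fib, Add.mem_fib] at h
  exact h

/-- **B8**: a configuration contradicts ADD. -/
theorem ceva_main (hADD : ADDProp) (C c η : ℝ) (hc : 0 < c) (hη : 0 < η) :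
    ∃ mu0 : ℕ, ∀ mu : ℕ, mu0 ≤ mu → ∃ N1 N0 : ℕ, ∀ n1 n0 : ℕ, N1 ≤ n1 → N0 ≤ n0 → 4 * n1 ≤ n0 →
      ∀ (D : ℝ) (p : Fin 3 → Pt) (R : Finset Pt) (cuts : ℕ → Finset ℝ) (G : Pt → Finset ℕ),
        CevaCfg C c η mu n1 n0 D p R cuts G → False := by
  set C' : ℝ := max (max 1 C) (64 * C / c) with hC'
  have hC'1 : 1 ≤ C' := (le_max_left _ _).trans (le_max_left _ _)
  have hC'2 : C ≤ C' := (le_max_right _ _).trans (le_max_left _ _)
  have hC'3 : 64 * C / c ≤ C' := le_max_right _ _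
  obtain ⟨mu0, hmu0⟩ := hADD C' η hC'1 hη
  refine ⟨max mu0 2, fun mu hmu => ?_⟩
  obtain ⟨N1, N0, hN⟩ := hmu0 mu ((le_max_left _ _).trans hmu)
  have hmu2 : (2 : ℝ) ≤ mu := by exact_mod_cast (le_max_right _ _).trans hmu
  refine ⟨N1, N0, fun n1 n0 hn1 hn0 h4 D p R cuts G h => ?_⟩
  obtain ⟨R', hsub, hcard, hside⟩ := exists_class p R
  have hRpos : (0 : ℝ) < #R := lt_of_lt_of_le (mul_pos hc h.D_pos) h.card
  have hR'pos : (0 : ℝ) < #R' := by linarith
  have hR'ne : R'.Nonempty := by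
    rw [← Finset.card_pos]; exact_mod_cast hR'pos
  obtain ⟨v0, hv0⟩ := hR'ne
  -- constants
  have hconst : C * D ≤ C' * #R' := by
    have h1 : 64 * C ≤ C' * c := by
      rw [div_le_iff₀ hc] at hC'3; exact hC'3
    have h2 : c * D ≤ 64 * #R' := h.card.trans hcard
    have h3 : 0 ≤ C' := by linarith
    have h4 : 64 * (C * D) ≤ C' * (c * D) := by nlinarith [h.D_pos]
    have h5 : C' * (c * D) ≤ C' * (64 * #R') := mul_le_mul_of_nonneg_left h2 h3
    linarith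
  -- same side
  have hss : ∀ u ∈ R', ∀ v ∈ R', ∀ i, SameSide (sl (p i) (p (i + 1))) (sl (p i) u) (sl (p i) v) ∧
      SameSide (sl (p i) (p (i + 2))) (sl (p i) u) (sl (p i) v) := by
    intro u hu v hv i
    have h1 := hside u hu v hv i
    unfold side at h1
    rw [Prod.mk.injEq] at h1
    have i1 : i ≠ i + 1 := by fin_cases i <;> decide
    have i2 : i ≠ i + 2 := by fin_cases i <;> decide
    exact ⟨sameSide_of_decide (h.sv u (hsub hu) i _ i1) (h.sv v (hsub hv) i _ i1) h1.1,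
      sameSide_of_decide (h.sv u (hsub hu) i _ i2) (h.sv v (hsub hv) i _ i2) h1.2⟩
  have hmem : ∀ i, ∀ u : {x // x ∈ R'}, sl (p i) u.1 ∈
      Cmp (sl (p i) (p (i + 1))) (sl (p i) (p (i + 2))) (sl (p i) v0) :=
    fun i u => hss v0 hv0 u.1 u.2 i
  have hmono := fun i => lr_mono_or_anti (h.ab i) (sl (p i) v0)
  -- data for ADD
  let α : Fin 3 → {x // x ∈ R'} → ℝ := fun i v => alp p i v.1
  let w : Fin 3 → {x // x ∈ R'} → ℕ := fun i v => lab (cuts n0) (sl (p i) v.1)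
  let wl : ℕ → {x // x ∈ R'} → ℕ := fun j v => lab (cuts j) (sl (p 0) v.1)
  let G' : {x // x ∈ R'} → Finset ℕ := fun v => G v.1
  have hcardR' : (Fintype.card {x // x ∈ R'} : ℝ) = #R' := by
    rw [Fintype.card_coe]
  refine hN n1 n0 hn1 hn0 h4 {x // x ∈ R'} α w wl G' ?_ ?_ ?_
  · refine ⟨⟨⟨v0, hv0⟩⟩, hC'1, ?_, ?_, ?_, ?_, ?_, ?_⟩
    · exact one_le_pow₀ (one_le_pow₀ (by linarith))
    · intro v
      exact alp_sum h.xne (h.xv v.1 (hsub v.2)) (h.sv v.1 (hsub v.2))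
    · intro i
      exact ordConv_lab (S := cuts n0) (hmono i) (θ := fun v : {x // x ∈ R'} => sl (p i) v.1)
        (fun v => hmem i v)
    · intro i
      have h1 := card_image_subtype_le hsub (fun v => lab (cuts n0) (sl (p i) v))
      have h2 := h.A1 i
      have h3 : (0 : ℝ) < ((mu : ℝ) ^ 10) ^ n0 := by positivity
      calc (#(univ.image (w i)) : ℝ) ≤ #(R.image (fun v => lab (cuts n0) (sl (p i) v))) := by
            exact_mod_cast h1
        _ ≤ C * ((mu : ℝ) ^ 10) ^ n0 := h2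
        _ ≤ C' * ((mu : ℝ) ^ 10) ^ n0 := mul_le_mul_of_nonneg_right hC'2 h3.le
    · intro i a
      have h1 := card_filter_subtype_le hsub (fun v => lab (cuts n0) (sl (p i) v) = a)
        (Add.fib (w i) a) (fun v hv => (Add.mem_fib (w := w i)).1 hv)
      have h3 : (0 : ℝ) < ((mu : ℝ) ^ 10) ^ n0 := by positivity
      rw [hcardR']
      calc (#(Add.fib (w i) a) : ℝ) * ((mu : ℝ) ^ 10) ^ n0 ≤
            #(R.filter (fun v => lab (cuts n0) (sl (p i) v) = a)) * ((mu : ℝ) ^ 10) ^ n0 := by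
            apply mul_le_mul_of_nonneg_right _ h3.le
            exact_mod_cast h1
        _ ≤ C * D := h.A2 i a
        _ ≤ C' * #R' := hconst
    · intro i j hij a b
      have h3 : (0 : ℝ) < (((mu : ℝ) ^ 10) ^ n0) ^ 2 := by positivity
      rw [hcardR']
      refine le_trans (mul_le_mul_of_nonneg_right (Nat.cast_le.2 (card_filter_subtype_le hsub
        (fun v => lab (cuts n0) (sl (p i) v) = a ∧ lab (cuts n0) (sl (p j) v) = b) _
        (fun v hv => mem_fib_inter (w := w i) (w' := w j) hv))) h3.le)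
        ((h.A3 i j hij a b).trans hconst)
  · intro v
    exact h.G_sub v.1 (hsub v.2)
  · intro v j hj
    obtain ⟨p₀, p₁, s, t, b1, b2, b3, b4, b5, b6, b7, b8, b9, b10⟩ := h.block v.1 (hsub v.2) j hj
    set a : ℝ := sl (p 0) (p 1) with ha
    set b : ℝ := sl (p 0) (p 2) with hb
    have hI : Set.Icc p₀ p₁ ⊆ Cmp a b (sl (p 0) v0) := by
      intro x hx
      have hv' : sl (p 0) v.1 ∈ Set.Icc p₀ p₁ := ⟨by linarith, by linarith⟩
      obtain ⟨c1, c2⟩ := hmem 0 v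
      exact ⟨c1.trans (sameSide_of_notMem b8 hv' hx), c2.trans (sameSide_of_notMem b9 hv' hx)⟩
    have hmono0 : StrictMonoOn (fun s => lr s a b) (Cmp a b (sl (p 0) v0)) ∨
      StrictAntiOn (fun s => lr s a b) (Cmp a b (sl (p 0) v0)) := hmono 0
    have hsI : s ∈ Cmp a b (sl (p 0) v0) := hI ⟨b1, by linarith⟩
    have htI : t ∈ Cmp a b (sl (p 0) v0) := hI ⟨by linarith, b4⟩
    have hρ : 0 < |lr t a b - lr s a b| := by
      apply abs_pos.2
      rcases hmono0 with hm | hm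
      · have := hm hsI htI (by linarith)
        simp only at this
        linarith
      · have := hm hsI htI (by linarith)
        simp only at this
        linarith
    obtain ⟨sg, hsg, hsg'⟩ := side_block (f := fun s => lr s a b) hmono0 hI b1 (by linarith) b4 b10 b2 b3
    refine ⟨|lr t a b - lr s a b|, hρ, sg, hsg, ?_, ?_, ?_, ?_⟩
    · intro u hu
      have hu' : lab (cuts j) (sl (p 0) u.1) = lab (cuts j) (sl (p 0) v.1) := hu
      have n1 := no_cut_of_lab_eq hu' t b6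
      have n2 := no_cut_of_lab_eq hu'.symm s b5
      have n3 := no_cut_of_lab_eq hu'.symm t b6
      have n4 := no_cut_of_lab_eq hu' s b5
      have m1 : s ≤ sl (p 0) u.1 := by
        by_contra hcon
        rw [not_le] at hcon
        exact n4 ⟨hcon, b2.le⟩
      have m2 : sl (p 0) u.1 ≤ t := by
        by_contra hcon
        rw [not_le] at hcon
        exact n3 ⟨b3, hcon.le⟩
      exact abs_sub_le_window (f := fun s => lr s a b) hmono0 hsI htI (hmem 0 u) (hmem 0 v)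
        m1 m2 b2.le b3.le
    · intro u hu1 hu2
      obtain ⟨q1, q2⟩ := hsg' (sl (p 0) u.1) (hmem 0 u) hu1 hu2
      have hvp : p₀ < sl (p 0) v.1 ∧ sl (p 0) v.1 < p₁ := ⟨by linarith, by linarith⟩
      show lab (cuts (j - 1)) (sl (p 0) u.1) = lab (cuts (j - 1)) (sl (p 0) v.1)
      rcases le_total (sl (p 0) u.1) (sl (p 0) v.1) with hle | hle
      · exact lab_eq_of_no_cut hle (fun c hc hcc => b7 c hc ⟨by linarith, by linarith⟩)
      · exact (lab_eq_of_no_cut hle (fun c hc hcc => b7 c hc ⟨by linarith, by linarith⟩)).symm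
    · have h1 := card_filter_subtype_le hsub (fun u => lab (cuts (j - 1)) (sl (p 0) u) =
        lab (cuts (j - 1)) (sl (p 0) v.1)) (Add.fib (wl (j - 1)) (wl (j - 1) v))
        (fun u hu => (Add.mem_fib (w := wl (j - 1))).1 hu)
      have h3 : (0 : ℝ) < ((mu : ℝ) ^ 10) ^ (j - 1) := by positivity
      rw [hcardR']
      calc (#(Add.fib (wl (j - 1)) (wl (j - 1) v)) : ℝ) * ((mu : ℝ) ^ 10) ^ (j - 1) ≤
            #(R.filter (fun u => lab (cuts (j - 1)) (sl (p 0) u) =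
              lab (cuts (j - 1)) (sl (p 0) v.1))) * ((mu : ℝ) ^ 10) ^ (j - 1) := by
            apply mul_le_mul_of_nonneg_right _ h3.le
            exact_mod_cast h1
        _ ≤ C * D := h.fibre v.1 (hsub v.2) j hj
        _ ≤ C' * #R' := hconst
    · have h1 := card_image_subtype_le hsub (fun u => lab (cuts j) (sl (p 0) u))
      have h2 := h.labels v.1 (hsub v.2) j hj
      have h3 : (0 : ℝ) < ((mu : ℝ) ^ 10) ^ j := by positivity
      calc (#(univ.image (wl j)) : ℝ) ≤ #(R.image (fun u => lab (cuts j) (sl (p 0) u))) := by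
            exact_mod_cast h1
        _ ≤ C * ((mu : ℝ) ^ 10) ^ j := h2
        _ ≤ C' * ((mu : ℝ) ^ 10) ^ j := mul_le_mul_of_nonneg_right hC'2 h3.le

end Crest.Agent.R51
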