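import Crest.Agent.R51.Ceva

/-!
# Row 51, section B8: monotonicity of the log-ratio coordinate

`lr s a b = log |s - a| - log |s - b|` is strictly monotone in `s` on every component of
`ℝ \ {a, b}`; the direction is governed by the sign of `(s - a) (s - b) (a - b)`.
-/

set_option autoImplicit false

noncomputable section

open Classical

namespace Crest.Agent.R51

/-- `s` and `s'` lie on the same side of `a`. -/
def SameSide (a s s' : ℝ) : Prop := 0 < (s - a) * (s' - a)

lemma SameSide.symm {a s s' : ℝ} (h : SameSide a s s') : SameSide a s' s := by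
  unfold SameSide at *; rw [mul_comm]; exact h

lemma SameSide.ne_left {a s s' : ℝ} (h : SameSide a s s') : s - a ≠ 0 := by
  unfold SameSide at h; intro h0; simp [h0] at h

lemma SameSide.ne_right {a s s' : ℝ} (h : SameSide a s s') : s' - a ≠ 0 := h.symm.ne_left

lemma SameSide.trans {a s s' s'' : ℝ} (h : SameSide a s s') (h' : SameSide a s' s'') :
    SameSide a s s'' := by
  have h0 := h.ne_right
  unfold SameSide at *
  have h1 : 0 < (s' - a) ^ 2 := by positivity
  have h2 : 0 < (s - a) * (s' - a) * ((s' - a) * (s'' - a)) := mul_pos h h'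
  have h3 : (s - a) * (s' - a) * ((s' - a) * (s'' - a)) = (s' - a) ^ 2 * ((s - a) * (s'' - a)) := by
    ring
  rw [h3] at h2
  exact (pos_iff_pos_of_mul_pos h2).1 h1

/-- every point between two points on the same side of `a` is on that side -/
lemma SameSide.between {a s s' x : ℝ} (h : SameSide a s s') (h1 : s ≤ x) (h2 : x ≤ s') :
    SameSide a s x := by
  unfold SameSide at *
  rcases lt_or_ge (s - a) 0 with hs | hs
  · have : s' - a < 0 := by
      by_contra hc
      have := mul_nonpos_of_nonpos_of_nonneg hs.le (not_lt.1 hc)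
      linarith
    exact mul_pos_of_neg_of_neg hs (by linarith)
  · have hs' : 0 < s - a := lt_of_le_of_ne hs (by intro h0; rw [← h0] at h; simp at h)
    exact mul_pos hs' (by linarith)

lemma log_abs_lt_iff {x y z w : ℝ} (hx : x ≠ 0) (hy : y ≠ 0) (hz : z ≠ 0) (hw : w ≠ 0) :
    Real.log |x| - Real.log |y| < Real.log |z| - Real.log |w| ↔ |x| * |w| < |z| * |y| := by
  have hx' : 0 < |x| := abs_pos.2 hx
  have hy' : 0 < |y| := abs_pos.2 hy
  have hz' : 0 < |z| := abs_pos.2 hz
  have hw' : 0 < |w| := abs_pos.2 hw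
  rw [← Real.log_lt_log_iff (mul_pos hx' hw') (mul_pos hz' hy'),
    Real.log_mul hx'.ne' hw'.ne', Real.log_mul hz'.ne' hy'.ne']
  constructor <;> intro h <;> linarith

lemma mul_pos_iff_neg {c x : ℝ} (hc : c < 0) : 0 < c * x ↔ x < 0 := by
  constructor
  · intro h
    by_contra hx
    have := mul_nonpos_of_nonpos_of_nonneg hc.le (not_lt.1 hx)
    linarith
  · exact fun h => mul_pos_of_neg_of_neg hc h

/-- strict monotonicity of `lr` on components -/
theorem lr_lt_iff {a b s s' : ℝ} (ha : SameSide a s s') (hb : SameSide b s s') :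
    lr s a b < lr s' a b ↔ 0 < (s - a) * (s - b) * (a - b) * (s' - s) := by
  unfold lr
  rw [log_abs_lt_iff ha.ne_left hb.ne_left ha.ne_right hb.ne_right]
  have hid : (s - a) * (s' - b) - (s' - a) * (s - b) = (s' - s) * (b - a) := by ring
  have hA := ha
  have hB := hb
  unfold SameSide at hA hB
  rw [← abs_mul, ← abs_mul]
  -- signs
  have e1 : |(s - a) * (s' - b)| = |(s - a) * (s' - b)| := rfl
  rcases lt_or_gt_of_ne ha.ne_left with h1 | h1 <;> rcases lt_or_gt_of_ne hb.ne_left with h2 | h2
  · have h3 : s' - a < 0 := by nlinarith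
    have h4 : s' - b < 0 := by nlinarith
    rw [abs_of_pos (mul_pos_of_neg_of_neg h1 h4), abs_of_pos (mul_pos_of_neg_of_neg h3 h2)]
    have h5 : 0 < (s - a) * (s - b) := mul_pos_of_neg_of_neg h1 h2
    rw [mul_assoc ((s - a) * (s - b)), mul_pos_iff_of_pos_left h5]
    constructor <;> intro h <;> nlinarith
  · have h3 : s' - a < 0 := by nlinarith
    have h4 : 0 < s' - b := by nlinarith
    rw [abs_of_neg (mul_neg_of_neg_of_pos h1 h4), abs_of_neg (mul_neg_of_neg_of_pos h3 h2)]
    have h5 : (s - a) * (s - b) < 0 := mul_neg_of_neg_of_pos h1 h2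
    rw [mul_assoc ((s - a) * (s - b)), mul_pos_iff_neg h5]
    constructor <;> intro h <;> nlinarith
  · have h3 : 0 < s' - a := by nlinarith
    have h4 : s' - b < 0 := by nlinarith
    rw [abs_of_neg (mul_neg_of_pos_of_neg h1 h4), abs_of_neg (mul_neg_of_pos_of_neg h3 h2)]
    have h5 : (s - a) * (s - b) < 0 := mul_neg_of_pos_of_neg h1 h2
    rw [mul_assoc ((s - a) * (s - b)), mul_pos_iff_neg h5]
    constructor <;> intro h <;> nlinarith
  · have h3 : 0 < s' - a := by nlinarith
    have h4 : 0 < s' - b := by nlinarith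
    rw [abs_of_pos (mul_pos h1 h4), abs_of_pos (mul_pos h3 h2)]
    have h5 : 0 < (s - a) * (s - b) := mul_pos h1 h2
    rw [mul_assoc ((s - a) * (s - b)), mul_pos_iff_of_pos_left h5]
    constructor <;> intro h <;> nlinarith

end Crest.Agent.R51
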