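import Mathlib

/-!
# Row 51, B1 / C1: linear bound for x-monotone drawings in which only adjacent edges may cross
(helper445, after helper316's note 9977)
-/

set_option autoImplicit false
set_option linter.unusedVariables false
set_option linter.unusedSectionVars false

namespace Crest.Agent.R51.CrossLin

open Finset Classical

/-- fibre bound, step (f) -/
theorem three_bound {α V : Type*} [LinearOrder V] (S : Finset α) (r l t : α → V)
    (hinj : ∀ a ∈ S, ∀ b ∈ S, r a = r b → a = b)
    (hlt : ∀ a ∈ S, l a < t a)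
    (hrel : ∀ a ∈ S, ∀ b ∈ S, r a < r b → l b = t a ∨ t b = l a) : S.card ≤ 3 := by
  classical
  rcases S.eq_empty_or_nonempty with h | h
  · simp [h]
  obtain ⟨e, he, hmin⟩ := S.exists_min_image r h
  set A := S.filter (fun a => l a = t e) with hA
  set B := S.filter (fun a => t a = l e) with hB
  have hsub : S ⊆ insert e (A ∪ B) := by
    intro a ha
    by_cases hae : a = e
    · simp [hae]
    · have hlt' : r e < r a := lt_of_le_of_ne (hmin a ha) (fun hh => hae ((hinj e he a ha hh).symm))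
      rcases hrel e he a ha hlt' with h1 | h1
      · simp [hA, ha, h1]
      · simp [hB, ha, h1]
  have hA1 : A.card ≤ 1 := by
    rw [Finset.card_le_one]
    have key : ∀ a ∈ A, ∀ b ∈ A, ¬ r a < r b := by
      intro a ha b hb hab
      rw [hA, Finset.mem_filter] at ha hb
      rcases hrel a ha.1 b hb.1 hab with h1 | h1
      · have := hlt a ha.1
        rw [← h1, ha.2, hb.2] at this
        exact lt_irrefl _ this
      · have := hlt b hb.1
        rw [h1, hb.2, ha.2] at this
        exact lt_irrefl _ this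
    intro a ha b hb
    have h1 := key a ha b hb
    have h2 := key b hb a ha
    rw [hA, Finset.mem_filter] at ha hb
    exact hinj a ha.1 b hb.1 (le_antisymm (not_lt.1 h2) (not_lt.1 h1))
  have hB1 : B.card ≤ 1 := by
    rw [Finset.card_le_one]
    have key : ∀ a ∈ B, ∀ b ∈ B, ¬ r a < r b := by
      intro a ha b hb hab
      rw [hB, Finset.mem_filter] at ha hb
      rcases hrel a ha.1 b hb.1 hab with h1 | h1
      · have := hlt b hb.1
        rw [h1, ha.2, hb.2] at this
        exact lt_irrefl _ this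
      · have := hlt a ha.1
        rw [← h1, ha.2, hb.2] at this
        exact lt_irrefl _ this
    intro a ha b hb
    have h1 := key a ha b hb
    have h2 := key b hb a ha
    rw [hB, Finset.mem_filter] at ha hb
    exact hinj a ha.1 b hb.1 (le_antisymm (not_lt.1 h2) (not_lt.1 h1))
  calc S.card ≤ (insert e (A ∪ B)).card := Finset.card_le_card hsub
    _ ≤ (A ∪ B).card + 1 := Finset.card_insert_le _ _
    _ ≤ A.card + B.card + 1 := by have := Finset.card_union_le A B; omega
    _ ≤ 3 := by omega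

/-- the hypotheses of the linear bound, at vertices only -/
structure Drawing (V : Type*) [LinearOrder V] (y : V → ℝ) (g : V → V → V → ℝ)
    (F : Finset (V × V)) : Prop where
  lt : ∀ u w, (u, w) ∈ F → u < w
  left : ∀ u w, (u, w) ∈ F → g u w u = y u
  right : ∀ u w, (u, w) ∈ F → g u w w = y w
  ne : ∀ u w, (u, w) ∈ F → ∀ z, u < z → z < w → g u w z ≠ y z
  ns : ∀ u w u' w', (u, w) ∈ F → (u', w') ∈ F → u ≠ u' → u ≠ w' → w ≠ u' → w ≠ w' →
    ∀ s t, u ≤ s → u' ≤ s → s ≤ w → s ≤ w' → u ≤ t → u' ≤ t → t ≤ w → t ≤ w' →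
    g u w s < g u' w' s → ¬ g u' w' t < g u w t

theorem Drawing.mono {V : Type*} [LinearOrder V] {y : V → ℝ} {g : V → V → V → ℝ}
    {F F' : Finset (V × V)} (h : Drawing V y g F) (hs : F' ⊆ F) : Drawing V y g F' where
  lt u w hh := h.lt u w (hs hh)
  left u w hh := h.left u w (hs hh)
  right u w hh := h.right u w (hs hh)
  ne u w hh := h.ne u w (hs hh)
  ns u w u' w' hh hh' := h.ns u w u' w' (hs hh) (hs hh')

theorem Drawing.neg {V : Type*} [LinearOrder V] {y : V → ℝ} {g : V → V → V → ℝ}
    {F : Finset (V × V)} (h : Drawing V y g F) :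
    Drawing V (fun v => - y v) (fun u w z => - g u w z) F where
  lt := h.lt
  left u w hh := by simp [h.left u w hh]
  right u w hh := by simp [h.right u w hh]
  ne u w hh z h1 h2 h3 := h.ne u w hh z h1 h2 (by linarith)
  ns u w u' w' hh hh' h1 h2 h3 h4 s t a1 a2 a3 a4 b1 b2 b3 b4 h5 h6 :=
    h.ns u' w' u w hh' hh h1.symm h3.symm h2.symm h4.symm s t a2 a1 a4 a3 b2 b1 b4 b3
      (by linarith) (by linarith)

section main

variable {V : Type*} [Fintype V] [LinearOrder V] {y : V → ℝ} {g : V → V → V → ℝ}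
  {E : Finset (V × V)}

/-- the next right neighbour -/
def IsNext (E : Finset (V × V)) (u a b : V) : Prop :=
  a < b ∧ (u, b) ∈ E ∧ ∀ c, a < c → (u, c) ∈ E → b ≤ c

theorem exists_next (u a : V) (h : ∃ b, a < b ∧ (u, b) ∈ E) : ∃ b, IsNext E u a b := by
  classical
  obtain ⟨b0, hb0⟩ := h
  obtain ⟨b, hb, hmin⟩ := (Finset.univ.filter (fun b => a < b ∧ (u, b) ∈ E)).exists_min_image id
    ⟨b0, by simp [hb0.1, hb0.2]⟩
  simp only [Finset.mem_filter, Finset.mem_univ, true_and] at hb hmin
  exact ⟨b, hb.1, hb.2, fun c h1 h2 => hmin c ⟨h1, h2⟩⟩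

/-- the charge relation: `(u, a)` with next neighbour `b` charges `w` -/
def Cand (y : V → ℝ) (g : V → V → V → ℝ) (E : Finset (V × V)) (u a b w : V) : Prop :=
  y w < g u b w ∧ ∀ c, c ≤ a → (u, c) ∈ E → w ≤ c → g u c w < y w

def Charge (y : V → ℝ) (g : V → V → V → ℝ) (E : Finset (V × V)) (u a b w : V) : Prop :=
  u < w ∧ w ≤ a ∧ (w = a ∨ Cand y g E u a b w) ∧
    ∀ v, u < v → v < w → ¬ Cand y g E u a b v

theorem exists_charge (hD : Drawing V y g E) (u a b : V) (ha : (u, a) ∈ E) :
    ∃ w, Charge y g E u a b w := by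
  classical
  obtain ⟨w, hw, hmin⟩ := (Finset.univ.filter
    (fun w => u < w ∧ w ≤ a ∧ (w = a ∨ Cand y g E u a b w))).exists_min_image id
    ⟨a, by simp [hD.lt u a ha]⟩
  simp only [Finset.mem_filter, Finset.mem_univ, true_and, id] at hw hmin
  refine ⟨w, hw.1, hw.2.1, hw.2.2, ?_⟩
  intro v h1 h2 h3
  exact absurd (hmin v ⟨h1, (h2.le.trans hw.2.1), Or.inr h3⟩) (not_le.2 h2)

variable (hD : Drawing V y g E)
  (hlow : ∀ u a b, (u, a) ∈ E → (u, b) ∈ E → a < b → y a < g u b a)
include hD hlow

theorem charge_below {u a b w : V} (ha : (u, a) ∈ E) (hb : IsNext E u a b)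
    (hc : Charge y g E u a b w) : y w < g u b w := by
  rcases hc.2.2.1 with h | h
  · rw [h]; exact hlow u a b ha hb.2.1 hb.1
  · exact h.1

theorem charge_above {u a b w : V} (ha : (u, a) ∈ E) (hb : IsNext E u a b)
    (hc : Charge y g E u a b w) : ∀ c, c ≤ a → (u, c) ∈ E → w ≤ c → g u c w ≤ y w := by
  intro c h1 h2 h3
  rcases hc.2.2.1 with h | h
  · have : c = a := le_antisymm h1 (h ▸ h3)
    subst this
    rw [h, hD.right u c ha]
  · exact (h.2 c h1 h2 h3).le

/-- (d) -/
theorem charge_inj {u a b a' b' w : V} (ha : (u, a) ∈ E) (hb : IsNext E u a b)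
    (hc : Charge y g E u a b w) (ha' : (u, a') ∈ E) (hb' : IsNext E u a' b')
    (hc' : Charge y g E u a' b' w) : ¬ a < a' := by
  intro hlt
  have h1 := charge_below hD hlow ha hb hc
  have hba' : b ≤ a' := hb.2.2 a' hlt ha'
  have hwb : w ≤ b := hc.2.1.trans hb.1.le
  have h2 := charge_above hD hlow ha' hb' hc' b hba' hb.2.1 hwb
  linarith

/-- (e) -/
theorem charge_rel {u a b u' a' b' w : V} (ha : (u, a) ∈ E) (hb : IsNext E u a b)
    (hc : Charge y g E u a b w) (ha' : (u', a') ∈ E) (hb' : IsNext E u' a' b')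
    (hc' : Charge y g E u' a' b' w) (huu : u < u') : a' = b ∨ b' = a := by
  have hW2 := charge_below hD hlow ha hb hc
  have hW3 := charge_above hD hlow ha hb hc
  have hW2' := charge_below hD hlow ha' hb' hc'
  have hW3' := charge_above hD hlow ha' hb' hc'
  have hu'w : u' < w := hc'.1
  have hwa : w ≤ a := hc.2.1
  have hwa' : w ≤ a' := hc'.2.1
  have hab : a < b := hb.1
  have hab' : a' < b' := hb'.1
  have hb'E := hb'.2.1
  have hbE := hb.2.1
  have hnc := hc.2.2.2 u' huu hu'w
  have hl' : g u' a' u' = y u' := hD.left u' a' ha'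
  have hlb' : g u' b' u' = y u' := hD.left u' b' hb'E
  unfold Cand at hnc
  rw [not_and_or] at hnc
  by_cases hcase : y u' < g u b u'
  swap
  · -- case 1
    have hne := hD.ne u b hbE u' huu (hu'w.trans_le (hwa.trans hab.le))
    have h1 : g u b u' < y u' := lt_of_le_of_ne (not_lt.1 hcase) hne
    have h2 : g u' a' w ≤ y w := hW3' a' le_rfl ha' hwa'
    by_contra hcon
    push Not at hcon
    refine hD.ns u b u' a' hbE ha' huu.ne ?_ ?_ (Ne.symm hcon.1) u' w huu.le le_rfl
      (hu'w.le.trans (hwa.trans hab.le)) (hu'w.le.trans hwa') (huu.trans hu'w).le hu'w.le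
      (hwa.trans hab.le) hwa' (by rw [hl']; exact h1) (lt_of_le_of_lt h2 hW2)
    · exact (huu.trans (hu'w.trans_le hwa')).ne
    · exact (hu'w.trans_le (hwa.trans hab.le)).ne'
  · -- case 2
    have hnc2 : ∃ c, c ≤ a ∧ (u, c) ∈ E ∧ u' < c ∧ y u' < g u c u' := by
      rcases hnc with h | h
      · exact absurd hcase h
      · push Not at h
        obtain ⟨c, hca, hcE, hu'c, hle⟩ := h
        rcases eq_or_lt_of_le hu'c with heq | hlt
        · subst heq
          exact ⟨a, le_rfl, ha, hu'w.trans_le hwa, hlow u u' a hcE ha (hu'w.trans_le hwa)⟩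
        · exact ⟨c, hca, hcE, hlt, lt_of_le_of_ne hle (hD.ne u c hcE u' huu hlt).symm⟩
    obtain ⟨c, hca, hcE, hu'c, hlt⟩ := hnc2
    have hub' : u ≠ b' := (huu.trans (hu'w.trans_le (hwa'.trans hab'.le))).ne
    rcases le_or_gt w c with hwc | hcw
    · -- 2a
      have hcb' : b' = c := by
        by_contra hcon
        exact hD.ns u' b' u c hb'E hcE huu.ne' hu'c.ne hub'.symm hcon u' w le_rfl huu.le
          (hu'w.le.trans (hwa'.trans hab'.le)) hu'c.le hu'w.le (huu.trans hu'w).le
          (hwa'.trans hab'.le) hwc (by rw [hlb']; exact hlt)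
          (lt_of_le_of_lt (hW3 c hca hcE hwc) hW2')
      rcases eq_or_lt_of_le hca with heq | hclt
      · right; rw [hcb', heq]
      · exfalso
        have hb'a : b' ≠ a := by rw [hcb']; exact hclt.ne
        refine hD.ns u' b' u a hb'E ha huu.ne' (hu'w.trans_le hwa).ne hub'.symm hb'a c w
          hu'c.le (huu.trans hu'c).le hcb'.ge hclt.le hu'w.le (huu.trans hu'w).le
          (hwa'.trans hab'.le) hwa ?_ (lt_of_le_of_lt (hW3 a le_rfl ha hwa) hW2')
        have := hD.right u' b' hb'E
        rw [hcb'] at this ⊢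
        rw [this]
        exact hlow u c a hcE ha hclt
    · -- 2b
      have hclt : c < a := hcw.trans_le hwa
      have hcb' : c < b' := hcw.trans_le (hwa'.trans hab'.le)
      have h1 : g u' b' c ≤ y c := by
        have := hD.ns u' b' u c hb'E hcE huu.ne' hu'c.ne hub'.symm hcb'.ne' u' c le_rfl huu.le
          (hu'w.le.trans (hwa'.trans hab'.le)) hu'c.le hu'c.le (huu.trans hu'c).le
          hcb'.le le_rfl (by rw [hlb']; exact hlt)
        rw [hD.right u c hcE] at this
        exact not_lt.1 this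
      right
      by_contra hcon
      refine hD.ns u' b' u a hb'E ha huu.ne' (hu'w.trans_le hwa).ne hub'.symm hcon c w
          hu'c.le (huu.trans hu'c).le hcb'.le hclt.le hu'w.le (huu.trans hu'w).le
          (hwa'.trans hab'.le) hwa (lt_of_le_of_lt h1 (hlow u c a hcE ha hclt))
          (lt_of_le_of_lt (hW3 a le_rfl ha hwa) hW2')

/-- the class with all later edges above: `|E| ≤ 4 |V|` -/
theorem class_bound : E.card ≤ 4 * Fintype.card V := by
  classical
  set E1 := E.filter (fun e => ∃ b, e.2 < b ∧ (e.1, b) ∈ E) with hE1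
  set E2 := E.filter (fun e => ¬ ∃ b, e.2 < b ∧ (e.1, b) ∈ E) with hE2
  have hsum : E1.card + E2.card = E.card := by
    rw [hE1, hE2]; exact Finset.card_filter_add_card_filter_not _
  have h2 : E2.card ≤ Fintype.card V := by
    rw [← Finset.card_univ]
    refine Finset.card_le_card_of_injOn (fun e => e.1) (fun _ _ => by simp) ?_
    intro e he f hf hef
    rw [hE2, Finset.coe_filter, Set.mem_ofPred_eq] at he hf
    have hef' : e.1 = f.1 := hef
    have h1 : ¬ e.2 < f.2 := fun h => he.2 ⟨f.2, h, by rw [hef']; exact hf.1⟩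
    have h2 : ¬ f.2 < e.2 := fun h => hf.2 ⟨e.2, h, by rw [← hef']; exact he.1⟩
    exact Prod.ext hef' (le_antisymm (not_lt.1 h2) (not_lt.1 h1))
  rcases isEmpty_or_nonempty V with hemp | hne
  · have : E = ∅ := by
      ext e
      exact (hemp.false e.1).elim
    simp [this]
  -- next and charge functions
  have hnx : ∀ e ∈ E1, ∃ b, IsNext E e.1 e.2 b := by
    intro e he
    rw [hE1, Finset.mem_filter] at he
    exact exists_next e.1 e.2 he.2
  choose! nx hnx using hnx
  have hch : ∀ e ∈ E1, ∃ w, Charge y g E e.1 e.2 (nx e) w := by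
    intro e he
    rw [hE1, Finset.mem_filter] at he
    exact exists_charge hD e.1 e.2 (nx e) he.1
  choose! ch hch using hch
  have hmemE : ∀ e ∈ E1, (e.1, e.2) ∈ E := by
    intro e he
    rw [hE1, Finset.mem_filter] at he
    exact he.1
  have h1 : E1.card ≤ Fintype.card V * 3 := by
    rw [← Finset.card_univ]
    refine Finset.card_le_mul_card_image_of_maps_to (f := ch) (t := Finset.univ) (fun _ _ => by simp) 3 ?_ |>.trans ?_
    · intro w _
      refine three_bound _ (fun e => e.1) (fun e => e.2) nx ?_ ?_ ?_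
      · intro e he f hf hef
        rw [Finset.mem_filter] at he hf
        have e1 := hmemE e he.1
        have f1 := hmemE f hf.1
        have hef' : e.1 = f.1 := hef
        have cE := hch e he.1
        have cF := hch f hf.1
        rw [he.2] at cE
        rw [hf.2] at cF
        have nE := hnx e he.1
        have nF := hnx f hf.1
        rw [← hef'] at cF nF f1
        have a1 := charge_inj hD hlow e1 nE cE f1 nF cF
        have a2 := charge_inj hD hlow f1 nF cF e1 nE cE
        exact Prod.ext hef' (le_antisymm (not_lt.1 a2) (not_lt.1 a1))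
      · intro e he
        rw [Finset.mem_filter] at he
        exact (hnx e he.1).1
      · intro e he f hf hef
        rw [Finset.mem_filter] at he hf
        have cE := hch e he.1
        have cF := hch f hf.1
        rw [he.2] at cE
        rw [hf.2] at cF
        exact charge_rel hD hlow (hmemE e he.1) (hnx e he.1) cE (hmemE f hf.1) (hnx f hf.1) cF hef
    · omega
  omega

end main

/-- C1, vertex form -/
theorem linear_bound_abs {V : Type*} [Fintype V] [LinearOrder V] {y : V → ℝ}
    {g : V → V → V → ℝ} {F : Finset (V × V)} (hD : Drawing V y g F) :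
    F.card ≤ 9 * Fintype.card V := by
  classical
  set F0 := F.filter (fun e => ¬ ∃ z, z < e.1 ∧ (z, e.2) ∈ F) with hF0
  set F1 := F.filter (fun e => ∀ b, e.2 < b → (e.1, b) ∈ F → y e.2 < g e.1 b e.2) with hF1
  set F2 := F.filter (fun e => ∀ b, e.2 < b → (e.1, b) ∈ F → - y e.2 < - g e.1 b e.2) with hF2
  have hcov : F ⊆ F0 ∪ (F1 ∪ F2) := by
    rintro ⟨u, a⟩ he
    simp only [hF0, hF1, hF2, Finset.mem_union, Finset.mem_filter, he, true_and]
    by_cases h0 : ∃ z, z < u ∧ (z, a) ∈ F
    swap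
    · exact Or.inl h0
    right
    obtain ⟨z, hzu, hza⟩ := h0
    have hua := hD.lt u a he
    by_cases h1 : g z a u < y u
    · left
      intro b hab hb
      by_contra hcon
      have hne := hD.ne u b hb a hua hab
      have h2 : g u b a < y a := lt_of_le_of_ne (not_lt.1 hcon) hne
      refine hD.ns z a u b hza hb hzu.ne (hzu.trans (hua.trans hab)).ne hua.ne' hab.ne u a
        hzu.le le_rfl hua.le (hua.trans hab).le (hzu.trans hua).le hua.le le_rfl hab.le ?_ ?_
      · rw [hD.left u b hb]; exact h1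
      · rw [hD.right z a hza]; exact h2
    · right
      intro b hab hb
      have hne' := hD.ne z a hza u hzu hua
      have h1' : y u < g z a u := lt_of_le_of_ne (not_lt.1 h1) hne'.symm
      by_contra hcon
      have hne := hD.ne u b hb a hua hab
      have h2 : y a < g u b a := lt_of_le_of_ne (by linarith) hne.symm
      refine hD.ns u b z a hb hza hzu.ne' hua.ne (hzu.trans (hua.trans hab)).ne' hab.ne' u a
        le_rfl hzu.le (hua.trans hab).le hua.le hua.le (hzu.trans hua).le hab.le le_rfl ?_ ?_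
      · rw [hD.left u b hb]; exact h1'
      · rw [hD.right z a hza]; exact h2
  have h0 : F0.card ≤ Fintype.card V := by
    rw [← Finset.card_univ]
    refine Finset.card_le_card_of_injOn (fun e => e.2) (fun _ _ => by simp) ?_
    intro e he f hf hef
    rw [hF0, Finset.coe_filter, Set.mem_ofPred_eq] at he hf
    have hef' : e.2 = f.2 := hef
    have h1 : ¬ e.1 < f.1 := fun h => hf.2 ⟨e.1, h, by rw [← hef']; exact he.1⟩
    have h2 : ¬ f.1 < e.1 := fun h => he.2 ⟨f.1, h, by rw [hef']; exact hf.1⟩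
    exact Prod.ext (le_antisymm (not_lt.1 h2) (not_lt.1 h1)) hef'
  have h1 : F1.card ≤ 4 * Fintype.card V := by
    refine class_bound (hD.mono (Finset.filter_subset _ _)) ?_
    intro u a b ha hb hab
    rw [hF1, Finset.mem_filter] at ha hb
    exact ha.2 b hab hb.1
  have h2 : F2.card ≤ 4 * Fintype.card V := by
    refine class_bound ((hD.neg).mono (Finset.filter_subset _ _)) ?_
    intro u a b ha hb hab
    rw [hF2, Finset.mem_filter] at ha hb
    exact ha.2 b hab hb.1
  have h3 := Finset.card_le_card hcov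
  have h4 := Finset.card_union_le F0 (F1 ∪ F2)
  have h5 := Finset.card_union_le F1 F2
  omega

/-- C1, point form -/
theorem linear_bound (X : Finset (ℝ × ℝ)) (hx : ∀ p ∈ X, ∀ q ∈ X, p.1 = q.1 → p = q)
    (F : Finset ((ℝ × ℝ) × (ℝ × ℝ)))
    (hF : ∀ e ∈ F, e.1 ∈ X ∧ e.2 ∈ X ∧ e.1.1 < e.2.1)
    (g : (ℝ × ℝ) × (ℝ × ℝ) → ℝ → ℝ)
    (hl : ∀ e ∈ F, g e e.1.1 = e.1.2) (hr : ∀ e ∈ F, g e e.2.1 = e.2.2)
    (hne : ∀ e ∈ F, ∀ z ∈ X, e.1.1 < z.1 → z.1 < e.2.1 → g e z.1 ≠ z.2)
    (hns : ∀ e ∈ F, ∀ f ∈ F, e.1 ≠ f.1 → e.1 ≠ f.2 → e.2 ≠ f.1 → e.2 ≠ f.2 →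
      ∀ s t, s ∈ Set.Icc e.1.1 e.2.1 → s ∈ Set.Icc f.1.1 f.2.1 →
        t ∈ Set.Icc e.1.1 e.2.1 → t ∈ Set.Icc f.1.1 f.2.1 → g e s < g f s → ¬ g f t < g e t) :
    F.card ≤ 9 * X.card := by
  classical
  let V := {p : ℝ × ℝ // p ∈ X}
  have hinj : Function.Injective (fun v : V => v.1.1) := by
    intro p q h
    exact Subtype.ext (hx p.1 p.2 q.1 q.2 h)
  letI : LinearOrder V := LinearOrder.lift' (fun v : V => v.1.1) hinj
  let F' : Finset (V × V) := Finset.univ.filter (fun e => (e.1.1, e.2.1) ∈ F)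
  have hmem : ∀ u w : V, (u, w) ∈ F' ↔ (u.1, w.1) ∈ F := by
    intro u w; simp [F']
  have hD : Drawing V (fun v => v.1.2) (fun u w z => g (u.1, w.1) z.1.1) F' := by
    refine ⟨?_, ?_, ?_, ?_, ?_⟩
    · intro u w h
      rw [hmem] at h
      exact (hF _ h).2.2
    · intro u w h
      rw [hmem] at h
      exact hl _ h
    · intro u w h
      rw [hmem] at h
      exact hr _ h
    · intro u w h z h1 h2
      rw [hmem] at h
      exact hne _ h z.1 z.2 h1 h2
    · intro u w u' w' h h' h1 h2 h3 h4 s t a1 a2 a3 a4 b1 b2 b3 b4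
      rw [hmem] at h h'
      exact hns _ h _ h' (fun hh => h1 (Subtype.ext hh)) (fun hh => h2 (Subtype.ext hh))
        (fun hh => h3 (Subtype.ext hh)) (fun hh => h4 (Subtype.ext hh)) s.1.1 t.1.1
        ⟨a1, a3⟩ ⟨a2, a4⟩ ⟨b1, b3⟩ ⟨b2, b4⟩
  have hmain := linear_bound_abs hD
  have hcardV : Fintype.card V = X.card := by simp [V]
  rw [hcardV] at hmain
  have hFF : F.card ≤ F'.card := by
    have himg : F ⊆ F'.image (fun e => (e.1.1, e.2.1)) := by
      rintro ⟨u, w⟩ h
      rw [Finset.mem_image]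
      exact ⟨(⟨u, (hF _ h).1⟩, ⟨w, (hF _ h).2.1⟩), by rw [hmem]; exact h, rfl⟩
    exact (Finset.card_le_card himg).trans Finset.card_image_le
  exact hFF.trans hmain

end Crest.Agent.R51.CrossLin
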