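import Crest.Agent.R51.CrossLin

/-!
# Row 51, B1: crossing lemma in weighted (sampled) form (helper445)
-/

set_option autoImplicit false
set_option linter.unusedVariables false

namespace Crest.Agent.R51.CrossLin

open Finset Classical

section sampling

variable {V : Type*} [Fintype V] [DecidableEq V]

/-- weight of a subset -/
noncomputable def wt (p : V → ℝ) (X : Finset V) : ℝ :=
  (∏ v ∈ X, p v) * ∏ v ∈ Finset.univ \ X, (1 - p v)

theorem wt_nonneg {p : V → ℝ} (h0 : ∀ v, 0 ≤ p v) (h1 : ∀ v, p v ≤ 1) (X : Finset V) :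
    0 ≤ wt p X :=
  mul_nonneg (Finset.prod_nonneg fun v _ => h0 v)
    (Finset.prod_nonneg fun v _ => by linarith [h1 v])

theorem sum_wt_superset (p : V → ℝ) (T : Finset V) :
    ∑ X ∈ (Finset.univ : Finset V).powerset, (if T ⊆ X then wt p X else 0) = ∏ v ∈ T, p v := by
  classical
  have h := Finset.prod_add (fun v => p v) (fun v => if v ∈ T then 0 else 1 - p v)
    (Finset.univ : Finset V)
  have h1 : ∏ v, (p v + if v ∈ T then 0 else 1 - p v) = ∏ v ∈ T, p v := by
    rw [← Finset.prod_subset (Finset.subset_univ T)]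
    · refine Finset.prod_congr rfl fun v hv => ?_
      simp [hv]
    · intro v _ hv
      simp [hv]
  rw [← h1, h]
  refine Finset.sum_congr rfl fun X _ => ?_
  by_cases hT : T ⊆ X
  · rw [if_pos hT, wt]
    congr 1
    refine Finset.prod_congr rfl fun v hv => ?_
    rw [Finset.mem_sdiff] at hv
    rw [if_neg (fun h => hv.2 (hT h))]
  · rw [if_neg hT]
    obtain ⟨v, hvT, hvX⟩ := Finset.not_subset.1 hT
    have : ∏ i ∈ Finset.univ \ X, (if i ∈ T then (0 : ℝ) else 1 - p i) = 0 :=
      Finset.prod_eq_zero (i := v) (by simp [hvX]) (by simp [hvT])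
    rw [this, mul_zero]

/-- weighted count: `∑_X wt X * #{a ∈ S : T a ⊆ X} = ∑_{a ∈ S} ∏_{T a} p` -/
theorem sum_wt_card {α : Type*} (p : V → ℝ) (S : Finset α) (T : α → Finset V) :
    ∑ X ∈ (Finset.univ : Finset V).powerset, wt p X * ((S.filter (fun a => T a ⊆ X)).card : ℝ)
      = ∑ a ∈ S, ∏ v ∈ T a, p v := by
  classical
  calc ∑ X ∈ (Finset.univ : Finset V).powerset, wt p X * ((S.filter (fun a => T a ⊆ X)).card : ℝ)
      = ∑ X ∈ (Finset.univ : Finset V).powerset, ∑ a ∈ S, (if T a ⊆ X then wt p X else 0) := by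
        refine Finset.sum_congr rfl fun X _ => ?_
        rw [Finset.card_filter]
        push_cast
        rw [Finset.mul_sum]
        refine Finset.sum_congr rfl fun a _ => ?_
        split_ifs <;> simp
    _ = ∑ a ∈ S, ∑ X ∈ (Finset.univ : Finset V).powerset, (if T a ⊆ X then wt p X else 0) :=
        Finset.sum_comm
    _ = ∑ a ∈ S, ∏ v ∈ T a, p v := by
        refine Finset.sum_congr rfl fun a _ => sum_wt_superset p (T a)

/-- weighted transfer of a linear inequality between subset counts -/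
theorem weighted_transfer {α β : Type*} {p : V → ℝ} (h0 : ∀ v, 0 ≤ p v) (h1 : ∀ v, p v ≤ 1)
    (F : Finset α) (TF : α → Finset V) (K : Finset β) (TK : β → Finset V) (c : ℝ)
    (h : ∀ X : Finset V, ((F.filter (fun a => TF a ⊆ X)).card : ℝ) ≤ c * X.card
      + ((K.filter (fun a => TK a ⊆ X)).card : ℝ)) :
    ∑ a ∈ F, ∏ v ∈ TF a, p v ≤ c * ∑ v, p v + ∑ b ∈ K, ∏ v ∈ TK b, p v := by
  classical
  rw [← sum_wt_card p F TF, ← sum_wt_card p K TK]
  have hV : ∑ v, p v = ∑ X ∈ (Finset.univ : Finset V).powerset, wt p X * (X.card : ℝ) := by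
    have := sum_wt_card p (Finset.univ : Finset V) (fun v => {v})
    simp only [Finset.prod_singleton, Finset.singleton_subset_iff] at this
    rw [← this]
    refine Finset.sum_congr rfl fun X _ => ?_
    congr 3
    ext v; simp
  rw [hV, Finset.mul_sum, ← Finset.sum_add_distrib]
  refine Finset.sum_le_sum fun X _ => ?_
  have := mul_le_mul_of_nonneg_left (h X) (wt_nonneg h0 h1 X)
  linarith

end sampling

/-- a drawing without the crossing hypothesis -/
structure PreDrawing (V : Type*) [LinearOrder V] (y : V → ℝ) (g : V → V → V → ℝ)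
    (F : Finset (V × V)) : Prop where
  lt : ∀ u w, (u, w) ∈ F → u < w
  left : ∀ u w, (u, w) ∈ F → g u w u = y u
  right : ∀ u w, (u, w) ∈ F → g u w w = y w
  ne : ∀ u w, (u, w) ∈ F → ∀ z, u < z → z < w → g u w z ≠ y z

/-- independent edges with a change of sign at vertex abscissae -/
def SignChange {V : Type*} [LinearOrder V] (g : V → V → V → ℝ) (e f : V × V) : Prop :=
  e.1 ≠ f.1 ∧ e.1 ≠ f.2 ∧ e.2 ≠ f.1 ∧ e.2 ≠ f.2 ∧
    ∃ s t, e.1 ≤ s ∧ f.1 ≤ s ∧ s ≤ e.2 ∧ s ≤ f.2 ∧ e.1 ≤ t ∧ f.1 ≤ t ∧ t ≤ e.2 ∧ t ≤ f.2 ∧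
      g e.1 e.2 s < g f.1 f.2 s ∧ g f.1 f.2 t < g e.1 e.2 t

/-- ordered pairs of edges with a sign change -/
noncomputable def crSet {V : Type*} [LinearOrder V] (g : V → V → V → ℝ) (F : Finset (V × V)) :
    Finset ((V × V) × (V × V)) :=
  (F ×ˢ F).filter (fun ef => SignChange g ef.1 ef.2)

theorem PreDrawing.mono {V : Type*} [LinearOrder V] {y : V → ℝ} {g : V → V → V → ℝ}
    {F F' : Finset (V × V)} (h : PreDrawing V y g F) (hs : F' ⊆ F) : PreDrawing V y g F' where
  lt u w hh := h.lt u w (hs hh)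
  left u w hh := h.left u w (hs hh)
  right u w hh := h.right u w (hs hh)
  ne u w hh := h.ne u w (hs hh)

/-- C1 restricted to a vertex subset -/
theorem linear_bound_on {V : Type*} [Fintype V] [LinearOrder V] {y : V → ℝ}
    {g : V → V → V → ℝ} {F : Finset (V × V)} (hD : Drawing V y g F) (X : Finset V)
    (hX : ∀ e ∈ F, e.1 ∈ X ∧ e.2 ∈ X) : F.card ≤ 9 * X.card := by
  classical
  let V' := {v : V // v ∈ X}
  let F' : Finset (V' × V') := Finset.univ.filter (fun e => (e.1.1, e.2.1) ∈ F)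
  have hmem : ∀ u w : V', (u, w) ∈ F' ↔ (u.1, w.1) ∈ F := by intro u w; simp [F']
  have hD' : Drawing V' (fun v => y v.1) (fun u w z => g u.1 w.1 z.1) F' := by
    refine ⟨?_, ?_, ?_, ?_, ?_⟩
    · intro u w h
      rw [hmem] at h
      exact hD.lt _ _ h
    · intro u w h
      rw [hmem] at h
      exact hD.left _ _ h
    · intro u w h
      rw [hmem] at h
      exact hD.right _ _ h
    · intro u w h z h1 h2
      rw [hmem] at h
      exact hD.ne _ _ h z.1 h1 h2
    · intro u w u' w' h h' h1 h2 h3 h4 s t a1 a2 a3 a4 b1 b2 b3 b4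
      rw [hmem] at h h'
      exact hD.ns _ _ _ _ h h' (fun hh => h1 (Subtype.ext hh)) (fun hh => h2 (Subtype.ext hh))
        (fun hh => h3 (Subtype.ext hh)) (fun hh => h4 (Subtype.ext hh)) s.1 t.1
        a1 a2 a3 a4 b1 b2 b3 b4
  have hmain := linear_bound_abs hD'
  have hcardV : Fintype.card V' = X.card := by simp [V']
  rw [hcardV] at hmain
  have hFF : F.card ≤ F'.card := by
    have himg : F ⊆ F'.image (fun e => (e.1.1, e.2.1)) := by
      rintro ⟨u, w⟩ h
      rw [Finset.mem_image]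
      exact ⟨(⟨u, (hX _ h).1⟩, ⟨w, (hX _ h).2⟩), by rw [hmem]; exact h, rfl⟩
    exact (Finset.card_le_card himg).trans Finset.card_image_le
  exact hFF.trans hmain

/-- `|F[X]| ≤ 9 |X| + cr(F[X])` -/
theorem linear_bound_cr {V : Type*} [Fintype V] [LinearOrder V] {y : V → ℝ}
    {g : V → V → V → ℝ} {F : Finset (V × V)} (hD : PreDrawing V y g F) (X : Finset V)
    (hX : ∀ e ∈ F, e.1 ∈ X ∧ e.2 ∈ X) : F.card ≤ 9 * X.card + (crSet g F).card := by
  classical
  set F1 := F.filter (fun e => ¬ ∃ f ∈ F, SignChange g e f) with hF1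
  set F2 := F.filter (fun e => ∃ f ∈ F, SignChange g e f) with hF2
  have hsum : F2.card + F1.card = F.card := by
    rw [hF1, hF2]; exact Finset.card_filter_add_card_filter_not _
  have h1 : F1.card ≤ 9 * X.card := by
    refine linear_bound_on (y := y) (g := g) ?_ X (fun e he => hX e (Finset.mem_of_mem_filter e he))
    have hm := hD.mono (F' := F1) (Finset.filter_subset _ _)
    refine ⟨hm.lt, hm.left, hm.right, hm.ne, ?_⟩
    intro u w u' w' h h' d1 d2 d3 d4 s t a1 a2 a3 a4 b1 b2 b3 b4 c1 c2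
    rw [hF1, Finset.mem_filter] at h h'
    exact h.2 ⟨(u', w'), h'.1, d1, d2, d3, d4, s, t, a1, a2, a3, a4, b1, b2, b3, b4, c1, c2⟩
  have h2 : F2.card ≤ (crSet g F).card := by
    have : F2 ⊆ (crSet g F).image (fun ef => ef.1) := by
      intro e he
      rw [hF2, Finset.mem_filter] at he
      obtain ⟨heF, f, hf, hs⟩ := he
      rw [Finset.mem_image]
      exact ⟨(e, f), by rw [crSet, Finset.mem_filter, Finset.mem_product]; exact ⟨⟨heF, hf⟩, hs⟩, rfl⟩
    exact (Finset.card_le_card this).trans Finset.card_image_le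
  omega

/-- the weighted crossing inequality: for all probabilities `p`,
`∑_{e ∈ F} p(e.1) p(e.2) ≤ 9 ∑_v p(v) + ∑_{(e,f) ∈ K} p(e.1) p(e.2) p(f.1) p(f.2)` for every
set `K` containing all sign changing pairs with (at least) one order. -/
theorem weighted_crossing {V : Type*} [Fintype V] [LinearOrder V] {y : V → ℝ}
    {g : V → V → V → ℝ} {F : Finset (V × V)} (hD : PreDrawing V y g F) {p : V → ℝ}
    (h0 : ∀ v, 0 ≤ p v) (h1 : ∀ v, p v ≤ 1) :
    ∑ e ∈ F, p e.1 * p e.2 ≤ 9 * ∑ v, p v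
      + ∑ k ∈ crSet g F, p k.1.1 * p k.1.2 * (p k.2.1 * p k.2.2) := by
  classical
  have key := weighted_transfer (V := V) h0 h1 F (fun e => {e.1, e.2}) (crSet g F)
    (fun k => {k.1.1, k.1.2, k.2.1, k.2.2}) 9 ?_
  · have e1 : ∑ e ∈ F, ∏ v ∈ ({e.1, e.2} : Finset V), p v = ∑ e ∈ F, p e.1 * p e.2 := by
      refine Finset.sum_congr rfl fun e he => ?_
      rw [Finset.prod_pair (hD.lt e.1 e.2 he).ne]
    have e2 : ∑ k ∈ crSet g F, ∏ v ∈ ({k.1.1, k.1.2, k.2.1, k.2.2} : Finset V), p v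
        = ∑ k ∈ crSet g F, p k.1.1 * p k.1.2 * (p k.2.1 * p k.2.2) := by
      refine Finset.sum_congr rfl fun k hk => ?_
      rw [crSet, Finset.mem_filter, Finset.mem_product] at hk
      obtain ⟨⟨hk1, hk2⟩, d1, d2, d3, d4, -⟩ := hk
      have l1 := (hD.lt _ _ hk1).ne
      have l2 := (hD.lt _ _ hk2).ne
      rw [Finset.prod_insert, Finset.prod_insert, Finset.prod_pair l2, mul_assoc]
      · simp [d3, d4]
      · simp [l1, d1, d2]
    rw [e1, e2] at key
    exact key
  · intro X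
    have hsub : ((F.filter (fun a => ({a.1, a.2} : Finset V) ⊆ X)).card)
        ≤ 9 * X.card + (crSet g (F.filter (fun a => ({a.1, a.2} : Finset V) ⊆ X))).card := by
      refine linear_bound_cr (y := y) (hD.mono (Finset.filter_subset _ _)) X ?_
      intro e he
      have := (Finset.mem_filter.1 he).2
      rw [Finset.insert_subset_iff, Finset.singleton_subset_iff] at this
      exact this
    have h2 : (crSet g (F.filter (fun a => ({a.1, a.2} : Finset V) ⊆ X))).card
        ≤ ((crSet g F).filter (fun k => ({k.1.1, k.1.2, k.2.1, k.2.2} : Finset V) ⊆ X)).card := by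
      refine Finset.card_le_card ?_
      intro k hk
      rw [crSet, Finset.mem_filter, Finset.mem_product, Finset.mem_filter, Finset.mem_filter] at hk
      rw [Finset.mem_filter, crSet, Finset.mem_filter, Finset.mem_product]
      refine ⟨⟨⟨hk.1.1.1, hk.1.2.1⟩, hk.2⟩, ?_⟩
      have a1 := hk.1.1.2
      have a2 := hk.1.2.2
      rw [Finset.insert_subset_iff, Finset.singleton_subset_iff] at a1 a2
      intro v hv
      simp only [Finset.mem_insert, Finset.mem_singleton] at hv
      rcases hv with rfl | rfl | rfl | rfl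
      exacts [a1.1, a1.2, a2.1, a2.2]
    have h3 : ((F.filter (fun a => ({a.1, a.2} : Finset V) ⊆ X)).card)
        ≤ 9 * X.card + ((crSet g F).filter
          (fun k => ({k.1.1, k.1.2, k.2.1, k.2.2} : Finset V) ⊆ X)).card := by omega
    exact_mod_cast h3

/-- C2, abstract form: `|F| ≤ 18 |A|` or `|F|³ ≤ 648 |A|² cr(F)` -/
theorem crossing_abs {V : Type*} [Fintype V] [LinearOrder V] {y : V → ℝ}
    {g : V → V → V → ℝ} {F : Finset (V × V)} (hD : PreDrawing V y g F) (A : Finset V)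
    (hA : ∀ e ∈ F, e.1 ∈ A ∧ e.2 ∈ A) :
    (F.card : ℝ) ≤ 18 * A.card ∨
      (F.card : ℝ) ^ 3 ≤ 648 * (A.card : ℝ) ^ 2 * ((crSet g F).card : ℝ) := by
  classical
  by_cases hle : (F.card : ℝ) ≤ 18 * A.card
  · exact Or.inl hle
  right
  push Not at hle
  have hF0 : (0 : ℝ) < F.card := lt_of_le_of_lt (by positivity) hle
  have hA0 : (0 : ℝ) ≤ A.card := by positivity
  set r : ℝ := 18 * A.card / F.card with hr
  have hr0 : 0 ≤ r := by positivity
  have hr1 : r ≤ 1 := by rw [hr, div_le_one hF0]; exact hle.le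
  have key := weighted_crossing hD (p := fun v => if v ∈ A then r else 0)
    (fun v => by split_ifs <;> linarith)
    (fun v => by split_ifs <;> linarith)
  have e1 : ∑ e ∈ F, (if e.1 ∈ A then r else 0) * (if e.2 ∈ A then r else 0) = F.card * r ^ 2 := by
    rw [Finset.sum_congr rfl (g := fun _ => r ^ 2)]
    · simp
    · intro e he
      rw [if_pos (hA e he).1, if_pos (hA e he).2]; ring
  have e2 : ∑ v : V, (if v ∈ A then r else 0) = A.card * r := by
    rw [← Finset.sum_filter]; simp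
  have e3 : ∑ k ∈ crSet g F, (if k.1.1 ∈ A then r else 0) * (if k.1.2 ∈ A then r else 0)
      * ((if k.2.1 ∈ A then r else 0) * (if k.2.2 ∈ A then r else 0))
      = (crSet g F).card * r ^ 4 := by
    rw [Finset.sum_congr rfl (g := fun _ => r ^ 4)]
    · simp
    · intro k hk
      rw [crSet, Finset.mem_filter, Finset.mem_product] at hk
      rw [if_pos (hA _ hk.1.1).1, if_pos (hA _ hk.1.1).2, if_pos (hA _ hk.1.2).1,
        if_pos (hA _ hk.1.2).2]; ring
  rw [e1, e2, e3] at key
  rcases hA0.eq_or_lt with h | hApos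
  · -- `A` empty, so `F` empty
    exfalso
    have hA' : A = ∅ := by
      rw [← Finset.card_eq_zero]; exact_mod_cast h.symm
    have : F = ∅ := by
      rw [Finset.eq_empty_iff_forall_notMem]
      intro e he
      have := (hA e he).1
      rw [hA'] at this
      simp at this
    rw [this] at hF0
    simp at hF0
  have hrpos : 0 < r := by positivity
  have hFr : (F.card : ℝ) * r = 18 * A.card := by rw [hr]; field_simp
  have h3 : 9 * (A.card : ℝ) ≤ (crSet g F).card * r ^ 3 := by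
    have : r * (F.card * r) ≤ r * (9 * A.card + (crSet g F).card * r ^ 3) := by nlinarith
    have := le_of_mul_le_mul_left this hrpos
    rw [hFr] at this
    linarith
  have h4 : 9 * (A.card : ℝ) * (F.card : ℝ) ^ 3 ≤ (crSet g F).card * (18 * A.card) ^ 3 := by
    have := mul_le_mul_of_nonneg_right h3 (pow_nonneg hF0.le 3)
    calc 9 * (A.card : ℝ) * (F.card : ℝ) ^ 3 ≤ (crSet g F).card * r ^ 3 * (F.card : ℝ) ^ 3 := this
      _ = (crSet g F).card * (F.card * r) ^ 3 := by ring
      _ = _ := by rw [hFr]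
  have h5 : (9 * (A.card : ℝ)) * (F.card : ℝ) ^ 3
      ≤ (9 * (A.card : ℝ)) * (648 * (A.card : ℝ) ^ 2 * ((crSet g F).card : ℝ)) := by
    nlinarith
  exact le_of_mul_le_mul_left h5 (by positivity)

/-- C3, one end in `Z`: `|F| ≤ 36 |A|` or `|F|³ ≤ 2592 |A| |Z| cr(F)` -/
theorem crossing_unbalanced_one {V : Type*} [Fintype V] [LinearOrder V] {y : V → ℝ}
    {g : V → V → V → ℝ} {F : Finset (V × V)} (hD : PreDrawing V y g F) (A Z : Finset V)
    (hZ : Z ⊆ A) (hA : ∀ e ∈ F, e.1 ∈ A ∧ e.2 ∈ A)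
    (hone : ∀ e ∈ F, (e.1 ∈ Z ∧ e.2 ∉ Z) ∨ (e.1 ∉ Z ∧ e.2 ∈ Z)) :
    (F.card : ℝ) ≤ 36 * A.card ∨
      (F.card : ℝ) ^ 3 ≤ 2592 * (A.card : ℝ) * (Z.card : ℝ) * ((crSet g F).card : ℝ) := by
  classical
  by_cases hle : (F.card : ℝ) ≤ 36 * A.card
  · exact Or.inl hle
  right
  push Not at hle
  have hF0 : (0 : ℝ) < F.card := lt_of_le_of_lt (by positivity) hle
  have hA0 : (0 : ℝ) ≤ A.card := by positivity
  have hZ0 : (0 : ℝ) < Z.card := by
    have : F.Nonempty := by
      rw [← Finset.card_pos]; exact_mod_cast hF0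
    obtain ⟨e, he⟩ := this
    have : Z.Nonempty := by
      rcases hone e he with h | h
      exacts [⟨_, h.1⟩, ⟨_, h.2⟩]
    exact_mod_cast this.card_pos
  have hZA : (Z.card : ℝ) ≤ A.card := by exact_mod_cast Finset.card_le_card hZ
  have hApos : (0 : ℝ) < A.card := lt_of_lt_of_le hZ0 hZA
  set rZ : ℝ := 36 * A.card / F.card with hrZ
  set rA : ℝ := 36 * Z.card / F.card with hrA
  have hrZ0 : 0 < rZ := by positivity
  have hrA0 : 0 < rA := by positivity
  have hrZ1 : rZ ≤ 1 := by rw [hrZ, div_le_one hF0]; exact hle.le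
  have hrA1 : rA ≤ 1 := by rw [hrA, div_le_one hF0]; linarith
  set p : V → ℝ := fun v => if v ∈ Z then rZ else if v ∈ A then rA else 0 with hp
  have hpZ : ∀ v, v ∈ Z → p v = rZ := fun v hv => by simp [hp, hv]
  have hpA : ∀ v, v ∈ A → v ∉ Z → p v = rA := fun v hv hv' => by simp [hp, hv, hv']
  have key := weighted_crossing hD (p := p)
    (fun v => by simp only [hp]; split_ifs <;> linarith)
    (fun v => by simp only [hp]; split_ifs <;> linarith)
  have hedge : ∀ e ∈ F, p e.1 * p e.2 = rZ * rA := by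
    intro e he
    rcases hone e he with h | h
    · rw [hpZ _ h.1, hpA _ (hA e he).2 h.2]
    · rw [hpZ _ h.2, hpA _ (hA e he).1 h.1]; ring
  have e1 : ∑ e ∈ F, p e.1 * p e.2 = F.card * (rZ * rA) := by
    rw [Finset.sum_congr rfl hedge]; simp
  have e2 : ∑ v : V, p v ≤ Z.card * rZ + A.card * rA := by
    calc ∑ v : V, p v ≤ ∑ v : V, ((if v ∈ Z then rZ else 0) + (if v ∈ A then rA else 0)) := by
          refine Finset.sum_le_sum fun v _ => ?_
          simp only [hp]
          split_ifs <;> linarith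
      _ = Z.card * rZ + A.card * rA := by
          rw [Finset.sum_add_distrib, ← Finset.sum_filter, ← Finset.sum_filter]; simp
  have e3 : ∑ k ∈ crSet g F, p k.1.1 * p k.1.2 * (p k.2.1 * p k.2.2)
      = (crSet g F).card * (rZ * rA) ^ 2 := by
    rw [Finset.sum_congr rfl (g := fun _ => (rZ * rA) ^ 2)]
    · simp
    · intro k hk
      rw [crSet, Finset.mem_filter, Finset.mem_product] at hk
      rw [hedge _ hk.1.1, hedge _ hk.1.2]; ring
  rw [e1, e3] at key
  have key2 : (F.card : ℝ) * (rZ * rA) ≤ 9 * (Z.card * rZ + A.card * rA)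
      + (crSet g F).card * (rZ * rA) ^ 2 := by linarith
  -- multiply by `|F|^4`
  have hFZ : (F.card : ℝ) * rZ = 36 * A.card := by rw [hrZ]; field_simp
  have hFA : (F.card : ℝ) * rA = 36 * Z.card := by rw [hrA]; field_simp
  have key3 : (F.card : ℝ) ^ 3 * ((36 * A.card) * (36 * Z.card))
      ≤ 9 * ((F.card : ℝ) ^ 3 * (Z.card * (36 * A.card) + A.card * (36 * Z.card)))
      + (crSet g F).card * ((36 * A.card) * (36 * Z.card)) ^ 2 := by
    have h := mul_le_mul_of_nonneg_left key2 (pow_nonneg hF0.le 4)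
    have l1 : (F.card : ℝ) ^ 4 * ((F.card : ℝ) * (rZ * rA))
        = (F.card : ℝ) ^ 3 * ((F.card * rZ) * (F.card * rA)) := by ring
    have l2 : (F.card : ℝ) ^ 4 * (9 * (Z.card * rZ + A.card * rA)
        + (crSet g F).card * (rZ * rA) ^ 2)
        = 9 * ((F.card : ℝ) ^ 3 * (Z.card * (F.card * rZ) + A.card * (F.card * rA)))
          + (crSet g F).card * ((F.card * rZ) * (F.card * rA)) ^ 2 := by ring
    rw [l1, l2, hFZ, hFA] at h
    exact h
  have h5 : (648 * (A.card : ℝ) * Z.card) * (F.card : ℝ) ^ 3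
      ≤ (648 * (A.card : ℝ) * Z.card)
        * (2592 * (A.card : ℝ) * (Z.card : ℝ) * ((crSet g F).card : ℝ)) := by
    nlinarith
  exact le_of_mul_le_mul_left h5 (by positivity)

theorem crSet_mono {V : Type*} [LinearOrder V] (g : V → V → V → ℝ) {F F' : Finset (V × V)}
    (h : F' ⊆ F) : crSet g F' ⊆ crSet g F := by
  intro k hk
  rw [crSet, Finset.mem_filter, Finset.mem_product] at hk ⊢
  exact ⟨⟨h hk.1.1, h hk.1.2⟩, hk.2⟩

/-- C3, abstract form: every edge has at least one end in `Z`: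
`|F| ≤ 72 |A|` or `|F|³ ≤ 20736 |A| |Z| cr(F)` -/
theorem crossing_unbalanced_abs {V : Type*} [Fintype V] [LinearOrder V] {y : V → ℝ}
    {g : V → V → V → ℝ} {F : Finset (V × V)} (hD : PreDrawing V y g F) (A Z : Finset V)
    (hZ : Z ⊆ A) (hA : ∀ e ∈ F, e.1 ∈ A ∧ e.2 ∈ A)
    (hone : ∀ e ∈ F, e.1 ∈ Z ∨ e.2 ∈ Z) :
    (F.card : ℝ) ≤ 72 * A.card ∨
      (F.card : ℝ) ^ 3 ≤ 20736 * (A.card : ℝ) * (Z.card : ℝ) * ((crSet g F).card : ℝ) := by
  classical
  by_cases hle : (F.card : ℝ) ≤ 72 * A.card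
  · exact Or.inl hle
  right
  push Not at hle
  set F1 := F.filter (fun e => e.1 ∈ Z ∧ e.2 ∈ Z) with hF1
  set F2 := F.filter (fun e => ¬ (e.1 ∈ Z ∧ e.2 ∈ Z)) with hF2
  have hsum : F1.card + F2.card = F.card := by
    rw [hF1, hF2]; exact Finset.card_filter_add_card_filter_not _
  have hsumR : (F1.card : ℝ) + F2.card = F.card := by exact_mod_cast hsum
  have hZA : (Z.card : ℝ) ≤ A.card := by exact_mod_cast Finset.card_le_card hZ
  have hc1 : ((crSet g F1).card : ℝ) ≤ (crSet g F).card := by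
    exact_mod_cast Finset.card_le_card (crSet_mono g (Finset.filter_subset _ _))
  have hc2 : ((crSet g F2).card : ℝ) ≤ (crSet g F).card := by
    exact_mod_cast Finset.card_le_card (crSet_mono g (Finset.filter_subset _ _))
  have hZ0 : (0 : ℝ) ≤ Z.card := by positivity
  have hA0 : (0 : ℝ) ≤ A.card := by positivity
  have hcr0 : (0 : ℝ) ≤ (crSet g F).card := by positivity
  have hhalf : ∀ t : ℝ, (F.card : ℝ) ≤ 2 * t →
      t ^ 3 ≤ 2592 * (A.card : ℝ) * (Z.card : ℝ) * ((crSet g F).card : ℝ) →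
      (F.card : ℝ) ^ 3 ≤ 20736 * (A.card : ℝ) * (Z.card : ℝ) * ((crSet g F).card : ℝ) := by
    intro t ht h3
    have : (F.card : ℝ) ^ 3 ≤ (2 * t) ^ 3 := pow_le_pow_left₀ (by positivity) ht 3
    nlinarith
  rcases le_total (F1.card : ℝ) F2.card with h12 | h12
  · -- one-ended class dominates
    refine hhalf F2.card (by linarith) ?_
    have hone2 : ∀ e ∈ F2, (e.1 ∈ Z ∧ e.2 ∉ Z) ∨ (e.1 ∉ Z ∧ e.2 ∈ Z) := by
      intro e he
      rw [hF2, Finset.mem_filter] at he
      rcases hone e he.1 with h | h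
      · exact Or.inl ⟨h, fun h' => he.2 ⟨h, h'⟩⟩
      · exact Or.inr ⟨fun h' => he.2 ⟨h', h⟩, h⟩
    rcases crossing_unbalanced_one (hD.mono (F' := F2) (Finset.filter_subset _ _)) A Z hZ
      (fun e he => hA e (Finset.mem_of_mem_filter e he)) hone2 with h | h
    · linarith
    · refine h.trans ?_
      exact mul_le_mul_of_nonneg_left hc2 (by positivity)
  · refine hhalf F1.card (by linarith) ?_
    rcases crossing_abs (hD.mono (F' := F1) (Finset.filter_subset _ _)) Z
      (fun e he => (Finset.mem_filter.1 he).2) with h | h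
    · linarith
    · refine h.trans ?_
      have : 648 * (Z.card : ℝ) ^ 2 ≤ 2592 * (A.card : ℝ) * (Z.card : ℝ) := by nlinarith
      exact mul_le_mul this hc1 (by positivity) (by positivity)

end Crest.Agent.R51.CrossLin
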