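import Crest.Agent.R51.Defs
import Crest.Agent.R51.CrossSample

/-!
# Row 51, B1: C2 (crossing lemma) and C3 (unbalanced crossing lemma) for straight segments,
on the common definitions (helper445)
-/

set_option autoImplicit false
set_option linter.unusedVariables false
set_option linter.style.haveILetI false
set_option warn.classDefReducibility false

noncomputable section

open Classical Finset

namespace Crest.Agent.R51

namespace CrossStr

/-- two affine functions with strictly opposite signs of the difference cross in between -/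
theorem cross_of_signs {e f : Edge} {s t : ℝ}
    (hs1 : e.1.1 ≤ s) (hs2 : s ≤ e.2.1) (hs3 : f.1.1 ≤ s) (hs4 : s ≤ f.2.1)
    (ht1 : e.1.1 ≤ t) (ht2 : t ≤ e.2.1) (ht3 : f.1.1 ≤ t) (ht4 : t ≤ f.2.1)
    (h1 : lin e s < lin f s) (h2 : lin f t < lin e t) : Cross e f := by
  set a := lin f s - lin e s with ha
  set b := lin e t - lin f t with hb
  have ha0 : 0 < a := by rw [ha]; linarith
  have hb0 : 0 < b := by rw [hb]; linarith
  have hab : 0 < a + b := by linarith
  have hE : lin e t - lin e s = esl e * (t - s) := lin_sub e t s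
  have hF : lin f t - lin f s = esl f * (t - s) := lin_sub f t s
  have hd : (esl e - esl f) * (t - s) = a + b := by rw [ha, hb]; linarith
  have hst : s ≠ t := by
    rintro rfl
    rw [sub_self, mul_zero] at hd
    linarith
  have hne : esl e ≠ esl f := by
    intro h
    rw [h, sub_self, zero_mul] at hd
    linarith
  set x := (b * s + a * t) / (a + b) with hx
  have hxs : x - s = a * (t - s) / (a + b) := by rw [hx]; field_simp; ring
  have htx : t - x = b * (t - s) / (a + b) := by rw [hx]; field_simp; ring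
  have hxe : lin e x = lin f x := by
    have h3 : lin e x - lin e s = esl e * (x - s) := lin_sub e x s
    have h4 : lin f x - lin f s = esl f * (x - s) := lin_sub f x s
    have h5 : (esl e - esl f) * (x - s) = a := by
      rw [hxs]
      field_simp
      nlinarith
    have : lin e x - lin f x = (esl e - esl f) * (x - s) - a := by rw [ha]; linarith
    rw [h5, sub_self] at this
    linarith
  rcases lt_or_gt_of_ne hst with hlt | hgt
  · have p1 : 0 < x - s := by rw [hxs]; exact div_pos (mul_pos ha0 (by linarith)) hab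
    have p2 : 0 < t - x := by rw [htx]; exact div_pos (mul_pos hb0 (by linarith)) hab
    exact ⟨x, by linarith, by linarith, by linarith, by linarith, hxe, hne⟩
  · have p1 : x - s < 0 := by
      rw [hxs]; exact div_neg_of_neg_of_pos (mul_neg_of_pos_of_neg ha0 (by linarith)) hab
    have p2 : t - x < 0 := by
      rw [htx]; exact div_neg_of_neg_of_pos (mul_neg_of_pos_of_neg hb0 (by linarith)) hab
    exact ⟨x, by linarith, by linarith, by linarith, by linarith, hxe, hne⟩

section transfer

variable {A : Finset Pt}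

/-- the vertex order by abscissae -/
def ordA (hA : Generic A) : LinearOrder {p : Pt // p ∈ A} :=
  LinearOrder.lift' (fun v : {p : Pt // p ∈ A} => v.1.1)
    (fun p q h => Subtype.ext (hA.x_inj p.1 p.2 q.1 q.2 h))

/-- the transferred edge set -/
def tr (A : Finset Pt) (E : Finset Edge) : Finset ({p : Pt // p ∈ A} × {p : Pt // p ∈ A}) :=
  Finset.univ.filter (fun e => (e.1.1, e.2.1) ∈ E)

theorem mem_tr {E : Finset Edge} (u w : {p : Pt // p ∈ A}) :
    (u, w) ∈ tr A E ↔ (u.1, w.1) ∈ E := by simp [tr]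

/-- the transferred function -/
def gA (u w z : {p : Pt // p ∈ A}) : ℝ := lin (u.1, w.1) z.1.1

theorem preDrawing (hA : Generic A) {E : Finset Edge} (hE : E ⊆ pairs A) :
    @CrossLin.PreDrawing {p : Pt // p ∈ A} (ordA hA) (fun v => v.1.2) gA (tr A E) := by
  letI := ordA hA
  refine ⟨?_, ?_, ?_, ?_⟩
  · intro u w h
    rw [mem_tr] at h
    exact (mem_pairs.1 (hE h)).2.2
  · intro u w h
    exact lin_left (u.1, w.1)
  · intro u w h
    rw [mem_tr] at h
    exact lin_right (e := (u.1, w.1)) (mem_pairs.1 (hE h)).2.2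
  · intro u w h z h1 h2 h3
    rw [mem_tr] at h
    have hz := (lin_eq_iff (u.1, w.1) z.1).1 h3
    have h1' : u.1.1 < z.1.1 := h1
    have h2' : z.1.1 < w.1.1 := h2
    have hne := hA.ht_ne (hE h) z.2 (r := z.1)
      (fun hh => absurd h1' (by rw [hh]; exact lt_irrefl _))
      (fun hh => absurd h2' (by rw [hh]; exact lt_irrefl _))
    exact hne hz.symm

theorem card_tr {E : Finset Edge} (hE : E ⊆ pairs A) : (tr A E).card = E.card := by
  have himg : (tr A E).image (fun e => (e.1.1, e.2.1)) = E := by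
    ext e
    rw [Finset.mem_image]
    constructor
    · rintro ⟨⟨u, w⟩, h, rfl⟩
      exact (mem_tr u w).1 h
    · intro h
      have := mem_pairs.1 (hE h)
      exact ⟨(⟨e.1, this.1⟩, ⟨e.2, this.2.1⟩), by rw [mem_tr]; exact h, rfl⟩
  have hinj : Set.InjOn (fun e : {p : Pt // p ∈ A} × {p : Pt // p ∈ A} => (e.1.1, e.2.1))
      (tr A E) := by
    rintro ⟨u, w⟩ _ ⟨u', w'⟩ _ h
    simp only [Prod.mk.injEq] at h
    exact Prod.ext (Subtype.ext h.1) (Subtype.ext h.2)
  have := Finset.card_image_of_injOn hinj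
  rw [himg] at this
  exact this.symm

theorem card_crSet (hA : Generic A) {E : Finset Edge} (hE : E ⊆ pairs A) :
    (@CrossLin.crSet {p : Pt // p ∈ A} (ordA hA) gA (tr A E)).card ≤ crs E E := by
  letI := ordA hA
  unfold crs
  refine Finset.card_le_card_of_injOn
    (fun k => ((k.1.1.1, k.1.2.1), (k.2.1.1, k.2.2.1))) ?_ ?_
  · rintro ⟨⟨u, w⟩, ⟨u', w'⟩⟩ hk
    rw [Finset.mem_coe, CrossLin.crSet, Finset.mem_filter, Finset.mem_product] at hk
    obtain ⟨⟨hk1, hk2⟩, -, -, -, -, s, t, a1, a2, a3, a4, b1, b2, b3, b4, c1, c2⟩ := hk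
    rw [Finset.mem_coe, Finset.mem_filter, Finset.mem_product]
    refine ⟨⟨(mem_tr u w).1 hk1, (mem_tr u' w').1 hk2⟩, ?_⟩
    exact cross_of_signs (e := (u.1, w.1)) (f := (u'.1, w'.1)) (s := s.1.1) (t := t.1.1)
      a1 a3 a2 a4 b1 b3 b2 b4 c1 c2
  · rintro ⟨⟨u, w⟩, ⟨u', w'⟩⟩ _ ⟨⟨v, z⟩, ⟨v', z'⟩⟩ _ h
    simp only [Prod.mk.injEq] at h
    exact Prod.ext (Prod.ext (Subtype.ext h.1.1) (Subtype.ext h.1.2))
      (Prod.ext (Subtype.ext h.2.1) (Subtype.ext h.2.2))

end transfer

end CrossStr

open CrossStr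

/-- C1 for straight edges: `|E| ≤ 9 |A| + cr(E)`. -/
theorem card_le_crs {P : Finset Pt} (hP : Generic P) {A : Finset Pt} (hA : A ⊆ P)
    {E : Finset Edge} (hE : E ⊆ pairs A) : E.card ≤ 9 * A.card + crs E E := by
  classical
  have hGA := hP.mono hA
  letI := ordA hGA
  have h := CrossLin.linear_bound_cr (preDrawing hGA hE) Finset.univ (fun _ _ => by simp)
  rw [card_tr hE, Finset.card_univ, Fintype.card_coe] at h
  have := card_crSet hGA hE
  omega

/-- C2: crossing lemma. -/
theorem crossing_lemma {P : Finset Pt} (hP : Generic P) {A : Finset Pt} (hA : A ⊆ P)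
    {E : Finset Edge} (hE : E ⊆ pairs A) :
    (E.card : ℝ) ≤ 18 * A.card ∨ (E.card : ℝ) ^ 3 ≤ 648 * (A.card : ℝ) ^ 2 * (crs E E : ℝ) := by
  classical
  have hGA := hP.mono hA
  letI := ordA hGA
  have h := CrossLin.crossing_abs (preDrawing hGA hE) Finset.univ (fun _ _ => by simp)
  rw [card_tr hE, Finset.card_univ, Fintype.card_coe] at h
  refine h.imp id (fun h => h.trans ?_)
  have := card_crSet hGA hE
  have h' : ((CrossLin.crSet gA (tr A E)).card : ℝ) ≤ (crs E E : ℝ) := by exact_mod_cast this
  exact mul_le_mul_of_nonneg_left h' (by positivity)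

/-- C3: unbalanced crossing lemma: every edge has at least one end in `Z ⊆ A`. -/
theorem crossing_lemma_unbalanced {P : Finset Pt} (hP : Generic P) {A Z : Finset Pt}
    (hA : A ⊆ P) (hZ : Z ⊆ A) {E : Finset Edge} (hE : E ⊆ pairs A)
    (hone : ∀ e ∈ E, e.1 ∈ Z ∨ e.2 ∈ Z) :
    (E.card : ℝ) ≤ 72 * A.card ∨
      (E.card : ℝ) ^ 3 ≤ 20736 * (A.card : ℝ) * (Z.card : ℝ) * (crs E E : ℝ) := by
  classical
  have hGA := hP.mono hA
  letI := ordA hGA
  set Z' : Finset {p : Pt // p ∈ A} := Finset.univ.filter (fun v => v.1 ∈ Z) with hZ'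
  have hcardZ : Z'.card = Z.card := by
    have himg : Z'.image (fun v => v.1) = Z := by
      ext p
      rw [Finset.mem_image]
      constructor
      · rintro ⟨v, hv, rfl⟩
        exact (Finset.mem_filter.1 hv).2
      · intro hp
        exact ⟨⟨p, hZ hp⟩, by simp [hZ', hp], rfl⟩
    have := Finset.card_image_of_injective Z' (f := fun v : {p : Pt // p ∈ A} => v.1)
      Subtype.val_injective
    rw [himg] at this
    exact this.symm
  have h := CrossLin.crossing_unbalanced_abs (preDrawing hGA hE) Finset.univ Z'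
    (Finset.subset_univ _) (fun _ _ => by simp) (by
      rintro ⟨u, w⟩ he
      rw [mem_tr] at he
      rcases hone _ he with h | h
      · exact Or.inl (by simp [hZ', h])
      · exact Or.inr (by simp [hZ', h]))
  rw [card_tr hE, Finset.card_univ, Fintype.card_coe, hcardZ] at h
  refine h.imp id (fun h => h.trans ?_)
  have := card_crSet hGA hE
  have h' : ((CrossLin.crSet gA (tr A E)).card : ℝ) ≤ (crs E E : ℝ) := by exact_mod_cast this
  exact mul_le_mul_of_nonneg_left h' (by positivity)

end Crest.Agent.R51
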