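import Crest.Agent.R51.TwoA

/-! Row 51, C4 (Lemma H): thinning of the end-pair classes, counting of the bad pairs, conclusion. -/

set_option autoImplicit false
noncomputable section
open Classical

namespace Crest.Agent.R51.Two

variable {P : Finset Pt}

theorem cri_mono {K K' : Finset Pth} (h : K ⊆ K') : cri K ⊆ cri K' := by
  intro x hx
  rw [cri, Finset.mem_filter, Finset.mem_product] at hx ⊢
  exact ⟨⟨h hx.1.1, h hx.1.2⟩, hx.2⟩

/-- thinning: classes of size `≤ μ` -/
theorem thinning (hP : Generic P) {H : Finset Pth} (hH : ∀ h ∈ H, IsP P h) {μ : ℕ}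
    (hcl : ∀ e : Pt × Pt, (H.filter (fun h => ed h = e)).card ≤ μ)
    {p : ℝ} (h0 : 0 ≤ p) (h1 : p ≤ 1) {q : ℝ} (q0 : 0 ≤ q) (q1 : q ≤ 1) :
    p ^ 2 * (1 - p) * (q * H.card - q ^ 2 * (μ * H.card))
      ≤ 9 * (p * P.card) + p ^ 4 * (q ^ 2 * (cri H).card) := by
  let Y' : Finset Pth → Finset Pth := fun Y => Y.filter (fun h => ∀ h' ∈ Y, h' ≠ h → ed h' ≠ ed h)
  let Cf : Finset Pth → Finset (Pth × Pth) := fun Y =>
    (Y ×ˢ Y).filter (fun x => x.1 ≠ x.2 ∧ ed x.1 = ed x.2)
  have hsubY : ∀ Y, Y' Y ⊆ Y := fun Y => Finset.filter_subset _ _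
  have hY1 : ∀ Y, (Y.card : ℝ) ≤ (Y' Y).card + (Cf Y).card := by
    intro Y
    have h2 : (Y \ Y' Y).card ≤ (Cf Y).card := by
      have : Y \ Y' Y ⊆ (Cf Y).image Prod.snd := by
        intro h hh
        rw [Finset.mem_sdiff, Finset.mem_filter] at hh
        obtain ⟨hh1, hh2⟩ := hh
        push Not at hh2
        obtain ⟨h', hh', hne, he⟩ := hh2 hh1
        exact Finset.mem_image.2 ⟨(h', h), Finset.mem_filter.2
          ⟨Finset.mem_product.2 ⟨hh', hh1⟩, hne, he⟩, rfl⟩
      exact (Finset.card_le_card this).trans Finset.card_image_le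
    have h3 := Finset.card_sdiff_add_card_eq_card (hsubY Y)
    have h4 : Y.card ≤ (Y' Y).card + (Cf Y).card := by omega
    exact_mod_cast h4
  have hY2 : ∀ Y ∈ H.powerset, p ^ 2 * (1 - p) * ((Y.card : ℝ) - (Cf Y).card)
      ≤ 9 * (p * P.card) + p ^ 4 * ((cri Y).card : ℝ) := by
    intro Y hY
    rw [Finset.mem_powerset] at hY
    have hv := vertex_sampling hP (H := Y' Y) (fun h hh => hH h (hY (hsubY Y hh)))
      (by
        intro h hh h' hh' he
        by_contra hne
        exact (Finset.mem_filter.1 hh').2 h (hsubY Y hh) hne he) h0 h1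
    have a1 : ((cri (Y' Y)).card : ℝ) ≤ (cri Y).card := by
      exact_mod_cast Finset.card_le_card (cri_mono (hsubY Y))
    have a2 := hY1 Y
    have a3 : 0 ≤ p ^ 2 * (1 - p) := by
      have : 0 ≤ 1 - p := by linarith
      positivity
    have a4 : 0 ≤ p ^ 4 := by positivity
    nlinarith [mul_le_mul_of_nonneg_left a1 a4, mul_le_mul_of_nonneg_left
      (show (Y.card : ℝ) - (Cf Y).card ≤ (Y' Y).card by linarith) a3]
  -- average over Y
  have hsum : ∑ Y ∈ H.powerset, bw H q Y * (p ^ 2 * (1 - p) * ((Y.card : ℝ) - (Cf Y).card))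
      ≤ ∑ Y ∈ H.powerset, bw H q Y * (9 * (p * P.card) + p ^ 4 * ((cri Y).card : ℝ)) :=
    Finset.sum_le_sum fun Y hY => mul_le_mul_of_nonneg_left (hY2 Y hY) (bw_nonneg H q0 q1 Y)
  have eL : ∑ Y ∈ H.powerset, bw H q Y * (p ^ 2 * (1 - p) * ((Y.card : ℝ) - (Cf Y).card))
      = p ^ 2 * (1 - p) * ((∑ Y ∈ H.powerset, bw H q Y * (Y.card : ℝ))
        - ∑ Y ∈ H.powerset, bw H q Y * ((Cf Y).card : ℝ)) := by
    rw [← Finset.sum_sub_distrib, Finset.mul_sum]
    apply Finset.sum_congr rfl
    intro Y _; ring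
  have eR : ∑ Y ∈ H.powerset, bw H q Y * (9 * (p * P.card) + p ^ 4 * ((cri Y).card : ℝ))
      = 9 * (p * P.card) + p ^ 4 * ∑ Y ∈ H.powerset, bw H q Y * ((cri Y).card : ℝ) := by
    have : ∀ Y ∈ H.powerset, bw H q Y * (9 * (p * P.card) + p ^ 4 * ((cri Y).card : ℝ))
        = bw H q Y * (9 * (p * P.card)) + p ^ 4 * (bw H q Y * ((cri Y).card : ℝ)) := by
      intro Y _; ring
    rw [Finset.sum_congr rfl this, Finset.sum_add_distrib, ← Finset.sum_mul, sum_bw_one, one_mul,
      ← Finset.mul_sum]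
  rw [eL, eR, sum_bw_card] at hsum
  -- conflicts
  have hC : ∑ Y ∈ H.powerset, bw H q Y * ((Cf Y).card : ℝ) ≤ q ^ 2 * (μ * H.card) := by
    have e5 := sum_bw_card_le H q0 q1 (Cf H) (fun x : Pth × Pth => ({x.1, x.2} : Finset Pth))
      (by
        intro x hx z hz
        have hx' := Finset.mem_product.1 (Finset.mem_filter.1 hx).1
        simp only [Finset.mem_insert, Finset.mem_singleton] at hz
        rcases hz with rfl | rfl
        · exact hx'.1
        · exact hx'.2)
      (fun Y => Cf Y)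
      (by
        intro Y hY x hx
        have hx1 := Finset.mem_filter.1 hx
        have hx2 := Finset.mem_product.1 hx1.1
        refine Finset.mem_filter.2 ⟨Finset.mem_filter.2
          ⟨Finset.mem_product.2 ⟨hY hx2.1, hY hx2.2⟩, hx1.2⟩, ?_⟩
        intro z hz
        simp only [Finset.mem_insert, Finset.mem_singleton] at hz
        rcases hz with rfl | rfl
        · exact hx2.1
        · exact hx2.2)
    have e6 : ∑ x ∈ Cf H, q ^ (({x.1, x.2} : Finset Pth)).card = q ^ 2 * (Cf H).card := by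
      have : ∀ x ∈ Cf H, q ^ (({x.1, x.2} : Finset Pth)).card = q ^ 2 := by
        intro x hx
        rw [Finset.card_pair (Finset.mem_filter.1 hx).2.1]
      rw [Finset.sum_congr rfl this, Finset.sum_const, nsmul_eq_mul]
      ring
    rw [e6] at e5
    have e7 : (Cf H).card ≤ μ * H.card := by
      apply Finset.card_le_mul_card_image_of_maps_to (f := Prod.fst)
      · intro x hx
        exact (Finset.mem_product.1 (Finset.mem_filter.1 hx).1).1
      · intro h _
        calc ((Cf H).filter (fun x => x.1 = h)).card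
            ≤ (H.filter (fun h' => ed h' = ed h)).card := by
              apply Finset.card_le_card_of_injOn Prod.snd
              · intro x hx
                have hx1 := Finset.mem_filter.1 hx
                have hx2 := Finset.mem_filter.1 hx1.1
                refine Finset.mem_filter.2 ⟨(Finset.mem_product.1 hx2.1).2, ?_⟩
                rw [← hx2.2.2, hx1.2]
              · intro x hx x' hx' he
                have hx1 := (Finset.mem_filter.1 hx).2
                have hx2 := (Finset.mem_filter.1 hx').2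
                exact Prod.ext (by rw [hx1, hx2]) he
          _ ≤ μ := hcl _
    have e8 : ((Cf H).card : ℝ) ≤ μ * H.card := by exact_mod_cast e7
    calc ∑ Y ∈ H.powerset, bw H q Y * ((Cf Y).card : ℝ) ≤ q ^ 2 * (Cf H).card := e5
      _ ≤ _ := mul_le_mul_of_nonneg_left e8 (by positivity)
  -- crossings
  have hX : ∑ Y ∈ H.powerset, bw H q Y * ((cri Y).card : ℝ) ≤ q ^ 2 * (cri H).card := by
    have e5 := sum_bw_card_le H q0 q1 (cri H) (fun x : Pth × Pth => ({x.1, x.2} : Finset Pth))
      (by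
        intro x hx z hz
        have hx' := Finset.mem_product.1 (Finset.mem_filter.1 hx).1
        simp only [Finset.mem_insert, Finset.mem_singleton] at hz
        rcases hz with rfl | rfl
        · exact hx'.1
        · exact hx'.2)
      (fun Y => cri Y)
      (by
        intro Y hY x hx
        have hx1 := Finset.mem_filter.1 hx
        have hx2 := Finset.mem_product.1 hx1.1
        refine Finset.mem_filter.2 ⟨Finset.mem_filter.2
          ⟨Finset.mem_product.2 ⟨hY hx2.1, hY hx2.2⟩, hx1.2⟩, ?_⟩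
        intro z hz
        simp only [Finset.mem_insert, Finset.mem_singleton] at hz
        rcases hz with rfl | rfl
        · exact hx2.1
        · exact hx2.2)
    have e6 : ∑ x ∈ cri H, q ^ (({x.1, x.2} : Finset Pth)).card = q ^ 2 * (cri H).card := by
      have : ∀ x ∈ cri H, q ^ (({x.1, x.2} : Finset Pth)).card = q ^ 2 := by
        intro x hx
        have hi := (Finset.mem_filter.1 hx).2.1
        rw [Finset.card_pair (fun he => hi.1 (by rw [he]))]
      rw [Finset.sum_congr rfl this, Finset.sum_const, nsmul_eq_mul]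
      ring
    rw [e6] at e5
    exact e5
  have a3 : 0 ≤ p ^ 2 * (1 - p) := by
    have : 0 ≤ 1 - p := by linarith
    positivity
  have a4 : 0 ≤ p ^ 4 := by positivity
  have b1 := mul_le_mul_of_nonneg_left
    (show q * (H.card : ℝ) - q ^ 2 * (μ * H.card)
      ≤ q * H.card - ∑ Y ∈ H.powerset, bw H q Y * ((Cf Y).card : ℝ) by linarith) a3
  have b2 := mul_le_mul_of_nonneg_left hX a4
  linarith

/-- optimisation -/
theorem optimise {h n c μ : ℝ} (hh : 0 ≤ h) (hn : 0 ≤ n) (hμ : 1 ≤ μ)
    (hyp : ∀ p : ℝ, 0 ≤ p → p ≤ 1 → p ^ 2 * (1 - p) * (h / (4 * μ)) ≤ 9 * (p * n) + p ^ 4 * (c / (4 * μ ^ 2))) :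
    h ≤ 288 * μ * n ∨ h ^ 3 ≤ 82944 * μ * n ^ 2 * c := by
  have hμ0 : 0 < μ := by linarith
  rcases eq_or_lt_of_le hh with hz | hh'
  · left; rw [← hz]; positivity
  by_cases hcase : c < h * μ
  · left
    have h1 := hyp (1 / 2) (by norm_num) (by norm_num)
    have h2 : c / (4 * μ ^ 2) ≤ h / (4 * μ) := by
      rw [div_le_div_iff₀ (by positivity) (by positivity)]
      nlinarith
    have h3 : h / (4 * μ) * (1 / 16) ≤ 9 * (1 / 2 * n) := by nlinarith
    have h4 : h ≤ 288 * μ * n := by
      have : h / (4 * μ) * (1 / 16) = h / (64 * μ) := by field_simp; norm_num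
      rw [this, div_le_iff₀ (by positivity)] at h3
      linarith
    exact h4
  · push Not at hcase
    right
    have hc' : 0 < c := lt_of_lt_of_le (by positivity) hcase
    set p : ℝ := Real.sqrt (h * μ / (4 * c)) with hp
    have hp2 : p ^ 2 = h * μ / (4 * c) := Real.sq_sqrt (by positivity)
    have hp0 : 0 < p := Real.sqrt_pos.2 (by positivity)
    have hp12 : p ≤ 1 / 2 := by
      rw [hp, Real.sqrt_le_left (by norm_num)]
      rw [div_le_iff₀ (by positivity)]
      nlinarith
    have h1 := hyp p hp0.le (by linarith)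
    have h2 : p ^ 4 * (c / (4 * μ ^ 2)) = p ^ 2 * (h / (16 * μ)) := by
      have : p ^ 4 = p ^ 2 * (h * μ / (4 * c)) := by rw [← hp2]; ring
      rw [this]; field_simp; norm_num
    rw [h2] at h1
    have h3 : p ^ 2 * (h / (16 * μ)) ≤ 9 * (p * n) := by
      have h4 : p ^ 2 * (1 / 2) * (h / (4 * μ)) ≤ p ^ 2 * (1 - p) * (h / (4 * μ)) := by
        apply mul_le_mul_of_nonneg_right _ (by positivity)
        apply mul_le_mul_of_nonneg_left _ (by positivity)
        linarith
      have h5 : p ^ 2 * (1 / 2) * (h / (4 * μ)) = 2 * (p ^ 2 * (h / (16 * μ))) := by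
        field_simp; norm_num
      linarith
    have h6 : p * h ≤ 144 * μ * n := by
      have h7 : p * (p * (h / (16 * μ))) ≤ p * (9 * n) := by nlinarith
      have h8 := le_of_mul_le_mul_left h7 hp0
      have h9 : p * (h / (16 * μ)) = p * h / (16 * μ) := by ring
      rw [h9, div_le_iff₀ (by positivity)] at h8
      linarith
    have h10 : (p * h) ^ 2 ≤ (144 * μ * n) ^ 2 := by
      apply pow_le_pow_left₀ (by positivity) h6
    have h11 : (p * h) ^ 2 = h ^ 3 * μ / (4 * c) := by
      rw [mul_pow, hp2]; ring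
    rw [h11, div_le_iff₀ (by positivity)] at h10
    have h12 : h ^ 3 * μ ≤ (82944 * μ * n ^ 2 * c) * μ := by nlinarith
    exact le_of_mul_le_mul_right h12 hμ0

/-- number of bad pairs -/
theorem cri_card_le (hP : Generic P) {G : Finset Edge} {Λ : ℕ}
    (hΛ : ∀ p ∈ P, (G.filter (fun e => e.1 = p ∨ e.2 = p)).card ≤ Λ) {H : Finset Pth}
    (hH : ∀ h ∈ H, IsP P h) (hHG : ∀ h ∈ H, e1 h ∈ G ∧ e2 h ∈ G) :
    (cri H).card ≤ 4 * Λ ^ 2 * crs G G + P.card * Λ ^ 4 := by
  -- number of paths containing a given edge as first / second edge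
  have hfirst : ∀ e : Edge, (H.filter (fun h => e1 h = e)).card ≤ Λ := by
    intro e
    rcases (H.filter (fun h => e1 h = e)).eq_empty_or_nonempty with hem | ⟨h0, hh0⟩
    · rw [hem]; simp
    have hm := Finset.mem_filter.1 hh0
    have hvP : e.2 ∈ P := by
      rw [← hm.2]; exact (hH h0 hm.1).hv
    refine le_trans ?_ (hΛ e.2 hvP)
    apply Finset.card_le_card_of_injOn e2
    · intro h hh
      have := Finset.mem_filter.1 hh
      refine Finset.mem_filter.2 ⟨(hHG h this.1).2, Or.inl ?_⟩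
      show h.2.1 = e.2
      rw [← this.2]; rfl
    · intro h hh h' hh' he
      have a1 := (Finset.mem_filter.1 hh).2
      have a2 := (Finset.mem_filter.1 hh').2
      have b1 : e1 h = e1 h' := by rw [a1, a2]
      have b2 : e2 h = e2 h' := he
      unfold e1 at b1
      unfold e2 at b2
      rw [Prod.ext_iff] at b1 b2
      exact Prod.ext b1.1 (Prod.ext b1.2 b2.2)
  have hsecond : ∀ e : Edge, (H.filter (fun h => e2 h = e)).card ≤ Λ := by
    intro e
    rcases (H.filter (fun h => e2 h = e)).eq_empty_or_nonempty with hem | ⟨h0, hh0⟩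
    · rw [hem]; simp
    have hm := Finset.mem_filter.1 hh0
    have hvP : e.1 ∈ P := by
      rw [← hm.2]; exact (hH h0 hm.1).hv
    refine le_trans ?_ (hΛ e.1 hvP)
    apply Finset.card_le_card_of_injOn e1
    · intro h hh
      have := Finset.mem_filter.1 hh
      refine Finset.mem_filter.2 ⟨(hHG h this.1).1, Or.inr ?_⟩
      show h.2.1 = e.1
      rw [← this.2]; rfl
    · intro h hh h' hh' he
      have a1 := (Finset.mem_filter.1 hh).2
      have a2 := (Finset.mem_filter.1 hh').2
      have b1 : e2 h = e2 h' := by rw [a1, a2]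
      have b2 : e1 h = e1 h' := he
      unfold e2 at b1
      unfold e1 at b2
      rw [Prod.ext_iff] at b1 b2
      exact Prod.ext b2.1 (Prod.ext b2.2 b1.2)
  have hany : ∀ e : Edge, (H.filter (fun h => e = e1 h ∨ e = e2 h)).card ≤ 2 * Λ := by
    intro e
    have : H.filter (fun h => e = e1 h ∨ e = e2 h)
        ⊆ H.filter (fun h => e1 h = e) ∪ H.filter (fun h => e2 h = e) := by
      intro h hh
      have := Finset.mem_filter.1 hh
      rcases this.2 with h3 | h3
      · exact Finset.mem_union_left _ (Finset.mem_filter.2 ⟨this.1, h3.symm⟩)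
      · exact Finset.mem_union_right _ (Finset.mem_filter.2 ⟨this.1, h3.symm⟩)
    have h2 := (Finset.card_le_card this).trans (Finset.card_union_le _ _)
    have h3 := hfirst e
    have h4 := hsecond e
    omega
  -- number of paths through v
  have hmid : ∀ v ∈ P, (H.filter (fun h => h.2.1 = v)).card ≤ Λ ^ 2 := by
    intro v hv
    rw [pow_two]
    calc (H.filter (fun h => h.2.1 = v)).card
        ≤ ((G.filter (fun e => e.1 = v ∨ e.2 = v)) ×ˢ (G.filter (fun e => e.1 = v ∨ e.2 = v))).card := by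
          apply Finset.card_le_card_of_injOn (fun h => (e1 h, e2 h))
          · intro h hh
            have := Finset.mem_filter.1 hh
            refine Finset.mem_product.2 ⟨Finset.mem_filter.2 ⟨(hHG h this.1).1, Or.inr this.2⟩,
              Finset.mem_filter.2 ⟨(hHG h this.1).2, Or.inl this.2⟩⟩
          · intro h _ h' _ he
            simp only [Prod.mk.injEq] at he
            obtain ⟨b1, b2⟩ := he
            unfold e1 at b1
            unfold e2 at b2
            rw [Prod.ext_iff] at b1 b2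
            exact Prod.ext b1.1 (Prod.ext b1.2 b2.2)
      _ ≤ Λ * Λ := by
          rw [Finset.card_product]
          exact Nat.mul_le_mul (hΛ v hv) (hΛ v hv)
  -- split
  set A := (H ×ˢ H).filter (fun x : Pth × Pth => x.1.2.1 = x.2.2.1) with hA
  set CG := (G ×ˢ G).filter (fun x : Edge × Edge => Cross x.1 x.2) with hCG
  set B := CG.biUnion (fun y => (H.filter (fun h => y.1 = e1 h ∨ y.1 = e2 h)) ×ˢ
    (H.filter (fun h => y.2 = e1 h ∨ y.2 = e2 h))) with hB
  have hsub : cri H ⊆ A ∪ B := by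
    intro x hx
    rw [cri, Finset.mem_filter, Finset.mem_product] at hx
    obtain ⟨⟨c1, c2⟩, hi, hs⟩ := hx
    by_cases hv : x.1.2.1 = x.2.2.1
    · exact Finset.mem_union_left _ (Finset.mem_filter.2 ⟨Finset.mem_product.2 ⟨c1, c2⟩, hv⟩)
    · apply Finset.mem_union_right
      obtain ⟨e, f, he, hf, hc⟩ := exists_cross hP (hH _ c1) (hH _ c2) hi hv hs
      rw [hB, Finset.mem_biUnion]
      refine ⟨(e, f), Finset.mem_filter.2 ⟨Finset.mem_product.2 ⟨?_, ?_⟩, hc⟩, ?_⟩
      · rcases he with rfl | rfl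
        · exact (hHG _ c1).1
        · exact (hHG _ c1).2
      · rcases hf with rfl | rfl
        · exact (hHG _ c2).1
        · exact (hHG _ c2).2
      · exact Finset.mem_product.2 ⟨Finset.mem_filter.2 ⟨c1, he⟩, Finset.mem_filter.2 ⟨c2, hf⟩⟩
  have hBcard : B.card ≤ 4 * Λ ^ 2 * crs G G := by
    calc B.card ≤ ∑ y ∈ CG, ((H.filter (fun h => y.1 = e1 h ∨ y.1 = e2 h)) ×ˢ
          (H.filter (fun h => y.2 = e1 h ∨ y.2 = e2 h))).card := Finset.card_biUnion_le
      _ ≤ ∑ _y ∈ CG, 4 * Λ ^ 2 := by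
          apply Finset.sum_le_sum
          intro y _
          rw [Finset.card_product]
          calc _ ≤ (2 * Λ) * (2 * Λ) := Nat.mul_le_mul (hany _) (hany _)
            _ = 4 * Λ ^ 2 := by ring
      _ = 4 * Λ ^ 2 * crs G G := by
          rw [Finset.sum_const, smul_eq_mul, mul_comm]; rfl
  have hAcard : A.card ≤ P.card * Λ ^ 4 := by
    have hsubA : A ⊆ P.biUnion (fun v => (H.filter (fun h => h.2.1 = v)) ×ˢ
        (H.filter (fun h => h.2.1 = v))) := by
      intro x hx
      rw [hA, Finset.mem_filter, Finset.mem_product] at hx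
      rw [Finset.mem_biUnion]
      refine ⟨x.1.2.1, (hH _ hx.1.1).hv, Finset.mem_product.2
        ⟨Finset.mem_filter.2 ⟨hx.1.1, rfl⟩, Finset.mem_filter.2 ⟨hx.1.2, hx.2.symm⟩⟩⟩
    calc A.card ≤ _ := Finset.card_le_card hsubA
      _ ≤ ∑ v ∈ P, ((H.filter (fun h => h.2.1 = v)) ×ˢ (H.filter (fun h => h.2.1 = v))).card :=
          Finset.card_biUnion_le
      _ ≤ ∑ _v ∈ P, Λ ^ 4 := by
          apply Finset.sum_le_sum
          intro v hv
          rw [Finset.card_product]
          calc _ ≤ Λ ^ 2 * Λ ^ 2 := Nat.mul_le_mul (hmid v hv) (hmid v hv)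
            _ = Λ ^ 4 := by ring
      _ = P.card * Λ ^ 4 := by rw [Finset.sum_const, smul_eq_mul]
  calc (cri H).card ≤ (A ∪ B).card := Finset.card_le_card hsub
    _ ≤ A.card + B.card := Finset.card_union_le _ _
    _ ≤ _ := by omega

end Two

open Two in
/-- **C4 (Lemma H)**. -/
theorem lemmaH {P : Finset Pt} (hP : Generic P) {G : Finset Edge} (hG : G ⊆ pairs P) {Λ : ℕ}
    (hΛ : ∀ p ∈ P, (G.filter (fun e => e.1 = p ∨ e.2 = p)).card ≤ Λ)
    {H : Finset (Pt × Pt × Pt)} (hH : ∀ h ∈ H, (h.1, h.2.1) ∈ G ∧ (h.2.1, h.2.2) ∈ G)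
    {μ : ℕ} (hμ : 1 ≤ μ)
    (hend : ∀ x y : Pt, (H.filter (fun h => h.1 = x ∧ h.2.2 = y)).card ≤ μ) :
    (H.card : ℝ) ≤ 288 * μ * P.card ∨
      (H.card : ℝ) ^ 3 ≤ 331776 * μ * (P.card : ℝ) ^ 2 *
        ((Λ : ℝ) ^ 2 * crs G G + P.card * (Λ : ℝ) ^ 4) := by
  have hIs : ∀ h ∈ H, IsP P h := by
    intro h hh
    have h1 := mem_pairs.1 (hG (hH h hh).1)
    have h2 := mem_pairs.1 (hG (hH h hh).2)
    exact ⟨h1.1, h1.2.1, h2.2.1, h1.2.2, h2.2.2⟩
  have hcl : ∀ e : Pt × Pt, (H.filter (fun h => ed h = e)).card ≤ μ := by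
    intro e
    refine le_trans (Finset.card_le_card ?_) (hend e.1 e.2)
    intro h hh
    have := Finset.mem_filter.1 hh
    have h2 := Prod.ext_iff.1 this.2
    exact Finset.mem_filter.2 ⟨this.1, h2.1, h2.2⟩
  have hμ' : (1 : ℝ) ≤ μ := by exact_mod_cast hμ
  have hμ0 : (0 : ℝ) < μ := by linarith
  have hcri := cri_card_le hP hΛ hIs hH
  have hcri' : ((cri H).card : ℝ) ≤ 4 * (Λ : ℝ) ^ 2 * crs G G + P.card * (Λ : ℝ) ^ 4 := by
    exact_mod_cast hcri
  have hopt := optimise (h := H.card) (n := P.card) (c := (cri H).card) (μ := μ)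
    (by positivity) (by positivity) hμ' (by
      intro p h0 h1
      have hq0 : (0 : ℝ) ≤ 1 / (2 * μ) := by positivity
      have hq1 : (1 : ℝ) / (2 * μ) ≤ 1 := by
        rw [div_le_one (by positivity)]; linarith
      have ht := thinning hP hIs hcl h0 h1 hq0 hq1
      have e1 : 1 / (2 * (μ : ℝ)) * H.card - (1 / (2 * (μ : ℝ))) ^ 2 * (μ * H.card)
          = H.card / (4 * μ) := by field_simp; ring
      have e2 : (1 / (2 * (μ : ℝ))) ^ 2 * ((cri H).card : ℝ) = (cri H).card / (4 * (μ : ℝ) ^ 2) := by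
        field_simp; ring
      rw [e1, e2] at ht
      exact ht)
  rcases hopt with h1 | h1
  · left; exact h1
  · right
    refine h1.trans ?_
    have h2 : 82944 * (μ : ℝ) * (P.card : ℝ) ^ 2 * ((cri H).card : ℝ)
        ≤ 82944 * (μ : ℝ) * (P.card : ℝ) ^ 2 * (4 * (Λ : ℝ) ^ 2 * crs G G + P.card * (Λ : ℝ) ^ 4) :=
      mul_le_mul_of_nonneg_left hcri' (by positivity)
    refine h2.trans ?_
    have h3 : (0 : ℝ) ≤ μ * (P.card : ℝ) ^ 2 * (P.card * (Λ : ℝ) ^ 4) := by positivity
    nlinarith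

end Crest.Agent.R51
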