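import Crest.Agent.R51.Planar

/-!
# Crossing lemma for x-monotone drawings
-/

set_option autoImplicit false

namespace Crest.Agent.R51

open Finset

/-- `∑_{S ⊇ A} p^|S| (1-p)^(n-|S|) = p^|A|`. -/
theorem sum_bern_superset {V : Type*} [Fintype V] [DecidableEq V] (p : ℝ) (A : Finset V) :
    ∑ S : Finset V, (if A ⊆ S then p ^ S.card * (1 - p) ^ (Sᶜ).card else 0) = p ^ A.card := by
  classical
  have h := Finset.prod_add (fun _ : V => p) (fun i => if i ∈ A then 0 else 1 - p)
    (Finset.univ : Finset V)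
  rw [Finset.powerset_univ] at h
  have h1 : ∏ i : V, (p + (if i ∈ A then 0 else 1 - p)) = p ^ A.card := by
    have : ∀ i : V, (p + (if i ∈ A then 0 else 1 - p)) = if i ∈ A then p else 1 := by
      intro i; split_ifs <;> ring
    rw [Finset.prod_congr rfl (fun i _ => this i), Finset.prod_ite]
    simp
  rw [h1] at h
  rw [h]
  refine Finset.sum_congr rfl (fun S _ => ?_)
  rw [Finset.prod_const, ← Finset.compl_eq_univ_sdiff]
  split_ifs with hA
  · congr 1
    rw [Finset.prod_congr rfl (g := fun _ => (1 - p))]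
    · rw [Finset.prod_const]
    · intro i hi
      rw [Finset.mem_compl] at hi
      rw [if_neg (fun h => hi (hA h))]
  · rw [Finset.not_subset] at hA
    obtain ⟨i, hi, hi2⟩ := hA
    rw [Finset.prod_eq_zero (i := i) (by rwa [Finset.mem_compl]) (by rw [if_pos hi])]
    ring

namespace Drawing

variable {V E : Type*} (D : Drawing V E)

/-- restriction to vertices in `S` and edges in `T`. -/
def restrict (S : V → Prop) (T : E → Prop) (hT : ∀ e, T e → S (D.l e) ∧ S (D.r e)) :
    Drawing {v // S v} {e // T e} where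
  x v := D.x v
  y v := D.y v
  l e := ⟨D.l e, (hT e e.2).1⟩
  r e := ⟨D.r e, (hT e e.2).2⟩
  h e := D.h e
  inj _ _ hab := Subtype.ext (D.inj hab)
  lr e := D.lr e
  cont e := D.cont e
  hl e := D.hl e
  hr e := D.hr e
  hv e w h1 h2 := D.hv e w h1 h2

open Classical in
/-- ordered crossing pairs. -/
noncomputable def crs [Fintype E] : Finset (E × E) :=
  Finset.univ.filter (fun p => p.1 ≠ p.2 ∧ D.Cross p.1 p.2)

theorem mem_crs [Fintype E] (e f : E) : (e, f) ∈ D.crs ↔ e ≠ f ∧ D.Cross e f := by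
  classical
  simp [crs]

variable {D}

/-- additive form: `2 E ≤ 6 V + X` with `X` the number of ordered crossing pairs. -/
theorem card_le_add_crs [Fintype V] [Fintype E] (hs : D.Simple) :
    2 * Fintype.card E ≤ 6 * Fintype.card V + D.crs.card := by
  classical
  let eq := Fintype.equivFin E
  let R : Finset E := Finset.univ.filter (fun e => ∃ f, eq e < eq f ∧ D.Cross e f)
  let P : Finset (E × E) := Finset.univ.filter (fun p => eq p.1 < eq p.2 ∧ D.Cross p.1 p.2)
  let Q : Finset (E × E) := Finset.univ.filter (fun p => eq p.2 < eq p.1 ∧ D.Cross p.1 p.2)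
  have hPQ : P.card = Q.card := by
    refine Finset.card_bij (fun p _ => (p.2, p.1)) ?_ ?_ ?_
    · intro p hp
      simp only [P, Q, Finset.mem_filter, Finset.mem_univ, true_and] at hp ⊢
      exact ⟨hp.1, hp.2.symm⟩
    · rintro ⟨a, b⟩ _ ⟨c, d⟩ _ h
      simp only [Prod.mk.injEq] at h
      simp [h.1, h.2]
    · rintro ⟨a, b⟩ hp
      refine ⟨(b, a), ?_, rfl⟩
      simp only [P, Q, Finset.mem_filter, Finset.mem_univ, true_and] at hp ⊢
      exact ⟨hp.1, hp.2.symm⟩
  have hdisj : Disjoint P Q := by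
    rw [Finset.disjoint_left]
    intro p hp hq
    simp only [P, Q, Finset.mem_filter, Finset.mem_univ, true_and] at hp hq
    exact absurd hp.1 (not_lt.2 hq.1.le)
  have hunion : P ∪ Q = D.crs := by
    ext ⟨a, b⟩
    simp only [P, Q, Finset.mem_union, Finset.mem_filter, Finset.mem_univ, true_and, mem_crs]
    constructor
    · rintro (h | h)
      · exact ⟨fun hab => by rw [hab] at h; exact lt_irrefl _ h.1, h.2⟩
      · exact ⟨fun hab => by rw [hab] at h; exact lt_irrefl _ h.1, h.2⟩
    · rintro ⟨hne, hc⟩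
      have : eq a ≠ eq b := fun h => hne (eq.injective h)
      rcases lt_or_gt_of_ne this with h | h
      · exact Or.inl ⟨h, hc⟩
      · exact Or.inr ⟨h, hc⟩
  have hX : D.crs.card = 2 * P.card := by
    rw [← hunion, Finset.card_union_of_disjoint hdisj, ← hPQ]; ring
  have hR : R.card ≤ P.card := by
    have : R = P.image Prod.fst := by
      ext e
      simp only [R, P, Finset.mem_filter, Finset.mem_univ, true_and, Finset.mem_image,
        Prod.exists, exists_and_right, exists_eq_right]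
    rw [this]
    exact Finset.card_image_le
  let T : E → Prop := fun e => e ∉ R
  let D' : Drawing {v : V // True} {e // T e} := D.restrict (fun _ => True) T (fun _ _ => ⟨trivial, trivial⟩)
  have hp' : D'.Plane := by
    rintro ⟨e, he⟩ ⟨f, hf⟩ hne hc
    have hc' : D.Cross e f := hc
    have hne' : eq e ≠ eq f := fun h => hne (Subtype.ext (eq.injective h))
    rcases lt_or_gt_of_ne hne' with h | h
    · exact he (by simp only [R, Finset.mem_filter, Finset.mem_univ, true_and]; exact ⟨f, h, hc'⟩)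
    · exact hf (by simp only [R, Finset.mem_filter, Finset.mem_univ, true_and]; exact ⟨e, h, hc'.symm⟩)
  have hs' : D'.Simple := by
    rintro ⟨e, he⟩ ⟨f, hf⟩ h1 h2
    exact Subtype.ext (hs e f (congrArg Subtype.val h1) (congrArg Subtype.val h2))
  have hmain := card_le_of_plane hs' hp'
  have hcV : Fintype.card {v : V // True} = Fintype.card V := by simp
  have hcT : Fintype.card {e // T e} = Fintype.card E - R.card := by
    rw [Fintype.card_subtype_compl (fun e => e ∈ R)]
    simp
  rw [hcV, hcT] at hmain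
  omega

/-- crossing edges have four distinct ends. -/
def AdjOK (D : Drawing V E) : Prop := ∀ e f, e ≠ f → D.Cross e f →
  D.l e ≠ D.l f ∧ D.l e ≠ D.r f ∧ D.r e ≠ D.l f ∧ D.r e ≠ D.r f

/-- probabilistic (averaged) form of the additive bound. -/
theorem bern_ineq [Fintype V] [Fintype E] (hs : D.Simple) (ha : D.AdjOK) {p : ℝ} (hp0 : 0 ≤ p)
    (hp1 : p ≤ 1) :
    2 * p ^ 2 * (Fintype.card E : ℝ) ≤ 6 * p * (Fintype.card V : ℝ) + p ^ 4 * (D.crs.card : ℝ) := by
  classical
  let w : Finset V → ℝ := fun S => p ^ S.card * (1 - p) ^ (Sᶜ).card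
  have hw : ∀ S, 0 ≤ w S := fun S => mul_nonneg (pow_nonneg hp0 _) (pow_nonneg (by linarith) _)
  -- for every S
  have hS : ∀ S : Finset V,
      2 * ∑ e : E, (if ({D.l e, D.r e} : Finset V) ⊆ S then (1:ℝ) else 0) ≤
      6 * ∑ v : V, (if ({v} : Finset V) ⊆ S then (1:ℝ) else 0) +
        ∑ q ∈ D.crs, (if ({D.l q.1, D.r q.1, D.l q.2, D.r q.2} : Finset V) ⊆ S then (1:ℝ) else 0) := by
    intro S
    let T : E → Prop := fun e => ({D.l e, D.r e} : Finset V) ⊆ S
    have hT : ∀ e, T e → D.l e ∈ S ∧ D.r e ∈ S := by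
      intro e he
      exact ⟨he (by simp), he (by simp)⟩
    let D' : Drawing {v : V // v ∈ S} {e // T e} := D.restrict (fun v => v ∈ S) T hT
    have hs' : D'.Simple := by
      rintro ⟨e, he⟩ ⟨f, hf⟩ h1 h2
      exact Subtype.ext (hs e f (congrArg Subtype.val h1) (congrArg Subtype.val h2))
    have h := card_le_add_crs hs'
    have h1 : (Fintype.card {e // T e} : ℝ) =
        ∑ e : E, (if ({D.l e, D.r e} : Finset V) ⊆ S then (1:ℝ) else 0) := by
      rw [Finset.sum_boole, Fintype.card_subtype]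
    have h2 : (Fintype.card {v // v ∈ S} : ℝ) =
        ∑ v : V, (if ({v} : Finset V) ⊆ S then (1:ℝ) else 0) := by
      rw [Finset.sum_boole, Fintype.card_subtype]
      simp
    have h3 : (D'.crs.card : ℝ) ≤ ∑ q ∈ D.crs,
        (if ({D.l q.1, D.r q.1, D.l q.2, D.r q.2} : Finset V) ⊆ S then (1:ℝ) else 0) := by
      rw [Finset.sum_boole]
      refine Nat.cast_le.2 ?_
      refine Finset.card_le_card_of_injOn (fun q => ((q.1 : E), (q.2 : E))) ?_ ?_
      · rintro ⟨⟨e, he⟩, ⟨f, hf⟩⟩ hq
        rw [Finset.mem_coe, mem_crs] at hq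
        simp only [Finset.coe_filter, Set.mem_ofPred_eq]
        rw [mem_crs]
        refine ⟨⟨fun h => hq.1 (Subtype.ext h), hq.2⟩, ?_⟩
        intro v hv
        simp only [Finset.mem_insert, Finset.mem_singleton] at hv
        rcases hv with rfl | rfl | rfl | rfl
        · exact (hT _ he).1
        · exact (hT _ he).2
        · exact (hT _ hf).1
        · exact (hT _ hf).2
      · rintro ⟨⟨e, he⟩, ⟨f, hf⟩⟩ _ ⟨⟨e', he'⟩, ⟨f', hf'⟩⟩ _ h
        simp only [Prod.mk.injEq] at h
        simp only [Prod.mk.injEq, Subtype.mk.injEq]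
        exact h
    have h' : (2:ℝ) * (Fintype.card {e // T e} : ℝ) ≤
        6 * (Fintype.card {v // v ∈ S} : ℝ) + (D'.crs.card : ℝ) := by exact_mod_cast h
    rw [h1, h2] at h'
    linarith
  have hsum : ∀ A : Finset V, ∑ S : Finset V, w S * (if A ⊆ S then (1:ℝ) else 0) = p ^ A.card := by
    intro A
    rw [← sum_bern_superset p A]
    refine Finset.sum_congr rfl (fun S _ => ?_)
    simp only [w]
    split_ifs <;> ring
  have htot := Finset.sum_le_sum (s := (Finset.univ : Finset (Finset V)))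
    (fun S _ => mul_le_mul_of_nonneg_left (hS S) (hw S))
  -- compute both sides
  have e1 : ∑ S : Finset V, w S *
      (2 * ∑ e : E, (if ({D.l e, D.r e} : Finset V) ⊆ S then (1:ℝ) else 0)) =
      2 * p ^ 2 * (Fintype.card E : ℝ) := by
    have : ∀ S : Finset V, w S *
      (2 * ∑ e : E, (if ({D.l e, D.r e} : Finset V) ⊆ S then (1:ℝ) else 0)) =
      ∑ e : E, 2 * (w S * (if ({D.l e, D.r e} : Finset V) ⊆ S then (1:ℝ) else 0)) := by
      intro S
      rw [Finset.mul_sum, Finset.mul_sum]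
      exact Finset.sum_congr rfl (fun _ _ => by ring)
    simp_rw [this]
    rw [Finset.sum_comm]
    have h2 : ∀ e : E, ∑ S : Finset V,
        2 * (w S * (if ({D.l e, D.r e} : Finset V) ⊆ S then (1:ℝ) else 0)) = 2 * p ^ 2 := by
      intro e
      rw [← Finset.mul_sum, hsum]
      rw [Finset.card_pair (fun h => (ne_of_lt (D.lr e)) (congrArg D.x h))]
    rw [Finset.sum_congr rfl (fun e _ => h2 e), Finset.sum_const, nsmul_eq_mul, Finset.card_univ]
    ring
  have e2 : ∑ S : Finset V, w S *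
      (6 * ∑ v : V, (if ({v} : Finset V) ⊆ S then (1:ℝ) else 0) +
        ∑ q ∈ D.crs, (if ({D.l q.1, D.r q.1, D.l q.2, D.r q.2} : Finset V) ⊆ S then (1:ℝ) else 0)) =
      6 * p * (Fintype.card V : ℝ) + p ^ 4 * (D.crs.card : ℝ) := by
    have : ∀ S : Finset V, w S *
      (6 * ∑ v : V, (if ({v} : Finset V) ⊆ S then (1:ℝ) else 0) +
        ∑ q ∈ D.crs, (if ({D.l q.1, D.r q.1, D.l q.2, D.r q.2} : Finset V) ⊆ S then (1:ℝ) else 0)) =
      ∑ v : V, 6 * (w S * (if ({v} : Finset V) ⊆ S then (1:ℝ) else 0)) +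
      ∑ q ∈ D.crs, w S * (if ({D.l q.1, D.r q.1, D.l q.2, D.r q.2} : Finset V) ⊆ S then (1:ℝ) else 0) := by
      intro S
      rw [mul_add, Finset.mul_sum, Finset.mul_sum, Finset.mul_sum]
      congr 1
      exact Finset.sum_congr rfl (fun _ _ => by ring)
    simp_rw [this]
    rw [Finset.sum_add_distrib, Finset.sum_comm, Finset.sum_comm (s := Finset.univ) (t := D.crs)]
    have h2 : ∀ v : V, ∑ S : Finset V,
        6 * (w S * (if ({v} : Finset V) ⊆ S then (1:ℝ) else 0)) = 6 * p := by
      intro v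
      rw [← Finset.mul_sum, hsum]
      simp
    have h4 : ∀ q ∈ D.crs, ∑ S : Finset V,
        w S * (if ({D.l q.1, D.r q.1, D.l q.2, D.r q.2} : Finset V) ⊆ S then (1:ℝ) else 0) = p ^ 4 := by
      rintro ⟨e, f⟩ hq
      rw [mem_crs] at hq
      rw [hsum]
      obtain ⟨h1, h2, h3, h4⟩ := ha e f hq.1 hq.2
      have h5 : D.l e ≠ D.r e := fun h => (ne_of_lt (D.lr e)) (congrArg D.x h)
      have h6 : D.l f ≠ D.r f := fun h => (ne_of_lt (D.lr f)) (congrArg D.x h)
      congr 1
      rw [Finset.card_insert_of_notMem, Finset.card_insert_of_notMem, Finset.card_pair h6]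
      · simp only [Finset.mem_insert, Finset.mem_singleton, not_or]
        exact ⟨h3, h4⟩
      · simp only [Finset.mem_insert, Finset.mem_singleton, not_or]
        exact ⟨h5, h1, h2⟩
    rw [Finset.sum_congr rfl (fun v _ => h2 v), Finset.sum_congr rfl h4, Finset.sum_const,
      Finset.sum_const, nsmul_eq_mul, nsmul_eq_mul, Finset.card_univ]
    ring
  rw [e1, e2] at htot
  exact htot

/-- **Crossing lemma** (ordered crossing pairs `X = 2 cr`): `E³ ≤ 32 V² X` when `E ≥ 4 V`. -/
theorem crossing_lemma [Fintype V] [Fintype E] (hs : D.Simple) (ha : D.AdjOK)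
    (hE : 4 * Fintype.card V ≤ Fintype.card E) :
    (Fintype.card E : ℝ) ^ 3 ≤ 32 * (Fintype.card V : ℝ) ^ 2 * (D.crs.card : ℝ) := by
  classical
  have hEr : 4 * (Fintype.card V : ℝ) ≤ (Fintype.card E : ℝ) := by exact_mod_cast hE
  set e : ℝ := (Fintype.card E : ℝ)
  set v : ℝ := (Fintype.card V : ℝ) with hv
  set X : ℝ := (D.crs.card : ℝ) with hX
  have hX0 : 0 ≤ X := Nat.cast_nonneg _
  have hv0 : 0 ≤ v := Nat.cast_nonneg _
  rcases eq_or_lt_of_le hv0 with h0 | h0
  · -- no vertices
    have hV0 : Fintype.card V = 0 := by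
      have : (Fintype.card V : ℝ) = 0 := by rw [← hv]; exact h0.symm
      exact_mod_cast this
    have hVe : IsEmpty V := Fintype.card_eq_zero_iff.1 hV0
    have hEe : IsEmpty E := ⟨fun a => hVe.elim (D.l a)⟩
    have : e = 0 := by simp [e]
    rw [this, ← h0]; simp
  have he0 : 0 < e := by linarith
  have h := bern_ineq hs ha (p := 4 * v / e) (by positivity) (by
    rw [div_le_one he0]; exact hEr)
  change 2 * (4 * v / e) ^ 2 * e ≤ 6 * (4 * v / e) * v + (4 * v / e) ^ 4 * X at h
  have h2 : 2 * (4 * v / e) ^ 2 * e * e ^ 4 ≤ (6 * (4 * v / e) * v + (4 * v / e) ^ 4 * X) * e ^ 4 :=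
    mul_le_mul_of_nonneg_right h (by positivity)
  have h3 : 2 * (4 * v / e) ^ 2 * e * e ^ 4 = 32 * v ^ 2 * e ^ 3 := by field_simp; ring
  have h4 : (6 * (4 * v / e) * v + (4 * v / e) ^ 4 * X) * e ^ 4 =
      24 * v ^ 2 * e ^ 3 + 256 * v ^ 4 * X := by field_simp; ring
  rw [h3, h4] at h2
  have h5 : v ^ 2 * (8 * e ^ 3) ≤ v ^ 2 * (256 * v ^ 2 * X) := by nlinarith
  have h6 := le_of_mul_le_mul_left h5 (by positivity)
  nlinarith

/-- crossing lemma without the density hypothesis: `E ≤ 4 V` or the bound; useful form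
`E ≤ 4 V + (32 V² X)^{1/3}` as a disjunction. -/
theorem crossing_lemma' [Fintype V] [Fintype E] (hs : D.Simple) (ha : D.AdjOK) :
    (Fintype.card E : ℝ) ≤ 4 * (Fintype.card V : ℝ) ∨
    (Fintype.card E : ℝ) ^ 3 ≤ 32 * (Fintype.card V : ℝ) ^ 2 * (D.crs.card : ℝ) := by
  rcases le_total (Fintype.card E) (4 * Fintype.card V) with h | h
  · left; exact_mod_cast h
  · right; exact crossing_lemma hs ha h

end Drawing

end Crest.Agent.R51
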