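import Crest.Agent.R51.Defs

/-!
# Row 51: the near-`b` graph, degrees, window degrees (helper476)

`mk v w` is the edge of the unordered pair `{v, w}` (left endpoint first).  `nb P k b v` are the
neighbours of `v` in the near-`b` graph, `nbW P k b s t v` those with slope in the window `(s,t)`.
-/

set_option autoImplicit false

noncomputable section

open Classical

namespace Crest.Agent.R51

/-- The edge of an unordered pair. -/
def mk (v w : Pt) : Edge := if v.1 < w.1 then (v, w) else (w, v)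

/-- `w` is a near-`b` partner of `v`. -/
def NP (P : Finset Pt) (k b : ℕ) (v w : Pt) : Prop := mk v w ∈ nearAll P k b

/-- The near-`b` partners of `v`. -/
def nb (P : Finset Pt) (k b : ℕ) (v : Pt) : Finset Pt := P.filter (fun w => NP P k b v w)

/-- The near-`b` partners of `v` with slope in the window `(s,t)`. -/
def nbW (P : Finset Pt) (k b : ℕ) (s t : ℝ) (v : Pt) : Finset Pt :=
  P.filter (fun w => mk v w ∈ nearE P k b s t)

lemma mk_of_lt {v w : Pt} (h : v.1 < w.1) : mk v w = (v, w) := if_pos h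

lemma mk_of_gt {v w : Pt} (h : w.1 < v.1) : mk v w = (w, v) := if_neg (not_lt.2 h.le)

lemma mk_comm {v w : Pt} (h : v.1 ≠ w.1) : mk v w = mk w v := by
  rcases lt_or_gt_of_ne h with h | h
  · rw [mk_of_lt h, mk_of_gt h]
  · rw [mk_of_gt h, mk_of_lt h]

lemma esl_mk (v w : Pt) : esl (mk v w) = sl v w := by
  unfold mk
  split_ifs
  · rfl
  · exact sl_comm _ _

lemma mk_mem_pairs {P : Finset Pt} {v w : Pt} (h : mk v w ∈ pairs P) :
    v ∈ P ∧ w ∈ P ∧ v.1 ≠ w.1 := by
  rw [mem_pairs] at h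
  unfold mk at h
  split_ifs at h with hlt
  · exact ⟨h.1, h.2.1, h.2.2.ne⟩
  · exact ⟨h.2.1, h.1, h.2.2.ne'⟩

lemma mk_mem_pairs_iff {P : Finset Pt} {v w : Pt} :
    mk v w ∈ pairs P ↔ v ∈ P ∧ w ∈ P ∧ v.1 ≠ w.1 := by
  refine ⟨mk_mem_pairs, fun ⟨hv, hw, hne⟩ => ?_⟩
  rw [mem_pairs]
  rcases lt_or_gt_of_ne hne with h | h
  · rw [mk_of_lt h]; exact ⟨hv, hw, h⟩
  · rw [mk_of_gt h]; exact ⟨hw, hv, h⟩

lemma nearAll_subset {P : Finset Pt} {k b : ℕ} : nearAll P k b ⊆ pairs P :=
  Finset.filter_subset _ _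

lemma nearE_subset {P : Finset Pt} {k b : ℕ} {s t : ℝ} : nearE P k b s t ⊆ nearAll P k b := by
  intro e he
  rw [mem_nearE] at he
  exact mem_nearAll.2 ⟨he.1, he.2.2.2⟩

lemma NP.ne {P : Finset Pt} {k b : ℕ} {v w : Pt} (h : NP P k b v w) : v.1 ≠ w.1 :=
  (mk_mem_pairs (nearAll_subset h)).2.2

lemma NP.symm {P : Finset Pt} {k b : ℕ} {v w : Pt} (h : NP P k b v w) : NP P k b w v := by
  have := mk_comm h.ne
  unfold NP at h ⊢
  rwa [← this]

lemma NP.mem_left {P : Finset Pt} {k b : ℕ} {v w : Pt} (h : NP P k b v w) : v ∈ P :=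
  (mk_mem_pairs (nearAll_subset h)).1

lemma NP.mem_right {P : Finset Pt} {k b : ℕ} {v w : Pt} (h : NP P k b v w) : w ∈ P :=
  (mk_mem_pairs (nearAll_subset h)).2.1

lemma mem_nb {P : Finset Pt} {k b : ℕ} {v w : Pt} : w ∈ nb P k b v ↔ NP P k b v w := by
  unfold nb
  rw [Finset.mem_filter]
  exact ⟨fun h => h.2, fun h => ⟨h.mem_right, h⟩⟩

lemma mem_nb_comm {P : Finset Pt} {k b : ℕ} {v w : Pt} : w ∈ nb P k b v ↔ v ∈ nb P k b w := by
  rw [mem_nb, mem_nb]
  exact ⟨NP.symm, NP.symm⟩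

lemma mem_nbW {P : Finset Pt} {k b : ℕ} {s t : ℝ} {v w : Pt} :
    w ∈ nbW P k b s t v ↔ mk v w ∈ nearE P k b s t := by
  unfold nbW
  rw [Finset.mem_filter]
  exact ⟨fun h => h.2, fun h => ⟨(mk_mem_pairs (nearAll_subset (nearE_subset h))).2.1, h⟩⟩

lemma mem_nbW_iff {P : Finset Pt} {k b : ℕ} {s t : ℝ} {v w : Pt} :
    w ∈ nbW P k b s t v ↔ w ∈ nb P k b v ∧ s < sl v w ∧ sl v w < t := by
  rw [mem_nbW, mem_nb, mem_nearE, NP, mem_nearAll, esl_mk]
  tauto

lemma nbW_subset {P : Finset Pt} {k b : ℕ} {s t : ℝ} {v : Pt} : nbW P k b s t v ⊆ nb P k b v :=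
  fun _ h => (mem_nbW_iff.1 h).1

/-- The number of near-`b` partners in a window is `Lp + Rp`. -/
lemma card_nbW {P : Finset Pt} {k b : ℕ} {s t : ℝ} (v : Pt) :
    (nbW P k b s t v).card = Lp P k b s t v + Rp P k b s t v := by
  have hsplit : nbW P k b s t v =
      (nbW P k b s t v).filter (fun w => w.1 < v.1) ∪
        (nbW P k b s t v).filter (fun w => ¬ w.1 < v.1) :=
    (Finset.filter_union_filter_not_eq _ _).symm
  rw [hsplit, Finset.card_union_of_disjoint (Finset.disjoint_filter_filter_not _ _ _)]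
  congr 1
  · unfold Lp
    refine Finset.card_bij (fun w _ => ((w, v) : Edge)) ?_ ?_ ?_
    · intro w hw
      rw [Finset.mem_filter, mem_nbW] at hw
      rw [Finset.mem_filter]
      rw [mk_of_gt hw.2] at hw
      exact ⟨hw.1, rfl⟩
    · intro a _ b _ h
      exact congrArg Prod.fst h
    · rintro ⟨a, c⟩ he
      rw [Finset.mem_filter] at he
      obtain ⟨he1, he2⟩ := he
      have he2 : c = v := he2
      subst he2
      have hlt : a.1 < c.1 := (mem_pairs.1 (mem_nearE.1 he1).1).2.2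
      refine ⟨a, ?_, rfl⟩
      rw [Finset.mem_filter, mem_nbW, mk_of_gt hlt]
      exact ⟨he1, hlt⟩
  · unfold Rp
    refine Finset.card_bij (fun w _ => ((v, w) : Edge)) ?_ ?_ ?_
    · intro w hw
      rw [Finset.mem_filter, mem_nbW] at hw
      rw [Finset.mem_filter]
      have hne := (mk_mem_pairs (nearAll_subset (nearE_subset hw.1))).2.2
      have hlt : v.1 < w.1 := lt_of_le_of_ne (not_lt.1 hw.2) hne
      rw [mk_of_lt hlt] at hw
      exact ⟨hw.1, rfl⟩
    · intro a _ b _ h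
      exact congrArg Prod.snd h
    · rintro ⟨a, c⟩ he
      rw [Finset.mem_filter] at he
      obtain ⟨he1, he2⟩ := he
      have he2 : a = v := he2
      subst he2
      have hlt : a.1 < c.1 := (mem_pairs.1 (mem_nearE.1 he1).1).2.2
      refine ⟨c, ?_, rfl⟩
      rw [Finset.mem_filter, mem_nbW, mk_of_lt hlt]
      exact ⟨he1, not_lt.2 hlt.le⟩

/-- Monotonicity in `b`. -/
lemma nearAll_mono {P : Finset Pt} {k b b' : ℕ} (h : b ≤ b') : nearAll P k b ⊆ nearAll P k b' := by
  intro e he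
  rw [mem_nearAll] at he ⊢
  exact ⟨he.1, by have := he.2.1; omega, by have := he.2.2; omega⟩

lemma nearE_mono_w {P : Finset Pt} {k b b' : ℕ} {s t : ℝ} (h : b ≤ b') :
    nearE P k b s t ⊆ nearE P k b' s t := by
  intro e he
  rw [mem_nearE] at he ⊢
  exact ⟨he.1, he.2.1, he.2.2.1, by have := he.2.2.2.1; omega, by have := he.2.2.2.2; omega⟩

lemma nb_mono {P : Finset Pt} {k b b' : ℕ} (h : b ≤ b') (v : Pt) : nb P k b v ⊆ nb P k b' v := by
  intro w hw
  rw [mem_nb] at hw ⊢
  exact nearAll_mono h hw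

lemma nbW_mono {P : Finset Pt} {k b b' : ℕ} {s t : ℝ} (h : b ≤ b') (v : Pt) :
    nbW P k b s t v ⊆ nbW P k b' s t v := by
  intro w hw
  rw [mem_nbW] at hw ⊢
  exact nearE_mono_w h hw

/-- Handshake: the sum of the degrees is twice the number of pairs. -/
lemma sum_card_nb {P : Finset Pt} {k b : ℕ} :
    ∑ v ∈ P, (nb P k b v).card = 2 * (nearAll P k b).card := by
  have h1 : ∑ v ∈ P, (nb P k b v).card =
      ((P ×ˢ P).filter (fun x : Pt × Pt => NP P k b x.1 x.2)).card := by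
    rw [Finset.card_filter, Finset.sum_product]
    refine Finset.sum_congr rfl fun v _ => ?_
    rw [nb, Finset.card_filter]
  rw [h1]
  have h2 : (P ×ˢ P).filter (fun x : Pt × Pt => NP P k b x.1 x.2) =
      nearAll P k b ∪ (nearAll P k b).image Prod.swap := by
    ext ⟨v, w⟩
    simp only [Finset.mem_filter, Finset.mem_product, Finset.mem_union, Finset.mem_image]
    constructor
    · rintro ⟨_, h⟩
      rcases lt_or_gt_of_ne h.ne with hlt | hlt
      · left
        unfold NP at h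
        rwa [mk_of_lt hlt] at h
      · right
        unfold NP at h
        rw [mk_of_gt hlt] at h
        exact ⟨(w, v), h, rfl⟩
    · rintro (h | ⟨⟨a, c⟩, h, hsw⟩)
      · have h3 := mem_pairs.1 (nearAll_subset h)
        refine ⟨⟨h3.1, h3.2.1⟩, ?_⟩
        unfold NP
        rw [mk_of_lt h3.2.2]
        exact h
      · have h3 := mem_pairs.1 (nearAll_subset h)
        simp only [Prod.swap_prod_mk, Prod.mk.injEq] at hsw
        obtain ⟨rfl, rfl⟩ := hsw
        refine ⟨⟨h3.2.1, h3.1⟩, ?_⟩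
        unfold NP
        rw [mk_of_gt h3.2.2]
        exact h
  rw [h2, Finset.card_union_of_disjoint, Finset.card_image_of_injective _ Prod.swap_injective]
  · ring
  · rw [Finset.disjoint_left]
    rintro ⟨v, w⟩ h3 h4
    rw [Finset.mem_image] at h4
    obtain ⟨⟨a, c⟩, h5, h6⟩ := h4
    simp only [Prod.swap_prod_mk, Prod.mk.injEq] at h6
    obtain ⟨rfl, rfl⟩ := h6
    have h7 := (mem_pairs.1 (nearAll_subset h3)).2.2
    have h8 := (mem_pairs.1 (nearAll_subset h5)).2.2
    exact absurd h7 (not_lt.2 h8.le)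

end Crest.Agent.R51
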