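import Crest.Agent.R51.WinDefs
import Crest.Agent.R51.WalkDefs
import Crest.Agent.R51.Active

/-!
# Row 51, section B3: W4 (irregular edges)
-/

set_option autoImplicit false

noncomputable section

open Classical

namespace Crest.Agent.R51

/-- W2 in `V`-form -/
def W2V (C : ℝ) : Prop :=
  ∀ P : Finset Pt, Generic P → ∀ k V V' : ℕ, 1 ≤ V → 2 * V ≤ V' → V' ^ 3 ≤ P.card →
    ∀ s t : ℝ, (cen P k (bb P.card V) s t).card ≤ 7 * bb P.card V →
    ((nearE P k (bb P.card V') s t).card : ℝ)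
      ≤ C * ((P.card : ℝ) ^ 2 / ((V : ℝ) ^ 4 * (V' : ℝ) ^ 2))

/-- W3 in `V`-form -/
def W3V (C : ℝ) : Prop :=
  ∀ P : Finset Pt, Generic P → ∀ k V V' : ℕ, 1 ≤ V → 2 * V ≤ V' → V' ^ 3 ≤ P.card →
    ∀ s t : ℝ, (cen P k (bb P.card V) s t).card ≤ 7 * bb P.card V → ∀ Z : Finset Pt,
    (((nearE P k (bb P.card V') s t).filter (fun e => e.1 ∈ Z ∨ e.2 ∈ Z)).card : ℝ)
      ≤ C * (((Z ∩ cen P k (bb P.card V) s t).card : ℝ) / ((P.card : ℝ) / (V : ℝ) ^ 3))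
            ^ ((1 : ℝ) / 3) * ((P.card : ℝ) ^ 2 / ((V : ℝ) ^ 4 * (V' : ℝ) ^ 2))
        + C * ((P.card : ℝ) / (V : ℝ) ^ 3)

/-! ### general facts on window systems -/

lemma card_wins_le (C : Finset ℝ) : (wins C).card ≤ C.card := by
  refine Finset.card_le_card_of_injOn Prod.fst (fun J hJ => (mem_wins.1 hJ).1) ?_
  intro J hJ J' hJ' h
  have hJ1 := mem_wins.1 (Finset.mem_coe.1 hJ)
  have hJ2 := mem_wins.1 (Finset.mem_coe.1 hJ')
  have h' : J.1 = J'.1 := h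
  refine Prod.ext h' ?_
  rcases lt_trichotomy J.2 J'.2 with h1 | h1 | h1
  · exact absurd ⟨by rw [← h']; exact hJ1.2.2.1, h1⟩ (hJ2.2.2.2 _ hJ1.2.1)
  · exact h1
  · exact absurd ⟨by rw [h']; exact hJ2.2.2.1, h1⟩ (hJ1.2.2.2 _ hJ2.2.1)

section Sys

variable {P : Finset Pt} {k : ℕ} {V : ℕ → ℕ} {L : ℕ} {Cw : ℝ}

lemma WSys.card_wins (S : WSys P k V L Cw) {l : ℕ} (hl : l ≤ L) :
    ((wins (S.cuts l)).card : ℝ) ≤ Cw * (V l : ℝ) ^ 4 :=
  le_trans (by exact_mod_cast card_wins_le _) (S.count_all l hl)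

lemma WSys.Cw_nonneg (S : WSys P k V L Cw) (hV : 1 ≤ V 0) : 0 ≤ Cw := by
  have h := S.count_all 0 (Nat.zero_le _)
  by_contra hneg
  have hV' : (0 : ℝ) < (V 0 : ℝ) := by exact_mod_cast hV
  have : Cw * (V 0 : ℝ) ^ 4 < 0 := mul_neg_of_neg_of_pos (not_le.1 hneg) (by positivity)
  have h2 : (0 : ℝ) ≤ ((S.cuts 0).card : ℝ) := Nat.cast_nonneg _
  linarith

lemma WSys.Cw_nonneg' (S : WSys P k V L Cw) {l : ℕ} (hl : l ≤ L) (hV : 1 ≤ V l) : 0 ≤ Cw := by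
  have h := S.count_all l hl
  by_contra hneg
  have hV' : (0 : ℝ) < (V l : ℝ) := by exact_mod_cast hV
  have : Cw * (V l : ℝ) ^ 4 < 0 := mul_neg_of_neg_of_pos (not_le.1 hneg) (by positivity)
  have h2 : (0 : ℝ) ≤ ((S.cuts l).card : ℝ) := Nat.cast_nonneg _
  linarith

/-- the window of a pair -/
lemma WSys.winOf_pair (S : WSys P k V L Cw) {l : ℕ} (hl : l ≤ L) {e : Edge} (he : e ∈ pairs P) :
    winOf (S.cuts l) (esl e) ∈ wins (S.cuts l) ∧ (winOf (S.cuts l) (esl e)).1 < esl e ∧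
      esl e < (winOf (S.cuts l) (esl e)).2 := by
  refine winOf_spec (exists_win (S.sub 0 l (Nat.zero_le _) hl S.lo_mem)
    (S.sub 0 l (Nat.zero_le _) hl S.hi_mem) (S.lo_lt_slope e he) (S.slope_lt_hi e he) ?_)
  intro h
  exact S.nons l hl _ h e he rfl

lemma WSys.winOf_nb (S : WSys P k V L Cw) {l : ℕ} (hl : l ≤ L) {b : ℕ} {w x : Pt}
    (h : x ∈ nb P k b w) :
    winOf (S.cuts l) (sl w x) ∈ wins (S.cuts l) ∧ (winOf (S.cuts l) (sl w x)).1 < sl w x ∧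
      sl w x < (winOf (S.cuts l) (sl w x)).2 := by
  have h1 := S.winOf_pair hl (nearAll_subset (mem_nb.1 h))
  rwa [esl_mk] at h1

end Sys

/-- a set of ordered near pairs splits along the windows -/
lemma card_le_sum_wins {P : Finset Pt} {k : ℕ} {V : ℕ → ℕ} {L : ℕ} {Cw : ℝ}
    (S : WSys P k V L Cw) {l : ℕ} (hl : l ≤ L) {b : ℕ} (T : Finset (Pt × Pt))
    (hT : ∀ x ∈ T, x.2 ∈ nb P k b x.1) :
    T.card ≤ ∑ J ∈ wins (S.cuts l),
      (T.filter (fun x => J.1 < sl x.1 x.2 ∧ sl x.1 x.2 < J.2)).card := by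
  refine le_trans (Finset.card_le_card ?_) Finset.card_biUnion_le
  intro x hx
  obtain ⟨h1, h2, h3⟩ := S.winOf_nb hl (hT x hx)
  exact Finset.mem_biUnion.2 ⟨_, h1, Finset.mem_filter.2 ⟨hx, h2, h3⟩⟩

/-- ordered pairs with first point in `Z` versus edges with an end in `Z` -/
lemma card_ordered_le {P : Finset Pt} {k b : ℕ} {s t : ℝ} (Z : Finset Pt)
    (T : Finset (Pt × Pt)) (hT : ∀ x ∈ T, x.2 ∈ nbW P k b s t x.1 ∧ x.1 ∈ Z) :
    T.card ≤ 2 * ((nearE P k b s t).filter (fun e => e.1 ∈ Z ∨ e.2 ∈ Z)).card := by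
  set E := (nearE P k b s t).filter (fun e => e.1 ∈ Z ∨ e.2 ∈ Z) with hE
  have hsub : T ⊆ E ∪ E.image Prod.swap := by
    rintro ⟨w, x⟩ hx
    obtain ⟨h1, h2⟩ := hT _ hx
    simp only at h1 h2
    have h3 := mem_nbW.1 h1
    rw [Finset.mem_union]
    have hne := (mk_mem_pairs (mem_nearE.1 h3).1).2.2
    rcases lt_or_gt_of_ne hne with hlt | hlt
    · left
      rw [mk_of_lt hlt] at h3
      exact Finset.mem_filter.2 ⟨h3, Or.inl h2⟩
    · right
      rw [mk_of_gt hlt] at h3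
      exact Finset.mem_image.2 ⟨(x, w), Finset.mem_filter.2 ⟨h3, Or.inr h2⟩, rfl⟩
  calc T.card ≤ (E ∪ E.image Prod.swap).card := Finset.card_le_card hsub
    _ ≤ E.card + (E.image Prod.swap).card := Finset.card_union_le _ _
    _ ≤ E.card + E.card := Nat.add_le_add_left Finset.card_image_le _
    _ = 2 * E.card := by ring

/-- the set of points with large window degree is small -/
lemma card_highW {P : Finset Pt} {k b : ℕ} {s t : ℝ} {x : ℝ} :
    x * ((P.filter (fun w => x < ((nbW P k b s t w).card : ℝ))).card : ℝ)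
      ≤ 2 * ((nearE P k b s t).card : ℝ) := by
  set Z := P.filter (fun w => x < ((nbW P k b s t w).card : ℝ)) with hZ
  have h1 : ∑ w ∈ Z, (nbW P k b s t w).card ≤ 2 * (nearE P k b s t).card := by
    refine le_trans (le_of_eq ?_) (Active.sum_partners_le Z)
    exact Finset.sum_congr rfl fun w _ => card_nbW w
  have h2 : x * (Z.card : ℝ) ≤ ∑ w ∈ Z, ((nbW P k b s t w).card : ℝ) := by
    rw [mul_comm, ← nsmul_eq_mul]
    exact Finset.card_nsmul_le_sum _ _ _ fun w hw => (Finset.mem_filter.1 hw).2.le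
  have h3 : ∑ w ∈ Z, ((nbW P k b s t w).card : ℝ) ≤ 2 * ((nearE P k b s t).card : ℝ) := by
    exact_mod_cast h1
  exact h2.trans h3

/-- **W4 (i)** -/
theorem W4_i {C : ℝ} (hC : 0 ≤ C) (h2 : W2V C) (h3 : W3V C) {P : Finset Pt} (hG : Generic P)
    {k : ℕ} {V : ℕ → ℕ} {L : ℕ} {Cw : ℝ} (S : WSys P k V L Cw) {l : ℕ} (hl : l ≤ L)
    (hV : 1 ≤ V l) {V' : ℕ} (hV' : 2 * V l ≤ V') (hN : V' ^ 3 ≤ P.card) {lam : ℝ}
    (hlam : 0 < lam) :
    (((P ×ˢ P).filter (fun x : Pt × Pt => x.2 ∈ nb P k (bb P.card V') x.1 ∧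
      lam * ((P.card : ℝ) / (V' : ℝ) ^ 2) / (V l : ℝ) <
        ((nbW P k (bb P.card V') (winOf (S.cuts l) (sl x.1 x.2)).1
          (winOf (S.cuts l) (sl x.1 x.2)).2 x.1).card : ℝ))).card : ℝ)
      ≤ 2 * Cw * C * (2 * C / lam) ^ ((1 : ℝ) / 3) * ((P.card : ℝ) * ((P.card : ℝ) / (V' : ℝ) ^ 2))
        + 2 * Cw * C * ((P.card : ℝ) * (V l : ℝ)) := by
  set T := (P ×ˢ P).filter (fun x : Pt × Pt => x.2 ∈ nb P k (bb P.card V') x.1 ∧
      lam * ((P.card : ℝ) / (V' : ℝ) ^ 2) / (V l : ℝ) <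
        ((nbW P k (bb P.card V') (winOf (S.cuts l) (sl x.1 x.2)).1
          (winOf (S.cuts l) (sl x.1 x.2)).2 x.1).card : ℝ)) with hT
  have hVpos : (0 : ℝ) < (V l : ℝ) := by exact_mod_cast hV
  have hV'1 : 1 ≤ V' := by omega
  have hV'pos : (0 : ℝ) < (V' : ℝ) := by exact_mod_cast hV'1
  have hNpos : (0 : ℝ) < (P.card : ℝ) := by
    have : 0 < V' ^ 3 := by positivity
    exact_mod_cast lt_of_lt_of_le this hN
  have hCw := S.Cw_nonneg' hl hV
  set N : ℝ := (P.card : ℝ) with hNdef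
  set v : ℝ := (V l : ℝ) with hvdef
  set v' : ℝ := (V' : ℝ) with hv'def
  set x0 : ℝ := lam * (N / v' ^ 2) / v with hx0
  have hx0pos : 0 < x0 := by positivity
  -- the count in one window
  have key : ∀ J ∈ wins (S.cuts l),
      ((T.filter (fun x => J.1 < sl x.1 x.2 ∧ sl x.1 x.2 < J.2)).card : ℝ)
        ≤ 2 * (C * (2 * C / lam) ^ ((1 : ℝ) / 3) * (N ^ 2 / (v ^ 4 * v' ^ 2))
            + C * (N / v ^ 3)) := by
    intro J hJ
    set Z := P.filter (fun w => x0 < ((nbW P k (bb P.card V') J.1 J.2 w).card : ℝ)) with hZ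
    have hcen := S.cen_le l hl J hJ
    have e1 : (T.filter (fun x => J.1 < sl x.1 x.2 ∧ sl x.1 x.2 < J.2)).card
        ≤ 2 * ((nearE P k (bb P.card V') J.1 J.2).filter (fun e => e.1 ∈ Z ∨ e.2 ∈ Z)).card := by
      refine card_ordered_le Z _ fun x hx => ?_
      rw [Finset.mem_filter, hT, Finset.mem_filter, Finset.mem_product] at hx
      obtain ⟨⟨⟨hx1, hx2⟩, hx3, hx4⟩, hx5, hx6⟩ := hx
      rw [winOf_eq hJ hx5 hx6] at hx4
      exact ⟨mem_nbW_iff.2 ⟨hx3, hx5, hx6⟩, Finset.mem_filter.2 ⟨hx1, hx4⟩⟩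
    have e2 := h3 P hG k (V l) V' hV hV' hN J.1 J.2 hcen Z
    have e3 : x0 * (Z.card : ℝ) ≤ 2 * (C * (N ^ 2 / (v ^ 4 * v' ^ 2))) :=
      card_highW.trans
        (mul_le_mul_of_nonneg_left (h2 P hG k (V l) V' hV hV' hN J.1 J.2 hcen) (by norm_num))
    have e4 : (Z.card : ℝ) / (N / v ^ 3) ≤ 2 * C / lam := by
      rw [div_le_div_iff₀ (by positivity) hlam]
      have : x0 * (Z.card : ℝ) * (v' ^ 2 * v / N) ≤ 2 * (C * (N ^ 2 / (v ^ 4 * v' ^ 2)))
          * (v' ^ 2 * v / N) := mul_le_mul_of_nonneg_right e3 (by positivity)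
      have h5 : x0 * (Z.card : ℝ) * (v' ^ 2 * v / N) = (Z.card : ℝ) * lam := by
        rw [hx0]; field_simp
      have h6 : 2 * (C * (N ^ 2 / (v ^ 4 * v' ^ 2))) * (v' ^ 2 * v / N) = 2 * C * (N / v ^ 3) := by
        field_simp
      rw [h5, h6] at this
      exact this
    have e5 : ((Z ∩ cen P k (bb P.card (V l)) J.1 J.2).card : ℝ) / (N / v ^ 3) ≤ 2 * C / lam := by
      refine le_trans ?_ e4
      refine div_le_div_of_nonneg_right ?_ (by positivity)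
      exact_mod_cast Finset.card_le_card Finset.inter_subset_left
    have e6 : (((Z ∩ cen P k (bb P.card (V l)) J.1 J.2).card : ℝ) / (N / v ^ 3)) ^ ((1 : ℝ) / 3)
        ≤ (2 * C / lam) ^ ((1 : ℝ) / 3) :=
      Real.rpow_le_rpow (by positivity) e5 (by norm_num)
    have e7 : ((T.filter (fun x => J.1 < sl x.1 x.2 ∧ sl x.1 x.2 < J.2)).card : ℝ)
        ≤ 2 * (((nearE P k (bb P.card V') J.1 J.2).filter
            (fun e => e.1 ∈ Z ∨ e.2 ∈ Z)).card : ℝ) := by exact_mod_cast e1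
    refine e7.trans (mul_le_mul_of_nonneg_left (e2.trans ?_) (by norm_num))
    gcongr
  have hsum : (T.card : ℝ) ≤ ∑ J ∈ wins (S.cuts l),
      ((T.filter (fun x => J.1 < sl x.1 x.2 ∧ sl x.1 x.2 < J.2)).card : ℝ) := by
    have := card_le_sum_wins S hl (b := bb P.card V') T (fun x hx => (Finset.mem_filter.1 hx).2.1)
    exact_mod_cast this
  have hW := S.card_wins hl
  calc (T.card : ℝ) ≤ ∑ J ∈ wins (S.cuts l),
      ((T.filter (fun x => J.1 < sl x.1 x.2 ∧ sl x.1 x.2 < J.2)).card : ℝ) := hsum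
    _ ≤ ∑ J ∈ wins (S.cuts l), 2 * (C * (2 * C / lam) ^ ((1 : ℝ) / 3)
          * (N ^ 2 / (v ^ 4 * v' ^ 2)) + C * (N / v ^ 3)) := Finset.sum_le_sum key
    _ = ((wins (S.cuts l)).card : ℝ) * (2 * (C * (2 * C / lam) ^ ((1 : ℝ) / 3)
          * (N ^ 2 / (v ^ 4 * v' ^ 2)) + C * (N / v ^ 3))) := by
        rw [Finset.sum_const, nsmul_eq_mul]
    _ ≤ (Cw * v ^ 4) * (2 * (C * (2 * C / lam) ^ ((1 : ℝ) / 3)
          * (N ^ 2 / (v ^ 4 * v' ^ 2)) + C * (N / v ^ 3))) := by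
        refine mul_le_mul_of_nonneg_right hW ?_
        positivity
    _ = _ := by
        field_simp

/-- double counting of memberships -/
lemma card_many_le {ι : Type*} (W : Finset ι) (A : ι → Finset Pt) {a : ℝ}
    {x : ℝ} (hA : ∀ J ∈ W, ((A J).card : ℝ) ≤ a) (Z : Finset Pt)
    (hZ : ∀ p ∈ Z, x < ((W.filter (fun J => p ∈ A J)).card : ℝ)) :
    x * (Z.card : ℝ) ≤ (W.card : ℝ) * a := by
  have h1 : ∑ p ∈ Z, (W.filter (fun J => p ∈ A J)).card ≤ ∑ J ∈ W, (A J).card := by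
    simp only [Finset.card_filter]
    rw [Finset.sum_comm]
    refine Finset.sum_le_sum fun J _ => ?_
    rw [← Finset.card_filter]
    refine Finset.card_le_card fun p hp => (Finset.mem_filter.1 hp).2
  have h2 : x * (Z.card : ℝ) ≤ ∑ p ∈ Z, ((W.filter (fun J => p ∈ A J)).card : ℝ) := by
    rw [mul_comm, ← nsmul_eq_mul]
    exact Finset.card_nsmul_le_sum _ _ _ fun w hw => (hZ w hw).le
  have h3 : ∑ p ∈ Z, ((W.filter (fun J => p ∈ A J)).card : ℝ) ≤ ∑ J ∈ W, ((A J).card : ℝ) := by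
    exact_mod_cast h1
  have h4 : ∑ J ∈ W, ((A J).card : ℝ) ≤ (W.card : ℝ) * a := by
    rw [← nsmul_eq_mul]
    exact Finset.sum_le_card_nsmul _ _ _ hA
  exact h2.trans (h3.trans h4)

/-- **W4 (ii)** -/
theorem W4_ii {P : Finset Pt} {k : ℕ} {V : ℕ → ℕ} {L : ℕ} {Cw : ℝ} (S : WSys P k V L Cw)
    {l : ℕ} (hl : l ≤ L) (hV : 1 ≤ V l) {lam : ℝ} (hlam : 0 < lam) :
    ((P.filter (fun p => lam * (V l : ℝ) < (((wins (S.cuts l)).filter
        (fun J => p ∈ cen P k (bb P.card (V l)) J.1 J.2)).card : ℝ))).card : ℝ)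
      ≤ 7 * Cw * (P.card : ℝ) / lam := by
  have hVpos : (0 : ℝ) < (V l : ℝ) := by exact_mod_cast hV
  have hCw := S.Cw_nonneg' hl hV
  have hb : ∀ J ∈ wins (S.cuts l), ((cen P k (bb P.card (V l)) J.1 J.2).card : ℝ)
      ≤ 7 * ((P.card : ℝ) / (V l : ℝ) ^ 3) := by
    intro J hJ
    have h1 := S.cen_le l hl J hJ
    have h2 : ((bb P.card (V l) : ℕ) : ℝ) ≤ (P.card : ℝ) / (V l : ℝ) ^ 3 := by
      unfold bb
      refine Nat.cast_div_le.trans (le_of_eq ?_)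
      push_cast; ring
    have h3 : ((cen P k (bb P.card (V l)) J.1 J.2).card : ℝ) ≤ 7 * ((bb P.card (V l) : ℕ) : ℝ) := by
      exact_mod_cast h1
    linarith
  have h := card_many_le (wins (S.cuts l))
    (fun J => cen P k (bb P.card (V l)) J.1 J.2) (x := lam * (V l : ℝ)) hb
    (P.filter (fun p => lam * (V l : ℝ) < (((wins (S.cuts l)).filter
        (fun J => p ∈ cen P k (bb P.card (V l)) J.1 J.2)).card : ℝ)))
    (fun p hp => (Finset.mem_filter.1 hp).2)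
  have hW := S.card_wins hl
  rw [le_div_iff₀ hlam]
  have h5 : ((wins (S.cuts l)).card : ℝ) * (7 * ((P.card : ℝ) / (V l : ℝ) ^ 3))
      ≤ (Cw * (V l : ℝ) ^ 4) * (7 * ((P.card : ℝ) / (V l : ℝ) ^ 3)) :=
    mul_le_mul_of_nonneg_right hW (by positivity)
  have h6 : (Cw * (V l : ℝ) ^ 4) * (7 * ((P.card : ℝ) / (V l : ℝ) ^ 3))
      = 7 * Cw * (P.card : ℝ) * (V l : ℝ) := by
    field_simp
  have h7 := h.trans (h5.trans h6.le)
  have h8 : lam * (V l : ℝ) * ((P.filter (fun p => lam * (V l : ℝ) < (((wins (S.cuts l)).filter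
        (fun J => p ∈ cen P k (bb P.card (V l)) J.1 J.2)).card : ℝ))).card : ℝ)
      = (((P.filter (fun p => lam * (V l : ℝ) < (((wins (S.cuts l)).filter
        (fun J => p ∈ cen P k (bb P.card (V l)) J.1 J.2)).card : ℝ))).card : ℝ) * lam)
          * (V l : ℝ) := by ring
  rw [h8] at h7
  exact le_of_mul_le_mul_right h7 hVpos

/-- **W4 (iv)** -/
theorem W4_iv {P : Finset Pt} {k : ℕ} {V : ℕ → ℕ} {L : ℕ} {Cw : ℝ} (S : WSys P k V L Cw)
    {l l' : ℕ} (hll : l ≤ l') (hl' : l' ≤ L) (hV : 1 ≤ V l) (hV' : 1 ≤ V l') {J : ℝ × ℝ}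
    (hJ : J ∈ wins (S.cuts l)) {lam : ℝ} (hlam : 0 < lam) :
    ((P.filter (fun p => lam * (V l' : ℝ) / (V l : ℝ) < (((wins (S.cuts l')).filter
        (fun J' => (J.1 ≤ J'.1 ∧ J'.2 ≤ J.2) ∧
          p ∈ cen P k (bb P.card (V l')) J'.1 J'.2)).card : ℝ))).card : ℝ)
      ≤ 7 * Cw * ((P.card : ℝ) / (V l : ℝ) ^ 3) / lam := by
  have hVpos : (0 : ℝ) < (V l : ℝ) := by exact_mod_cast hV
  have hV'pos : (0 : ℝ) < (V l' : ℝ) := by exact_mod_cast hV'
  set W := (wins (S.cuts l')).filter (fun J' => J.1 ≤ J'.1 ∧ J'.2 ≤ J.2) with hWdef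
  have hb : ∀ J' ∈ W, ((cen P k (bb P.card (V l')) J'.1 J'.2).card : ℝ)
      ≤ 7 * ((P.card : ℝ) / (V l' : ℝ) ^ 3) := by
    intro J' hJ'
    have h1 := S.cen_le l' hl' J' (Finset.mem_filter.1 hJ').1
    have h2 : ((bb P.card (V l') : ℕ) : ℝ) ≤ (P.card : ℝ) / (V l' : ℝ) ^ 3 := by
      unfold bb
      refine Nat.cast_div_le.trans (le_of_eq ?_)
      push_cast; ring
    have h3 : ((cen P k (bb P.card (V l')) J'.1 J'.2).card : ℝ)
        ≤ 7 * ((bb P.card (V l') : ℕ) : ℝ) := by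
      exact_mod_cast h1
    linarith
  have hWW : ∀ p, W.filter (fun J' => p ∈ cen P k (bb P.card (V l')) J'.1 J'.2)
      = (wins (S.cuts l')).filter (fun J' => (J.1 ≤ J'.1 ∧ J'.2 ≤ J.2) ∧
          p ∈ cen P k (bb P.card (V l')) J'.1 J'.2) := by
    intro p
    rw [hWdef, Finset.filter_filter]
  set Z := P.filter (fun p => lam * (V l' : ℝ) / (V l : ℝ) < (((wins (S.cuts l')).filter
        (fun J' => (J.1 ≤ J'.1 ∧ J'.2 ≤ J.2) ∧
          p ∈ cen P k (bb P.card (V l')) J'.1 J'.2)).card : ℝ)) with hZ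
  have h := card_many_le W
    (fun J' => cen P k (bb P.card (V l')) J'.1 J'.2) (x := lam * (V l' : ℝ) / (V l : ℝ))
    hb Z
    (fun p hp => by
      rw [hWW p]
      exact (Finset.mem_filter.1 hp).2)
  have hcount : (W.card : ℝ) ≤ Cw * ((V l' : ℝ) / V l) ^ 4 := S.count_in l l' hll hl' J hJ
  have h5 : (W.card : ℝ) * (7 * ((P.card : ℝ) / (V l' : ℝ) ^ 3))
      ≤ (Cw * ((V l' : ℝ) / V l) ^ 4) * (7 * ((P.card : ℝ) / (V l' : ℝ) ^ 3)) :=
    mul_le_mul_of_nonneg_right hcount (by positivity)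
  have h7 := h.trans h5
  rw [le_div_iff₀ hlam]
  have h8 : lam * (V l' : ℝ) / (V l : ℝ) * (Z.card : ℝ) * ((V l : ℝ) / V l')
      ≤ (Cw * ((V l' : ℝ) / V l) ^ 4) * (7 * ((P.card : ℝ) / (V l' : ℝ) ^ 3))
        * ((V l : ℝ) / V l') := mul_le_mul_of_nonneg_right h7 (by positivity)
  have h9 : lam * (V l' : ℝ) / (V l : ℝ) * (Z.card : ℝ) * ((V l : ℝ) / V l')
      = (Z.card : ℝ) * lam := by field_simp
  have h10 : (Cw * ((V l' : ℝ) / V l) ^ 4) * (7 * ((P.card : ℝ) / (V l' : ℝ) ^ 3))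
        * ((V l : ℝ) / V l') = 7 * Cw * ((P.card : ℝ) / (V l : ℝ) ^ 3) := by field_simp
  rw [h9, h10] at h8
  exact h8

/-- **W4 (iii)**, from a bound on the number of near-`b` pairs -/
theorem W4_iii {P : Finset Pt} {k b : ℕ} {lam D a : ℝ} (hlam : 0 < lam) (hD : 0 < D)
    (hE : ((nearAll P k b).card : ℝ) ≤ a * ((P.card : ℝ) * D)) :
    ((P.filter (fun p => lam * D < ((nb P k b p).card : ℝ))).card : ℝ)
      ≤ 2 * a * (P.card : ℝ) / lam := by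
  set Z := P.filter (fun p => lam * D < ((nb P k b p).card : ℝ)) with hZ
  have h1 : ∑ p ∈ Z, (nb P k b p).card ≤ 2 * (nearAll P k b).card := by
    rw [← sum_card_nb]
    exact Finset.sum_le_sum_of_subset (Finset.filter_subset _ _)
  have h2 : lam * D * (Z.card : ℝ) ≤ ∑ p ∈ Z, ((nb P k b p).card : ℝ) := by
    rw [mul_comm, ← nsmul_eq_mul]
    exact Finset.card_nsmul_le_sum _ _ _ fun w hw => (Finset.mem_filter.1 hw).2.le
  have h3 : ∑ p ∈ Z, ((nb P k b p).card : ℝ) ≤ 2 * ((nearAll P k b).card : ℝ) := by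
    exact_mod_cast h1
  rw [le_div_iff₀ hlam]
  have h4 : lam * D * (Z.card : ℝ) ≤ 2 * (a * ((P.card : ℝ) * D)) := by linarith
  have h5 : ((Z.card : ℝ) * lam) * D ≤ (2 * a * (P.card : ℝ)) * D := by nlinarith
  exact le_of_mul_le_mul_right h5 hD

end Crest.Agent.R51
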