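import Crest.Agent.R51.Level
import Crest.Agent.R51.WinIrr

/-!
# Row 51: cutting a finite set of slopes into blocks of size `m`

`cuts_main` : general cutting lemma; `exists_cuts` : the form for a window.
-/

set_option autoImplicit false

noncomputable section

open Classical

namespace Crest.Agent.R51

namespace CutL

/-- rank in a finite set of reals -/
def rho (F : Finset ℝ) (x : ℝ) : ℕ := (F.filter (fun y => y ≤ x)).card

lemma rho_mono {F : Finset ℝ} {x y : ℝ} (h : x ≤ y) : rho F x ≤ rho F y := by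
  refine Finset.card_le_card fun z hz => ?_
  rw [Finset.mem_filter] at hz ⊢
  exact ⟨hz.1, hz.2.trans h⟩

lemma rho_lt {F : Finset ℝ} {x y : ℝ} (hy : y ∈ F) (h : x < y) : rho F x < rho F y := by
  refine Finset.card_lt_card ?_
  rw [Finset.ssubset_iff_of_subset]
  · exact ⟨y, Finset.mem_filter.2 ⟨hy, le_rfl⟩, fun h' => absurd (Finset.mem_filter.1 h').2
      (not_le.2 h)⟩
  · intro z hz
    rw [Finset.mem_filter] at hz ⊢
    exact ⟨hz.1, hz.2.trans h.le⟩

lemma rho_injOn (F : Finset ℝ) : Set.InjOn (rho F) (F : Set ℝ) := by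
  intro x hx y hy h
  rcases lt_trichotomy x y with h1 | h1 | h1
  · exact absurd h (rho_lt hy h1).ne
  · exact h1
  · exact absurd h (rho_lt hx h1).ne'

lemma rho_pos {F : Finset ℝ} {x : ℝ} (hx : x ∈ F) : 1 ≤ rho F x :=
  Finset.card_pos.2 ⟨x, Finset.mem_filter.2 ⟨hx, le_rfl⟩⟩

lemma rho_le (F : Finset ℝ) (x : ℝ) : rho F x ≤ F.card := Finset.card_filter_le _ _

lemma image_rho (F : Finset ℝ) : F.image (rho F) = Finset.Icc 1 F.card := by
  refine Finset.eq_of_subset_of_card_le ?_ ?_
  · intro r hr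
    obtain ⟨x, hx, rfl⟩ := Finset.mem_image.1 hr
    exact Finset.mem_Icc.2 ⟨rho_pos hx, rho_le F x⟩
  · rw [Finset.card_image_of_injOn (rho_injOn F), Nat.card_Icc]
    omega

lemma rho_surj {F : Finset ℝ} {r : ℕ} (h1 : 1 ≤ r) (h2 : r ≤ F.card) : ∃ x ∈ F, rho F x = r := by
  have : r ∈ F.image (rho F) := by
    rw [image_rho]
    exact Finset.mem_Icc.2 ⟨h1, h2⟩
  obtain ⟨x, hx, h⟩ := Finset.mem_image.1 this
  exact ⟨x, hx, h⟩

lemma rho_sub {F : Finset ℝ} {x y : ℝ} (h : x ≤ y) :
    rho F y = rho F x + (F.filter (fun z => x < z ∧ z ≤ y)).card := by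
  unfold rho
  rw [← Finset.card_union_of_disjoint]
  · congr 1
    ext z
    simp only [Finset.mem_filter, Finset.mem_union]
    constructor
    · rintro ⟨h1, h2⟩
      rcases le_or_gt z x with h3 | h3
      · exact Or.inl ⟨h1, h3⟩
      · exact Or.inr ⟨h1, h3, h2⟩
    · rintro (⟨h1, h2⟩ | ⟨h1, h2, h3⟩)
      · exact ⟨h1, h2.trans h⟩
      · exact ⟨h1, h3⟩
  · rw [Finset.disjoint_left]
    intro z hz hz'
    exact absurd (Finset.mem_filter.1 hz).2 (not_le.2 (Finset.mem_filter.1 hz').2.1)

/-- **cutting lemma**: blocks of `m` slopes -/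
theorem cuts_main {P : Finset Pt} (F : Finset ℝ) (hF : ∀ f ∈ F, ∃ e ∈ pairs P, esl e = f)
    {m : ℕ} (hm : 1 ≤ m) {hi : ℝ} (hhi : ∀ f ∈ F, f < hi) :
    ∃ C : Finset ℝ, (∀ c ∈ C, NonSlope P c) ∧ (∀ c ∈ C, c < hi) ∧ (∀ c ∈ C, ∃ f ∈ F, f < c) ∧
      (∀ u v : ℝ, (∀ c ∈ C, ¬ (u < c ∧ c < v)) →
        (F.filter (fun f => u < f ∧ f < v)).card ≤ m) ∧
      (∀ u v : ℝ, (C.filter (fun c => u < c ∧ c < v)).card * m ≤
        (F.filter (fun f => u < f ∧ f < v)).card + m) ∧
      C.card * m ≤ F.card := by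
  -- the cut after `f`
  have hc : ∀ f : ℝ, ∃ c : ℝ, f ∈ F → f < c ∧ c < hi ∧ ∀ e ∈ pairs P, f < esl e → c < esl e := by
    intro f
    by_cases hf : f ∈ F
    · obtain ⟨u, h1, h2, h3⟩ := exists_free_right P (hhi f hf)
      exact ⟨u, fun _ => ⟨h1, h2, h3⟩⟩
    · exact ⟨0, fun h => absurd h hf⟩
  choose c hc using hc
  have hcF : ∀ f ∈ F, ∀ g ∈ F, f < g → c f < g := by
    intro f hf g hg hfg
    obtain ⟨e, he, rfl⟩ := hF g hg
    exact (hc f hf).2.2 e he hfg
  set S := F.filter (fun f => m ∣ rho F f) with hS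
  have hSF : ∀ f ∈ S, f ∈ F := fun f hf => (Finset.mem_filter.1 hf).1
  have hSd : ∀ f ∈ S, m ∣ rho F f := fun f hf => (Finset.mem_filter.1 hf).2
  refine ⟨S.image c, ?_, ?_, ?_, ?_, ?_, ?_⟩
  · intro x hx
    obtain ⟨f, hf, rfl⟩ := Finset.mem_image.1 hx
    intro e he h
    obtain ⟨h1, h2, h3⟩ := hc f (hSF f hf)
    have := h3 e he (h ▸ h1)
    rw [h] at this
    exact lt_irrefl _ this
  · intro x hx
    obtain ⟨f, hf, rfl⟩ := Finset.mem_image.1 hx
    exact (hc f (hSF f hf)).2.1
  · intro x hx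
    obtain ⟨f, hf, rfl⟩ := Finset.mem_image.1 hx
    exact ⟨f, hSF f hf, (hc f (hSF f hf)).1⟩
  · intro u v huv
    by_contra hcon
    rw [not_le] at hcon
    set G := F.filter (fun f => u < f ∧ f < v) with hG
    have hGne : G.Nonempty := Finset.card_pos.1 (by omega)
    obtain ⟨g0, hg0, hmin⟩ := Finset.exists_min_image G id hGne
    obtain ⟨g1, hg1, hmax⟩ := Finset.exists_max_image G id hGne
    simp only [id] at hmin hmax
    have h0 := Finset.mem_filter.1 hg0
    have h1 := Finset.mem_filter.1 hg1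
    have hle : g0 ≤ g1 := hmax g0 hg0
    have hcard : G.card ≤ 1 + (F.filter (fun z => g0 < z ∧ z ≤ g1)).card := by
      have hsub : G ⊆ {g0} ∪ F.filter (fun z => g0 < z ∧ z ≤ g1) := by
        intro z hz
        rw [Finset.mem_union, Finset.mem_singleton]
        rcases (hmin z hz).eq_or_lt with h | h
        · exact Or.inl h.symm
        · exact Or.inr (Finset.mem_filter.2 ⟨(Finset.mem_filter.1 hz).1, h, hmax z hz⟩)
      refine (Finset.card_le_card hsub).trans ((Finset.card_union_le _ _).trans ?_)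
      rw [Finset.card_singleton]
    have hrho := rho_sub (F := F) hle
    -- a multiple of `m` in `[rho g0, rho g1)`
    obtain ⟨r, hr1, hr2, hr3⟩ : ∃ r, rho F g0 ≤ r ∧ r < rho F g1 ∧ m ∣ r := by
      refine ⟨m * ((rho F g0 + m - 1) / m), ?_, ?_, Dvd.intro _ rfl⟩
      · have := Nat.div_add_mod (rho F g0 + m - 1) m
        have h3 := Nat.mod_lt (rho F g0 + m - 1) hm
        omega
      · have := Nat.mul_div_le (rho F g0 + m - 1) m
        omega
    obtain ⟨f, hfF, hf⟩ := rho_surj (F := F) (r := r) ((rho_pos h0.1).trans hr1)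
      (hr2.le.trans (rho_le F g1))
    have hf1 : g0 ≤ f := by
      by_contra h
      rw [not_le] at h
      have := rho_lt h0.1 h
      omega
    have hf2 : f < g1 := by
      by_contra h
      rw [not_lt] at h
      have := rho_mono (F := F) h
      omega
    refine huv (c f) (Finset.mem_image.2 ⟨f, Finset.mem_filter.2 ⟨hfF, hf ▸ hr3⟩, rfl⟩) ⟨?_, ?_⟩
    · exact (h0.2.1.trans_le hf1).trans (hc f hfF).1
    · exact (hcF f hfF g1 h1.1 hf2).trans h1.2.2
  · intro u v
    set T := S.filter (fun f => u < c f ∧ c f < v) with hT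
    have hle : ((S.image c).filter (fun c => u < c ∧ c < v)).card ≤ T.card := by
      have hsub : (S.image c).filter (fun c => u < c ∧ c < v) ⊆ T.image c := by
        intro x hx
        obtain ⟨hx1, hx2⟩ := Finset.mem_filter.1 hx
        obtain ⟨f, hf, rfl⟩ := Finset.mem_image.1 hx1
        exact Finset.mem_image.2 ⟨f, Finset.mem_filter.2 ⟨hf, hx2⟩, rfl⟩
      exact (Finset.card_le_card hsub).trans Finset.card_image_le
    refine (Nat.mul_le_mul_right m hle).trans ?_
    rcases T.eq_empty_or_nonempty with hT0 | hTne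
    · rw [hT0]
      simp
    obtain ⟨g0, hg0, hmin⟩ := Finset.exists_min_image T id hTne
    obtain ⟨g1, hg1, hmax⟩ := Finset.exists_max_image T id hTne
    simp only [id] at hmin hmax
    have h0 := Finset.mem_filter.1 hg0
    have h1 := Finset.mem_filter.1 hg1
    have hle' : g0 ≤ g1 := hmax g0 hg0
    have hrho := rho_sub (F := F) hle'
    obtain ⟨a, ha⟩ := hSd g0 h0.1
    obtain ⟨b, hb⟩ := hSd g1 h1.1
    have hX : (F.filter (fun z => g0 < z ∧ z ≤ g1)).card ≤
        (F.filter (fun f => u < f ∧ f < v)).card := by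
      refine Finset.card_le_card fun z hz => ?_
      obtain ⟨hz1, hz2, hz3⟩ := Finset.mem_filter.1 hz
      refine Finset.mem_filter.2 ⟨hz1, ?_, ?_⟩
      · exact h0.2.1.trans (hcF g0 (hSF g0 h0.1) z hz1 hz2)
      · exact (hz3.trans_lt (hc g1 (hSF g1 h1.1)).1).trans h1.2.2
    have hcardT : T.card ≤ b + 1 - a := by
      have hinj : Set.InjOn (fun f => rho F f / m) (T : Set ℝ) := by
        intro x hx y hy hxy
        have hx' := Finset.mem_filter.1 (Finset.mem_coe.1 hx)
        have hy' := Finset.mem_filter.1 (Finset.mem_coe.1 hy)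
        refine rho_injOn F (Finset.mem_coe.2 (hSF x hx'.1)) (Finset.mem_coe.2 (hSF y hy'.1)) ?_
        obtain ⟨a', ha'⟩ := hSd x hx'.1
        obtain ⟨b', hb'⟩ := hSd y hy'.1
        simp only [ha', hb', Nat.mul_div_cancel_left _ hm] at hxy
        rw [ha', hb', hxy]
      rw [← Finset.card_image_of_injOn hinj, ← Nat.card_Icc]
      refine Finset.card_le_card fun r hr => ?_
      obtain ⟨f, hf, rfl⟩ := Finset.mem_image.1 hr
      rw [Finset.mem_Icc]
      have e1 := rho_mono (F := F) (hmin f hf)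
      have e2 := rho_mono (F := F) (hmax f hf)
      rw [ha] at e1
      rw [hb] at e2
      constructor
      · rw [Nat.le_div_iff_mul_le hm, mul_comm]
        exact e1
      · have := Nat.div_le_div_right (c := m) e2
        rwa [Nat.mul_div_cancel_left _ hm] at this
    have hab : a ≤ b := by
      have := rho_mono (F := F) hle'
      rw [ha, hb] at this
      exact Nat.le_of_mul_le_mul_left this hm
    calc T.card * m ≤ (b + 1 - a) * m := Nat.mul_le_mul_right m hcardT
      _ = (m * b - m * a) + m := by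
        obtain ⟨d, rfl⟩ := Nat.exists_eq_add_of_le hab
        have e1 : a + d + 1 - a = d + 1 := by omega
        have e2 : m * (a + d) - m * a = m * d := by
          rw [Nat.mul_add]; omega
        rw [e1, e2]; ring
      _ ≤ _ := by
        rw [← ha, ← hb]
        omega
  · refine (Nat.mul_le_mul_right m Finset.card_image_le).trans ?_
    -- `S` has at most `F.card / m` elements
    have hcardS : S.card ≤ F.card / m := by
      have hinj : Set.InjOn (fun f => rho F f / m) (S : Set ℝ) := by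
        intro x hx y hy hxy
        refine rho_injOn F (Finset.mem_coe.2 (hSF x hx)) (Finset.mem_coe.2 (hSF y hy)) ?_
        obtain ⟨a', ha'⟩ := hSd x hx
        obtain ⟨b', hb'⟩ := hSd y hy
        simp only [ha', hb', Nat.mul_div_cancel_left _ hm] at hxy
        rw [ha', hb', hxy]
      have hI : (Finset.Icc 1 (F.card / m)).card = F.card / m := by
        rw [Nat.card_Icc, Nat.add_sub_cancel]
      rw [← Finset.card_image_of_injOn hinj, ← hI]
      refine Finset.card_le_card fun r hr => ?_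
      obtain ⟨f, hf, rfl⟩ := Finset.mem_image.1 hr
      rw [Finset.mem_Icc]
      constructor
      · obtain ⟨a', ha'⟩ := hSd f hf
        have h1 := rho_pos (hSF f hf)
        simp only [ha', Nat.mul_div_cancel_left _ hm]
        rcases Nat.eq_zero_or_pos a' with h | h
        · rw [h, mul_zero] at ha'
          omega
        · exact h
      · exact Nat.div_le_div_right (rho_le F f)
    exact (Nat.mul_le_mul_right m hcardS).trans (Nat.div_mul_le_self _ _)

/-- the slopes of a set of edges -/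
lemma card_slopes_filter {P : Finset Pt} (hG : Generic P) {E : Finset Edge} (hE : E ⊆ pairs P)
    (u v : ℝ) : ((E.image esl).filter (fun f => u < f ∧ f < v)).card =
      (E.filter (fun e => u < esl e ∧ esl e < v)).card := by
  rw [Finset.filter_image]
  exact Finset.card_image_of_injOn fun x hx y hy h =>
    hG.esl_inj (hE (Finset.mem_filter.1 (Finset.mem_coe.1 hx)).1)
      (hE (Finset.mem_filter.1 (Finset.mem_coe.1 hy)).1) h

lemma card_slopes {P : Finset Pt} (hG : Generic P) {E : Finset Edge} (hE : E ⊆ pairs P) :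
    (E.image esl).card = E.card :=
  Finset.card_image_of_injOn fun x hx y hy h =>
    hG.esl_inj (hE (Finset.mem_coe.1 hx)) (hE (Finset.mem_coe.1 hy)) h

/-- the number of windows is at most the number of cuts minus one -/
lemma card_wins_succ_le {C : Finset ℝ} (hC : C.Nonempty) : (wins C).card + 1 ≤ C.card := by
  obtain ⟨M, hM, hmax⟩ := Finset.exists_max_image C id hC
  simp only [id] at hmax
  have h : (wins C).card ≤ (C.erase M).card := by
    refine Finset.card_le_card_of_injOn Prod.fst (fun J hJ => ?_) ?_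
    · have hJ' := mem_wins.1 hJ
      refine Finset.mem_coe.2 (Finset.mem_erase.2 ⟨?_, hJ'.1⟩)
      have := hmax J.2 hJ'.2.1
      have h3 := hJ'.2.2.1
      intro h
      rw [h] at h3
      exact absurd this (not_le.2 h3)
    · intro J hJ J' hJ' h
      have hJ1 := mem_wins.1 (Finset.mem_coe.1 hJ)
      have hJ2 := mem_wins.1 (Finset.mem_coe.1 hJ')
      have h' : J.1 = J'.1 := h
      refine Prod.ext h' ?_
      rcases lt_trichotomy J.2 J'.2 with h1 | h1 | h1
      · exact absurd ⟨by rw [← h']; exact hJ1.2.2.1, h1⟩ (hJ2.2.2.2 _ hJ1.2.1)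
      · exact h1
      · exact absurd ⟨by rw [h']; exact hJ2.2.2.1, h1⟩ (hJ1.2.2.2 _ hJ2.2.1)
  rw [Finset.card_erase_of_mem hM] at h
  have := Finset.card_pos.2 hC
  omega

/-- **cutting a window**: every block of the set `C` of cuts contains `≤ m` slopes of `E`, and
there are at most `#E / m + 1` blocks. -/
theorem exists_cuts {P : Finset Pt} (hG : Generic P) {s t : ℝ} (hst : s < t) (hs : NonSlope P s)
    (ht : NonSlope P t) {E : Finset Edge} (hE : E ⊆ pairsIn P s t) {m : ℕ} (hm : 1 ≤ m) :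
    ∃ C : Finset ℝ, s ∈ C ∧ t ∈ C ∧ (∀ c ∈ C, NonSlope P c) ∧ (∀ c ∈ C, s ≤ c ∧ c ≤ t) ∧
      (∀ J ∈ wins C, (E.filter (fun e => J.1 < esl e ∧ esl e < J.2)).card ≤ m) ∧
      (wins C).card ≤ E.card / m + 1 := by
  have hEP : E ⊆ pairs P := fun e he => (mem_pairsIn.1 (hE he)).1
  obtain ⟨C, h1, h2, h3, h4, _, h6⟩ := cuts_main (P := P) (E.image esl)
    (fun f hf => by
      obtain ⟨e, he, rfl⟩ := Finset.mem_image.1 hf
      exact ⟨e, hEP he, rfl⟩) hm (hi := t)
    (fun f hf => by
      obtain ⟨e, he, rfl⟩ := Finset.mem_image.1 hf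
      exact (mem_pairsIn.1 (hE he)).2.2)
  have hsC : ∀ c ∈ C, s < c := by
    intro c hc
    obtain ⟨f, hf, hfc⟩ := h3 c hc
    obtain ⟨e, he, rfl⟩ := Finset.mem_image.1 hf
    exact (mem_pairsIn.1 (hE he)).2.1.trans hfc
  rw [card_slopes hG hEP] at h6
  refine ⟨insert s (insert t C), Finset.mem_insert_self _ _,
    Finset.mem_insert_of_mem (Finset.mem_insert_self _ _), ?_, ?_, ?_, ?_⟩
  · intro c hc
    rcases Finset.mem_insert.1 hc with rfl | hc
    · exact hs
    rcases Finset.mem_insert.1 hc with rfl | hc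
    · exact ht
    · exact h1 c hc
  · intro c hc
    rcases Finset.mem_insert.1 hc with rfl | hc
    · exact ⟨le_rfl, hst.le⟩
    rcases Finset.mem_insert.1 hc with rfl | hc
    · exact ⟨hst.le, le_rfl⟩
    · exact ⟨(hsC c hc).le, (h2 c hc).le⟩
  · intro J hJ
    rw [← card_slopes_filter hG hEP]
    refine h4 J.1 J.2 fun c hc => ?_
    exact (mem_wins.1 hJ).2.2.2 c (Finset.mem_insert_of_mem (Finset.mem_insert_of_mem hc))
  · have e1 := card_wins_succ_le (C := insert s (insert t C)) ⟨s, Finset.mem_insert_self _ _⟩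
    have e2 : (insert s (insert t C)).card ≤ C.card + 2 := by
      refine (Finset.card_insert_le _ _).trans ?_
      have := Finset.card_insert_le t C
      omega
    have e3 : C.card ≤ E.card / m := (Nat.le_div_iff_mul_le hm).2 h6
    omega

end CutL

end Crest.Agent.R51
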