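import Mathlib
import Crest.Agent.R51.Defs
import Crest.Agent.R51.Chains

/-!
# Row 51, section B2: G2 (Dey's crossing bound for windows)
-/

set_option autoImplicit false

noncomputable section

open Classical Finset

namespace Crest.Agent.R51

lemma lin_mono_step (e f : Edge) (x y : ℝ) (h : lin e x ≤ lin f x) (hxy : x ≤ y)
    (hs : esl e ≤ esl f) : lin e y ≤ lin f y := by
  have h1 := lin_sub e y x
  have h2 := lin_sub f y x
  have : esl e * (y - x) ≤ esl f * (y - x) := mul_le_mul_of_nonneg_right hs (by linarith)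
  linarith

lemma lin_mono_step' (e f : Edge) (x y : ℝ) (h : lin e x ≤ lin f x) (hxy : y ≤ x)
    (hs : esl f ≤ esl e) : lin e y ≤ lin f y := by
  have h1 := lin_sub e y x
  have h2 := lin_sub f y x
  have : esl e * (y - x) ≤ esl f * (y - x) := mul_le_mul_of_nonpos_right hs (by linarith)
  linarith

/-- `y`-coordinate of `r` relative to that of `q`, through the slope. -/
lemma snd_eq_sl {q r : Pt} (h : q.1 < r.1) : r.2 = q.2 + sl q r * (r.1 - q.1) := by
  have h' : r.1 - q.1 ≠ 0 := by linarith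
  unfold sl
  field_simp
  ring

/-- On a convex chain the line of `e` is above every other line of the chain over `e`. -/
lemma Before.lin_le_right {e0 e : Edge} (h0 : e0.1.1 < e0.2.1) (h : e.1.1 < e.2.1)
    (hb : Before e0 e) {x : ℝ} (hx : e.1.1 ≤ x) : lin e0 x ≤ lin e x := by
  obtain ⟨hb1, hb2⟩ := hb
  apply lin_mono_step e0 e e.1.1 x _ hx hb1.le
  rw [lin_left e]
  rcases hb2 with hb2 | ⟨hb2, hb3, _⟩
  · rw [← hb2, lin_right h0]
  · have h1 := lin_sub e0 e.1.1 e0.2.1
    rw [lin_right h0] at h1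
    have h2 := snd_eq_sl hb2
    have : esl e0 * (e.1.1 - e0.2.1) ≤ sl e0.2 e.1 * (e.1.1 - e0.2.1) :=
      mul_le_mul_of_nonneg_right hb3.le (by linarith)
    linarith

lemma Before.lin_le_left {e0 e : Edge} (h0 : e0.1.1 < e0.2.1) (h : e.1.1 < e.2.1)
    (hb : Before e e0) {x : ℝ} (hx : x ≤ e.2.1) : lin e0 x ≤ lin e x := by
  obtain ⟨hb1, hb2⟩ := hb
  apply lin_mono_step' e0 e e.2.1 x _ hx hb1.le
  rw [lin_right h]
  rcases hb2 with hb2 | ⟨hb2, _, hb4⟩
  · rw [hb2, lin_left]
  · have h1 := lin_sub e0 e.2.1 e0.1.1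
    rw [lin_left e0] at h1
    have h2 := snd_eq_sl hb2
    have : sl e.2 e0.1 * (e0.1.1 - e.2.1) ≤ esl e0 * (e0.1.1 - e.2.1) :=
      mul_le_mul_of_nonneg_right hb4.le (by linarith)
    linarith

lemma BeforeN.lin_ge_right {e0 e : Edge} (h0 : e0.1.1 < e0.2.1) (h : e.1.1 < e.2.1)
    (hb : BeforeN e0 e) {x : ℝ} (hx : e.1.1 ≤ x) : lin e x ≤ lin e0 x := by
  obtain ⟨hb1, hb2⟩ := hb
  apply lin_mono_step e e0 e.1.1 x _ hx hb1.le
  rw [lin_left e]
  rcases hb2 with hb2 | ⟨hb2, _, hb4⟩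
  · rw [← hb2, lin_right h0]
  · have h1 := lin_sub e0 e.1.1 e0.2.1
    rw [lin_right h0] at h1
    have h2 := snd_eq_sl hb2
    have : sl e0.2 e.1 * (e.1.1 - e0.2.1) ≤ esl e0 * (e.1.1 - e0.2.1) :=
      mul_le_mul_of_nonneg_right hb4.le (by linarith)
    linarith

lemma BeforeN.lin_ge_left {e0 e : Edge} (h0 : e0.1.1 < e0.2.1) (h : e.1.1 < e.2.1)
    (hb : BeforeN e e0) {x : ℝ} (hx : x ≤ e.2.1) : lin e x ≤ lin e0 x := by
  obtain ⟨hb1, hb2⟩ := hb
  apply lin_mono_step' e e0 e.2.1 x _ hx hb1.le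
  rw [lin_right h]
  rcases hb2 with hb2 | ⟨hb2, hb3, _⟩
  · rw [hb2, lin_left]
  · have h1 := lin_sub e0 e.2.1 e0.1.1
    rw [lin_left e0] at h1
    have h2 := snd_eq_sl hb2
    have : esl e0 * (e0.1.1 - e.2.1) ≤ sl e.2 e0.1 * (e0.1.1 - e.2.1) :=
      mul_le_mul_of_nonneg_right hb3.le (by linarith)
    linarith

/-- x-ranges of comparable edges are (weakly) disjoint. -/
lemma Before.x_le {e f : Edge} (hb : Before e f) : e.2.1 ≤ f.1.1 := by
  rcases hb.2 with h | h
  · rw [h]
  · exact h.1.le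

lemma BeforeN.x_le {e f : Edge} (hb : BeforeN e f) : e.2.1 ≤ f.1.1 := by
  rcases hb.2 with h | h
  · rw [h]
  · exact h.1.le

/-- A family of edges in which every line is the upper envelope over its own edge. -/
def UpFam (E : Finset Edge) : Prop :=
  ∀ e ∈ E, ∀ e0 ∈ E, ∀ x, e.1.1 ≤ x → x ≤ e.2.1 → lin e0 x ≤ lin e x

def DownFam (E : Finset Edge) : Prop :=
  ∀ e ∈ E, ∀ e0 ∈ E, ∀ x, e.1.1 ≤ x → x ≤ e.2.1 → lin e x ≤ lin e0 x

/-- edges have disjoint open x-ranges. -/
def DisjFam (E : Finset Edge) : Prop :=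
  ∀ e ∈ E, ∀ e0 ∈ E, ∀ x, e.1.1 < x → x < e.2.1 → e0.1.1 < x → x < e0.2.1 → e = e0

/-- Two families as above cross at most twice. -/
theorem two_crossings {E F : Finset Edge} (hE : UpFam E) (hE' : DisjFam E)
    (hF : DownFam F) (hF' : DisjFam F) : crs E F ≤ 2 := by
  by_contra hcon
  push Not at hcon
  unfold crs at hcon
  set T := (E ×ˢ F).filter (fun x => Cross x.1 x.2) with hT
  have hmem : ∀ u ∈ T, u.1 ∈ E ∧ u.2 ∈ F ∧ Cross u.1 u.2 := by
    intro u hu
    simp only [hT, mem_filter, mem_product] at hu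
    exact ⟨hu.1.1, hu.1.2, hu.2⟩
  have hX : ∀ u : Edge × Edge, u ∈ T → ∃ x : ℝ, u.1.1.1 < x ∧ x < u.1.2.1 ∧ u.2.1.1 < x ∧
      x < u.2.2.1 ∧ lin u.1 x = lin u.2 x ∧ esl u.1 ≠ esl u.2 := fun u hu => (hmem u hu).2.2
  choose! X hX1 hX2 hX3 hX4 hX5 hX6 using hX
  have hinj : ∀ u ∈ T, ∀ v ∈ T, X u = X v → u = v := by
    intro u hu v hv h
    have h1 : u.1 = v.1 := hE' _ (hmem u hu).1 _ (hmem v hv).1 (X u) (hX1 u hu) (hX2 u hu)
      (by rw [h]; exact hX1 v hv) (by rw [h]; exact hX2 v hv)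
    have h2 : u.2 = v.2 := hF' _ (hmem u hu).2.1 _ (hmem v hv).2.1 (X u) (hX3 u hu) (hX4 u hu)
      (by rw [h]; exact hX3 v hv) (by rw [h]; exact hX4 v hv)
    exact Prod.ext h1 h2
  -- key: three increasing abscissae are impossible
  have key : ∀ u ∈ T, ∀ v ∈ T, ∀ w ∈ T, X u < X v → X v < X w → False := by
    intro u hu v hv w hw huv hvw
    have a1 : lin v.1 (X u) ≤ lin u.1 (X u) := hE _ (hmem u hu).1 _ (hmem v hv).1 _
      (hX1 u hu).le (hX2 u hu).le
    have a2 : lin u.2 (X u) ≤ lin v.2 (X u) := hF _ (hmem u hu).2.1 _ (hmem v hv).2.1 _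
      (hX3 u hu).le (hX4 u hu).le
    have b1 : lin v.1 (X w) ≤ lin w.1 (X w) := hE _ (hmem w hw).1 _ (hmem v hv).1 _
      (hX1 w hw).le (hX2 w hw).le
    have b2 : lin w.2 (X w) ≤ lin v.2 (X w) := hF _ (hmem w hw).2.1 _ (hmem v hv).2.1 _
      (hX3 w hw).le (hX4 w hw).le
    have c1 := hX5 u hu
    have c2 := hX5 v hv
    have c3 := hX5 w hw
    have c4 := hX6 v hv
    have d1 := lin_sub v.1 (X u) (X v)
    have d2 := lin_sub v.2 (X u) (X v)
    have d3 := lin_sub v.1 (X w) (X v)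
    have d4 := lin_sub v.2 (X w) (X v)
    have e1 : (esl v.1 - esl v.2) * (X u - X v) ≤ 0 := by nlinarith
    have e2 : (esl v.1 - esl v.2) * (X w - X v) ≤ 0 := by nlinarith
    have f1 : 0 ≤ esl v.1 - esl v.2 := by
      by_contra hneg
      push Not at hneg
      nlinarith
    have f2 : esl v.1 - esl v.2 ≤ 0 := by
      by_contra hneg
      push Not at hneg
      nlinarith
    exact c4 (by linarith)
  obtain ⟨a, ha, b, hb, c, hc, hab, hac, hbc⟩ := Finset.two_lt_card.mp hcon
  have nab : X a ≠ X b := fun h => hab (hinj _ ha _ hb h)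
  have nac : X a ≠ X c := fun h => hac (hinj _ ha _ hc h)
  have nbc : X b ≠ X c := fun h => hbc (hinj _ hb _ hc h)
  rcases lt_or_gt_of_ne nab with h1 | h1 <;> rcases lt_or_gt_of_ne nac with h2 | h2 <;>
    rcases lt_or_gt_of_ne nbc with h3 | h3
  · exact key a ha b hb c hc h1 h3
  · exact key a ha c hc b hb h2 h3
  · linarith
  · exact key c hc a ha b hb h2 h1
  · exact key b hb a ha c hc h1 h2
  · linarith
  · exact key b hb c hc a ha h3 h2
  · exact key c hc b hb a ha h3 h1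

/-- G2 (Dey) for two levels and two windows. -/
theorem dey {P : Finset Pt} (hP : Generic P) (i i' : ℕ) (s t s' t' : ℝ) :
    crs (kE P i s t) (kE P i' s' t') ≤ 2 * (Act P i s t).card * (Act P i' s' t').card := by
  obtain ⟨col, hc1, hc2, _⟩ := chain_colouring hP i s t
  obtain ⟨col', hc1', hc2'⟩ := chain_colouring_neg hP i' s' t'
  have hlt : ∀ e ∈ kE P i s t, e.1.1 < e.2.1 := fun e he => (mem_pairs.mp (mem_kE.mp he).1).2.2
  have hlt' : ∀ e ∈ kE P i' s' t', e.1.1 < e.2.1 :=
    fun e he => (mem_pairs.mp (mem_kE.mp he).1).2.2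
  unfold crs
  have hmaps : ∀ u ∈ ((kE P i s t) ×ˢ (kE P i' s' t')).filter (fun x => Cross x.1 x.2),
      (fun u : Edge × Edge => (col u.1, col' u.2)) u ∈ (Act P i s t) ×ˢ (Act P i' s' t') := by
    intro u hu
    simp only [mem_filter, mem_product] at hu
    simp only [mem_product]
    exact ⟨hc1 _ hu.1.1, hc1' _ hu.1.2⟩
  have := Finset.card_le_mul_card_image_of_maps_to hmaps 2 ?_
  · calc _ ≤ 2 * ((Act P i s t) ×ˢ (Act P i' s' t')).card := this
      _ = _ := by rw [card_product]; ring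
  · rintro ⟨c, c'⟩ _
    have h2 := two_crossings (E := (kE P i s t).filter (fun e => col e = c))
      (F := (kE P i' s' t').filter (fun e => col' e = c')) ?_ ?_ ?_ ?_
    · refine le_trans (le_of_eq ?_) h2
      unfold crs
      congr 1
      ext u
      simp only [mem_filter, mem_product, Prod.mk.injEq]
      tauto
    · intro e he e0 he0 x hx1 hx2
      simp only [mem_filter] at he he0
      by_cases hee : e = e0
      · rw [hee]
      · rcases hc2 e he.1 e0 he0.1 hee (he.2.trans he0.2.symm) with h | h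
        · exact Before.lin_le_left (hlt _ he0.1) (hlt _ he.1) h hx2
        · exact Before.lin_le_right (hlt _ he0.1) (hlt _ he.1) h hx1
    · intro e he e0 he0 x hx1 hx2 hx3 hx4
      simp only [mem_filter] at he he0
      by_contra hee
      rcases hc2 e he.1 e0 he0.1 hee (he.2.trans he0.2.symm) with h | h
      · have := h.x_le; linarith
      · have := h.x_le; linarith
    · intro e he e0 he0 x hx1 hx2
      simp only [mem_filter] at he he0
      by_cases hee : e = e0
      · rw [hee]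
      · rcases hc2' e he.1 e0 he0.1 hee (he.2.trans he0.2.symm) with h | h
        · exact BeforeN.lin_ge_left (hlt' _ he0.1) (hlt' _ he.1) h hx2
        · exact BeforeN.lin_ge_right (hlt' _ he0.1) (hlt' _ he.1) h hx1
    · intro e he e0 he0 x hx1 hx2 hx3 hx4
      simp only [mem_filter] at he he0
      by_contra hee
      rcases hc2' e he.1 e0 he0.1 hee (he.2.trans he0.2.symm) with h | h
      · have := h.x_le; linarith
      · have := h.x_le; linarith

/-! ### near-`b` version -/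

lemma ends_mono {E F : Finset Edge} (h : E ⊆ F) : ends E ⊆ ends F := by
  intro p hp
  obtain ⟨e, he, h1⟩ := mem_ends.mp hp
  exact mem_ends.mpr ⟨e, h he, h1⟩

/-- levels occurring in `Near P k b`. -/
def lvls (k b : ℕ) : Finset ℕ := Finset.Icc (k - b) (k + b)

lemma card_lvls_le (k b : ℕ) : (lvls k b).card ≤ 2 * b + 1 := by
  unfold lvls
  rw [Nat.card_Icc]
  omega

lemma near_iff {P : Finset Pt} {k b : ℕ} {e : Edge} : Near P k b e ↔ lv P e ∈ lvls k b := by
  unfold Near lvls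
  rw [Finset.mem_Icc]
  omega

lemma kE_subset_nearE {P : Finset Pt} {k b i : ℕ} {s t : ℝ} (hi : i ∈ lvls k b) :
    kE P i s t ⊆ nearE P k b s t := by
  intro e he
  rw [mem_kE] at he
  rw [mem_nearE]
  refine ⟨he.1, he.2.1, he.2.2.1, near_iff.mpr ?_⟩
  rw [he.2.2.2]; exact hi

lemma Act_subset_ActN {P : Finset Pt} {k b i : ℕ} {s t : ℝ} (hi : i ∈ lvls k b) :
    Act P i s t ⊆ ActN P k b s t := ends_mono (kE_subset_nearE hi)

lemma crs_nearE_le_sum {P : Finset Pt} (k b k' b' : ℕ) (s t s' t' : ℝ) :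
    crs (nearE P k b s t) (nearE P k' b' s' t') ≤
      ∑ i ∈ lvls k b, ∑ i' ∈ lvls k' b', crs (kE P i s t) (kE P i' s' t') := by
  unfold crs
  have : ((nearE P k b s t) ×ˢ (nearE P k' b' s' t')).filter (fun x => Cross x.1 x.2) ⊆
      (lvls k b).biUnion (fun i => (lvls k' b').biUnion (fun i' =>
        ((kE P i s t) ×ˢ (kE P i' s' t')).filter (fun x => Cross x.1 x.2))) := by
    intro u hu
    simp only [mem_filter, mem_product, mem_nearE] at hu
    simp only [mem_biUnion, mem_filter, mem_product, mem_kE]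
    obtain ⟨⟨h1, h2⟩, h3⟩ := hu
    exact ⟨lv P u.1, near_iff.mp h1.2.2.2, lv P u.2, near_iff.mp h2.2.2.2,
      ⟨⟨h1.1, h1.2.1, h1.2.2.1, rfl⟩, ⟨h2.1, h2.2.1, h2.2.2.1, rfl⟩⟩, h3⟩
  refine (Finset.card_le_card this).trans ?_
  refine Finset.card_biUnion_le.trans ?_
  exact Finset.sum_le_sum (fun i _ => Finset.card_biUnion_le)

/-- G2, near-`b` version. -/
theorem dey_near {P : Finset Pt} (hP : Generic P) (k b k' b' : ℕ) (s t s' t' : ℝ) :
    crs (nearE P k b s t) (nearE P k' b' s' t') ≤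
      2 * (2 * b + 1) * (2 * b' + 1) * (ActN P k b s t).card * (ActN P k' b' s' t').card := by
  refine (crs_nearE_le_sum k b k' b' s t s' t').trans ?_
  calc ∑ i ∈ lvls k b, ∑ i' ∈ lvls k' b', crs (kE P i s t) (kE P i' s' t')
      ≤ ∑ i ∈ lvls k b, ∑ i' ∈ lvls k' b',
          2 * (ActN P k b s t).card * (ActN P k' b' s' t').card := by
        refine Finset.sum_le_sum (fun i hi => Finset.sum_le_sum (fun i' hi' => ?_))
        refine (dey hP i i' s t s' t').trans ?_
        exact Nat.mul_le_mul (Nat.mul_le_mul_left 2 (Finset.card_le_card (Act_subset_ActN hi)))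
          (Finset.card_le_card (Act_subset_ActN hi'))
    _ = (lvls k b).card * ((lvls k' b').card *
          (2 * (ActN P k b s t).card * (ActN P k' b' s' t').card)) := by
        simp only [Finset.sum_const, smul_eq_mul]
    _ ≤ (2 * b + 1) * ((2 * b' + 1) *
          (2 * (ActN P k b s t).card * (ActN P k' b' s' t').card)) := by
        exact Nat.mul_le_mul (card_lvls_le k b) (Nat.mul_le_mul_right _ (card_lvls_le k' b'))
    _ = _ := by ring

/-- G2, near-`b` version with the constant `18`. -/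
theorem dey_near' {P : Finset Pt} (hP : Generic P) (k b k' b' : ℕ) (hb : 1 ≤ b) (hb' : 1 ≤ b')
    (s t s' t' : ℝ) :
    crs (nearE P k b s t) (nearE P k' b' s' t') ≤
      18 * b * b' * (ActN P k b s t).card * (ActN P k' b' s' t').card := by
  refine (dey_near hP k b k' b' s t s' t').trans ?_
  have h1 : 2 * b + 1 ≤ 3 * b := by omega
  have h2 : 2 * b' + 1 ≤ 3 * b' := by omega
  calc 2 * (2 * b + 1) * (2 * b' + 1) * (ActN P k b s t).card * (ActN P k' b' s' t').card
      ≤ 2 * (3 * b) * (3 * b') * (ActN P k b s t).card * (ActN P k' b' s' t').card := by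
        gcongr
    _ = _ := by ring

/-- The global version (all directions). -/
theorem dey_all {P : Finset Pt} (hP : Generic P) (k b k' b' : ℕ) (hb : 1 ≤ b) (hb' : 1 ≤ b') :
    crs (nearAll P k b) (nearAll P k' b') ≤ 18 * b * b' * P.card * P.card := by
  -- a window containing all slopes
  obtain ⟨s, hs⟩ : ∃ s, ∀ e ∈ pairs P, s < esl e := by
    rcases (pairs P).eq_empty_or_nonempty with h | h
    · exact ⟨0, by simp [h]⟩
    · obtain ⟨m, _, hm2⟩ := Finset.exists_min_image (pairs P) esl h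
      exact ⟨esl m - 1, fun e he => by have := hm2 e he; linarith⟩
  obtain ⟨t, ht⟩ : ∃ t, ∀ e ∈ pairs P, esl e < t := by
    rcases (pairs P).eq_empty_or_nonempty with h | h
    · exact ⟨0, by simp [h]⟩
    · obtain ⟨m, _, hm2⟩ := Finset.exists_max_image (pairs P) esl h
      exact ⟨esl m + 1, fun e he => by have := hm2 e he; linarith⟩
  have h1 : ∀ k b, nearAll P k b = nearE P k b s t := by
    intro k b
    ext e
    rw [mem_nearAll, mem_nearE]
    constructor
    · rintro ⟨h1, h2⟩; exact ⟨h1, hs e h1, ht e h1, h2⟩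
    · rintro ⟨h1, _, _, h2⟩; exact ⟨h1, h2⟩
  rw [h1, h1]
  refine (dey_near' hP k b k' b' hb hb' s t s t).trans ?_
  have h2 : ∀ k b, ActN P k b s t ⊆ P := by
    intro k b p hp
    obtain ⟨e, he, h3⟩ := mem_ends.mp hp
    have h4 := mem_pairs.mp (mem_nearE.mp he).1
    rcases h3 with h3 | h3
    · rw [← h3]; exact h4.1
    · rw [← h3]; exact h4.2.1
  gcongr
  · exact h2 k b
  · exact h2 k' b'

end Crest.Agent.R51
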