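import Crest.Agent.R51.CrossStr
import Crest.Agent.R51.CrossTwo

/-!
# Row 51, B6, section 6.4: from stars to the final configuration (helper57)

Pure counting: `G` a set of pairs of a generic `P`, every good `v` has many triples
`(p₁,p₂,p₃)` of left neighbours and many right neighbours `q`.  Then some triple
`(p₁,p₂,p₃)` belongs to `≥ c₅ D` of the `v`.
-/

set_option autoImplicit false

noncomputable section

open Classical

namespace Crest.Agent.R51.Final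

/-- counting by a map with an injection of each fibre into a small set -/
lemma count_gen {α β γ : Type*} (T : Finset α) (φ : α → β) (E : Finset β)
    (ψ : α → γ) (Γ : β → Finset γ) (n : ℝ) (hn : 0 ≤ n)
    (h1 : ∀ z ∈ T, φ z ∈ E) (h2 : ∀ z ∈ T, ψ z ∈ Γ (φ z))
    (h3 : ∀ z ∈ T, ((Γ (φ z)).card : ℝ) ≤ n)
    (hinj : ∀ z ∈ T, ∀ z' ∈ T, φ z = φ z' → ψ z = ψ z' → z = z') :
    (T.card : ℝ) ≤ n * E.card := by
  rw [Finset.card_eq_sum_card_fiberwise (f := φ) (t := E) (fun z hz => h1 z (Finset.mem_coe.1 hz))]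
  push_cast
  calc ∑ b ∈ E, ((T.filter (fun z => φ z = b)).card : ℝ) ≤ ∑ _b ∈ E, n := by
        refine Finset.sum_le_sum (fun b _ => ?_)
        by_cases hne : (T.filter (fun z => φ z = b)).Nonempty
        · obtain ⟨z0, hz0⟩ := hne
          rw [Finset.mem_filter] at hz0
          have hc : (T.filter (fun z => φ z = b)).card ≤ (Γ b).card := by
            refine Finset.card_le_card_of_injOn ψ ?_ ?_
            · intro z hz
              have hz' := Finset.mem_filter.1 (Finset.mem_coe.1 hz)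
              have := h2 z hz'.1
              rw [hz'.2] at this
              exact Finset.mem_coe.2 this
            · intro z hz z' hz' he
              have hz1 := Finset.mem_filter.1 (Finset.mem_coe.1 hz)
              have hz2 := Finset.mem_filter.1 (Finset.mem_coe.1 hz')
              exact hinj z hz1.1 z' hz2.1 (hz1.2.trans hz2.2.symm) he
          have h4 := h3 z0 hz0.1
          rw [hz0.2] at h4
          exact le_trans (by exact_mod_cast hc) h4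
        · rw [Finset.not_nonempty_iff_eq_empty] at hne
          rw [hne]; simpa using hn
    _ = n * E.card := by rw [Finset.sum_const, nsmul_eq_mul, mul_comm]

/-- degree -/
def deg (G : Finset Edge) (w : Pt) : ℕ := (G.filter (fun e => e.1 = w ∨ e.2 = w)).card

/-- left neighbours -/
def ln (P : Finset Pt) (G : Finset Edge) (v : Pt) : Finset Pt := P.filter (fun p => (p, v) ∈ G)

/-- right neighbours -/
def rn (P : Finset Pt) (G : Finset Edge) (v : Pt) : Finset Pt := P.filter (fun q => (v, q) ∈ G)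

variable {P : Finset Pt} {G : Finset Edge}

lemma card_ln_le (v : Pt) : (ln P G v).card ≤ deg G v := by
  refine Finset.card_le_card_of_injOn (fun p => (p, v)) ?_ ?_
  · intro p hp
    have := (Finset.mem_filter.1 (Finset.mem_coe.1 hp)).2
    exact Finset.mem_coe.2 (Finset.mem_filter.2 ⟨this, Or.inr rfl⟩)
  · intro p _ q _ h
    exact (Prod.ext_iff.1 h).1

lemma card_rn_le (v : Pt) : (rn P G v).card ≤ deg G v := by
  refine Finset.card_le_card_of_injOn (fun q => (v, q)) ?_ ?_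
  · intro p hp
    have := (Finset.mem_filter.1 (Finset.mem_coe.1 hp)).2
    exact Finset.mem_coe.2 (Finset.mem_filter.2 ⟨this, Or.inl rfl⟩)
  · intro p _ q _ h
    exact (Prod.ext_iff.1 h).2

lemma sum_fib_le (Z : Finset Pt) (f : Edge → Pt) :
    ∑ p ∈ Z, (G.filter (fun e => f e = p)).card ≤ G.card := by
  rw [← Finset.card_biUnion]
  · exact Finset.card_le_card (by
      intro e he
      obtain ⟨p, _, hp⟩ := Finset.mem_biUnion.1 he
      exact (Finset.mem_filter.1 hp).1)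
  · intro p _ q _ hpq
    refine Finset.disjoint_left.2 (fun e h1 h2 => hpq ?_)
    rw [← (Finset.mem_filter.1 h1).2, ← (Finset.mem_filter.1 h2).2]

lemma sum_deg_le (Z : Finset Pt) : ∑ p ∈ Z, deg G p ≤ 2 * G.card := by
  have h1 := sum_fib_le (G := G) Z Prod.fst
  have h2 := sum_fib_le (G := G) Z Prod.snd
  calc ∑ p ∈ Z, deg G p
      ≤ ∑ p ∈ Z, ((G.filter (fun e => e.1 = p)).card + (G.filter (fun e => e.2 = p)).card) := by
        refine Finset.sum_le_sum (fun p _ => ?_)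
        unfold deg
        rw [Finset.filter_or]
        exact Finset.card_union_le _ _
    _ ≤ 2 * G.card := by rw [Finset.sum_add_distrib]; omega

/-- Markov for degrees -/
lemma card_high_le (Z : Finset Pt) (lam : ℝ) (_hlam : 0 ≤ lam) :
    ((Z.filter (fun p => ⌊lam⌋₊ < deg G p)).card : ℝ) * lam ≤ 2 * G.card := by
  have h1 := sum_deg_le (G := G) (Z.filter (fun p => ⌊lam⌋₊ < deg G p))
  have h2 : ∑ _p ∈ Z.filter (fun p => ⌊lam⌋₊ < deg G p), lam
      ≤ ∑ p ∈ Z.filter (fun p => ⌊lam⌋₊ < deg G p), (deg G p : ℝ) := by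
    refine Finset.sum_le_sum (fun p hp => ?_)
    have := (Finset.mem_filter.1 hp).2
    exact (Nat.lt_of_floor_lt this).le
  rw [Finset.sum_const, nsmul_eq_mul] at h2
  refine h2.trans ?_
  rw [← Nat.cast_sum]
  exact_mod_cast h1

lemma crs_mono {E E' : Finset Edge} (h : E ⊆ E') : crs E E ≤ crs E' E' := by
  unfold crs
  exact Finset.card_le_card (Finset.filter_subset_filter _ (Finset.product_subset_product h h))

/-- 5-tuples `(v; p₁,p₂,p₃; q)` -/
def Tup (P : Finset Pt) (G : Finset Edge) (V : Finset Pt) (S : Pt → Finset (Pt × Pt × Pt)) :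
    Finset (Pt × (Pt × Pt × Pt) × Pt) :=
  (V ×ˢ ((P ×ˢ (P ×ˢ P)) ×ˢ P)).filter (fun z => z.2.1 ∈ S z.1 ∧ (z.1, z.2.2) ∈ G)

variable {V : Finset Pt} {S : Pt → Finset (Pt × Pt × Pt)}

lemma mem_Tup (hG : G ⊆ pairs P)
    (hS : ∀ v ∈ V, ∀ t ∈ S v, (t.1, v) ∈ G ∧ (t.2.1, v) ∈ G ∧ (t.2.2, v) ∈ G)
    {z : Pt × (Pt × Pt × Pt) × Pt} :
    z ∈ Tup P G V S ↔ z.1 ∈ V ∧ z.2.1 ∈ S z.1 ∧ (z.1, z.2.2) ∈ G := by
  unfold Tup
  simp only [Finset.mem_filter, Finset.mem_product]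
  constructor
  · rintro ⟨⟨h1, _⟩, h2, h3⟩
    exact ⟨h1, h2, h3⟩
  · rintro ⟨h1, h2, h3⟩
    obtain ⟨a, b, c⟩ := hS _ h1 _ h2
    exact ⟨⟨h1, ⟨(mem_pairs.1 (hG a)).1, (mem_pairs.1 (hG b)).1, (mem_pairs.1 (hG c)).1⟩,
      (mem_pairs.1 (hG h3)).2.1⟩, h2, h3⟩

lemma tup_lower (hG : G ⊆ pairs P)
    (hS : ∀ v ∈ V, ∀ t ∈ S v, (t.1, v) ∈ G ∧ (t.2.1, v) ∈ G ∧ (t.2.2, v) ∈ G)
    {s r : ℝ} (_hs0 : 0 ≤ s) (hr0 : 0 ≤ r) (hs : ∀ v ∈ V, s ≤ (S v).card)
    (hr : ∀ v ∈ V, r ≤ (G.filter (fun e => e.1 = v)).card) :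
    V.card * (s * r) ≤ ((Tup P G V S).card : ℝ) := by
  have h1 : (Tup P G V S).card
      = ∑ v ∈ V, ((Tup P G V S).filter (fun z => z.1 = v)).card :=
    Finset.card_eq_sum_card_fiberwise
      (fun z hz => ((mem_Tup hG hS).1 (Finset.mem_coe.1 hz)).1)
  rw [h1]
  push_cast
  have h0 : (V.card : ℝ) * (s * r) = ∑ _v ∈ V, s * r := by
    rw [Finset.sum_const, nsmul_eq_mul]
  rw [h0]
  refine Finset.sum_le_sum (fun v hv => ?_)
  have h2 : ((S v) ×ˢ (G.filter (fun e => e.1 = v))).card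
      ≤ ((Tup P G V S).filter (fun z => z.1 = v)).card := by
    refine Finset.card_le_card_of_injOn (fun y => (v, y.1, y.2.2)) ?_ ?_
    · intro y hy
      have hy' := Finset.mem_product.1 (Finset.mem_coe.1 hy)
      have hy2 := Finset.mem_filter.1 hy'.2
      refine Finset.mem_coe.2 (Finset.mem_filter.2 ⟨(mem_Tup hG hS).2 ⟨hv, hy'.1, ?_⟩, rfl⟩)
      have : (v, y.2.2) = y.2 := Prod.ext hy2.2.symm rfl
      show (v, y.2.2) ∈ G
      rw [this]; exact hy2.1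
    · intro y hy y' hy' he
      have a := (Finset.mem_filter.1 (Finset.mem_product.1 (Finset.mem_coe.1 hy)).2).2
      have b := (Finset.mem_filter.1 (Finset.mem_product.1 (Finset.mem_coe.1 hy')).2).2
      have he' := Prod.ext_iff.1 he
      have he2 := Prod.ext_iff.1 he'.2
      exact Prod.ext he2.1 (Prod.ext (a.trans b.symm) he2.2)
  rw [Finset.card_product] at h2
  calc s * r ≤ ((S v).card : ℝ) * ((G.filter (fun e => e.1 = v)).card : ℝ) :=
        mul_le_mul (hs v hv) (hr v hv) hr0 (by positivity)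
    _ ≤ _ := by exact_mod_cast h2

/-- tuples with one of the four edges in `E` -/
lemma bad_edge (hG : G ⊆ pairs P)
    (hS : ∀ v ∈ V, ∀ t ∈ S v, (t.1, v) ∈ G ∧ (t.2.1, v) ∈ G ∧ (t.2.2, v) ∈ G)
    (La : ℕ) (hlow : ∀ v ∈ V, deg G v ≤ La) (E : Finset Edge) :
    (((Tup P G V S).filter (fun z => (z.2.1.1, z.1) ∈ E)).card : ℝ) ≤ (La : ℝ) ^ 3 * E.card ∧
    (((Tup P G V S).filter (fun z => (z.2.1.2.1, z.1) ∈ E)).card : ℝ) ≤ (La : ℝ) ^ 3 * E.card ∧
    (((Tup P G V S).filter (fun z => (z.2.1.2.2, z.1) ∈ E)).card : ℝ) ≤ (La : ℝ) ^ 3 * E.card ∧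
    (((Tup P G V S).filter (fun z => (z.1, z.2.2) ∈ E)).card : ℝ) ≤ (La : ℝ) ^ 3 * E.card := by
  have hl : ∀ v ∈ V, (ln P G v).card ≤ La := fun v hv => (card_ln_le v).trans (hlow v hv)
  have hr : ∀ v ∈ V, (rn P G v).card ≤ La := fun v hv => (card_rn_le v).trans (hlow v hv)
  have key : ∀ z ∈ Tup P G V S, z.1 ∈ V ∧ z.2.1.1 ∈ ln P G z.1 ∧ z.2.1.2.1 ∈ ln P G z.1 ∧
      z.2.1.2.2 ∈ ln P G z.1 ∧ z.2.2 ∈ rn P G z.1 := by
    intro z hz
    obtain ⟨h1, h2, h3⟩ := (mem_Tup hG hS).1 hz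
    obtain ⟨a, b, c⟩ := hS _ h1 _ h2
    exact ⟨h1, Finset.mem_filter.2 ⟨(mem_pairs.1 (hG a)).1, a⟩,
      Finset.mem_filter.2 ⟨(mem_pairs.1 (hG b)).1, b⟩,
      Finset.mem_filter.2 ⟨(mem_pairs.1 (hG c)).1, c⟩,
      Finset.mem_filter.2 ⟨(mem_pairs.1 (hG h3)).2.1, h3⟩⟩
  refine ⟨?_, ?_, ?_, ?_⟩
  · refine count_gen _ (fun z => (z.2.1.1, z.1)) E (fun z => (z.2.1.2.1, z.2.1.2.2, z.2.2))
      (fun e => (ln P G e.2) ×ˢ ((ln P G e.2) ×ˢ (rn P G e.2))) _ (by positivity) ?_ ?_ ?_ ?_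
    · intro z hz; exact (Finset.mem_filter.1 hz).2
    · intro z hz
      obtain ⟨_, _, a2, a3, a4⟩ := key z (Finset.mem_filter.1 hz).1
      exact Finset.mem_product.2 ⟨a2, Finset.mem_product.2 ⟨a3, a4⟩⟩
    · intro z hz
      obtain ⟨a0, _⟩ := key z (Finset.mem_filter.1 hz).1
      rw [Finset.card_product, Finset.card_product]
      have h1 := hl _ a0
      have h2 := hr _ a0
      have : (ln P G z.1).card * ((ln P G z.1).card * (rn P G z.1).card) ≤ La * (La * La) :=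
        Nat.mul_le_mul h1 (Nat.mul_le_mul h1 h2)
      calc (((ln P G z.1).card * ((ln P G z.1).card * (rn P G z.1).card) : ℕ) : ℝ)
          ≤ ((La * (La * La) : ℕ) : ℝ) := by exact_mod_cast this
        _ = (La : ℝ) ^ 3 := by push_cast; ring
    · rintro ⟨v, ⟨p1, p2, p3⟩, q⟩ _ ⟨v', ⟨p1', p2', p3'⟩, q'⟩ _ h1 h2
      simp only [Prod.mk.injEq] at h1 h2
      obtain ⟨rfl, rfl⟩ := h1
      obtain ⟨rfl, rfl, rfl⟩ := h2
      rfl
  · refine count_gen _ (fun z => (z.2.1.2.1, z.1)) E (fun z => (z.2.1.1, z.2.1.2.2, z.2.2))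
      (fun e => (ln P G e.2) ×ˢ ((ln P G e.2) ×ˢ (rn P G e.2))) _ (by positivity) ?_ ?_ ?_ ?_
    · intro z hz; exact (Finset.mem_filter.1 hz).2
    · intro z hz
      obtain ⟨_, a1, _, a3, a4⟩ := key z (Finset.mem_filter.1 hz).1
      exact Finset.mem_product.2 ⟨a1, Finset.mem_product.2 ⟨a3, a4⟩⟩
    · intro z hz
      obtain ⟨a0, _⟩ := key z (Finset.mem_filter.1 hz).1
      rw [Finset.card_product, Finset.card_product]
      have h1 := hl _ a0
      have h2 := hr _ a0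
      have : (ln P G z.1).card * ((ln P G z.1).card * (rn P G z.1).card) ≤ La * (La * La) :=
        Nat.mul_le_mul h1 (Nat.mul_le_mul h1 h2)
      calc (((ln P G z.1).card * ((ln P G z.1).card * (rn P G z.1).card) : ℕ) : ℝ)
          ≤ ((La * (La * La) : ℕ) : ℝ) := by exact_mod_cast this
        _ = (La : ℝ) ^ 3 := by push_cast; ring
    · rintro ⟨v, ⟨p1, p2, p3⟩, q⟩ _ ⟨v', ⟨p1', p2', p3'⟩, q'⟩ _ h1 h2
      simp only [Prod.mk.injEq] at h1 h2
      obtain ⟨rfl, rfl⟩ := h1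
      obtain ⟨rfl, rfl, rfl⟩ := h2
      rfl
  · refine count_gen _ (fun z => (z.2.1.2.2, z.1)) E (fun z => (z.2.1.1, z.2.1.2.1, z.2.2))
      (fun e => (ln P G e.2) ×ˢ ((ln P G e.2) ×ˢ (rn P G e.2))) _ (by positivity) ?_ ?_ ?_ ?_
    · intro z hz; exact (Finset.mem_filter.1 hz).2
    · intro z hz
      obtain ⟨_, a1, a2, _, a4⟩ := key z (Finset.mem_filter.1 hz).1
      exact Finset.mem_product.2 ⟨a1, Finset.mem_product.2 ⟨a2, a4⟩⟩
    · intro z hz
      obtain ⟨a0, _⟩ := key z (Finset.mem_filter.1 hz).1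
      rw [Finset.card_product, Finset.card_product]
      have h1 := hl _ a0
      have h2 := hr _ a0
      have : (ln P G z.1).card * ((ln P G z.1).card * (rn P G z.1).card) ≤ La * (La * La) :=
        Nat.mul_le_mul h1 (Nat.mul_le_mul h1 h2)
      calc (((ln P G z.1).card * ((ln P G z.1).card * (rn P G z.1).card) : ℕ) : ℝ)
          ≤ ((La * (La * La) : ℕ) : ℝ) := by exact_mod_cast this
        _ = (La : ℝ) ^ 3 := by push_cast; ring
    · rintro ⟨v, ⟨p1, p2, p3⟩, q⟩ _ ⟨v', ⟨p1', p2', p3'⟩, q'⟩ _ h1 h2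
      simp only [Prod.mk.injEq] at h1 h2
      obtain ⟨rfl, rfl⟩ := h1
      obtain ⟨rfl, rfl, rfl⟩ := h2
      rfl
  · refine count_gen _ (fun z => (z.1, z.2.2)) E (fun z => z.2.1)
      (fun e => (ln P G e.1) ×ˢ ((ln P G e.1) ×ˢ (ln P G e.1))) _ (by positivity) ?_ ?_ ?_ ?_
    · intro z hz; exact (Finset.mem_filter.1 hz).2
    · intro z hz
      obtain ⟨_, a1, a2, a3, _⟩ := key z (Finset.mem_filter.1 hz).1
      exact Finset.mem_product.2 ⟨a1, Finset.mem_product.2 ⟨a2, a3⟩⟩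
    · intro z hz
      obtain ⟨a0, _⟩ := key z (Finset.mem_filter.1 hz).1
      rw [Finset.card_product, Finset.card_product]
      have h1 := hl _ a0
      have : (ln P G z.1).card * ((ln P G z.1).card * (ln P G z.1).card) ≤ La * (La * La) :=
        Nat.mul_le_mul h1 (Nat.mul_le_mul h1 h1)
      calc (((ln P G z.1).card * ((ln P G z.1).card * (ln P G z.1).card) : ℕ) : ℝ)
          ≤ ((La * (La * La) : ℕ) : ℝ) := by exact_mod_cast this
        _ = (La : ℝ) ^ 3 := by push_cast; ring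
    · rintro ⟨v, t, q⟩ _ ⟨v', t', q'⟩ _ h1 h2
      simp only [Prod.mk.injEq] at h1 h2
      obtain ⟨rfl, rfl⟩ := h1
      subst h2
      rfl

/-- tuples with one of the three 2-paths in `Hb` -/
lemma bad_path (hG : G ⊆ pairs P)
    (hS : ∀ v ∈ V, ∀ t ∈ S v, (t.1, v) ∈ G ∧ (t.2.1, v) ∈ G ∧ (t.2.2, v) ∈ G)
    (La : ℕ) (hlow : ∀ v ∈ V, deg G v ≤ La) (Hb : Finset (Pt × Pt × Pt)) :
    (((Tup P G V S).filter (fun z => (z.2.1.1, z.1, z.2.2) ∈ Hb)).card : ℝ)
      ≤ (La : ℝ) ^ 2 * Hb.card ∧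
    (((Tup P G V S).filter (fun z => (z.2.1.2.1, z.1, z.2.2) ∈ Hb)).card : ℝ)
      ≤ (La : ℝ) ^ 2 * Hb.card ∧
    (((Tup P G V S).filter (fun z => (z.2.1.2.2, z.1, z.2.2) ∈ Hb)).card : ℝ)
      ≤ (La : ℝ) ^ 2 * Hb.card := by
  have hl : ∀ v ∈ V, (ln P G v).card ≤ La := fun v hv => (card_ln_le v).trans (hlow v hv)
  have key : ∀ z ∈ Tup P G V S, z.1 ∈ V ∧ z.2.1.1 ∈ ln P G z.1 ∧ z.2.1.2.1 ∈ ln P G z.1 ∧
      z.2.1.2.2 ∈ ln P G z.1 := by
    intro z hz
    obtain ⟨h1, h2, h3⟩ := (mem_Tup hG hS).1 hz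
    obtain ⟨a, b, c⟩ := hS _ h1 _ h2
    exact ⟨h1, Finset.mem_filter.2 ⟨(mem_pairs.1 (hG a)).1, a⟩,
      Finset.mem_filter.2 ⟨(mem_pairs.1 (hG b)).1, b⟩,
      Finset.mem_filter.2 ⟨(mem_pairs.1 (hG c)).1, c⟩⟩
  have hcard : ∀ z ∈ Tup P G V S, (((ln P G z.1) ×ˢ (ln P G z.1)).card : ℝ) ≤ (La : ℝ) ^ 2 := by
    intro z hz
    obtain ⟨a0, _⟩ := key z hz
    rw [Finset.card_product]
    have h1 := hl _ a0
    calc (((ln P G z.1).card * (ln P G z.1).card : ℕ) : ℝ)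
        ≤ ((La * La : ℕ) : ℝ) := by exact_mod_cast Nat.mul_le_mul h1 h1
      _ = (La : ℝ) ^ 2 := by push_cast; ring
  refine ⟨?_, ?_, ?_⟩
  · refine count_gen _ (fun z => (z.2.1.1, z.1, z.2.2)) Hb (fun z => (z.2.1.2.1, z.2.1.2.2))
      (fun e => (ln P G e.2.1) ×ˢ (ln P G e.2.1)) _ (by positivity) ?_ ?_ ?_ ?_
    · intro z hz; exact (Finset.mem_filter.1 hz).2
    · intro z hz
      obtain ⟨_, _, a2, a3⟩ := key z (Finset.mem_filter.1 hz).1
      exact Finset.mem_product.2 ⟨a2, a3⟩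
    · intro z hz
      exact hcard z (Finset.mem_filter.1 hz).1
    · rintro ⟨v, ⟨p1, p2, p3⟩, q⟩ _ ⟨v', ⟨p1', p2', p3'⟩, q'⟩ _ h1 h2
      simp only [Prod.mk.injEq] at h1 h2
      obtain ⟨rfl, rfl, rfl⟩ := h1
      obtain ⟨rfl, rfl⟩ := h2
      rfl
  · refine count_gen _ (fun z => (z.2.1.2.1, z.1, z.2.2)) Hb (fun z => (z.2.1.1, z.2.1.2.2))
      (fun e => (ln P G e.2.1) ×ˢ (ln P G e.2.1)) _ (by positivity) ?_ ?_ ?_ ?_
    · intro z hz; exact (Finset.mem_filter.1 hz).2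
    · intro z hz
      obtain ⟨_, a1, _, a3⟩ := key z (Finset.mem_filter.1 hz).1
      exact Finset.mem_product.2 ⟨a1, a3⟩
    · intro z hz
      exact hcard z (Finset.mem_filter.1 hz).1
    · rintro ⟨v, ⟨p1, p2, p3⟩, q⟩ _ ⟨v', ⟨p1', p2', p3'⟩, q'⟩ _ h1 h2
      simp only [Prod.mk.injEq] at h1 h2
      obtain ⟨rfl, rfl, rfl⟩ := h1
      obtain ⟨rfl, rfl⟩ := h2
      rfl
  · refine count_gen _ (fun z => (z.2.1.2.2, z.1, z.2.2)) Hb (fun z => (z.2.1.1, z.2.1.2.1))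
      (fun e => (ln P G e.2.1) ×ˢ (ln P G e.2.1)) _ (by positivity) ?_ ?_ ?_ ?_
    · intro z hz; exact (Finset.mem_filter.1 hz).2
    · intro z hz
      obtain ⟨_, a1, a2, _⟩ := key z (Finset.mem_filter.1 hz).1
      exact Finset.mem_product.2 ⟨a1, a2⟩
    · intro z hz
      exact hcard z (Finset.mem_filter.1 hz).1
    · rintro ⟨v, ⟨p1, p2, p3⟩, q⟩ _ ⟨v', ⟨p1', p2', p3'⟩, q'⟩ _ h1 h2
      simp only [Prod.mk.injEq] at h1 h2
      obtain ⟨rfl, rfl, rfl⟩ := h1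
      obtain ⟨rfl, rfl⟩ := h2
      rfl

/-- the low part of `G` -/
def Glow (G : Finset Edge) (L : ℕ) : Finset Edge :=
  G.filter (fun e => deg G e.1 ≤ L ∧ deg G e.2 ≤ L)

/-- the edges with a high end -/
def Ghigh (G : Finset Edge) (L : ℕ) : Finset Edge :=
  G.filter (fun e => L < deg G e.1 ∨ L < deg G e.2)

lemma deg_Glow_le (L : ℕ) (p : Pt) : deg (Glow G L) p ≤ L := by
  by_cases hne : ((Glow G L).filter (fun e => e.1 = p ∨ e.2 = p)).Nonempty
  · obtain ⟨e, he⟩ := hne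
    rw [Finset.mem_filter] at he
    have h1 : deg G p ≤ L := by
      have := (Finset.mem_filter.1 he.1).2
      rcases he.2 with h | h
      · rw [← h]; exact this.1
      · rw [← h]; exact this.2
    refine le_trans ?_ h1
    exact Finset.card_le_card (Finset.filter_subset_filter _ (Finset.filter_subset _ _))
  · rw [Finset.not_nonempty_iff_eq_empty] at hne
    unfold deg
    rw [hne]; simp

lemma high_or_low (L : ℕ) {e : Edge} (he : e ∈ G) (h : e ∉ Ghigh G L) : e ∈ Glow G L := by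
  unfold Ghigh at h
  unfold Glow
  rw [Finset.mem_filter] at h ⊢
  refine ⟨he, ?_⟩
  by_contra h'
  apply h
  refine ⟨he, ?_⟩
  rw [not_and_or, not_le, not_le] at h'
  exact h'

/-- 2-paths -/
def pth (P : Finset Pt) (G : Finset Edge) : Finset (Pt × Pt × Pt) :=
  (P ×ˢ (P ×ˢ P)).filter (fun h => (h.1, h.2.1) ∈ G ∧ (h.2.1, h.2.2) ∈ G)

lemma mem_pth (hG : G ⊆ pairs P) {h : Pt × Pt × Pt} :
    h ∈ pth P G ↔ (h.1, h.2.1) ∈ G ∧ (h.2.1, h.2.2) ∈ G := by
  unfold pth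
  simp only [Finset.mem_filter, Finset.mem_product]
  constructor
  · rintro ⟨_, h⟩; exact h
  · rintro ⟨h1, h2⟩
    have a := mem_pairs.1 (hG h1)
    have b := mem_pairs.1 (hG h2)
    exact ⟨⟨a.1, a.2.1, b.2.1⟩, h1, h2⟩

/-- number of middle points -/
def codeg (P : Finset Pt) (G : Finset Edge) (x y : Pt) : ℕ :=
  ((pth P G).filter (fun h => h.1 = x ∧ h.2.2 = y)).card

/-- 2-paths of small codegree -/
def Hbad (P : Finset Pt) (G : Finset Edge) (m : ℕ) : Finset (Pt × Pt × Pt) :=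
  (pth P G).filter (fun h => codeg P G h.1 h.2.2 ≤ m)

lemma Hbad_end (m : ℕ) (x y : Pt) :
    ((Hbad P G m).filter (fun h => h.1 = x ∧ h.2.2 = y)).card ≤ m := by
  by_cases hne : ((Hbad P G m).filter (fun h => h.1 = x ∧ h.2.2 = y)).Nonempty
  · obtain ⟨h, hh⟩ := hne
    rw [Finset.mem_filter] at hh
    have h1 := (Finset.mem_filter.1 hh.1).2
    rw [hh.2.1, hh.2.2] at h1
    refine le_trans ?_ h1
    exact Finset.card_le_card (Finset.filter_subset_filter _ (Finset.filter_subset _ _))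
  · rw [Finset.not_nonempty_iff_eq_empty] at hne
    rw [hne]; simp

/-- points of large codegree with `q` -/
def Tq (P : Finset Pt) (G : Finset Edge) (m : ℕ) (q : Pt) : Finset Pt :=
  P.filter (fun p => m < codeg P G p q)

lemma card_Tq_le (hG : G ⊆ pairs P) (L m : ℕ) (hL : ∀ p, deg G p ≤ L) (q : Pt) :
    ((Tq P G m q).card : ℝ) * (m + 1) ≤ (L : ℝ) ^ 2 := by
  have h1 : ((Tq P G m q).card) * (m + 1)
      ≤ ((pth P G).filter (fun h => h.2.2 = q)).card := by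
    have h2 : ∑ p ∈ Tq P G m q, codeg P G p q
        ≤ ((pth P G).filter (fun h => h.2.2 = q)).card := by
      unfold codeg
      rw [← Finset.card_biUnion]
      · refine Finset.card_le_card (fun h hh => ?_)
        obtain ⟨p, _, hp⟩ := Finset.mem_biUnion.1 hh
        rw [Finset.mem_filter] at hp ⊢
        exact ⟨hp.1, hp.2.2⟩
      · intro p _ p' _ hpp
        refine Finset.disjoint_left.2 (fun h h1 h2 => hpp ?_)
        rw [← (Finset.mem_filter.1 h1).2.1, ← (Finset.mem_filter.1 h2).2.1]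
    refine le_trans ?_ h2
    rw [← smul_eq_mul, ← Finset.sum_const]
    refine Finset.sum_le_sum (fun p hp => ?_)
    exact (Finset.mem_filter.1 hp).2
  have h3 : (((pth P G).filter (fun h => h.2.2 = q)).card : ℝ) ≤ (L : ℝ) * (ln P G q).card := by
    refine count_gen _ (fun h => h.2.1) (ln P G q) (fun h => h.1) (fun v => ln P G v) _
      (by positivity) ?_ ?_ ?_ ?_
    · intro h hh
      rw [Finset.mem_filter, mem_pth hG] at hh
      rw [hh.2] at hh
      exact Finset.mem_filter.2 ⟨(mem_pairs.1 (hG hh.1.1)).2.1, hh.1.2⟩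
    · intro h hh
      rw [Finset.mem_filter, mem_pth hG] at hh
      exact Finset.mem_filter.2 ⟨(mem_pairs.1 (hG hh.1.1)).1, hh.1.1⟩
    · intro h _
      exact_mod_cast (card_ln_le _).trans (hL _)
    · rintro ⟨p, v, q1⟩ h1 ⟨p', v', q2⟩ h2 e1 e2
      rw [Finset.mem_filter] at h1 h2
      have a := h1.2
      have b := h2.2
      simp only at a b e1 e2
      subst a b e1 e2
      rfl
  have h4 : ((ln P G q).card : ℝ) ≤ L := by exact_mod_cast (card_ln_le _).trans (hL _)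
  calc ((Tq P G m q).card : ℝ) * (m + 1)
      = (((Tq P G m q).card * (m + 1) : ℕ) : ℝ) := by push_cast; ring
    _ ≤ (((pth P G).filter (fun h => h.2.2 = q)).card : ℝ) := by exact_mod_cast h1
    _ ≤ (L : ℝ) * (ln P G q).card := h3
    _ ≤ (L : ℝ) * L := mul_le_mul_of_nonneg_left h4 (by positivity)
    _ = (L : ℝ) ^ 2 := by ring

/-- the good tuples -/
def Tgood (P : Finset Pt) (G : Finset Edge) (V : Finset Pt) (S : Pt → Finset (Pt × Pt × Pt))
    (L m : ℕ) : Finset (Pt × (Pt × Pt × Pt) × Pt) :=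
  (Tup P G V S).filter (fun z => z.2.1.1 ∈ Tq P (Glow G L) m z.2.2 ∧
    z.2.1.2.1 ∈ Tq P (Glow G L) m z.2.2 ∧ z.2.1.2.2 ∈ Tq P (Glow G L) m z.2.2)

lemma Tup_le (hG : G ⊆ pairs P)
    (hS : ∀ v ∈ V, ∀ t ∈ S v, (t.1, v) ∈ G ∧ (t.2.1, v) ∈ G ∧ (t.2.2, v) ∈ G)
    (La L m : ℕ) (hlow : ∀ v ∈ V, deg G v ≤ La) :
    ((Tup P G V S).card : ℝ) ≤ 4 * ((La : ℝ) ^ 3 * (Ghigh G L).card)
      + 3 * ((La : ℝ) ^ 2 * (Hbad P (Glow G L) m).card) + (Tgood P G V S L m).card := by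
  have hGl : Glow G L ⊆ pairs P := (Finset.filter_subset _ _).trans hG
  obtain ⟨a1, a2, a3, a4⟩ := bad_edge hG hS La hlow (Ghigh G L)
  obtain ⟨b1, b2, b3⟩ := bad_path hG hS La hlow (Hbad P (Glow G L) m)
  set A1 := (Tup P G V S).filter (fun z => (z.2.1.1, z.1) ∈ Ghigh G L)
  set A2 := (Tup P G V S).filter (fun z => (z.2.1.2.1, z.1) ∈ Ghigh G L)
  set A3 := (Tup P G V S).filter (fun z => (z.2.1.2.2, z.1) ∈ Ghigh G L)
  set A4 := (Tup P G V S).filter (fun z => (z.1, z.2.2) ∈ Ghigh G L)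
  set B1 := (Tup P G V S).filter (fun z => (z.2.1.1, z.1, z.2.2) ∈ Hbad P (Glow G L) m)
  set B2 := (Tup P G V S).filter (fun z => (z.2.1.2.1, z.1, z.2.2) ∈ Hbad P (Glow G L) m)
  set B3 := (Tup P G V S).filter (fun z => (z.2.1.2.2, z.1, z.2.2) ∈ Hbad P (Glow G L) m)
  have hsub : Tup P G V S ⊆ A1 ∪ (A2 ∪ (A3 ∪ (A4 ∪ (B1 ∪ (B2 ∪ (B3 ∪ Tgood P G V S L m)))))) := by
    intro z hz
    by_cases c1 : z ∈ A1
    · exact Finset.mem_union_left _ c1
    refine Finset.mem_union_right _ ?_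
    by_cases c2 : z ∈ A2
    · exact Finset.mem_union_left _ c2
    refine Finset.mem_union_right _ ?_
    by_cases c3 : z ∈ A3
    · exact Finset.mem_union_left _ c3
    refine Finset.mem_union_right _ ?_
    by_cases c4 : z ∈ A4
    · exact Finset.mem_union_left _ c4
    refine Finset.mem_union_right _ ?_
    by_cases d1 : z ∈ B1
    · exact Finset.mem_union_left _ d1
    refine Finset.mem_union_right _ ?_
    by_cases d2 : z ∈ B2
    · exact Finset.mem_union_left _ d2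
    refine Finset.mem_union_right _ ?_
    by_cases d3 : z ∈ B3
    · exact Finset.mem_union_left _ d3
    refine Finset.mem_union_right _ ?_
    obtain ⟨h1, h2, h3⟩ := (mem_Tup hG hS).1 hz
    obtain ⟨e1, e2, e3⟩ := hS _ h1 _ h2
    have f1 : (z.2.1.1, z.1) ∈ Glow G L :=
      high_or_low L e1 (fun h => c1 (Finset.mem_filter.2 ⟨hz, h⟩))
    have f2 : (z.2.1.2.1, z.1) ∈ Glow G L :=
      high_or_low L e2 (fun h => c2 (Finset.mem_filter.2 ⟨hz, h⟩))
    have f3 : (z.2.1.2.2, z.1) ∈ Glow G L :=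
      high_or_low L e3 (fun h => c3 (Finset.mem_filter.2 ⟨hz, h⟩))
    have f4 : (z.1, z.2.2) ∈ Glow G L :=
      high_or_low L h3 (fun h => c4 (Finset.mem_filter.2 ⟨hz, h⟩))
    have aux : ∀ p : Pt, (p, z.1) ∈ Glow G L → (p, z.1, z.2.2) ∉ Hbad P (Glow G L) m →
        p ∈ Tq P (Glow G L) m z.2.2 := by
      intro p hp hnb
      refine Finset.mem_filter.2 ⟨(mem_pairs.1 (hGl hp)).1, ?_⟩
      by_contra hc
      apply hnb
      exact Finset.mem_filter.2 ⟨(mem_pth hGl).2 ⟨hp, f4⟩, not_lt.1 hc⟩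
    exact Finset.mem_filter.2 ⟨hz,
      aux _ f1 (fun h => d1 (Finset.mem_filter.2 ⟨hz, h⟩)),
      aux _ f2 (fun h => d2 (Finset.mem_filter.2 ⟨hz, h⟩)),
      aux _ f3 (fun h => d3 (Finset.mem_filter.2 ⟨hz, h⟩))⟩
  have hcard : (Tup P G V S).card ≤ A1.card + (A2.card + (A3.card + (A4.card + (B1.card
      + (B2.card + (B3.card + (Tgood P G V S L m).card)))))) := by
    refine (Finset.card_le_card hsub).trans ?_
    refine (Finset.card_union_le _ _).trans (Nat.add_le_add_left ?_ _)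
    refine (Finset.card_union_le _ _).trans (Nat.add_le_add_left ?_ _)
    refine (Finset.card_union_le _ _).trans (Nat.add_le_add_left ?_ _)
    refine (Finset.card_union_le _ _).trans (Nat.add_le_add_left ?_ _)
    refine (Finset.card_union_le _ _).trans (Nat.add_le_add_left ?_ _)
    refine (Finset.card_union_le _ _).trans (Nat.add_le_add_left ?_ _)
    exact Finset.card_union_le _ _
  have hcard' : ((Tup P G V S).card : ℝ) ≤ A1.card + (A2.card + (A3.card + (A4.card + (B1.card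
      + (B2.card + (B3.card + (Tgood P G V S L m).card)))))) := by exact_mod_cast hcard
  linarith

lemma Tgood_le (hG : G ⊆ pairs P)
    (hS : ∀ v ∈ V, ∀ t ∈ S v, (t.1, v) ∈ G ∧ (t.2.1, v) ∈ G ∧ (t.2.2, v) ∈ G)
    (L m : ℕ) (K : ℝ) (hK0 : 0 ≤ K)
    (hK : ∀ t : Pt × Pt × Pt, ((V.filter (fun v => t ∈ S v)).card : ℝ) ≤ K) :
    ((Tgood P G V S L m).card : ℝ) ≤ K * (P.card * ((L : ℝ) ^ 2 / (m + 1)) ^ 3) := by
  have hGl : Glow G L ⊆ pairs P := (Finset.filter_subset _ _).trans hG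
  set T := fun q => Tq P (Glow G L) m q
  set Pr : Finset ((Pt × Pt × Pt) × Pt) := ((P ×ˢ (P ×ˢ P)) ×ˢ P).filter
    (fun y => y.1.1 ∈ T y.2 ∧ y.1.2.1 ∈ T y.2 ∧ y.1.2.2 ∈ T y.2) with hPr
  have h1 : ((Tgood P G V S L m).card : ℝ) ≤ K * Pr.card := by
    refine count_gen _ (fun z => (z.2.1, z.2.2)) Pr (fun z => z.1)
      (fun y => V.filter (fun v => y.1 ∈ S v)) _ hK0 ?_ ?_ ?_ ?_
    · intro z hz
      have hz' := Finset.mem_filter.1 hz
      have hz2 := (Finset.mem_filter.1 hz'.1).1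
      exact Finset.mem_filter.2 ⟨(Finset.mem_product.1 hz2).2, hz'.2⟩
    · intro z hz
      have hz' := Finset.mem_filter.1 hz
      obtain ⟨h1, h2, h3⟩ := (mem_Tup hG hS).1 hz'.1
      exact Finset.mem_filter.2 ⟨h1, h2⟩
    · intro z _
      exact hK _
    · rintro ⟨v, t, q⟩ _ ⟨v', t', q'⟩ _ h1 h2
      simp only [Prod.mk.injEq] at h1 h2
      obtain ⟨rfl, rfl⟩ := h1
      subst h2
      rfl
  have h2 : (Pr.card : ℝ) ≤ P.card * ((L : ℝ) ^ 2 / (m + 1)) ^ 3 := by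
    have := count_gen Pr (fun y => y.2) P (fun y => y.1)
      (fun q => (T q) ×ˢ ((T q) ×ˢ (T q))) (((L : ℝ) ^ 2 / (m + 1)) ^ 3) (by positivity)
      (fun y hy => (Finset.mem_product.1 (Finset.mem_filter.1 hy).1).2)
      (fun y hy => by
        have := (Finset.mem_filter.1 hy).2
        exact Finset.mem_product.2 ⟨this.1, Finset.mem_product.2 ⟨this.2.1, this.2.2⟩⟩)
      (fun y _ => by
        have hT : ((T y.2).card : ℝ) ≤ (L : ℝ) ^ 2 / (m + 1) := by
          rw [le_div_iff₀ (by positivity)]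
          exact card_Tq_le hGl L m (deg_Glow_le L) y.2
        rw [Finset.card_product, Finset.card_product]
        push_cast
        have h0 : (0 : ℝ) ≤ (T y.2).card := by positivity
        calc ((T y.2).card : ℝ) * ((T y.2).card * (T y.2).card) = ((T y.2).card : ℝ) ^ 3 := by ring
          _ ≤ _ := pow_le_pow_left₀ h0 hT 3)
      (fun y _ y' _ h1 h2 => Prod.ext h2 h1)
    linarith
  exact h1.trans (mul_le_mul_of_nonneg_left h2 hK0)

lemma card_Ghigh (hP : Generic P) (hG : G ⊆ pairs P) (lam D CE CX : ℝ) (hlam : 0 < lam)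
    (hD : 0 < D)
    (hCE : (G.card : ℝ) ≤ CE * P.card * D) (hCX : (crs G G : ℝ) ≤ CX * P.card * D ^ 3) :
    ((Ghigh G ⌊lam * D⌋₊).card : ℝ) ≤ 72 * P.card ∨
    ((Ghigh G ⌊lam * D⌋₊).card : ℝ) ^ 3 ≤ 41472 * (CE * CX / lam) * (P.card * D) ^ 3 := by
  set L := ⌊lam * D⌋₊ with hL
  set Z := P.filter (fun p => L < deg G p) with hZ
  have hc := card_high_le (G := G) P (lam * D) (by positivity)
  have hZc : (Z.card : ℝ) ≤ 2 * CE / lam * P.card := by
    have h1 : (Z.card : ℝ) * (lam * D) ≤ 2 * (CE * P.card * D) := by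
      have : (Z.card : ℝ) * (lam * D) ≤ 2 * G.card := hc
      linarith
    have h2 : (Z.card : ℝ) * (lam * D) ≤ (2 * CE / lam * P.card) * (lam * D) := by
      have : (2 * CE / lam * P.card) * (lam * D) = 2 * (CE * P.card * D) := by
        field_simp
      rw [this]; exact h1
    exact le_of_mul_le_mul_right h2 (by positivity)
  have hsub : Ghigh G L ⊆ G := Finset.filter_subset _ _
  have h3 := crossing_lemma_unbalanced hP (A := P) (Z := Z) (Finset.Subset.refl _)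
    (Finset.filter_subset _ _) (E := Ghigh G L) (hsub.trans hG) (by
      intro e he
      have he' := Finset.mem_filter.1 he
      have hp := mem_pairs.1 (hG he'.1)
      rcases he'.2 with h | h
      · exact Or.inl (Finset.mem_filter.2 ⟨hp.1, h⟩)
      · exact Or.inr (Finset.mem_filter.2 ⟨hp.2.1, h⟩))
  rcases h3 with h3 | h3
  · exact Or.inl h3
  · right
    refine h3.trans ?_
    have h4 : (crs (Ghigh G L) (Ghigh G L) : ℝ) ≤ CX * P.card * D ^ 3 := by
      refine le_trans ?_ hCX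
      exact_mod_cast crs_mono hsub
    have h5 : (0 : ℝ) ≤ crs (Ghigh G L) (Ghigh G L) := by positivity
    have h6 : (0 : ℝ) ≤ 2 * CE / lam * P.card := le_trans (by positivity) hZc
    calc 20736 * (P.card : ℝ) * (Z.card : ℝ) * (crs (Ghigh G L) (Ghigh G L) : ℝ)
        ≤ 20736 * (P.card : ℝ) * (2 * CE / lam * P.card) * (CX * P.card * D ^ 3) := by
          refine mul_le_mul (mul_le_mul_of_nonneg_left hZc (by positivity)) h4 h5 (by positivity)
      _ = 41472 * (CE * CX / lam) * (P.card * D) ^ 3 := by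
          field_simp
          ring

lemma card_Hbad (hP : Generic P) (hG : G ⊆ pairs P) (lam c6 D CX : ℝ) (hlam : 0 < lam)
    (hc6 : 0 < c6) (hD : 1 ≤ D) (hcD : 1 ≤ c6 * D) (hCX0 : 0 < CX)
    (hCX : (crs G G : ℝ) ≤ CX * P.card * D ^ 3) :
    ((Hbad P (Glow G ⌊lam * D⌋₊) ⌊c6 * D⌋₊).card : ℝ) ≤ 288 * c6 * (P.card * D ^ 2) ∨
    ((Hbad P (Glow G ⌊lam * D⌋₊) ⌊c6 * D⌋₊).card : ℝ) ^ 3
      ≤ 331776 * c6 * (lam ^ 2 * CX + lam ^ 4) * (P.card * D ^ 2) ^ 3 := by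
  set L := ⌊lam * D⌋₊ with hL
  set m := ⌊c6 * D⌋₊ with hm
  have hGl : Glow G L ⊆ pairs P := (Finset.filter_subset _ _).trans hG
  have hm1 : 1 ≤ m := by
    rw [hm, Nat.one_le_floor_iff]; exact hcD
  have hmle : (m : ℝ) ≤ c6 * D := Nat.floor_le (by positivity)
  have hLle : (L : ℝ) ≤ lam * D := Nat.floor_le (by positivity)
  have h := lemmaH hP hGl (Λ := L) (fun p _ => deg_Glow_le L p) (H := Hbad P (Glow G L) m)
    (fun h hh => (mem_pth hGl).1 (Finset.mem_filter.1 hh).1) hm1 (Hbad_end m)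
  have hN : (0 : ℝ) ≤ P.card := by positivity
  rcases h with h | h
  · left
    refine h.trans ?_
    calc 288 * (m : ℝ) * P.card ≤ 288 * (c6 * D) * P.card := by gcongr
      _ ≤ 288 * c6 * (P.card * D ^ 2) := by
        have : D ≤ D ^ 2 := by nlinarith
        have h2 : 288 * (c6 * D) * P.card = 288 * c6 * (P.card * D) := by ring
        rw [h2]
        gcongr
  · right
    refine h.trans ?_
    have h4 : (crs (Glow G L) (Glow G L) : ℝ) ≤ CX * P.card * D ^ 3 := by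
      refine le_trans ?_ hCX
      exact_mod_cast crs_mono (Finset.filter_subset _ _)
    have h5 : (0 : ℝ) ≤ crs (Glow G L) (Glow G L) := by positivity
    have hL0 : (0 : ℝ) ≤ L := by positivity
    calc 331776 * (m : ℝ) * (P.card : ℝ) ^ 2 *
          ((L : ℝ) ^ 2 * crs (Glow G L) (Glow G L) + P.card * (L : ℝ) ^ 4)
        ≤ 331776 * (c6 * D) * (P.card : ℝ) ^ 2 *
          ((lam * D) ^ 2 * (CX * P.card * D ^ 3) + P.card * (lam * D) ^ 4) := by
          gcongr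
      _ ≤ 331776 * (c6 * D) * (P.card : ℝ) ^ 2 *
          ((lam * D) ^ 2 * (CX * P.card * D ^ 3) + P.card * (lam * D) ^ 4 * D) := by
          have h6 : (P.card : ℝ) * (lam * D) ^ 4 ≤ P.card * (lam * D) ^ 4 * D :=
            le_mul_of_one_le_right (by positivity) hD
          exact mul_le_mul_of_nonneg_left (by linarith) (by positivity)
      _ = 331776 * c6 * (lam ^ 2 * CX + lam ^ 4) * (P.card * D ^ 2) ^ 3 := by ring

/-- cube comparison -/
lemma le_of_cube {x a : ℝ} (ha : 0 ≤ a) (h : x ^ 3 ≤ a ^ 3) : x ≤ a := by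
  by_contra hc
  push Not at hc
  have : a ^ 3 < x ^ 3 := pow_lt_pow_left₀ hc ha (by norm_num)
  linarith

/-- the counting argument with explicit constants -/
lemma final_aux (c1 c2 c3 CE CX la c7 eH eB l4 c6 c5 : ℝ) (h1 : 0 < c1) (h2 : 0 < c2)
    (h3 : 0 < c3) (hCX : 0 < CX) (hla0 : 0 < la) (hc70 : 0 < c7) (heH0 : 0 < eH)
    (heB0 : 0 < eB) (hl40 : 0 < l4) (hc60 : 0 < c6) (hc50 : 0 < c5)
    (hla : 4 * CE = c1 * la) (hc7 : c7 = c1 * c2 * c3 / 2) (heH : 16 * la ^ 3 * eH = c7)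
    (heB : 12 * la ^ 2 * eB = c7) (hl4 : 41472 * (CE * CX) = l4 * eH ^ 3)
    (hc6a : 288 * c6 ≤ eB) (hc6b : 331776 * c6 * (l4 ^ 2 * CX + l4 ^ 4) ≤ eB ^ 3)
    (hc5 : 4 * l4 ^ 6 * c5 = c7 * c6 ^ 3)
    (P : Finset Pt) (G : Finset Edge) (D : ℝ) (hP : Generic P) (hG : G ⊆ pairs P)
    (hPc : 0 < P.card) (hD1 : 1 ≤ D) (hD2 : 72 ≤ eH * D) (hcD : 1 ≤ c6 * D)
    (hGE : (G.card : ℝ) ≤ CE * P.card * D) (hGX : (crs G G : ℝ) ≤ CX * P.card * D ^ 3)
    (Vs : Finset Pt) (hVc : c1 * P.card ≤ Vs.card) (S : Pt → Finset (Pt × Pt × Pt))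
    (hS : ∀ v ∈ Vs, ∀ t ∈ S v, (t.1, v) ∈ G ∧ (t.2.1, v) ∈ G ∧ (t.2.2, v) ∈ G)
    (hSc : ∀ v ∈ Vs, c2 * D ^ 3 ≤ (S v).card)
    (hRc : ∀ v ∈ Vs, c3 * D ≤ (G.filter (fun e => e.1 = v)).card) :
    ∃ p : Pt × Pt × Pt, c5 * D ≤ (Vs.filter (fun v => p ∈ S v)).card := by
  have hDpos : 0 < D := by linarith
  have hN : (0 : ℝ) < P.card := by exact_mod_cast hPc
  by_contra hcon
  push Not at hcon
  -- low-degree good vertices
  obtain ⟨La, hLa⟩ : ∃ La : ℕ, La = ⌊la * D⌋₊ := ⟨_, rfl⟩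
  obtain ⟨V, hV⟩ : ∃ V : Finset Pt, V = Vs.filter (fun v => deg G v ≤ La) := ⟨_, rfl⟩
  have hLale : (La : ℝ) ≤ la * D := by rw [hLa]; exact Nat.floor_le (by positivity)
  have hVcard : c1 / 2 * P.card ≤ V.card := by
    have hsplit : V.card + (Vs.filter (fun v => La < deg G v)).card = Vs.card := by
      have := Finset.card_filter_add_card_filter_not (s := Vs) (fun v => deg G v ≤ La)
      rw [hV]
      simpa [not_le] using this
    have hhigh := card_high_le (G := G) Vs (la * D) (by positivity)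
    rw [← hLa] at hhigh
    have h6 : ((Vs.filter (fun v => La < deg G v)).card : ℝ) ≤ c1 / 2 * P.card := by
      have h7 : ((Vs.filter (fun v => La < deg G v)).card : ℝ) * (la * D)
          ≤ (c1 / 2 * P.card) * (la * D) := by
        have h8 : (c1 / 2 * P.card) * (la * D) = 2 * (CE * P.card * D) := by
          linear_combination (-(P.card : ℝ) * D / 2) * hla
        rw [h8]
        linarith
      exact le_of_mul_le_mul_right h7 (by positivity)
    have h9 : (V.card : ℝ) + ((Vs.filter (fun v => La < deg G v)).card : ℝ) = Vs.card := by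
      exact_mod_cast hsplit
    linarith
  have hVsub : V ⊆ Vs := by rw [hV]; exact Finset.filter_subset _ _
  have hS' : ∀ v ∈ V, ∀ t ∈ S v, (t.1, v) ∈ G ∧ (t.2.1, v) ∈ G ∧ (t.2.2, v) ∈ G :=
    fun v hv => hS v (hVsub hv)
  have hlow : ∀ v ∈ V, deg G v ≤ La := fun v hv => by
    rw [hV] at hv
    exact (Finset.mem_filter.1 hv).2
  -- lower bound
  have hlower := tup_lower (V := V) (S := S) hG hS' (s := c2 * D ^ 3) (r := c3 * D)
    (by positivity) (by positivity) (fun v hv => hSc v (hVsub hv)) (fun v hv => hRc v (hVsub hv))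
  have hlower' : c7 * (P.card * D ^ 4) ≤ ((Tup P G V S).card : ℝ) := by
    refine le_trans ?_ hlower
    have : c7 * (P.card * D ^ 4) = (c1 / 2 * P.card) * (c2 * D ^ 3 * (c3 * D)) := by
      rw [hc7]; ring
    rw [this]
    exact mul_le_mul_of_nonneg_right hVcard (by positivity)
  -- upper bound
  have hGh := card_Ghigh hP hG l4 D CE CX hl40 hDpos hGE hGX
  have hHb := card_Hbad hP hG l4 c6 D CX hl40 hc60 hD1 hcD hCX hGX
  obtain ⟨L, hL⟩ : ∃ L : ℕ, L = ⌊l4 * D⌋₊ := ⟨_, rfl⟩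
  obtain ⟨m, hm⟩ : ∃ m : ℕ, m = ⌊c6 * D⌋₊ := ⟨_, rfl⟩
  rw [← hL] at hGh hHb
  rw [← hm] at hHb
  have hLle : (L : ℝ) ≤ l4 * D := by rw [hL]; exact Nat.floor_le (by positivity)
  have hmlt : c6 * D ≤ (m : ℝ) + 1 := by rw [hm]; exact (Nat.lt_floor_add_one _).le
  have hupper := Tup_le (V := V) (S := S) hG hS' La L m hlow
  -- high edges
  have hH : ((Ghigh G L).card : ℝ) ≤ eH * (P.card * D) := by
    rcases hGh with h | h
    · refine h.trans ?_
      calc 72 * (P.card : ℝ) ≤ (eH * D) * P.card := mul_le_mul_of_nonneg_right hD2 hN.le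
        _ = eH * (P.card * D) := by ring
    · refine le_of_cube (by positivity) (h.trans (le_of_eq ?_))
      have h8 : 41472 * (CE * CX / l4) = eH ^ 3 := by
        rw [← mul_div_assoc, hl4, mul_comm l4, mul_div_assoc, div_self hl40.ne', mul_one]
      rw [h8]; ring
  have hB : ((Hbad P (Glow G L) m).card : ℝ) ≤ eB * (P.card * D ^ 2) := by
    rcases hHb with h | h
    · exact h.trans (mul_le_mul_of_nonneg_right hc6a (by positivity))
    · refine le_of_cube (by positivity) (h.trans ?_)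
      have h8 : (eB * (P.card * D ^ 2)) ^ 3 = eB ^ 3 * ((P.card : ℝ) * D ^ 2) ^ 3 := by ring
      rw [h8]
      exact mul_le_mul_of_nonneg_right hc6b (by positivity)
  have hK : ∀ t : Pt × Pt × Pt, ((V.filter (fun v => t ∈ S v)).card : ℝ) ≤ c5 * D := by
    intro t
    refine le_trans ?_ (hcon t).le
    exact_mod_cast Finset.card_le_card (Finset.filter_subset_filter _ hVsub)
  have hgood := Tgood_le (V := V) (S := S) hG hS' L m _ (by positivity) hK
  have hgood' : ((Tgood P G V S L m).card : ℝ) ≤ c7 / 4 * (P.card * D ^ 4) := by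
    refine hgood.trans ?_
    have h10 : (L : ℝ) ^ 2 / (m + 1) ≤ l4 ^ 2 * D / c6 := by
      rw [div_le_div_iff₀ (by positivity) hc60]
      have h11 : (L : ℝ) ^ 2 ≤ (l4 * D) ^ 2 := pow_le_pow_left₀ (by positivity) hLle 2
      calc (L : ℝ) ^ 2 * c6 ≤ (l4 * D) ^ 2 * c6 := mul_le_mul_of_nonneg_right h11 hc60.le
        _ = l4 ^ 2 * D * (c6 * D) := by ring
        _ ≤ l4 ^ 2 * D * (m + 1) := mul_le_mul_of_nonneg_left hmlt (by positivity)
    have h12 : ((L : ℝ) ^ 2 / (m + 1)) ^ 3 ≤ (l4 ^ 2 * D / c6) ^ 3 :=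
      pow_le_pow_left₀ (by positivity) h10 3
    have h13 : c5 * D * (P.card * (l4 ^ 2 * D / c6) ^ 3) = c7 / 4 * (P.card * D ^ 4) := by
      have h14 : (l4 ^ 2 * D / c6) ^ 3 = l4 ^ 6 * D ^ 3 / c6 ^ 3 := by
        rw [div_pow]; ring
      have h15 : c5 * l4 ^ 6 = c7 / 4 * c6 ^ 3 := by linarith
      rw [h14, ← mul_div_assoc, ← mul_div_assoc, div_eq_iff (by positivity)]
      linear_combination (P.card : ℝ) * D ^ 4 * h15
    calc c5 * D * (P.card * ((L : ℝ) ^ 2 / (m + 1)) ^ 3)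
        ≤ c5 * D * (P.card * (l4 ^ 2 * D / c6) ^ 3) :=
          mul_le_mul_of_nonneg_left (mul_le_mul_of_nonneg_left h12 hN.le) (by positivity)
      _ = c7 / 4 * (P.card * D ^ 4) := h13
  have hA : 4 * ((La : ℝ) ^ 3 * (Ghigh G L).card) ≤ c7 / 4 * (P.card * D ^ 4) := by
    have h13 : (La : ℝ) ^ 3 ≤ (la * D) ^ 3 := pow_le_pow_left₀ (by positivity) hLale 3
    have h14 : (La : ℝ) ^ 3 * (Ghigh G L).card ≤ (la * D) ^ 3 * (eH * (P.card * D)) :=
      mul_le_mul h13 hH (by positivity) (by positivity)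
    have h15 : 4 * ((la * D) ^ 3 * (eH * (P.card * D))) = c7 / 4 * (P.card * D ^ 4) := by
      rw [← heH]; ring
    linarith
  have hBB : 3 * ((La : ℝ) ^ 2 * (Hbad P (Glow G L) m).card) ≤ c7 / 4 * (P.card * D ^ 4) := by
    have h13 : (La : ℝ) ^ 2 ≤ (la * D) ^ 2 := pow_le_pow_left₀ (by positivity) hLale 2
    have h14 : (La : ℝ) ^ 2 * (Hbad P (Glow G L) m).card ≤ (la * D) ^ 2 * (eB * (P.card * D ^ 2)) :=
      mul_le_mul h13 hB (by positivity) (by positivity)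
    have h15 : 3 * ((la * D) ^ 2 * (eB * (P.card * D ^ 2))) = c7 / 4 * (P.card * D ^ 4) := by
      rw [← heB]; ring
    linarith
  have hpos : 0 < c7 * (P.card * D ^ 4) := by positivity
  linarith

/-- **6.4**: the final configuration. -/
theorem final_config (c1 c2 c3 CE CX : ℝ) (h1 : 0 < c1) (h2 : 0 < c2) (h3 : 0 < c3)
    (hCE : 0 < CE) (hCX : 0 < CX) :
    ∃ c5 : ℝ, 0 < c5 ∧ ∃ D0 : ℝ, ∀ (P : Finset Pt) (G : Finset Edge) (D : ℝ),
      Generic P → G ⊆ pairs P → 0 < P.card → D0 ≤ D →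
      (G.card : ℝ) ≤ CE * P.card * D → (crs G G : ℝ) ≤ CX * P.card * D ^ 3 →
      ∀ (Vs : Finset Pt), Vs ⊆ P → c1 * P.card ≤ Vs.card →
      ∀ (S : Pt → Finset (Pt × Pt × Pt)),
        (∀ v ∈ Vs, ∀ t ∈ S v, (t.1, v) ∈ G ∧ (t.2.1, v) ∈ G ∧ (t.2.2, v) ∈ G) →
        (∀ v ∈ Vs, c2 * D ^ 3 ≤ (S v).card) →
        (∀ v ∈ Vs, c3 * D ≤ (G.filter (fun e => e.1 = v)).card) →
        ∃ p : Pt × Pt × Pt, c5 * D ≤ (Vs.filter (fun v => p ∈ S v)).card := by
  obtain ⟨la, hla⟩ : ∃ la : ℝ, la = 4 * CE / c1 := ⟨_, rfl⟩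
  have hla0 : 0 < la := by rw [hla]; positivity
  obtain ⟨c7, hc7⟩ : ∃ c7 : ℝ, c7 = c1 * c2 * c3 / 2 := ⟨_, rfl⟩
  have hc70 : 0 < c7 := by rw [hc7]; positivity
  obtain ⟨eH, heH⟩ : ∃ eH : ℝ, eH = c7 / (16 * la ^ 3) := ⟨_, rfl⟩
  have heH0 : 0 < eH := by rw [heH]; positivity
  obtain ⟨eB, heB⟩ : ∃ eB : ℝ, eB = c7 / (12 * la ^ 2) := ⟨_, rfl⟩
  have heB0 : 0 < eB := by rw [heB]; positivity
  obtain ⟨l4, hl4⟩ : ∃ l4 : ℝ, l4 = 41472 * (CE * CX) / eH ^ 3 := ⟨_, rfl⟩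
  have hl40 : 0 < l4 := by rw [hl4]; positivity
  obtain ⟨c6, hc6⟩ : ∃ c6 : ℝ, c6 = min (eB / 288) (eB ^ 3 / (331776 * (l4 ^ 2 * CX + l4 ^ 4))) :=
    ⟨_, rfl⟩
  have hc60 : 0 < c6 := by rw [hc6]; exact lt_min (by positivity) (by positivity)
  have hc6a : 288 * c6 ≤ eB := by
    have := min_le_left (eB / 288) (eB ^ 3 / (331776 * (l4 ^ 2 * CX + l4 ^ 4)))
    rw [← hc6, le_div_iff₀ (by norm_num)] at this
    linarith
  have hc6b : 331776 * c6 * (l4 ^ 2 * CX + l4 ^ 4) ≤ eB ^ 3 := by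
    have := min_le_right (eB / 288) (eB ^ 3 / (331776 * (l4 ^ 2 * CX + l4 ^ 4)))
    rw [← hc6, le_div_iff₀ (by positivity)] at this
    linarith
  obtain ⟨c5, hc5⟩ : ∃ c5 : ℝ, c5 = c7 * c6 ^ 3 / (4 * l4 ^ 6) := ⟨_, rfl⟩
  have hc50 : 0 < c5 := by rw [hc5]; positivity
  refine ⟨c5, hc50, max 1 (max (72 / eH) (1 / c6)), ?_⟩
  intro P G D hP hG hPc hD0 hGE hGX Vs _ hVc S hS hSc hRc
  have hD1 : 1 ≤ D := (le_max_left _ _).trans hD0
  have hD2 : 72 / eH ≤ D := ((le_max_left _ _).trans (le_max_right _ _)).trans hD0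
  have hD3 : 1 / c6 ≤ D := ((le_max_right _ _).trans (le_max_right _ _)).trans hD0
  rw [div_le_iff₀ heH0] at hD2
  rw [div_le_iff₀ hc60] at hD3
  refine final_aux c1 c2 c3 CE CX la c7 eH eB l4 c6 c5 h1 h2 h3 hCX hla0 hc70 heH0 heB0 hl40
    hc60 hc50 ?_ hc7 ?_ ?_ ?_ hc6a hc6b ?_ P G D hP hG hPc hD1 (by linarith) (by linarith)
    hGE hGX Vs hVc S hS hSc hRc
  · rw [hla]; field_simp
  · rw [heH]; field_simp
  · rw [heB]; field_simp
  · rw [hl4]; field_simp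
  · rw [hc5]; field_simp

end Crest.Agent.R51.Final
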