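import Crest.Agent.R51.Flux
import Crest.Agent.R51.AP
import Crest.Agent.R51.WalkDefs

/-! # Row 51: G7 and G8 in the forms used by B4 (helper795) and B6 (helper422) -/

set_option autoImplicit false

noncomputable section

open Classical

namespace Crest.Agent.R51

/-- G7 with `mk v w` and `nbW`. -/
theorem flux_nbW {P : Finset Pt} (hG : Generic P) {s t : ℝ} (hs : NonSlope P s)
    (ht' : NonSlope P t) {k b : ℕ} (hb : 1 ≤ b) {v w : Pt} (hv : v ∈ P) (hw : w ∈ P)
    (hvw : v ≠ w) (hsl : ¬ (s < sl v w ∧ sl v w < t))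
    (hfar : ∀ θ, s < θ → θ < t → NonSlope P θ → ¬ Central P k (2 * b) θ v)
    (hc : ∃ θ, s < θ ∧ θ < t ∧ Central P k b θ w) :
    b * (nbW P k b s t w).card ≤
      2 * ((nearE P k (2 * b) s t).filter (fun e => Cross e (mk v w))).card + b * (16 * b + 2) := by
  rw [card_nbW]
  have hx := hG.x_ne hv hw hvw
  have hmem : mk v w ∈ pairs P := mk_mem_pairs_iff.2 ⟨hv, hw, hx⟩
  have hesl : esl (mk v w) = sl v w := by
    rcases lt_or_gt_of_ne hx with h | h
    · rw [mk_of_lt h]; rfl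
    · rw [mk_of_gt h]; exact sl_comm w v
  refine flux hG hs ht' hb hmem ?_ (by rw [hesl]; exact hsl) hfar hc
  rcases lt_or_gt_of_ne hx with h | h
  · left; rw [mk_of_lt h]; exact ⟨rfl, rfl⟩
  · right; rw [mk_of_gt h]; exact ⟨rfl, rfl⟩

/-- G7, helper795's form. -/
theorem flux_nbW' {P : Finset Pt} (hG : Generic P) {s t : ℝ} (hs : NonSlope P s)
    (ht' : NonSlope P t) {k b : ℕ} (hb : 1 ≤ b) {v w : Pt} (hv : v ∈ P) (hw : w ∈ P)
    (hvw : v ≠ w) (hsl : ¬ (s < sl v w ∧ sl v w < t))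
    (hfar : ∀ θ, s < θ → θ < t → ¬ Central P k (2 * b) θ v)
    (hc : ∃ θ, s < θ ∧ θ < t ∧ Central P k b θ w) :
    (b - 1) * ((nbW P k b s t w).card - (16 * b + 8)) ≤
      2 * ((nearE P k (2 * b) s t).filter (fun e => Cross e (mk v w))).card := by
  have h := flux_nbW hG hs ht' hb hv hw hvw hsl (fun θ h1 h2 _ => hfar θ h1 h2) hc
  have h1 : (b - 1) * ((nbW P k b s t w).card - (16 * b + 8)) ≤
      b * ((nbW P k b s t w).card - (16 * b + 2)) :=
    Nat.mul_le_mul (by omega) (by omega)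
  have h2 : b * ((nbW P k b s t w).card - (16 * b + 2)) =
      b * (nbW P k b s t w).card - b * (16 * b + 2) := Nat.mul_sub _ _ _
  omega

/-- G8, helper422's form. -/
theorem ap {P : Finset Pt} (hP : Generic P) {k b : ℕ} (s t : ℝ) {A : Finset Pt} (d : ℕ) :
    ((nearE P k b s t).filter (fun e => e.2 ∈ A ∧
      (A.filter (fun p => p.1 < e.2.1 ∧ s < sl p e.2 ∧ sl p e.2 < t)).card < d)).card ≤
      (2 * b + 1 + d) * (ActN P k b s t).card :=
  ap_bound hP k b s t A d

end Crest.Agent.R51
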