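import Crest.Agent.R51.GoodDefs
import Crest.Agent.R51.WabWeight

/-!
# Row 51, section 7.5 (first half): special windows and classification (helper388)
-/

set_option autoImplicit false

noncomputable section

open Classical

namespace Crest.Agent.R51.Gd

/-! ### windows of directions which are slopes -/

section

variable {P : Finset Pt} {k : ℕ} {V : ℕ → ℕ} {L : ℕ} {Cw : ℝ} (W : WSys P k V L Cw)

/-- `θ` is the slope of a pair -/
def Dir (P : Finset Pt) (θ : ℝ) : Prop := ∃ e ∈ pairs P, esl e = θ

lemma dir_sl {P : Finset Pt} {p v : Pt} (hp : p ∈ P) (hv : v ∈ P) (hlt : p.1 < v.1) :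
    Dir P (sl p v) := ⟨(p, v), mem_pairs.2 ⟨hp, hv, hlt⟩, rfl⟩

include W in
lemma J_spec {l : ℕ} (hl : l ≤ L) {θ : ℝ} (hθ : Dir P θ) :
    W.J l θ ∈ wins (W.cuts l) ∧ (W.J l θ).1 < θ ∧ θ < (W.J l θ).2 := by
  obtain ⟨e, he, rfl⟩ := hθ
  have h1 : W.lo < esl e := W.lo_lt_slope _ he
  have h2 : esl e < W.hi := W.slope_lt_hi _ he
  have h3 : esl e ∉ W.cuts l := fun h => W.nons l hl _ h _ he rfl
  exact Crest.Agent.R51.winOf_spec (exists_win (W.sub 0 l (Nat.zero_le _) hl W.lo_mem)
    (W.sub 0 l (Nat.zero_le _) hl W.hi_mem) h1 h2 h3)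

/-- windows of a finer system containing `θ` lie inside the coarser window containing `θ`. -/
lemma win_nested {C C' : Finset ℝ} (hC : C ⊆ C') {J J' : ℝ × ℝ} {θ : ℝ} (hJ : J ∈ wins C)
    (hJ' : J' ∈ wins C') (h1 : J.1 < θ) (h2 : θ < J.2) (h3 : J'.1 < θ) (h4 : θ < J'.2) :
    J.1 ≤ J'.1 ∧ J'.2 ≤ J.2 := by
  rw [mem_wins] at hJ hJ'
  constructor
  · by_contra h
    rw [not_le] at h
    exact hJ'.2.2.2 _ (hC hJ.1) ⟨h, h1.trans h4⟩
  · by_contra h
    rw [not_le] at h
    exact hJ'.2.2.2 _ (hC hJ.2.1) ⟨h3.trans h2, h⟩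

include W in
lemma J_nested {l l' : ℕ} (hll : l ≤ l') (hl : l' ≤ L) {θ : ℝ} (hθ : Dir P θ) :
    (W.J l θ).1 ≤ (W.J l' θ).1 ∧ (W.J l' θ).2 ≤ (W.J l θ).2 := by
  obtain ⟨a1, a2, a3⟩ := J_spec W (hll.trans hl) hθ
  obtain ⟨b1, b2, b3⟩ := J_spec W hl hθ
  exact win_nested (W.sub l l' hll hl) a1 b1 a2 a3 b2 b3

include W in
/-- two directions in the same finest window lie in the same window at every level. -/
lemma J_congr {n : ℕ} (hn : n ≤ L) {θ θ' : ℝ} (hθ : Dir P θ) (hθ' : Dir P θ')
    (h : W.J n θ = W.J n θ') {l : ℕ} (hl : l ≤ n) : W.J l θ = W.J l θ' := by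
  obtain ⟨a1, a2, a3⟩ := J_spec W (hl.trans hn) hθ
  obtain ⟨b1, b2, b3⟩ := J_spec W (hl.trans hn) hθ'
  obtain ⟨c1, c2, c3⟩ := J_spec W hn hθ'
  have hnest := J_nested W hl hn hθ
  rw [h] at hnest
  exact win_unique a1 b1 (hnest.1.trans_lt c2) (c3.trans_le hnest.2) b2 b3

include W in
/-- `Lac` depends only on the finest window. -/
lemma Lac_congr {mu n2 n : ℕ} (hn2 : n2 ≤ n) (hn2' : 1 ≤ n2) (hn : n ≤ L) {θ θ' : ℝ}
    (hθ : Dir P θ) (hθ' : Dir P θ') (h : W.J n θ = W.J n θ') {c : ℝ} {two : Bool}
    (hL : Lac W mu n2 c two θ) : Lac W mu n2 c two θ' := by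
  have e1 := J_congr W hn hθ hθ' h (l := 1) (hn2'.trans hn2)
  have e2 := J_congr W hn hθ hθ' h (l := n2) hn2
  unfold Lac at hL ⊢
  rw [e1, e2] at hL
  refine ⟨hL.1, hL.2.1, hL.2.2.1, hL.2.2.2.trans (Nat.mul_le_mul_left _ ?_)⟩
  apply Finset.card_le_card
  intro j hj
  rw [Finset.mem_filter, Finset.mem_Ioc] at hj ⊢
  have e3 := J_congr W hn hθ hθ' h (l := j) (hj.1.2.trans hn2)
  have e4 := J_congr W hn hθ hθ' h (l := j - 1) ((Nat.sub_le _ _).trans (hj.1.2.trans hn2))
  rw [e3, e4] at hj
  exact hj

end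

/-! ### 7.2 -/

/-- primitive of the weight `|θ - c|^(-τ)` as a function of the distance -/
def G (two : Bool) (x : ℝ) : ℝ := if two then -(1 / x) else Real.log x

lemma om_eq_right {two : Bool} {c s t : ℝ} (hst : s ≤ t) (ht : t < c) :
    om two c s t = G two (c - s) - G two (c - t) := by
  have h1 : |t - c| = c - t := by rw [abs_sub_comm]; exact abs_of_pos (by linarith)
  have h2 : |s - c| = c - s := by rw [abs_sub_comm]; exact abs_of_pos (by linarith)
  have p1 : 0 < c - t := by linarith
  have p2 : 0 < c - s := by linarith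
  cases two
  · simp only [om, G, om1, Bool.false_eq_true, if_false]
    rw [h1, h2, abs_sub_comm, abs_of_nonneg]
    rw [sub_nonneg]
    exact Real.log_le_log p1 (by linarith)
  · simp only [om, G, om2, if_true]
    have e1 : 1 / (s - c) = -(1 / (c - s)) := by
      rw [← neg_sub c s, div_neg]
    have e2 : 1 / (t - c) = -(1 / (c - t)) := by
      rw [← neg_sub c t, div_neg]
    rw [e1, e2, abs_of_nonneg]
    have : 1 / (c - s) ≤ 1 / (c - t) := one_div_le_one_div_of_le p1 (by linarith)
    linarith

lemma om_eq_left {two : Bool} {c s t : ℝ} (hst : s ≤ t) (hs : c < s) :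
    om two c s t = G two (t - c) - G two (s - c) := by
  have h1 : |t - c| = t - c := abs_of_pos (by linarith)
  have h2 : |s - c| = s - c := abs_of_pos (by linarith)
  have p1 : 0 < t - c := by linarith
  have p2 : 0 < s - c := by linarith
  cases two
  · simp only [om, G, om1, Bool.false_eq_true, if_false]
    rw [h1, h2, abs_of_nonneg]
    rw [sub_nonneg]
    exact Real.log_le_log p2 (by linarith)
  · simp only [om, G, om2, if_true]
    rw [abs_of_nonneg]
    · ring
    · have : 1 / (t - c) ≤ 1 / (s - c) := one_div_le_one_div_of_le p2 (by linarith)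
      linarith

lemma log_sub_le {x y : ℝ} (hx : 0 < x) (hy : 0 < y) : Real.log y - Real.log x ≤ (y - x) / x := by
  rw [← Real.log_div hy.ne' hx.ne']
  have := Real.log_le_sub_one_of_pos (div_pos hy hx)
  calc Real.log (y / x) ≤ y / x - 1 := this
    _ = (y - x) / x := by field_simp

lemma le_log_sub {x y : ℝ} (hx : 0 < x) (hy : 0 < y) : (y - x) / y ≤ Real.log y - Real.log x := by
  have h := log_sub_le hy hx
  have e : (x - y) / y = -((y - x) / y) := by rw [← neg_sub y x, neg_div]
  rw [e] at h
  linarith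

lemma G_far {two : Bool} {d h Lam F : ℝ} (hd : 17 * Lam * h < d) (hh : 0 < h) (hL : 1 ≤ Lam)
    (hF : 16 * Lam * h ≤ F) :
    4 * Lam * (G two (d + h) - G two d) ≤ G two (d + h + F) - G two (d + h) := by
  have hLh : 0 < Lam * h := mul_pos (by linarith) hh
  have hLh' : h ≤ Lam * h := by nlinarith
  have d0 : 0 < d := by nlinarith
  have hF0 : 0 < F := by nlinarith
  cases two
  · simp only [G, Bool.false_eq_true, if_false]
    have h1 := log_sub_le d0 (show 0 < d + h by linarith)
    have h2 := le_log_sub (show 0 < d + h by linarith) (show 0 < d + h + 16 * Lam * h by linarith)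
    have h3 : Real.log (d + h + 16 * Lam * h) ≤ Real.log (d + h + F) :=
      Real.log_le_log (by linarith) (by linarith)
    have e1 : d + h - d = h := by ring
    have e2 : d + h + 16 * Lam * h - (d + h) = 16 * Lam * h := by ring
    rw [e1] at h1
    rw [e2] at h2
    have h4 : 16 * Lam * h / (2 * d) ≤ 16 * Lam * h / (d + h + 16 * Lam * h) :=
      div_le_div_of_nonneg_left (by nlinarith) (by linarith) (by nlinarith)
    have h5 : 4 * Lam * (h / d) ≤ 16 * Lam * h / (2 * d) := by
      rw [mul_div_assoc', div_le_div_iff₀ d0 (by linarith)]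
      nlinarith [mul_pos hLh d0]
    have h6 : 4 * Lam * (Real.log (d + h) - Real.log d) ≤ 4 * Lam * (h / d) :=
      mul_le_mul_of_nonneg_left h1 (by linarith)
    linarith
  · simp only [G, if_true]
    have e1 : -(1 / (d + h)) - -(1 / d) = h / (d * (d + h)) := by
      field_simp
      ring
    have e2 : -(1 / (d + h + F)) - -(1 / (d + h)) = F / ((d + h) * (d + h + F)) := by
      field_simp
      ring
    rw [e1, e2]
    have h1 : h / (d * (d + h)) ≤ h / (d * d) :=
      div_le_div_of_nonneg_left hh.le (by positivity) (by nlinarith)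
    have h2 : 16 * Lam * h / ((d + h) * (d + h + 16 * Lam * h)) ≤
        F / ((d + h) * (d + h + F)) := by
      rw [div_le_div_iff₀ (by positivity) (by positivity)]
      have : 0 ≤ (F - 16 * Lam * h) * ((d + h) * (d + h)) :=
        mul_nonneg (by linarith) (by positivity)
      nlinarith
    have h3 : 16 * Lam * h / ((2 * d) * (2 * d)) ≤
        16 * Lam * h / ((d + h) * (d + h + 16 * Lam * h)) := by
      apply div_le_div_of_nonneg_left (by nlinarith) (by positivity)
      apply mul_le_mul (by nlinarith) (by nlinarith) (by positivity) (by positivity)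
    have h4 : 16 * Lam * h / ((2 * d) * (2 * d)) = 4 * Lam * (h / (d * d)) := by
      field_simp
      ring
    have h5 : 4 * Lam * (h / (d * (d + h))) ≤ 4 * Lam * (h / (d * d)) :=
      mul_le_mul_of_nonneg_left h1 (by linarith)
    linarith

lemma G_near {two : Bool} {d h Lam F : ℝ} (hd : 17 * Lam * h < d) (hh : 0 < h) (hL : 1 ≤ Lam)
    (hF : 16 * Lam * h ≤ F) (hFd : F < d) :
    4 * Lam * (G two (d + h) - G two d) ≤ G two d - G two (d - F) := by
  have hLh : 0 < Lam * h := mul_pos (by linarith) hh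
  have hLh' : h ≤ Lam * h := by nlinarith
  have d0 : 0 < d := by nlinarith
  have hF0 : 0 < F := by nlinarith
  cases two
  · simp only [G, Bool.false_eq_true, if_false]
    have h1 := log_sub_le d0 (show 0 < d + h by linarith)
    have h2 := le_log_sub (show 0 < d - F by linarith) d0
    have e1 : d + h - d = h := by ring
    have e2 : d - (d - F) = F := by ring
    rw [e1] at h1
    rw [e2] at h2
    have h5 : 4 * Lam * (h / d) ≤ F / d := by
      rw [mul_div_assoc']
      apply div_le_div_of_nonneg_right _ d0.le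
      nlinarith
    have h6 : 4 * Lam * (Real.log (d + h) - Real.log d) ≤ 4 * Lam * (h / d) :=
      mul_le_mul_of_nonneg_left h1 (by linarith)
    linarith
  · simp only [G, if_true]
    have hdF : 0 < d - F := by linarith
    have e1 : -(1 / (d + h)) - -(1 / d) = h / (d * (d + h)) := by
      field_simp
      ring
    have e2 : -(1 / d) - -(1 / (d - F)) = F / (d * (d - F)) := by
      field_simp
      ring
    rw [e1, e2]
    have h1 : h / (d * (d + h)) ≤ h / (d * d) :=
      div_le_div_of_nonneg_left hh.le (by positivity) (by nlinarith)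
    have h2 : F / (d * d) ≤ F / (d * (d - F)) :=
      div_le_div_of_nonneg_left hF0.le (by positivity) (by nlinarith)
    have h3 : 4 * Lam * (h / (d * d)) ≤ F / (d * d) := by
      rw [mul_div_assoc']
      apply div_le_div_of_nonneg_right _ (by positivity)
      nlinarith
    have h5 : 4 * Lam * (h / (d * (d + h))) ≤ 4 * Lam * (h / (d * d)) :=
      mul_le_mul_of_nonneg_left h1 (by linarith)
    linarith

/-- **7.2** -/
theorem dist_le_of_domin {C : Finset ℝ} {B : ℕ} {I J : ℝ × ℝ} {c : ℝ} {two : Bool} {Lam : ℝ}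
    (hL : 1 ≤ Lam) (hJ : J.1 < J.2) (hc : ¬ (I.1 ≤ c ∧ c ≤ I.2))
    (hD : Domin C B I (om two c) (4 * Lam) J) (hF : ¬ Flagged C B Lam I J) :
    J.1 - c ≤ 17 * Lam * (J.2 - J.1) ∧ c - J.2 ≤ 17 * Lam * (J.2 - J.1) := by
  obtain ⟨l, r, hB, hl, hr⟩ := hD
  unfold Flagged at hF
  rw [not_or] at hF
  have hlong : 16 * Lam * (J.2 - J.1) ≤ J.1 - l ∨ 16 * Lam * (J.2 - J.1) ≤ r - J.2 := by
    by_contra hcon
    rw [not_or, not_le, not_le] at hcon
    exact hF.2 ⟨l, r, hB, hcon.1, hcon.2⟩
  obtain ⟨-, -, b1, b2, b3, b4, -, -⟩ := hB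
  have hh : 0 < J.2 - J.1 := by linarith
  have hLh : 0 < Lam * (J.2 - J.1) := mul_pos (by linarith) hh
  rw [not_and_or, not_le, not_le] at hc
  rcases hc with hc | hc
  · -- `c` to the left
    refine ⟨?_, by nlinarith⟩
    by_contra hcon
    rw [not_le] at hcon
    have e1 := om_eq_left (two := two) b1.le (show c < l by linarith)
    have e2 := om_eq_left (two := two) hJ.le (show c < J.1 by linarith)
    have e3 := om_eq_left (two := two) b2.le (show c < J.2 by linarith)
    rw [e1, e2] at hl
    rw [e3, e2] at hr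
    have d1 : J.2 - c = (J.1 - c) + (J.2 - J.1) := by ring
    rcases hlong with h | h
    · have key := G_near (two := two) hcon hh hL h (by linarith)
      have d2 : (J.1 - c) - (J.1 - l) = l - c := by ring
      rw [d2, ← d1] at key
      linarith
    · have key := G_far (two := two) hcon hh hL h
      have d2 : (J.1 - c) + (J.2 - J.1) + (r - J.2) = r - c := by ring
      rw [d2, ← d1] at key
      linarith
  · refine ⟨by nlinarith, ?_⟩
    by_contra hcon
    rw [not_le] at hcon
    have e1 := om_eq_right (two := two) b1.le (show J.1 < c by linarith)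
    have e2 := om_eq_right (two := two) hJ.le (show J.2 < c by linarith)
    have e3 := om_eq_right (two := two) b2.le (show r < c by linarith)
    rw [e1, e2] at hl
    rw [e3, e2] at hr
    have d1 : c - J.1 = (c - J.2) + (J.2 - J.1) := by ring
    rcases hlong with h | h
    · have key := G_far (two := two) hcon hh hL h
      have d2 : (c - J.2) + (J.2 - J.1) + (J.1 - l) = c - l := by ring
      rw [d2, ← d1] at key
      linarith
    · have key := G_near (two := two) hcon hh hL h (by linarith)
      have d2 : (c - J.2) - (r - J.2) = c - r := by ring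
      rw [d2, ← d1] at key
      linarith

/-! ### comparison of `w_{ab}` and `ω_{c,τ}` -/

lemma lr_eq_alf (a b θ : ℝ) : lr θ a b = Wab.alf a b θ := by
  unfold lr Wab.alf
  rw [Real.log_abs, Real.log_abs]

/-- the exponent `τ` -/
def tau (two : Bool) : ℕ := if two then 2 else 1

lemma integral_om {two : Bool} {c s t : ℝ} (hst : s ≤ t) (hc : c ∉ Set.Icc s t) :
    ∫ θ in s..t, Wab.om c (tau two) θ = om two c s t := by
  rw [Set.mem_Icc, not_and_or, not_le, not_le] at hc
  have hint := Wab.intervalIntegrable_om (c := c) (τ := tau two) hst (by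
    rw [Set.mem_Icc, not_and_or, not_le, not_le]; exact hc)
  rcases hc with hc | hc
  · rw [om_eq_left hst hc]
    refine intervalIntegral.integral_eq_sub_of_hasDerivAt (f := fun x => G two (x - c)) ?_ hint
    intro θ hθ
    rw [Set.uIcc_of_le hst] at hθ
    have hp : 0 < θ - c := by linarith [hθ.1]
    cases two
    · simp only [G, Bool.false_eq_true, if_false, Wab.om, tau, pow_one]
      rw [abs_of_pos hp]
      exact ((hasDerivAt_id θ).sub_const c).log hp.ne'
    · simp only [G, if_true, Wab.om, tau]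
      rw [abs_of_pos hp]
      have h := (((hasDerivAt_id θ).sub_const c).inv hp.ne').neg
      simp only [id_eq] at h
      have e : -(-1 / (θ - c) ^ 2) = 1 / (θ - c) ^ 2 := by rw [neg_div, neg_neg]
      rw [e] at h
      refine h.congr_of_eventuallyEq (Filter.Eventually.of_forall fun x => ?_)
      simp [one_div]
  · rw [om_eq_right hst hc]
    have e0 : G two (c - s) - G two (c - t) = (-G two (c - t)) - (-G two (c - s)) := by ring
    rw [e0]
    refine intervalIntegral.integral_eq_sub_of_hasDerivAt (f := fun x => -G two (c - x)) ?_ hint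
    intro θ hθ
    rw [Set.uIcc_of_le hst] at hθ
    have hp : 0 < c - θ := by linarith [hθ.2]
    have habs : |θ - c| = c - θ := by rw [abs_sub_comm]; exact abs_of_pos hp
    cases two
    · simp only [G, Bool.false_eq_true, if_false, Wab.om, tau, pow_one]
      rw [habs]
      have h := (((hasDerivAt_id θ).const_sub c).log hp.ne').neg
      simp only [id_eq] at h
      have e : -(-1 / (c - θ)) = 1 / (c - θ) := by rw [neg_div, neg_neg]
      rw [e] at h
      exact h
    · simp only [G, if_true, Wab.om, tau]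
      rw [habs]
      have h := (((hasDerivAt_id θ).const_sub c).inv hp.ne')
      simp only [id_eq] at h
      have e : -(-1) / (c - θ) ^ 2 = 1 / (c - θ) ^ 2 := by rw [neg_neg]
      rw [e] at h
      refine h.congr_of_eventuallyEq (Filter.Eventually.of_forall fun x => ?_)
      simp [one_div]

lemma om_nonneg (two : Bool) (c s t : ℝ) : 0 ≤ om two c s t := by
  cases two
  · simp only [om, om1, Bool.false_eq_true, if_false]; exact abs_nonneg _
  · simp only [om, om2, if_true]; exact abs_nonneg _

/-- on an interval avoiding the special directions, the weights are comparable. -/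
theorem compare {a b s t : ℝ} (hab : a ≠ b) (h : ∀ x ∈ spec a b, ¬ (s ≤ x ∧ x ≤ t)) :
    ∃ c : ℝ, (c = a ∨ c = b) ∧ ∃ two : Bool, ∃ K : ℝ, 0 < K ∧
      ∀ u v, s ≤ u → u ≤ v → v ≤ t → K * om two c u v ≤ wtab a b u v ∧
        wtab a b u v ≤ 2 * K * om two c u v := by
  have h' : ∀ x ∈ Wab.special a b, x ∉ Set.Icc s t := by
    intro x hx hx'
    apply h x _ ⟨hx'.1, hx'.2⟩
    unfold Wab.special at hx
    unfold spec
    simpa using hx
  obtain ⟨c, hc, τ, hτ, K, hK, hcmp⟩ := Wab.wab_compare hab h'
  have ha : a ∉ Set.Icc s t := h' a (by simp [Wab.special])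
  have hb : b ∉ Set.Icc s t := h' b (by simp [Wab.special])
  have hcI : c ∉ Set.Icc s t := by
    rcases hc with rfl | rfl
    · exact ha
    · exact hb
  have htwo : ∃ two : Bool, tau two = τ := by
    rcases hτ with rfl | rfl
    · exact ⟨false, by simp [tau]⟩
    · exact ⟨true, by simp [tau]⟩
  obtain ⟨two, rfl⟩ := htwo
  refine ⟨c, hc, two, K, hK, fun u v hu huv hv => ?_⟩
  have hsub : Set.Icc u v ⊆ Set.Icc s t := Set.Icc_subset_Icc hu hv
  have hm := Wab.mass_compare huv hu hv ha hb hcI hcmp
  rw [integral_om huv (fun hx => hcI (hsub hx)),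
    Wab.integral_wab huv (fun hx => ha (hsub hx)) (fun hx => hb (hsub hx))] at hm
  unfold wtab
  rw [lr_eq_alf, lr_eq_alf]
  exact hm

end Crest.Agent.R51.Gd
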