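import Crest.Agent.R51.Good

/-!
# Row 51, section 7.5 (first half): `BadLac` and `FewSpec` (helper388)
-/

set_option autoImplicit false

noncomputable section

open Classical

namespace Crest.Agent.R51.Gd

lemma sl_ne {P : Finset Pt} (hP : Generic P) {p : Fin 3 → Pt} (hp : ∀ i, p i ∈ P)
    (hinj : Function.Injective p) : sl (p 0) (p 1) ≠ sl (p 0) (p 2) := by
  have h01 : p 0 ≠ p 1 := fun h => by simpa using hinj h
  have h02 : p 0 ≠ p 2 := fun h => by simpa using hinj h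
  have h12 : p 1 ≠ p 2 := fun h => by simpa using hinj h
  intro h
  have x1 : (p 0).1 ≠ (p 1).1 := fun hx => h01 (hP.x_inj _ (hp 0) _ (hp 1) hx)
  have x2 : (p 0).1 ≠ (p 2).1 := fun hx => h02 (hP.x_inj _ (hp 0) _ (hp 2) hx)
  rcases lt_or_gt_of_ne x1 with a1 | a1 <;> rcases lt_or_gt_of_ne x2 with a2 | a2
  · exact h12 (hP.sl_inj _ (hp 0) _ (hp 1) _ (hp 0) _ (hp 2) a1 a2 h).2
  · rw [sl_comm (p 0) (p 2)] at h
    exact h02 (hP.sl_inj _ (hp 0) _ (hp 1) _ (hp 2) _ (hp 0) a1 a2 h).1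
  · rw [sl_comm (p 0) (p 1)] at h
    exact h01 (hP.sl_inj _ (hp 1) _ (hp 0) _ (hp 0) _ (hp 2) a1 a2 h).1.symm
  · rw [sl_comm (p 0) (p 1), sl_comm (p 0) (p 2)] at h
    exact h12 (hP.sl_inj _ (hp 1) _ (hp 0) _ (hp 2) _ (hp 0) a1 a2 h).1

lemma lev_le {mu n0 be l : ℕ} (h : l ≤ n0) : lev mu n0 be l = mu ^ (10 * l) := by
  unfold lev; rw [if_pos h]

/-- for `v ∈ R` there is a walk of `H` starting at `p i` whose last edge lies in the finest
window of `slope(p_i v)`. -/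
lemma exists_edge {P : Finset Pt} {k mu n2 n0 be Vp : ℕ} {a : Cst} {K1 d1 d8 e1 c5 : ℝ}
    {W : WSys P k (lev mu n0 be) (n0 + 1) a.Cw} {H : Finset Walk} {p : Fin 3 → Pt}
    {R : Finset Pt} (hmu : 1 ≤ mu) (hVp : 1 ≤ Vp) (he1 : 0 < e1)
    (hH : HSystem mu n2 n0 be Vp a K1 d1 d8 W H) (hF : FinalCfg mu n0 be Vp a K1 e1 c5 W H p R)
    {v : Pt} (hv : v ∈ R) (i : Fin 3) :
    ∃ e : Edge, (p i, e.1, e.2) ∈ H ∧ e ∈ pairs P ∧ W.J n0 (esl e) = W.J n0 (sl (p i) v) := by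
  have hal := hF.alive v hv i
  have hN : (0 : ℝ) < P.card := by
    exact_mod_cast Finset.card_pos.2 ⟨v, hF.sub hv⟩
  have hVp' : (0 : ℝ) < Vp := by exact_mod_cast hVp
  have hlev : (0 : ℝ) < (lev mu n0 be n0 : ℝ) := by
    rw [lev_le le_rfl]
    have : (0 : ℝ) < mu := by exact_mod_cast hmu
    push_cast
    positivity
  have hpos : 0 < e1 * ((P.card : ℝ) / (Vp : ℝ) ^ 2) ^ 2 / (lev mu n0 be n0 : ℝ) := by
    positivity
  have hc : (0 : ℝ) < (((fib H (p i)).filter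
      (fun e => W.J n0 (esl e) = W.J n0 (sl (p i) v))).card : ℝ) := hpos.trans_le hal
  have hc' : 0 < ((fib H (p i)).filter
      (fun e => W.J n0 (esl e) = W.J n0 (sl (p i) v))).card := by exact_mod_cast hc
  obtain ⟨e, he⟩ := Finset.card_pos.1 hc'
  rw [Finset.mem_filter, mem_fib] at he
  refine ⟨e, he.1, ?_, he.2⟩
  have h := mem_T0' (hH.sub he.1)
  exact mem_pairs.2 ⟨h.2.1, h.2.2.1, h.2.2.2.2.1⟩

section

variable {P : Finset Pt} {k : ℕ} {V : ℕ → ℕ} {L : ℕ} {Cw : ℝ} (W : WSys P k V L Cw)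

/-- transfer of `Domin` from `w_{ab}` to `ω_{c,τ}` -/
lemma domin_transfer {C : Finset ℝ} {B : ℕ} {I J : ℝ × ℝ} {a b c s t K Lam : ℝ} {two : Bool}
    (hK : 0 < K) (hLam : 0 ≤ Lam) (hcmp : ∀ u v, s ≤ u → u ≤ v → v ≤ t →
      K * om two c u v ≤ wtab a b u v ∧ wtab a b u v ≤ 2 * K * om two c u v)
    (hI1 : s ≤ I.1) (hI2 : I.2 ≤ t) (hJ1 : I.1 ≤ J.1) (hJ : J.1 ≤ J.2) (hJ2 : J.2 ≤ I.2)
    (hD : Domin C B I (wtab a b) Lam J) : Domin C B I (om two c) (4 * Lam) J := by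
  obtain ⟨l, r, hB, h1, h2⟩ := hD
  have hB' := hB
  obtain ⟨-, -, b1, b2, b3, b4, -, -⟩ := hB'
  have c0 := (hcmp J.1 J.2 (hI1.trans hJ1) hJ (hJ2.trans hI2)).2
  have c1 := (hcmp l J.1 (hI1.trans b3) b1.le (hJ.trans (hJ2.trans hI2))).1
  have c2 := (hcmp J.2 r (hI1.trans (hJ1.trans hJ)) b2.le (b4.trans hI2)).1
  have hom := om_nonneg two c J.1 J.2
  have key : Lam * wtab a b J.1 J.2 ≤ K * (4 * Lam * om two c J.1 J.2) := by
    have := mul_le_mul_of_nonneg_left c0 hLam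
    have h3 : 0 ≤ Lam * (K * om two c J.1 J.2) := mul_nonneg hLam (mul_nonneg hK.le hom)
    nlinarith
  refine ⟨l, r, hB, ?_, ?_⟩
  · exact lt_of_mul_lt_mul_left (c1.trans_lt (h1.trans_le key)) hK.le
  · exact lt_of_mul_lt_mul_left (c2.trans_lt (h2.trans_le key)) hK.le

end

theorem badLac : BadLac := by
  intro P k mu n2 n0 be Vp a K1 d1 d8 e1 c5 W H p R hP hmu hn2 hn0 hVp he1 hH hF v hv hns hbad
  obtain ⟨e, heH, heP, heJ⟩ := exists_edge hmu hVp he1 hH hF hv 0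
  have hdir : Dir P (sl (p 0) v) := dir_sl (hF.memP 0) (hF.sub hv) (hF.left v hv 0)
  have hdire : Dir P (esl e) := ⟨e, heP, rfl⟩
  have hab := sl_ne hP hF.memP hF.inj
  set θ := sl (p 0) v with hθ
  set α := sl (p 0) (p 1) with hα
  set β := sl (p 0) (p 2) with hβ
  have hcong : ∀ l ≤ n0, W.J l (esl e) = W.J l θ := fun l hl =>
    J_congr W (Nat.le_succ n0) hdire hdir heJ hl
  set B := mu ^ 39 with hBdef
  set Lam : ℝ := (mu : ℝ) ^ 11 with hLamdef
  have hmu1 : (1 : ℝ) ≤ mu := by exact_mod_cast hmu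
  have hLam1 : 1 ≤ Lam := one_le_pow₀ hmu1
  set F := (Finset.Icc 1 (2 * n2)).filter (fun l =>
    Flagged (W.cuts l) B Lam (W.J (l - 1) θ) (W.J l θ)) with hFdef
  set X := (Finset.Icc 1 (2 * n2)).filter (fun l =>
    W.T6 a.lam3 l (p 0) ∨ W.T7 a.lam3 n0 l (p 0) θ) with hXdef
  set Gs := goodLevs W mu n2 n0 a.lam3 α β (p 0) θ with hGdef
  have hFc : 200 * F.card ≤ 2 * n2 := by
    have h := hH.t8 _ heH
    have e1 : (Finset.Icc 1 (2 * n2)).filter (fun l =>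
        Flagged (W.cuts l) (mu ^ 39) ((mu : ℝ) ^ 11)
          (W.J (l - 1) (esl (lastE ((p 0, e.1, e.2) : Walk))))
          (W.J l (esl (lastE ((p 0, e.1, e.2) : Walk))))) = F := by
      rw [hFdef]
      apply Finset.filter_congr
      intro l hl
      rw [Finset.mem_Icc] at hl
      have h1 : esl (lastE ((p 0, e.1, e.2) : Walk)) = esl e := rfl
      rw [h1, hcong l (hl.2.trans hn0), hcong (l - 1) ((Nat.sub_le _ _).trans (hl.2.trans hn0))]
    rw [e1] at h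
    exact h
  have hXc : 200 * X.card ≤ 2 * n2 := by
    have h := hH.t67 _ heH
    have e1 : (Finset.Icc 1 (2 * n2)).filter (fun l =>
        W.T6 a.lam3 l ((p 0, e.1, e.2) : Walk).1 ∨
          W.T7 a.lam3 n0 l ((p 0, e.1, e.2) : Walk).1
            (esl (lastE ((p 0, e.1, e.2) : Walk)))) = X := by
      rw [hXdef]
      apply Finset.filter_congr
      intro l hl
      rw [Finset.mem_Icc] at hl
      have h1 : esl (lastE ((p 0, e.1, e.2) : Walk)) = esl e := rfl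
      rw [h1]
      unfold WSys.T7
      rw [hcong l (hl.2.trans hn0)]
    rw [e1] at h
    exact h
  set E := ((Gs ∪ F) ∪ X) ∪ X.image (fun j => j + 1) with hEdef
  have hEc : 200 * E.card < 8 * n2 := by
    have h1 := Finset.card_union_le ((Gs ∪ F) ∪ X) (X.image (fun j => j + 1))
    have h2 := Finset.card_union_le (Gs ∪ F) X
    have h3 := Finset.card_union_le Gs F
    have h4 : (X.image (fun j => j + 1)).card ≤ X.card := Finset.card_image_le
    rw [← hEdef] at h1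
    clear_value E F X Gs
    omega
  have key : ∀ j, 1 < j → j ≤ 2 * n2 → j ∉ E →
      Domin (W.cuts j) B (W.J (j - 1) θ) (wtab α β) Lam (W.J j θ) ∧
        ¬ Flagged (W.cuts j) B Lam (W.J (j - 1) θ) (W.J j θ) := by
    intro j hj1 hj2 hjE
    rw [hEdef, Finset.mem_union, Finset.mem_union, Finset.mem_union, not_or, not_or, not_or]
      at hjE
    obtain ⟨⟨⟨hG, hFl⟩, hX⟩, hX'⟩ := hjE
    have hnF : ¬ Flagged (W.cuts j) B Lam (W.J (j - 1) θ) (W.J j θ) := fun h =>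
      hFl (Finset.mem_filter.2 ⟨Finset.mem_Icc.2 ⟨hj1.le, hj2⟩, h⟩)
    refine ⟨?_, hnF⟩
    by_contra hnd
    apply hG
    have hnX : ¬ (W.T6 a.lam3 j (p 0) ∨ W.T7 a.lam3 n0 j (p 0) θ) := fun h =>
      hX (Finset.mem_filter.2 ⟨Finset.mem_Icc.2 ⟨hj1.le, hj2⟩, h⟩)
    have hnX' : ¬ (W.T6 a.lam3 (j - 1) (p 0) ∨ W.T7 a.lam3 n0 (j - 1) (p 0) θ) := fun h =>
      hX' (Finset.mem_image.2 ⟨j - 1, Finset.mem_filter.2
        ⟨Finset.mem_Icc.2 ⟨by omega, by omega⟩, h⟩, by omega⟩)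
    rw [not_or] at hnX hnX'
    have hbl : ∃ l r, Blocks (W.cuts j) B (W.J (j - 1) θ) (W.J j θ) l r := by
      by_contra hcon
      exact hnF (Or.inl hcon)
    exact Finset.mem_filter.2 ⟨Finset.mem_Ioc.2 ⟨hj1, hj2⟩, hbl, hnd, hnX.1, hnX'.2⟩
  obtain ⟨c, hc, two, K, hK, hcmp⟩ := compare hab (s := (W.J 1 θ).1) (t := (W.J 1 θ).2) hns
  have hcs : c ∈ spec α β := by
    unfold spec
    rcases hc with h | h
    · simp [h]
    · simp [h]
  have hc1 := hns c hcs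
  have key2 : ∀ j, 1 < j → j ≤ 2 * n2 → j ∉ E →
      Domin (W.cuts j) B (W.J (j - 1) θ) (om two c) (4 * Lam) (W.J j θ) := by
    intro j hj1 hj2 hjE
    have hn1 := J_nested W (show 1 ≤ j - 1 by omega) (show j - 1 ≤ n0 + 1 by omega) hdir
    have hn2' := J_nested W (show j - 1 ≤ j by omega) (show j ≤ n0 + 1 by omega) hdir
    have hsp := J_spec W (show j ≤ n0 + 1 by omega) hdir
    exact domin_transfer hK (by linarith) hcmp hn1.1 hn1.2 hn2'.1
      (hsp.2.1.trans hsp.2.2).le hn2'.2 (key j hj1 hj2 hjE).1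
  -- a level `≥ n2`
  have hex : ∃ j0 ∈ Finset.Icc n2 (2 * n2), j0 ∉ E := by
    by_contra hcon
    push Not at hcon
    have hsub : Finset.Icc n2 (2 * n2) ⊆ E := hcon
    have := Finset.card_le_card hsub
    rw [Nat.card_Icc] at this
    omega
  obtain ⟨j0, hj0, hj0E⟩ := hex
  rw [Finset.mem_Icc] at hj0
  have hdist : (W.J n2 θ).1 - c ≤ 17 * Lam * ((W.J n2 θ).2 - (W.J n2 θ).1) ∧
      c - (W.J n2 θ).2 ≤ 17 * Lam * ((W.J n2 θ).2 - (W.J n2 θ).1) := by
    have hn1 := J_nested W (show 1 ≤ j0 - 1 by omega) (show j0 - 1 ≤ n0 + 1 by omega) hdir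
    have hnn := J_nested W (show n2 ≤ j0 by omega) (show j0 ≤ n0 + 1 by omega) hdir
    have hsp := J_spec W (show j0 ≤ n0 + 1 by omega) hdir
    have hd := dist_le_of_domin hLam1 (hsp.2.1.trans hsp.2.2)
      (fun h => hc1 ⟨hn1.1.trans h.1, h.2.trans hn1.2⟩)
      (key2 j0 (by omega) hj0.2 hj0E) (key j0 (by omega) hj0.2 hj0E).2
    have hmono : 17 * Lam * ((W.J j0 θ).2 - (W.J j0 θ).1) ≤
        17 * Lam * ((W.J n2 θ).2 - (W.J n2 θ).1) :=
      mul_le_mul_of_nonneg_left (by linarith [hnn.1, hnn.2]) (by linarith)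
    constructor
    · linarith [hd.1, hnn.1]
    · linarith [hd.2, hnn.2]
  refine ⟨c, hc, two, hc1, hdist.1, hdist.2, ?_⟩
  have hsub : (Finset.Ioc 1 n2) \ E ⊆ (Finset.Ioc 1 n2).filter (fun j =>
      Domin (W.cuts j) (mu ^ 39) (W.J (j - 1) θ) (om two c) (4 * (mu : ℝ) ^ 11) (W.J j θ)) := by
    intro j hj
    rw [Finset.mem_sdiff, Finset.mem_Ioc] at hj
    exact Finset.mem_filter.2 ⟨Finset.mem_Ioc.2 hj.1,
      key2 j hj.1.1 (hj.1.2.trans (by omega)) hj.2⟩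
  have h1 := Finset.card_le_card hsub
  have h2 := Finset.le_card_sdiff E (Finset.Ioc 1 n2)
  rw [Nat.card_Ioc] at h2
  omega

/-- The number of `v ∈ R` with `slope(p v)` in a given window `Q` of level `l`. -/
lemma card_in_window {P : Finset Pt} {k : ℕ} {V : ℕ → ℕ} {L : ℕ} {Cw : ℝ}
    (W : WSys P k V L Cw) {l n : ℕ} (hln : l ≤ n) (hn : n ≤ L) {p : Pt} (hp : p ∈ P)
    {R : Finset Pt} (hR : R ⊆ P) (hleft : ∀ v ∈ R, p.1 < v.1) {T : ℝ} (hT : 0 ≤ T)
    (h7 : ∀ v ∈ R, ((W.actIn n (W.J l (sl p v)) p).card : ℝ) ≤ T)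
    (hpc : ∀ v ∈ R, p ∈ W.A n (W.J n (sl p v)))
    (hvc : ∀ v ∈ R, v ∈ W.A n (W.J n (sl p v))) (Q : ℝ × ℝ) :
    ((R.filter (fun v => W.J l (sl p v) = Q)).card : ℝ) ≤ T * (7 * bb P.card (V n)) := by
  by_cases hne : (R.filter (fun v => W.J l (sl p v) = Q)).Nonempty
  swap
  · rw [Finset.not_nonempty_iff_eq_empty] at hne
    rw [hne]
    simp only [Finset.card_empty, Nat.cast_zero]
    positivity
  obtain ⟨v0, hv0⟩ := hne
  rw [Finset.mem_filter] at hv0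
  have h70 := h7 v0 hv0.1
  rw [hv0.2] at h70
  have hmap : ∀ v ∈ R.filter (fun v => W.J l (sl p v) = Q),
      W.J n (sl p v) ∈ W.actIn n Q p := by
    intro v hv
    rw [Finset.mem_filter] at hv
    have hdir := dir_sl hp (hR hv.1) (hleft v hv.1)
    have hnest := J_nested W hln hn hdir
    rw [hv.2] at hnest
    unfold WSys.actIn WSys.act
    rw [Finset.mem_filter, Finset.mem_filter]
    exact ⟨⟨(J_spec W hn hdir).1, hpc v hv.1⟩, hnest.1, hnest.2⟩
  have hcard := Finset.card_le_mul_card_image_of_maps_to hmap (7 * bb P.card (V n)) (by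
    intro J' hJ'
    unfold WSys.actIn WSys.act at hJ'
    rw [Finset.mem_filter, Finset.mem_filter] at hJ'
    refine (Finset.card_le_card ?_).trans (W.cen_le n hn J' hJ'.1.1)
    intro v hv
    rw [Finset.mem_filter, Finset.mem_filter] at hv
    have := hvc v hv.1.1
    rw [hv.2] at this
    exact this)
  calc ((R.filter (fun v => W.J l (sl p v) = Q)).card : ℝ)
      ≤ ((7 * bb P.card (V n) * (W.actIn n Q p).card : ℕ) : ℝ) := by exact_mod_cast hcard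
    _ = ((W.actIn n Q p).card : ℝ) * (7 * bb P.card (V n)) := by push_cast; ring
    _ ≤ T * (7 * bb P.card (V n)) := by
        apply mul_le_mul_of_nonneg_right h70; positivity

/-- at most two windows contain a given direction in their closure. -/
lemma card_wins_Icc (C : Finset ℝ) (x : ℝ) :
    ((wins C).filter (fun Q => Q.1 ≤ x ∧ x ≤ Q.2)).card ≤ 2 := by
  have hinj : Set.InjOn (fun Q : ℝ × ℝ => decide (Q.1 < x))
      (((wins C).filter (fun Q => Q.1 ≤ x ∧ x ≤ Q.2) : Finset (ℝ × ℝ)) : Set (ℝ × ℝ)) := by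
    intro Q hQ Q' hQ' h
    rw [Finset.mem_coe, Finset.mem_filter] at hQ hQ'
    obtain ⟨hQ, q1, q2⟩ := hQ
    obtain ⟨hQ', q1', q2'⟩ := hQ'
    have hw := (mem_wins.1 hQ).2.2.1
    have hw' := (mem_wins.1 hQ').2.2.1
    simp only [decide_eq_decide] at h
    by_cases hx : Q.1 < x
    · have hx' := h.1 hx
      obtain ⟨θ, t1, t2⟩ := exists_between (max_lt hx hx')
      exact win_unique hQ hQ' ((le_max_left _ _).trans_lt t1) (t2.trans_le q2)
        ((le_max_right _ _).trans_lt t1) (t2.trans_le q2')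
    · have hx' : ¬ Q'.1 < x := fun h' => hx (h.2 h')
      have e1 : Q.1 = x := le_antisymm q1 (not_lt.1 hx)
      have e2 : Q'.1 = x := le_antisymm q1' (not_lt.1 hx')
      obtain ⟨θ, t1, t2⟩ := exists_between (lt_min (e1 ▸ hw) (e2 ▸ hw'))
      exact win_unique hQ hQ' (e1.trans_lt t1) (t2.trans_le (min_le_left _ _))
        (e2.trans_lt t1) (t2.trans_le (min_le_right _ _))
  calc ((wins C).filter (fun Q => Q.1 ≤ x ∧ x ≤ Q.2)).card
      = (((wins C).filter (fun Q => Q.1 ≤ x ∧ x ≤ Q.2)).image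
          (fun Q : ℝ × ℝ => decide (Q.1 < x))).card := (Finset.card_image_of_injOn hinj).symm
    _ ≤ (Finset.univ : Finset Bool).card := Finset.card_le_card (Finset.subset_univ _)
    _ = 2 := by simp

/-- **special windows**: the number of `v ∈ R` such that the closure of the level-`l` window of
`slope(p v)` contains an element of the finite set `S` of special directions. -/
theorem special_count {P : Finset Pt} {k : ℕ} {V : ℕ → ℕ} {L : ℕ} {Cw : ℝ}
    (W : WSys P k V L Cw) {l n : ℕ} (hln : l ≤ n) (hn : n ≤ L) {p : Pt} (hp : p ∈ P)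
    {R : Finset Pt} (hR : R ⊆ P) (hleft : ∀ v ∈ R, p.1 < v.1) {T : ℝ} (hT : 0 ≤ T)
    (h7 : ∀ v ∈ R, ((W.actIn n (W.J l (sl p v)) p).card : ℝ) ≤ T)
    (hpc : ∀ v ∈ R, p ∈ W.A n (W.J n (sl p v)))
    (hvc : ∀ v ∈ R, v ∈ W.A n (W.J n (sl p v))) (S : Finset ℝ) :
    ((R.filter (fun v => ∃ x ∈ S, (W.J l (sl p v)).1 ≤ x ∧ x ≤ (W.J l (sl p v)).2)).card : ℝ) ≤
      2 * S.card * (T * (7 * bb P.card (V n))) := by
  set A : Finset (ℝ × ℝ) := S.biUnion
    (fun x => (wins (W.cuts l)).filter (fun Q => Q.1 ≤ x ∧ x ≤ Q.2)) with hA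
  have hAc : (A.card : ℝ) ≤ 2 * S.card := by
    have : A.card ≤ S.card * 2 :=
      Finset.card_biUnion_le_card_mul _ _ _ (fun x _ => card_wins_Icc _ x)
    calc (A.card : ℝ) ≤ ((S.card * 2 : ℕ) : ℝ) := by exact_mod_cast this
      _ = 2 * S.card := by push_cast; ring
  have hsub : R.filter (fun v => ∃ x ∈ S, (W.J l (sl p v)).1 ≤ x ∧ x ≤ (W.J l (sl p v)).2) ⊆
      A.biUnion (fun Q => R.filter (fun v => W.J l (sl p v) = Q)) := by
    intro v hv
    rw [Finset.mem_filter] at hv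
    obtain ⟨hvR, x, hx, hxi⟩ := hv
    rw [Finset.mem_biUnion]
    refine ⟨W.J l (sl p v), ?_, Finset.mem_filter.2 ⟨hvR, rfl⟩⟩
    rw [hA, Finset.mem_biUnion]
    exact ⟨x, hx, Finset.mem_filter.2
      ⟨(J_spec W (hln.trans hn) (dir_sl hp (hR hvR) (hleft v hvR))).1, hxi⟩⟩
  calc ((R.filter (fun v => ∃ x ∈ S, (W.J l (sl p v)).1 ≤ x ∧
        x ≤ (W.J l (sl p v)).2)).card : ℝ)
      ≤ ((A.biUnion (fun Q => R.filter (fun v => W.J l (sl p v) = Q))).card : ℝ) := by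
        exact_mod_cast Finset.card_le_card hsub
    _ ≤ ∑ Q ∈ A, ((R.filter (fun v => W.J l (sl p v) = Q)).card : ℝ) := by
        exact_mod_cast Finset.card_biUnion_le
    _ ≤ ∑ _Q ∈ A, T * (7 * bb P.card (V n)) :=
        Finset.sum_le_sum (fun Q _ => card_in_window W hln hn hp hR hleft hT h7 hpc hvc Q)
    _ = A.card * (T * (7 * bb P.card (V n))) := by rw [Finset.sum_const, nsmul_eq_mul]
    _ ≤ 2 * S.card * (T * (7 * bb P.card (V n))) := by
        apply mul_le_mul_of_nonneg_right hAc; positivity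

lemma bb_le {N V : ℕ} (hV : 1 ≤ V) : (bb N V : ℝ) ≤ (N : ℝ) / (V : ℝ) ^ 3 := by
  unfold bb
  have h : ((N / V ^ 3 : ℕ) : ℝ) ≤ (N : ℝ) / ((V ^ 3 : ℕ) : ℝ) := Nat.cast_div_le
  simpa using h

lemma bb_anti {N V V' : ℕ} (_hV : 1 ≤ V) (h : V ≤ V') : bb N V' ≤ bb N V := by
  unfold bb
  exact Nat.div_le_div_left (Nat.pow_le_pow_left h 3) (by positivity)

/-- `p i` is active in the finest window of `slope(p_i v)` -/
lemma p_active {P : Finset Pt} {k mu n2 n0 be Vp : ℕ} {a : Cst} {K1 d1 d8 e1 c5 : ℝ}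
    {W : WSys P k (lev mu n0 be) (n0 + 1) a.Cw} {H : Finset Walk} {p : Fin 3 → Pt}
    {R : Finset Pt} (ha : a.Good) (hmu : 1 ≤ mu) (hVp : 1 ≤ Vp) (he1 : 0 < e1)
    (hH : HSystem mu n2 n0 be Vp a K1 d1 d8 W H) (hF : FinalCfg mu n0 be Vp a K1 e1 c5 W H p R)
    {v : Pt} (hv : v ∈ R) (i : Fin 3) : p i ∈ W.A n0 (W.J n0 (sl (p i) v)) := by
  obtain ⟨e, heH, heP, heJ⟩ := exists_edge hmu hVp he1 hH hF hv i
  have h2 := hH.t2 _ heH
  have hle : lastE ((p i, e.1, e.2) : Walk) = e := rfl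
  rw [hle] at h2
  have hsp := J_spec W (Nat.le_succ n0) (⟨e, heP, rfl⟩ : Dir P (esl e))
  rw [← heJ]
  have h3 : bb P.card (lev mu n0 be (n0 + 1)) ≤ bb P.card (lev mu n0 be n0) := by
    have hl0 : 1 ≤ lev mu n0 be n0 := by
      rw [lev_le le_rfl]; exact Nat.one_le_pow _ _ hmu
    have e1 : lev mu n0 be (n0 + 1) = be * mu ^ (10 * n0) := by
      unfold lev; rw [if_neg (by omega)]
    rcases Nat.eq_zero_or_pos be with hbe | hbe
    · rw [e1, hbe, zero_mul]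
      unfold bb
      simp
    · apply bb_anti hl0
      rw [e1, lev_le le_rfl]
      exact Nat.le_mul_of_pos_left _ hbe
  have h4 : ⌊a.kap * (bb P.card (lev mu n0 be (n0 + 1)) : ℝ)⌋₊ ≤
      bb P.card (lev mu n0 be (n0 + 1)) := by
    apply Nat.floor_le_of_le
    have h5 : (0 : ℝ) ≤ bb P.card (lev mu n0 be (n0 + 1)) := Nat.cast_nonneg _
    nlinarith [ha.kap_le, ha.kap_pos]
  have h5 : Central P k (bb P.card (lev mu n0 be n0)) (esl e) (p i) := h2.mono (h4.trans h3)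
  have h6 : p i ∈ cen P k (bb P.card (lev mu n0 be n0)) (W.J n0 (esl e)).1
      (W.J n0 (esl e)).2 := mem_cen.2 ⟨hF.memP i, esl e, hsp.2.1, hsp.2.2, h5⟩
  exact h6

theorem fewSpec : FewSpec := by
  intro a ha c5 hc5
  refine ⟨max 1 ⌈560 * a.lam3 / c5⌉₊, fun mu hmu => ?_⟩
  intro n2 n0 be Vp K1 d1 d8 e1 P k W H p R hP hn2 hn0 hVp he1 hH hF
  have hmu1 : 1 ≤ mu := (le_max_left _ _).trans hmu
  have hmu2 : 560 * a.lam3 / c5 ≤ (mu : ℝ) :=
    (Nat.le_ceil _).trans (by exact_mod_cast (le_max_right _ _).trans hmu)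
  by_cases hRne : R.Nonempty
  swap
  · rw [Finset.not_nonempty_iff_eq_empty] at hRne
    rw [hRne]; simp
  have hmuR : (1 : ℝ) ≤ mu := by exact_mod_cast hmu1
  have hlam3 : 0 < a.lam3 := by linarith [ha.lam3]
  set V : ℝ := (lev mu n0 be n0 : ℝ) with hVdef
  have hVeq : V = (mu : ℝ) ^ (10 * n0) := by rw [hVdef, lev_le le_rfl]; push_cast; rfl
  have hV1 : 1 ≤ V := by rw [hVeq]; exact one_le_pow₀ hmuR
  have hlev1 : (lev mu n0 be 1 : ℝ) = (mu : ℝ) ^ 10 := by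
    rw [lev_le (by omega : 1 ≤ n0)]; push_cast; rfl
  set T : ℝ := a.lam3 * (V / (lev mu n0 be 1 : ℝ)) with hT
  have hT0 : 0 ≤ T := by
    rw [hT, hlev1]; positivity
  have hdir : ∀ v ∈ R, Dir P (sl (p 0) v) := fun v hv =>
    dir_sl (hF.memP 0) (hF.sub hv) (hF.left v hv 0)
  have h7 : ∀ v ∈ R, ((W.actIn n0 (W.J 1 (sl (p 0) v)) (p 0)).card : ℝ) ≤ T := by
    intro v hv
    obtain ⟨e, heH, heP, heJ⟩ := exists_edge hmu1 hVp he1 hH hF hv 0
    have h := hH.t7 _ heH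
    have h1 : esl (lastE ((p 0, e.1, e.2) : Walk)) = esl e := rfl
    rw [h1] at h
    unfold WSys.T7 at h
    rw [not_lt, J_congr W (Nat.le_succ n0) ⟨e, heP, rfl⟩ (hdir v hv) heJ
      (show 1 ≤ n0 by omega)] at h
    exact h
  have hcount := special_count W (show 1 ≤ n0 by omega) (Nat.le_succ n0) (hF.memP 0) hF.sub
    (fun v hv => hF.left v hv 0) hT0 h7
    (fun v hv => p_active ha hmu1 hVp he1 hH hF hv 0) (fun v hv => hF.actv v hv 0)
    (spec (sl (p 0) (p 1)) (sl (p 0) (p 2)))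
  have hfil : R.filter (fun v => ¬ NonSpec W (sl (p 0) (p 1)) (sl (p 0) (p 2)) (sl (p 0) v)) =
      R.filter (fun v => ∃ x ∈ spec (sl (p 0) (p 1)) (sl (p 0) (p 2)),
        (W.J 1 (sl (p 0) v)).1 ≤ x ∧ x ≤ (W.J 1 (sl (p 0) v)).2) := by
    apply Finset.filter_congr
    intro v _
    unfold NonSpec
    push Not
    rfl
  rw [hfil]
  have hspec : ((spec (sl (p 0) (p 1)) (sl (p 0) (p 2))).card : ℝ) ≤ 5 := by
    have : (spec (sl (p 0) (p 1)) (sl (p 0) (p 2))).card ≤ 5 := by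
      unfold spec
      exact (Finset.card_insert_le _ _).trans (Nat.succ_le_succ
        ((Finset.card_insert_le _ _).trans (Nat.succ_le_succ
        ((Finset.card_insert_le _ _).trans (Nat.succ_le_succ
        ((Finset.card_insert_le _ _).trans (Nat.succ_le_succ (by simp))))))))
    exact_mod_cast this
  have hbb : (bb P.card (lev mu n0 be n0) : ℝ) ≤ (P.card : ℝ) / V ^ 3 :=
    bb_le (by rw [lev_le le_rfl]; exact Nat.one_le_pow _ _ hmu1)
  have hbig := hF.big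
  rw [← hVdef] at hbig
  have hN0 : (0 : ℝ) ≤ P.card := Nat.cast_nonneg _
  have hfin : 8 * (2 * 5 * (T * (7 * ((P.card : ℝ) / V ^ 3)))) ≤
      c5 * ((P.card : ℝ) / V ^ 2) := by
    rw [hT, hlev1]
    have e1 : 8 * (2 * 5 * (a.lam3 * (V / (mu : ℝ) ^ 10) * (7 * ((P.card : ℝ) / V ^ 3)))) =
        (560 * a.lam3 / (mu : ℝ) ^ 10) * ((P.card : ℝ) / V ^ 2) := by
      field_simp
      ring
    rw [e1]
    apply mul_le_mul_of_nonneg_right _ (by positivity)
    rw [div_le_iff₀ (by positivity)]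
    have h3 : 560 * a.lam3 ≤ (mu : ℝ) * c5 := by
      rwa [div_le_iff₀ hc5] at hmu2
    have h4 : (mu : ℝ) ≤ (mu : ℝ) ^ 10 := by
      calc (mu : ℝ) = (mu : ℝ) ^ 1 := (pow_one _).symm
        _ ≤ (mu : ℝ) ^ 10 := pow_le_pow_right₀ hmuR (by norm_num)
    calc 560 * a.lam3 ≤ (mu : ℝ) * c5 := h3
      _ ≤ (mu : ℝ) ^ 10 * c5 := mul_le_mul_of_nonneg_right h4 hc5.le
      _ = c5 * (mu : ℝ) ^ 10 := mul_comm _ _
  have hchain : 2 * ((spec (sl (p 0) (p 1)) (sl (p 0) (p 2))).card : ℝ) *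
      (T * (7 * (bb P.card (lev mu n0 be n0) : ℝ))) ≤
      2 * 5 * (T * (7 * ((P.card : ℝ) / V ^ 3))) := by
    apply mul_le_mul
    · linarith
    · apply mul_le_mul_of_nonneg_left _ hT0
      linarith
    · positivity
    · norm_num
  have hreal : (8 : ℝ) * ((R.filter (fun v => ∃ x ∈ spec (sl (p 0) (p 1)) (sl (p 0) (p 2)),
        (W.J 1 (sl (p 0) v)).1 ≤ x ∧ x ≤ (W.J 1 (sl (p 0) v)).2)).card : ℝ) ≤ (R.card : ℝ) := by
    linarith
  exact_mod_cast hreal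

end Crest.Agent.R51.Gd
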