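import Crest.Agent.R51.HSys
import Crest.Agent.R51.Ceva

/-!
# Row 51, section 7.5: definitions and interface (helper388)

* `wtab a b s t` : weight of the interval `(s,t)` for `w_{ab}`, i.e. `|lr t a b - lr s a b|`;
* `spec a b` : the five special directions;
* `GoodLev` : good levels; `goodLevs` the finite set of good levels in `(1, 2 n2]`;
* `BadLac` (helper388), `GoodHalf` (helper865 from `BadLac`, consumed by helper417).
-/

set_option autoImplicit false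

noncomputable section

open Classical

namespace Crest.Agent.R51

/-- weight of the interval `(s,t)` for `w_{ab}` -/
def wtab (a b s t : ℝ) : ℝ := |lr t a b - lr s a b|

/-- the special directions of `a, b` -/
def spec (a b : ℝ) : Finset ℝ := {a, b, (a + b) / 2, 2 * a - b, 2 * b - a}

/-- `j` is a good level for `(p, θ)` -/
structure GoodLev {P : Finset Pt} {k : ℕ} {V : ℕ → ℕ} {L : ℕ} {Cw : ℝ} (W : WSys P k V L Cw)
    (mu n0 : ℕ) (lam3 a b : ℝ) (p : Pt) (θ : ℝ) (j : ℕ) : Prop where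
  blocks : ∃ l r, Blocks (W.cuts j) (mu ^ 39) (W.J (j - 1) θ) (W.J j θ) l r
  ndom : ¬ Domin (W.cuts j) (mu ^ 39) (W.J (j - 1) θ) (wtab a b) ((mu : ℝ) ^ 11) (W.J j θ)
  nt6 : ¬ W.T6 lam3 j p
  nt7 : ¬ W.T7 lam3 n0 (j - 1) p θ

/-- the good levels in `(1, 2 n2]` -/
def goodLevs {P : Finset Pt} {k : ℕ} {V : ℕ → ℕ} {L : ℕ} {Cw : ℝ} (W : WSys P k V L Cw)
    (mu n2 n0 : ℕ) (lam3 a b : ℝ) (p : Pt) (θ : ℝ) : Finset ℕ :=
  (Finset.Ioc 1 (2 * n2)).filter (fun j => GoodLev W mu n0 lam3 a b p θ j)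

/-- `θ` is non-special: no special direction in the closure of its level-`1` window -/
def NonSpec {P : Finset Pt} {k : ℕ} {V : ℕ → ℕ} {L : ℕ} {Cw : ℝ} (W : WSys P k V L Cw)
    (a b θ : ℝ) : Prop :=
  ∀ x ∈ spec a b, ¬ ((W.J 1 θ).1 ≤ x ∧ x ≤ (W.J 1 θ).2)

/-- **7.5, first half** (helper388): a non-special `v ∈ R` with few good levels is seen from `p₁`
in a window of `Prob_{c,τ}` -/
def BadLac : Prop :=
  ∀ (P : Finset Pt) (k mu n2 n0 be Vp : ℕ) (a : Cst) (K1 d1 d8 e1 c5 : ℝ)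
    (W : WSys P k (lev mu n0 be) (n0 + 1) a.Cw) (H : Finset Walk) (p : Fin 3 → Pt)
    (R : Finset Pt), Generic P → 1 ≤ mu → 200 ≤ n2 → 2 * n2 ≤ n0 → 1 ≤ Vp → 0 < e1 →
    HSystem mu n2 n0 be Vp a K1 d1 d8 W H → FinalCfg mu n0 be Vp a K1 e1 c5 W H p R →
    ∀ v ∈ R, NonSpec W (sl (p 0) (p 1)) (sl (p 0) (p 2)) (sl (p 0) v) →
      200 * (goodLevs W mu n2 n0 a.lam3 (sl (p 0) (p 1)) (sl (p 0) (p 2)) (p 0)
        (sl (p 0) v)).card < 2 * n2 →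
      ∃ c : ℝ, (c = sl (p 0) (p 1) ∨ c = sl (p 0) (p 2)) ∧ ∃ two : Bool,
        Lac W mu n2 c two (sl (p 0) v)

/-- **7.5, special windows** (helper388): at most an eighth of `R` is special -/
def FewSpec : Prop :=
  ∀ a : Cst, a.Good → ∀ c5 : ℝ, 0 < c5 → ∃ mu0 : ℕ, ∀ mu : ℕ, mu0 ≤ mu →
  ∀ (n2 n0 be Vp : ℕ) (K1 d1 d8 e1 : ℝ) (P : Finset Pt) (k : ℕ)
    (W : WSys P k (lev mu n0 be) (n0 + 1) a.Cw) (H : Finset Walk) (p : Fin 3 → Pt)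
    (R : Finset Pt), Generic P → 200 ≤ n2 → 2 * n2 ≤ n0 → 1 ≤ Vp → 0 < e1 →
    HSystem mu n2 n0 be Vp a K1 d1 d8 W H → FinalCfg mu n0 be Vp a K1 e1 c5 W H p R →
    8 * (R.filter (fun v => ¬ NonSpec W (sl (p 0) (p 1)) (sl (p 0) (p 2)) (sl (p 0) v))).card
      ≤ R.card

/-- **7.5** (helper865, from `BadLac` and `FewSpec`): half of the points of `R` are non-special
and have at least `n1/200` good levels (`n1 = 2 n2`) -/
def GoodHalf : Prop :=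
  ∀ a : Cst, a.Good → ∀ e1 : ℝ, 0 < e1 → ∀ c5 : ℝ, 0 < c5 → ∃ d8 : ℝ, 0 < d8 ∧
  ∃ mu0 : ℕ, ∀ mu : ℕ, mu0 ≤ mu → ∀ (n2 n0 be Vp : ℕ) (K1 d1 : ℝ) (P : Finset Pt) (k : ℕ)
    (W : WSys P k (lev mu n0 be) (n0 + 1) a.Cw) (H : Finset Walk) (p : Fin 3 → Pt)
    (R : Finset Pt), Generic P → 200 ≤ n2 → 2 * n2 ≤ n0 → 1 ≤ Vp →
    HSystem mu n2 n0 be Vp a K1 d1 d8 W H → FinalCfg mu n0 be Vp a K1 e1 c5 W H p R →
    ∃ R' ⊆ R, R.card ≤ 2 * R'.card ∧ ∀ v ∈ R',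
      NonSpec W (sl (p 0) (p 1)) (sl (p 0) (p 2)) (sl (p 0) v) ∧
      2 * n2 ≤ 200 * (goodLevs W mu n2 n0 a.lam3 (sl (p 0) (p 1)) (sl (p 0) (p 2)) (p 0)
        (sl (p 0) v)).card

end Crest.Agent.R51
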