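import Crest.Agent.R51.Good2

/-!
# Row 51, section 7.5 (second half): `GoodHalf` from `BadLac` and `FewSpec`
-/

set_option autoImplicit false

noncomputable section

open Classical

namespace Crest.Agent.R51.Gd

/-- if many `v ∈ R` are seen from `p₁` in `Prob_{c,τ}` windows then many elements of `H_{p₁}` lie
in such windows -/
lemma lac_card {P : Finset Pt} {k mu n2 n0 be Vp : ℕ} {a : Cst} {K1 d1 d8 e1 c5 : ℝ}
    {W : WSys P k (lev mu n0 be) (n0 + 1) a.Cw} {H : Finset Walk} {p : Fin 3 → Pt}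
    {R : Finset Pt} (_hmu : 1 ≤ mu) (_hVp : 1 ≤ Vp) (he1 : 0 < e1) (hn2 : 1 ≤ n2)
    (hn0 : n2 ≤ n0)
    (hH : HSystem mu n2 n0 be Vp a K1 d1 d8 W H) (hF : FinalCfg mu n0 be Vp a K1 e1 c5 W H p R)
    (c : ℝ) (two : Bool) (Bd : Finset Pt) (hBd : Bd ⊆ R)
    (hlac : ∀ v ∈ Bd, Lac W mu n2 c two (sl (p 0) v)) :
    (Bd.card : ℝ) * (e1 * ((P.card : ℝ) / (Vp : ℝ) ^ 2) ^ 2 / (lev mu n0 be n0 : ℝ)) ≤
      7 * (bb P.card (lev mu n0 be n0) : ℝ) *
        (((fib H (p 0)).filter (fun e => Lac W mu n2 c two (esl e))).card : ℝ) := by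
  set q : ℝ := e1 * ((P.card : ℝ) / (Vp : ℝ) ^ 2) ^ 2 / (lev mu n0 be n0 : ℝ) with hq
  have hq0 : 0 ≤ q := by positivity
  set Im := Bd.image (fun v => W.J n0 (sl (p 0) v)) with hIm
  set Le := (fib H (p 0)).filter (fun e => Lac W mu n2 c two (esl e)) with hLe
  have hdir : ∀ v ∈ Bd, Dir P (sl (p 0) v) := fun v hv =>
    dir_sl (hF.memP 0) (hF.sub (hBd hv)) (hF.left v (hBd hv) 0)
  -- fibres of `v ↦ J(v)`
  have h1 : Bd.card ≤ 7 * bb P.card (lev mu n0 be n0) * Im.card := by
    apply Finset.card_le_mul_card_image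
    intro J hJ
    obtain ⟨v0, hv0, rfl⟩ := Finset.mem_image.1 hJ
    refine (Finset.card_le_card ?_).trans
      (W.cen_le n0 (Nat.le_succ n0) _ (J_spec W (Nat.le_succ n0) (hdir v0 hv0)).1)
    intro v hv
    rw [Finset.mem_filter] at hv
    have h := hF.actv v (hBd hv.1) 0
    rw [hv.2] at h
    exact h
  -- elements of `H` in the windows
  have h2 : (Im.card : ℝ) * q ≤ (Le.card : ℝ) := by
    have hsub : Im.biUnion (fun J => (fib H (p 0)).filter (fun e => W.J n0 (esl e) = J)) ⊆ Le := by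
      intro e he
      rw [Finset.mem_biUnion] at he
      obtain ⟨J, hJ, he⟩ := he
      obtain ⟨v, hv, rfl⟩ := Finset.mem_image.1 hJ
      rw [Finset.mem_filter] at he
      rw [hLe, Finset.mem_filter]
      refine ⟨he.1, ?_⟩
      have heH := mem_fib.1 he.1
      have ht := mem_T0' (hH.sub heH)
      have hde : Dir P (esl e) := ⟨e, mem_pairs.2 ⟨ht.2.1, ht.2.2.1, ht.2.2.2.2.1⟩, rfl⟩
      exact Lac_congr W hn0 hn2 (Nat.le_succ n0) (hdir v hv) hde he.2.symm (hlac v hv)
    have hdisj : ∀ J ∈ Im, ∀ J' ∈ Im, J ≠ J' →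
        Disjoint ((fib H (p 0)).filter (fun e => W.J n0 (esl e) = J))
          ((fib H (p 0)).filter (fun e => W.J n0 (esl e) = J')) := by
      intro J _ J' _ hne
      rw [Finset.disjoint_left]
      intro e he he'
      rw [Finset.mem_filter] at he he'
      exact hne (he.2.symm.trans he'.2)
    have hcard := Finset.card_biUnion hdisj
    have hle := Finset.card_le_card hsub
    rw [hcard] at hle
    calc (Im.card : ℝ) * q = ∑ _J ∈ Im, q := by rw [Finset.sum_const, nsmul_eq_mul]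
      _ ≤ ∑ J ∈ Im, (((fib H (p 0)).filter (fun e => W.J n0 (esl e) = J)).card : ℝ) := by
          apply Finset.sum_le_sum
          intro J hJ
          obtain ⟨v, hv, rfl⟩ := Finset.mem_image.1 hJ
          exact hF.alive v (hBd hv) 0
      _ ≤ (Le.card : ℝ) := by exact_mod_cast hle
  calc (Bd.card : ℝ) * q ≤ ((7 * bb P.card (lev mu n0 be n0) * Im.card : ℕ) : ℝ) * q :=
        mul_le_mul_of_nonneg_right (by exact_mod_cast h1) hq0
    _ = 7 * (bb P.card (lev mu n0 be n0) : ℝ) * ((Im.card : ℝ) * q) := by push_cast; ring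
    _ ≤ 7 * (bb P.card (lev mu n0 be n0) : ℝ) * (Le.card : ℝ) :=
        mul_le_mul_of_nonneg_left h2 (by positivity)

theorem goodHalf_of (hBL : BadLac) (hFS : FewSpec) : GoodHalf := by
  intro a ha e1 he1 c5 hc5
  obtain ⟨mu0, hmu0⟩ := hFS a ha c5 hc5
  refine ⟨c5 * e1 / 100, by positivity, max mu0 1, fun mu hmu => ?_⟩
  intro n2 n0 be Vp K1 d1 P k W H p R hP hn2 hn0 hVp hH hF
  have hmu1 : 1 ≤ mu := (le_max_right _ _).trans hmu
  have hspec := hmu0 mu ((le_max_left _ _).trans hmu) n2 n0 be Vp K1 d1 _ e1 P k W H p R hP hn2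
    hn0 hVp he1 hH hF
  set α := sl (p 0) (p 1) with hα
  set β := sl (p 0) (p 2) with hβ
  set S := R.filter (fun v => ¬ NonSpec W α β (sl (p 0) v)) with hS
  set R' := R.filter (fun v => NonSpec W α β (sl (p 0) v) ∧
    2 * n2 ≤ 200 * (goodLevs W mu n2 n0 a.lam3 α β (p 0) (sl (p 0) v)).card) with hR'
  refine ⟨R', Finset.filter_subset _ _, ?_, fun v hv => (Finset.mem_filter.1 hv).2⟩
  by_contra hcon
  rw [not_le] at hcon
  set Bd := R.filter (fun v => NonSpec W α β (sl (p 0) v) ∧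
    200 * (goodLevs W mu n2 n0 a.lam3 α β (p 0) (sl (p 0) v)).card < 2 * n2) with hBd
  have hcover : R ⊆ (R' ∪ S) ∪ Bd := by
    intro v hv
    rw [Finset.mem_union, Finset.mem_union, hR', hS, hBd, Finset.mem_filter, Finset.mem_filter,
      Finset.mem_filter]
    by_cases h1 : NonSpec W α β (sl (p 0) v)
    · by_cases h2 : 2 * n2 ≤ 200 * (goodLevs W mu n2 n0 a.lam3 α β (p 0) (sl (p 0) v)).card
      · exact Or.inl (Or.inl ⟨hv, h1, h2⟩)
      · exact Or.inr ⟨hv, h1, not_le.1 h2⟩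
    · exact Or.inl (Or.inr ⟨hv, h1⟩)
  have hcc : R.card ≤ R'.card + S.card + Bd.card :=
    (Finset.card_le_card hcover).trans ((Finset.card_union_le _ _).trans
      (Nat.add_le_add_right (Finset.card_union_le _ _) _))
  have hBd8 : 3 * R.card < 8 * Bd.card := by omega
  -- the four classes
  set Q : ℝ → Bool → Finset Pt := fun c two => Bd.filter (fun v => Lac W mu n2 c two (sl (p 0) v))
    with hQ
  have hcov2 : Bd ⊆ ((Q α false ∪ Q α true) ∪ Q β false) ∪ Q β true := by
    intro v hv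
    have hv' := Finset.mem_filter.1 hv
    obtain ⟨c, hc, two, hl⟩ := hBL P k mu n2 n0 be Vp a K1 d1 _ e1 c5 W H p R hP hmu1 hn2 hn0 hVp
      he1 hH hF v hv'.1 hv'.2.1 hv'.2.2
    have hm : v ∈ Q c two := Finset.mem_filter.2 ⟨hv, hl⟩
    rw [Finset.mem_union, Finset.mem_union, Finset.mem_union]
    rcases hc with rfl | rfl
    · cases two
      · exact Or.inl (Or.inl (Or.inl hm))
      · exact Or.inl (Or.inl (Or.inr hm))
    · cases two
      · exact Or.inl (Or.inr hm)
      · exact Or.inr hm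
  have hc4 : ∃ c two, Bd.card ≤ 4 * (Q c two).card := by
    by_contra hno
    push Not at hno
    have i1 := hno α false
    have i2 := hno α true
    have i3 := hno β false
    have i4 := hno β true
    have j1 := Finset.card_le_card hcov2
    have j2 := Finset.card_union_le ((Q α false ∪ Q α true) ∪ Q β false) (Q β true)
    have j3 := Finset.card_union_le (Q α false ∪ Q α true) (Q β false)
    have j4 := Finset.card_union_le (Q α false) (Q α true)
    omega
  obtain ⟨c, two, hct⟩ := hc4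
  have hQR : Q c two ⊆ R := (Finset.filter_subset _ _).trans (Finset.filter_subset _ _)
  have hlc := lac_card hmu1 hVp he1 (by omega : 1 ≤ n2) (by omega : n2 ≤ n0) hH hF c two
    (Q c two) hQR (fun v hv => (Finset.mem_filter.1 hv).2)
  have hfield := hH.lac (p 0) c two
  have hbig := hF.big
  have hmuR : (1 : ℝ) ≤ mu := by exact_mod_cast hmu1
  have hlev1 : 1 ≤ lev mu n0 be n0 := by
    rw [lev_le le_rfl]; exact Nat.one_le_pow _ _ hmu1
  have hbb := bb_le (N := P.card) hlev1
  set V : ℝ := (lev mu n0 be n0 : ℝ) with hVdef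
  have hV1 : 1 ≤ V := by rw [hVdef]; exact_mod_cast hlev1
  set N : ℝ := (P.card : ℝ) with hN
  set D2 : ℝ := (N / (Vp : ℝ) ^ 2) ^ 2 with hD2
  set X : ℝ := (((fib H (p 0)).filter (fun e => Lac W mu n2 c two (esl e))).card : ℝ) with hX
  set q : ℝ := ((Q c two).card : ℝ) with hqd
  have hQc : 3 * (R.card : ℝ) < 32 * q := by
    have : 3 * R.card < 32 * (Q c two).card := by omega
    rw [hqd]
    exact_mod_cast this
  have hX0 : 0 ≤ X := by rw [hX]; positivity
  have hN0 : 0 ≤ N := by rw [hN]; positivity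
  have hD0 : 0 ≤ D2 := by rw [hD2]; positivity
  have hVp0 : (0 : ℝ) < Vp := by exact_mod_cast hVp
  -- from `lac_card`
  have k1 : q * (e1 * D2 / V) ≤ 7 * (N / V ^ 3) * X :=
    hlc.trans (mul_le_mul_of_nonneg_right (by linarith) hX0)
  have k2 : c5 * (N / V ^ 2) * 3 < 32 * q := by linarith
  have hVpos : 0 < V := by linarith
  -- contradiction
  have hDpos : 0 < D2 := by
    rcases hD0.lt_or_eq with h | h
    · exact h
    · exfalso
      rw [← h, mul_zero] at hfield
      linarith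
  have hNpos : 0 < N := by
    rcases hN0.lt_or_eq with h | h
    · exact h
    · exfalso
      rw [hD2, ← h, zero_div] at hDpos
      norm_num at hDpos
  have k3 : 3 * (c5 * (N / V ^ 2)) * (e1 * D2 / V) ≤ 32 * (7 * (N / V ^ 3) * X) := by
    have h3 : 0 ≤ e1 * D2 / V := by positivity
    calc 3 * (c5 * (N / V ^ 2)) * (e1 * D2 / V) ≤ 32 * q * (e1 * D2 / V) :=
          mul_le_mul_of_nonneg_right (by linarith) h3
      _ = 32 * (q * (e1 * D2 / V)) := by ring
      _ ≤ 32 * (7 * (N / V ^ 3) * X) := by linarith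
  have k4 : 3 * (c5 * (N / V ^ 2)) * (e1 * D2 / V) = (N / V ^ 3) * (3 * (c5 * e1 * D2)) := by
    field_simp
  have k5 : 32 * (7 * (N / V ^ 3) * X) = (N / V ^ 3) * (224 * X) := by ring
  rw [k4, k5] at k3
  have k6 : 3 * (c5 * e1 * D2) ≤ 224 * X := le_of_mul_le_mul_left k3 (by positivity)
  have k7 : X < c5 * e1 / 100 * D2 := hfield
  have k8 : 0 < c5 * e1 * D2 := by positivity
  have k9 : c5 * e1 / 100 * D2 = (c5 * e1 * D2) / 100 := by ring
  rw [k9] at k7
  linarith

theorem goodHalf : GoodHalf := goodHalf_of badLac fewSpec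

end Crest.Agent.R51.Gd
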