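import Crest.Agent.R51.LacBase

/-!
# Row 51, section B7: definitions (weights = interval integrals)

* `Dom C B t ω K J` : the child `J` (window of the cuts `C`) of the parent window `K` is
  `(ω,t)`-dominating: at least `B` cuts of `C` in `[K.1, J.1)` and in `(J.2, K.2]`, and each of the
  two blocks of `B` windows adjacent to `J` has `ω`-integral `< t ∫_J ω`;
* `omg c τ θ = |θ - c|^(-τ)`;
* `Flag C B t K J` : `J` is not interior, or `(1,t)`-dominating;
* `DomAt cuts B t ω j J` : the level-`j` ancestor of `J` is `(ω,t)`-dominating in its parent;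
* `Prb` : the windows `Prob_{c,τ}` of 7.3.
-/

set_option autoImplicit false

noncomputable section

open Classical

namespace Crest.Agent.R51.Lac

/-- `(ω,t)`-dominating -/
def Dom (C : Finset ℝ) (B : ℕ) (t : ℝ) (ω : ℝ → ℝ) (K J : ℝ × ℝ) : Prop :=
  Interior C B K J ∧
  (∀ l ∈ C, cntL C l J.1 = B → ∫ θ in l..J.1, ω θ < t * ∫ θ in J.1..J.2, ω θ) ∧
  (∀ r ∈ C, cntR C J.2 r = B → ∫ θ in J.2..r, ω θ < t * ∫ θ in J.1..J.2, ω θ)

/-- the weight `|θ - c|^(-τ)` -/
def omg (c : ℝ) (τ : ℕ) (θ : ℝ) : ℝ := (|θ - c| ^ τ)⁻¹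

/-- flagged child `J` of the parent `K` -/
def Flag (C : Finset ℝ) (B : ℕ) (t : ℝ) (K J : ℝ × ℝ) : Prop :=
  ¬ Interior C B K J ∨ Dom C B t (fun _ => 1) K J

/-- the level-`j` ancestor of `J` is `(ω,t)`-dominating in its parent -/
def DomAt (cuts : ℕ → Finset ℝ) (B : ℕ) (t : ℝ) (ω : ℝ → ℝ) (j : ℕ) (J : ℝ × ℝ) : Prop :=
  ∃ K ∈ wins (cuts (j - 1)), ∃ J' ∈ kids (cuts j) K, J'.1 ≤ J.1 ∧ J.2 ≤ J'.2 ∧
    Dom (cuts j) B t ω K J'

/-- the level-`j` ancestor of `J` is flagged (in its parent) -/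
def FlagAt (cuts : ℕ → Finset ℝ) (B : ℕ) (t : ℝ) (j : ℕ) (J : ℝ × ℝ) : Prop :=
  ∃ K ∈ wins (cuts (j - 1)), ∃ J' ∈ kids (cuts j) K, J'.1 ≤ J.1 ∧ J.2 ≤ J'.2 ∧
    Flag (cuts j) B t K J'

/-- the level-`n2` windows `Prob_{c,τ}`: at distance `≤ 17 Λ |J|` of `c`, and dominating for
`|θ-c|^(-τ)` at `9/10` of the levels of `(j1, n2]` -/
def Prb (cuts : ℕ → Finset ℝ) (B : ℕ) (Λ : ℝ) (j1 n2 : ℕ) (c : ℝ) (τ : ℕ) (J : ℝ × ℝ) : Prop :=
  J ∈ wins (cuts n2) ∧ J.1 - 17 * Λ * (J.2 - J.1) ≤ c ∧ c ≤ J.2 + 17 * Λ * (J.2 - J.1) ∧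
  9 * n2 ≤ 10 * ((Finset.Ioc j1 n2).filter
    (fun j => DomAt cuts B (4 * Λ) (omg c τ) j J)).card

/-- `Interior` with `cuts`: a side block of an interior window that is not dominating -/
lemma exists_block_of_not_dom {C : Finset ℝ} {B : ℕ} {t : ℝ} {ω : ℝ → ℝ} {K J : ℝ × ℝ}
    (hB : 1 ≤ B) (hI : Interior C B K J) (hn : ¬ Dom C B t ω K J) :
    (∃ l ∈ C, K.1 ≤ l ∧ l < J.1 ∧ cntL C l J.1 = B ∧
      t * ∫ θ in J.1..J.2, ω θ ≤ ∫ θ in l..J.1, ω θ) ∨
    (∃ r ∈ C, J.2 < r ∧ r ≤ K.2 ∧ cntR C J.2 r = B ∧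
      t * ∫ θ in J.1..J.2, ω θ ≤ ∫ θ in J.2..r, ω θ) := by
  by_contra hcon
  rw [not_or] at hcon
  apply hn
  refine ⟨hI, ?_, ?_⟩
  · intro l hl hc
    by_contra hlt
    rw [not_lt] at hlt
    apply hcon.1
    have hlJ : l < J.1 := by
      by_contra hge
      rw [not_lt] at hge
      have : cntL C l J.1 = 0 := by
        unfold cntL
        rw [Finset.card_eq_zero, Finset.filter_eq_empty_iff]
        rintro x _ ⟨h1, h2⟩
        linarith
      omega
    refine ⟨l, hl, ?_, hlJ, hc, hlt⟩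
    by_contra hlK
    rw [not_le] at hlK
    have h1 := hI.1
    rcases le_or_gt K.1 J.1 with h2 | h2
    · rw [cntL_add hlK.le h2] at hc
      have := cntL_pos hl hlK
      omega
    · have : cntL C K.1 J.1 = 0 := by
        unfold cntL
        rw [Finset.card_eq_zero, Finset.filter_eq_empty_iff]
        rintro x _ ⟨h1, h2⟩
        linarith
      omega
  · intro r hr hc
    by_contra hlt
    rw [not_lt] at hlt
    apply hcon.2
    have hlJ : J.2 < r := by
      by_contra hge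
      rw [not_lt] at hge
      have : cntR C J.2 r = 0 := by
        unfold cntR
        rw [Finset.card_eq_zero, Finset.filter_eq_empty_iff]
        rintro x _ ⟨h1, h2⟩
        linarith
      omega
    refine ⟨r, hr, hlJ, ?_, hc, hlt⟩
    by_contra hlK
    rw [not_le] at hlK
    have h1 := hI.2
    rcases le_or_gt J.2 K.2 with h2 | h2
    · have h3 := cntL_add (C := neg C) (u := -r) (v := -K.2) (w := -J.2) (by linarith)
        (by linarith)
      rw [cntL_neg, cntL_neg, cntL_neg] at h3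
      have h4 : 1 ≤ cntL (neg C) (-r) (-K.2) :=
        cntL_pos (by rw [mem_neg, neg_neg]; exact hr) (by linarith)
      rw [cntL_neg] at h4
      omega
    · have : cntR C J.2 K.2 = 0 := by
        unfold cntR
        rw [Finset.card_eq_zero, Finset.filter_eq_empty_iff]
        rintro x _ ⟨h1, h2⟩
        linarith
      omega

end Crest.Agent.R51.Lac
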