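import Crest.Agent.R51.HSys
import Crest.Agent.R51.LacDefs
import Crest.Agent.R51.WabWeight

/-!
# Row 51: bridge between `Blocks/Domin/Flagged/Lac` (HSys.lean) and `Interior/Dom/Flag/Prb`
(LacDefs.lean), and between the closed forms `om1, om2` and interval integrals  (helper209)
-/

set_option autoImplicit false

noncomputable section

open Classical

namespace Crest.Agent.R51.LacB

open Crest.Agent.R51.Lac

/-! ### directions and their windows -/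

section dir

variable {P : Finset Pt} {k : ℕ} {V : ℕ → ℕ} {L : ℕ} {Cw : ℝ}

/-- `θ` is strictly inside the range of the window system and is not a cut -/
def OK (W : WSys P k V L Cw) (θ : ℝ) : Prop := W.lo < θ ∧ θ < W.hi ∧ ∀ l ≤ L, θ ∉ W.cuts l

theorem OK_esl (W : WSys P k V L Cw) {e : Edge} (he : e ∈ pairs P) : OK W (esl e) :=
  ⟨W.lo_lt_slope e he, W.slope_lt_hi e he, fun l hl h => W.nons l hl _ h e he rfl⟩

theorem OK_sl (W : WSys P k V L Cw) {p q : Pt} (hp : p ∈ P) (hq : q ∈ P) (hpq : p.1 < q.1) :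
    OK W (sl p q) :=
  OK_esl W (e := (p, q)) (mem_pairs.2 ⟨hp, hq, hpq⟩)

theorem J_spec (W : WSys P k V L Cw) {l : ℕ} (hl : l ≤ L) {θ : ℝ} (hθ : OK W θ) :
    W.J l θ ∈ wins (W.cuts l) ∧ (W.J l θ).1 < θ ∧ θ < (W.J l θ).2 :=
  winOf_spec (exists_win (W.sub 0 l (Nat.zero_le _) hl W.lo_mem)
    (W.sub 0 l (Nat.zero_le _) hl W.hi_mem) hθ.1 hθ.2.1 (hθ.2.2 l hl))

theorem J_nested (W : WSys P k V L Cw) {l l' : ℕ} (hll : l ≤ l') (hl' : l' ≤ L) {θ : ℝ}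
    (hθ : OK W θ) : (W.J l θ).1 ≤ (W.J l' θ).1 ∧ (W.J l' θ).2 ≤ (W.J l θ).2 := by
  obtain ⟨a1, a2, a3⟩ := J_spec W (hll.trans hl') hθ
  obtain ⟨b1, b2, b3⟩ := J_spec W hl' hθ
  have hw := win_or (mem_wins.1 b1)
  have ha := mem_wins.1 a1
  constructor
  · rcases hw _ (W.sub l l' hll hl' ha.1) with h | h
    · exact h
    · linarith
  · rcases hw _ (W.sub l l' hll hl' ha.2.1) with h | h
    · linarith
    · exact h

theorem J_kid (W : WSys P k V L Cw) {j : ℕ} (hj : j ≤ L) {θ : ℝ} (hθ : OK W θ) :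
    W.J j θ ∈ kids (W.cuts j) (W.J (j - 1) θ) := by
  obtain ⟨b1, b2, b3⟩ := J_spec W hj hθ
  obtain ⟨h1, h2⟩ := J_nested W (Nat.sub_le j 1) hj hθ
  exact mem_kids.2 ⟨mem_wins.1 b1, h1, h2⟩

end dir

/-! ### blocks -/

theorem blocks_iff {C : Finset ℝ} {B : ℕ} (hB : 1 ≤ B) {K J : ℝ × ℝ} : (∃ l r, Blocks C B K J l r) ↔ Interior C B K J := by
  constructor
  · rintro ⟨l, r, b1, b2, b3, b4, b5, b6, b7, b8⟩
    constructor
    · rw [cntL_add b5 b3.le]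
      have : cntL C l J.1 = B := b7
      omega
    · have e := cntL_add (C := neg C) (u := -K.2) (v := -r) (w := -J.2) (by linarith)
        (by linarith)
      rw [cntL_neg, cntL_neg, cntL_neg] at e
      have : cntR C J.2 r = B := b8
      omega
  · rintro ⟨h3, h4⟩
    obtain ⟨l, a1, a2, a3, a4⟩ := exists_left hB h3
    obtain ⟨r, c1, c2, c3, c4⟩ := exists_right hB h4
    exact ⟨l, r, a1, c1, a3, c2, a2, c3, a4, c4⟩

theorem cntL_lt {C : Finset ℝ} {l x : ℝ} (h : 1 ≤ cntL C l x) : l < x := by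
  by_contra hge
  rw [not_lt] at hge
  have : cntL C l x = 0 := by
    unfold cntL
    rw [Finset.card_eq_zero, Finset.filter_eq_empty_iff]
    rintro y _ ⟨h1, h2⟩
    linarith
  omega

theorem cntR_lt {C : Finset ℝ} {x r : ℝ} (h : 1 ≤ cntR C x r) : x < r := by
  by_contra hge
  rw [not_lt] at hge
  have : cntR C x r = 0 := by
    unfold cntR
    rw [Finset.card_eq_zero, Finset.filter_eq_empty_iff]
    rintro y _ ⟨h1, h2⟩
    linarith
  omega

theorem left_unique {C : Finset ℝ} {B : ℕ} (hB : 1 ≤ B) {x l l' : ℝ} (hl : l ∈ C) (hl' : l' ∈ C)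
    (h : cntL C l x = B) (h' : cntL C l' x = B) : l = l' := by
  have a := cntL_lt (C := C) (l := l) (x := x) (by omega)
  have a' := cntL_lt (C := C) (l := l') (x := x) (by omega)
  rcases lt_trichotomy l l' with h1 | h1 | h1
  · have e := cntL_add (C := C) h1.le a'.le
    have := cntL_pos hl h1
    omega
  · exact h1
  · have e := cntL_add (C := C) h1.le a.le
    have := cntL_pos hl' h1
    omega

theorem right_unique {C : Finset ℝ} {B : ℕ} (hB : 1 ≤ B) {x r r' : ℝ} (hr : r ∈ C) (hr' : r' ∈ C)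
    (h : cntR C x r = B) (h' : cntR C x r' = B) : r = r' := by
  have := left_unique (C := neg C) hB (x := -x) (l := -r) (l' := -r')
    (by rw [mem_neg, neg_neg]; exact hr) (by rw [mem_neg, neg_neg]; exact hr')
    (by rw [cntL_neg]; exact h) (by rw [cntL_neg]; exact h')
  linarith

/-- `Domin` (∃ blocks, closed weight) iff `Dom` (∀ blocks, integrals) -/
theorem domin_iff {C : Finset ℝ} {B : ℕ} (hB : 1 ≤ B) {K J : ℝ × ℝ} (h1 : K.1 ≤ J.1)
    (h2 : J.2 ≤ K.2) (hJ : J.1 ≤ J.2) {wt : ℝ → ℝ → ℝ} {ω : ℝ → ℝ} {t : ℝ}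
    (hwt : ∀ u v, K.1 ≤ u → u ≤ v → v ≤ K.2 → wt u v = ∫ θ in u..v, ω θ) :
    Domin C B K wt t J ↔ Dom C B t ω K J := by
  constructor
  · rintro ⟨l, r, hb, d1, d2⟩
    refine ⟨(blocks_iff hB).1 ⟨l, r, hb⟩, ?_, ?_⟩
    · intro l' hl' hc
      have e : l' = l := left_unique hB hl' hb.1 hc hb.2.2.2.2.2.2.1
      rw [e]
      rw [hwt l J.1 hb.2.2.2.2.1 hb.2.2.1.le (by linarith), hwt J.1 J.2 h1 hJ h2] at d1
      exact d1
    · intro r' hr' hc
      have e : r' = r := right_unique hB hr' hb.2.1 hc hb.2.2.2.2.2.2.2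
      rw [e]
      rw [hwt J.2 r (by linarith) hb.2.2.2.1.le hb.2.2.2.2.2.1, hwt J.1 J.2 h1 hJ h2] at d2
      exact d2
  · rintro ⟨hI, dL, dR⟩
    obtain ⟨l, r, hb⟩ := (blocks_iff hB).2 hI
    refine ⟨l, r, hb, ?_, ?_⟩
    · rw [hwt l J.1 hb.2.2.2.2.1 hb.2.2.1.le (by linarith), hwt J.1 J.2 h1 hJ h2]
      exact dL l hb.1 hb.2.2.2.2.2.2.1
    · rw [hwt J.2 r (by linarith) hb.2.2.2.1.le hb.2.2.2.2.2.1, hwt J.1 J.2 h1 hJ h2]
      exact dR r hb.2.1 hb.2.2.2.2.2.2.2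

/-! ### closed forms -/

/-- the exponent attached to `two` -/
def tau (two : Bool) : ℕ := if two then 2 else 1

theorem tau_cases (two : Bool) : tau two = 1 ∨ tau two = 2 := by
  cases two
  · left; rfl
  · right; rfl

theorem omg_eq (c : ℝ) (τ : ℕ) : omg c τ = Wab.om c τ := by
  funext θ
  unfold omg Wab.om
  rw [one_div]

/-- `om two c u v` is the integral of `|θ-c|^(-τ)` over `[u,v]` if `c ∉ [u,v]` -/
theorem om_eq_integral {two : Bool} {c u v : ℝ} (huv : u ≤ v) (hc : c < u ∨ v < c) :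
    om two c u v = ∫ θ in u..v, omg c (tau two) θ := by
  have hc' : c ∉ Set.Icc u v := by
    rintro ⟨h1, h2⟩
    rcases hc with h | h <;> linarith
  rw [omg_eq]
  cases two
  · show om1 c u v = ∫ θ in u..v, Wab.om c 1 θ
    rw [Wab.integral_om_one huv hc']
    rfl
  · show om2 c u v = ∫ θ in u..v, Wab.om c 2 θ
    rw [Wab.integral_om_two huv hc']
    rfl

theorem domin_om_iff {C : Finset ℝ} {B : ℕ} (hB : 1 ≤ B) {K J : ℝ × ℝ} (h1 : K.1 ≤ J.1)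
    (h2 : J.2 ≤ K.2) (hJ : J.1 ≤ J.2) {two : Bool} {c t : ℝ} (hc : c < K.1 ∨ K.2 < c) :
    Domin C B K (om two c) t J ↔ Dom C B t (omg c (tau two)) K J := by
  refine domin_iff hB h1 h2 hJ fun u v hu huv hv => om_eq_integral huv ?_
  rcases hc with h | h
  · left; linarith
  · right; linarith

theorem domin_len_iff {C : Finset ℝ} {B : ℕ} (hB : 1 ≤ B) {K J : ℝ × ℝ} (h1 : K.1 ≤ J.1)
    (h2 : J.2 ≤ K.2) (hJ : J.1 ≤ J.2) {t : ℝ} :
    Domin C B K (fun s t => t - s) t J ↔ Dom C B t (fun _ => 1) K J := by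
  refine domin_iff hB h1 h2 hJ fun u v _ _ _ => ?_
  simp

/-- `Flagged` iff `Flag` -/
theorem flagged_iff {C : Finset ℝ} {B : ℕ} (hB : 1 ≤ B) {K J : ℝ × ℝ} (h1 : K.1 ≤ J.1)
    (h2 : J.2 ≤ K.2) (hJ : J.1 ≤ J.2) {Lam : ℝ} :
    Flagged C B Lam K J ↔ Lac.Flag C B (16 * Lam) K J := by
  unfold Flagged Lac.Flag
  rw [blocks_iff hB, domin_len_iff hB h1 h2 hJ]

section sys

variable {P : Finset Pt} {k : ℕ} {V : ℕ → ℕ} {L : ℕ} {Cw : ℝ}

/-- kids version -/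
theorem flagged_iff_kids {C : Finset ℝ} {B : ℕ} (hB : 1 ≤ B) {K J : ℝ × ℝ} (hJ : J ∈ kids C K)
    {Lam : ℝ} : Flagged C B Lam K J ↔ Lac.Flag C B (16 * Lam) K J := by
  rw [mem_kids] at hJ
  exact flagged_iff hB hJ.2.1 hJ.2.2 hJ.1.2.2.1.le

theorem domin_iff_kids {C : Finset ℝ} {B : ℕ} (hB : 1 ≤ B) {K J : ℝ × ℝ} (hJ : J ∈ kids C K)
    {two : Bool} {c t : ℝ} (hc : c < K.1 ∨ K.2 < c) :
    Domin C B K (om two c) t J ↔ Dom C B t (omg c (tau two)) K J := by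
  rw [mem_kids] at hJ
  exact domin_om_iff hB hJ.2.1 hJ.2.2 hJ.1.2.2.1.le hc

/-- the windows `W.J (l-1) θ`, `W.J l θ` -/
theorem flagged_J (W : WSys P k V L Cw) {B : ℕ} (hB : 1 ≤ B) {l : ℕ} (hl : l ≤ L) {θ : ℝ}
    (hθ : OK W θ) {Lam : ℝ} : Flagged (W.cuts l) B Lam (W.J (l - 1) θ) (W.J l θ) ↔
      Lac.Flag (W.cuts l) B (16 * Lam) (W.J (l - 1) θ) (W.J l θ) :=
  flagged_iff_kids hB (J_kid W hl hθ)

theorem kid_unique {C C' : Finset ℝ} {K K' J J' I : ℝ × ℝ} (hK : K ∈ wins C) (hK' : K' ∈ wins C)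
    (hJ : J ∈ kids C' K) (hJ' : J' ∈ kids C' K') (hI : I.1 < I.2) (h1 : J.1 ≤ I.1)
    (h2 : I.2 ≤ J.2) (h3 : J'.1 ≤ I.1) (h4 : I.2 ≤ J'.2) : K = K' ∧ J = J' := by
  rw [mem_kids] at hJ hJ'
  constructor
  · exact parent_unique hK hK' hI (hJ.2.1.trans h1) (h2.trans hJ.2.2) (hJ'.2.1.trans h3)
      (h4.trans hJ'.2.2)
  · exact parent_unique (mem_wins.2 hJ.1) (mem_wins.2 hJ'.1) hI h1 h2 h3 h4

/-- **`Flagged` along a direction iff `FlagAt`** -/
theorem flagged_iff_flagAt (W : WSys P k V L Cw) {B : ℕ} (hB : 1 ≤ B) {l l' : ℕ} (hll : l ≤ l')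
    (hl' : l' ≤ L) {θ : ℝ} (hθ : OK W θ) {Lam : ℝ} :
    Flagged (W.cuts l) B Lam (W.J (l - 1) θ) (W.J l θ) ↔
      FlagAt W.cuts B (16 * Lam) l (W.J l' θ) := by
  have hl := hll.trans hl'
  rw [flagged_J W hB hl hθ]
  have hk := J_kid W hl hθ
  have hn := J_nested W hll hl' hθ
  have hs := J_spec W hl' hθ
  constructor
  · intro h
    exact ⟨W.J (l - 1) θ, (J_spec W ((Nat.sub_le l 1).trans hl) hθ).1, W.J l θ, hk, hn.1, hn.2, h⟩
  · rintro ⟨K, hK, J', hJ', h1, h2, h3⟩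
    obtain ⟨e1, e2⟩ := kid_unique (J_spec W ((Nat.sub_le l 1).trans hl) hθ).1 hK hk hJ'
      (mem_wins.1 hs.1).2.2.1 hn.1 hn.2 h1 h2
    rw [e1, e2]
    exact h3

/-- `Domin` along a direction implies `DomAt` (`c` outside the closed parent) -/
theorem domAt_of_domin (W : WSys P k V L Cw) {B : ℕ} (hB : 1 ≤ B) {l l' : ℕ} (hll : l ≤ l')
    (hl' : l' ≤ L) {θ : ℝ} (hθ : OK W θ) {two : Bool} {c t : ℝ}
    (hc : c < (W.J (l - 1) θ).1 ∨ (W.J (l - 1) θ).2 < c)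
    (h : Domin (W.cuts l) B (W.J (l - 1) θ) (om two c) t (W.J l θ)) :
    DomAt W.cuts B t (omg c (tau two)) l (W.J l' θ) := by
  have hl := hll.trans hl'
  have hk := J_kid W hl hθ
  have hn := J_nested W hll hl' hθ
  exact ⟨W.J (l - 1) θ, (J_spec W ((Nat.sub_le l 1).trans hl) hθ).1, W.J l θ, hk, hn.1, hn.2,
    (domin_iff_kids hB hk hc).1 h⟩

/-- **`Lac` implies `Prb`** -/
theorem prb_of_lac (W : WSys P k V L Cw) {mu n2 : ℕ} (hmu : 1 ≤ mu) (hn2 : n2 ≤ L) {c : ℝ}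
    {two : Bool} {θ : ℝ} (hθ : OK W θ) (h : Lac W mu n2 c two θ) :
    Prb W.cuts (mu ^ 39) ((mu : ℝ) ^ 11) 1 n2 c (tau two) (W.J n2 θ) := by
  obtain ⟨h1, h2, h3, h4⟩ := h
  refine ⟨(J_spec W hn2 hθ).1, by linarith, by linarith, h4.trans ?_⟩
  apply Nat.mul_le_mul_left
  apply Finset.card_le_card
  intro j hj
  rw [Finset.mem_filter] at hj ⊢
  refine ⟨hj.1, ?_⟩
  have hj1 := Finset.mem_Ioc.1 hj.1
  have hj2 : 1 ≤ j - 1 := by omega
  refine domAt_of_domin W (Nat.one_le_pow _ _ hmu) hj1.2 hn2 hθ ?_ hj.2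
  have hn := J_nested W hj2 ((Nat.sub_le j 1).trans (hj1.2.trans hn2)) hθ
  rw [not_and_or, not_le, not_le] at h1
  rcases h1 with h | h
  · left; exact lt_of_lt_of_le h hn.1
  · right; exact lt_of_le_of_lt hn.2 h

end sys

end Crest.Agent.R51.LacB
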