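import Crest.Agent.R51.LacWt

/-!
# Row 51, section B7: 7.3 (PAIR COUNT)
-/

set_option autoImplicit false

noncomputable section

open Classical

namespace Crest.Agent.R51.Lac

/-- nested cut sets up to level `n` -/
structure Nest (cuts : ℕ → Finset ℝ) (n : ℕ) (lo hi m : ℝ) : Prop where
  sub : ∀ l l', l ≤ l' → l' ≤ n → cuts l ⊆ cuts l'
  lo_mem : lo ∈ cuts 0
  hi_mem : hi ∈ cuts 0
  lo_le : ∀ l ≤ n, ∀ c ∈ cuts l, lo ≤ c
  le_hi : ∀ l ≤ n, ∀ c ∈ cuts l, c ≤ hi
  kids_le : ∀ j < n, ∀ K ∈ wins (cuts j), ((kids (cuts (j + 1)) K).card : ℝ) ≤ m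

variable {cuts : ℕ → Finset ℝ} {n : ℕ} {lo hi m : ℝ}

lemma Nest.parent (N : Nest cuts n lo hi m) {j : ℕ} (hj : j ≤ n) {J : ℝ × ℝ}
    (hJ : J ∈ wins (cuts n)) : ∃ K ∈ wins (cuts j), K.1 ≤ J.1 ∧ J.2 ≤ K.2 := by
  apply exists_parent (N.sub j n hj (le_refl _)) (lo := lo) (hi := hi)
  · exact N.sub 0 j (Nat.zero_le _) hj N.lo_mem
  · exact N.sub 0 j (Nat.zero_le _) hj N.hi_mem
  · exact N.lo_le n (le_refl _)
  · exact N.le_hi n (le_refl _)
  · exact hJ

/-- ancestors are nested -/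
lemma Nest.nested (N : Nest cuts n lo hi m) {i j : ℕ} (hij : i ≤ j) (hj : j ≤ n)
    {I K J : ℝ × ℝ} (hI : I ∈ wins (cuts i)) (hK : K ∈ wins (cuts j)) (hJ : J.1 < J.2)
    (h1 : I.1 ≤ J.1) (h2 : J.2 ≤ I.2) (h3 : K.1 ≤ J.1) (h4 : J.2 ≤ K.2) :
    I.1 ≤ K.1 ∧ K.2 ≤ I.2 := by
  have hI' := mem_wins.1 hI
  have hK' := mem_wins.1 hK
  have e1 := win_or hK' I.1 (N.sub i j hij hj hI'.1)
  have e2 := win_or hK' I.2 (N.sub i j hij hj hI'.2.1)
  constructor
  · rcases e1 with e | e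
    · exact e
    · linarith
  · rcases e2 with e | e
    · linarith
    · exact e

/-- descendants of `K` (level `j`) of level `n` with at most `r` non-dominating levels -/
def desc (cuts : ℕ → Finset ℝ) (n B : ℕ) (t : ℝ) (ω : ℝ → ℝ) (j r : ℕ) (K : ℝ × ℝ) :
    Finset (ℝ × ℝ) :=
  (wins (cuts n)).filter (fun J => K.1 ≤ J.1 ∧ J.2 ≤ K.2 ∧
    ((Finset.Ioc j n).filter (fun i => ¬ DomAt cuts B t ω i J)).card ≤ r)

theorem desc_card (N : Nest cuts n lo hi m) {B : ℕ} {t : ℝ} {ω : ℝ → ℝ} {Far : ℝ × ℝ → Prop}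
    (hfar : ∀ K K' : ℝ × ℝ, Far K → K.1 ≤ K'.1 → K'.2 ≤ K.2 → Far K') {T : ℝ} (hT : 1 ≤ T)
    (hmT : T ≤ m)
    (hdom : ∀ j < n, ∀ K ∈ wins (cuts j), Far K →
      (((kids (cuts (j + 1)) K).filter (fun K' => Dom (cuts (j + 1)) B t ω K K')).card : ℝ) ≤ T) :
    ∀ d j r : ℕ, j + d = n → ∀ K ∈ wins (cuts j), Far K →
      ((desc cuts n B t ω j r K).card : ℝ) ≤ (2 * T) ^ d * (m / T) ^ r := by
  have hT0 : 0 < T := by linarith
  have hm0 : 0 < m := by linarith
  have hmT' : 1 ≤ m / T := by rw [le_div_iff₀ hT0]; linarith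
  intro d
  induction d with
  | zero =>
    intro j r hj K hK _
    have hjn : j = n := by omega
    subst hjn
    have hsub : desc cuts j B t ω j r K ⊆ {K} := by
      intro J hJ
      unfold desc at hJ
      rw [Finset.mem_filter] at hJ
      rw [Finset.mem_singleton]
      exact eq_of_subwin (mem_wins.1 hJ.1) (mem_wins.1 hK) hJ.2.1 hJ.2.2.1
    have h1 : (desc cuts j B t ω j r K).card ≤ 1 := by
      simpa using Finset.card_le_card hsub
    have h2 : ((desc cuts j B t ω j r K).card : ℝ) ≤ 1 := by exact_mod_cast h1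
    have h3 : (1 : ℝ) ≤ (m / T) ^ r := one_le_pow₀ hmT'
    simpa using h2.trans h3
  | succ d ih =>
    intro j r hj K hK hF
    have hjn : j < n := by omega
    have hj1 : j + 1 + d = n := by omega
    set D := (kids (cuts (j + 1)) K).filter (fun K' => Dom (cuts (j + 1)) B t ω K K') with hD
    set E := (kids (cuts (j + 1)) K).filter (fun K' => ¬ Dom (cuts (j + 1)) B t ω K K') with hE
    have hsub : desc cuts n B t ω j r K ⊆
        (D.biUnion (fun K' => desc cuts n B t ω (j + 1) r K')) ∪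
        (if 1 ≤ r then E.biUnion (fun K' => desc cuts n B t ω (j + 1) (r - 1) K') else ∅) := by
      intro J hJ
      unfold desc at hJ
      rw [Finset.mem_filter] at hJ
      obtain ⟨hJw, h1, h2, h3⟩ := hJ
      obtain ⟨K', hK', h4, h5⟩ := N.parent (j := j + 1) (by omega) hJw
      have hJlt := (mem_wins.1 hJw).2.2.1
      obtain ⟨h6, h7⟩ := N.nested (Nat.le_succ j) (by omega) hK hK' hJlt h1 h2 h4 h5
      have hk : K' ∈ kids (cuts (j + 1)) K := mem_kids.2 ⟨mem_wins.1 hK', h6, h7⟩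
      rw [Finset.mem_union]
      by_cases hdm : Dom (cuts (j + 1)) B t ω K K'
      · left
        rw [Finset.mem_biUnion]
        refine ⟨K', by rw [hD, Finset.mem_filter]; exact ⟨hk, hdm⟩, ?_⟩
        unfold desc
        rw [Finset.mem_filter]
        refine ⟨hJw, h4, h5, le_trans (Finset.card_le_card ?_) h3⟩
        intro i hi
        rw [Finset.mem_filter, Finset.mem_Ioc] at hi ⊢
        exact ⟨⟨by omega, hi.1.2⟩, hi.2⟩
      · right
        have hbad : ¬ DomAt cuts B t ω (j + 1) J := by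
          rintro ⟨K₁, hK₁, K₁', hK₁', g1, g2, g3⟩
          rw [Nat.add_sub_cancel] at hK₁
          rw [mem_kids] at hK₁'
          have e1 : K₁' = K' := parent_unique (mem_wins.2 hK₁'.1) hK' hJlt g1 g2 h4 h5
          have e2 : K₁ = K := parent_unique hK₁ hK hJlt (hK₁'.2.1.trans g1)
            (g2.trans hK₁'.2.2) h1 h2
          rw [e1, e2] at g3
          exact hdm g3
        have hcard : ((Finset.Ioc (j + 1) n).filter (fun i => ¬ DomAt cuts B t ω i J)).card + 1 ≤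
            ((Finset.Ioc j n).filter (fun i => ¬ DomAt cuts B t ω i J)).card := by
          rw [← Finset.card_insert_of_notMem (s := (Finset.Ioc (j + 1) n).filter
            (fun i => ¬ DomAt cuts B t ω i J)) (a := j + 1)]
          · apply Finset.card_le_card
            intro i hi
            rw [Finset.mem_insert, Finset.mem_filter, Finset.mem_Ioc] at hi
            rw [Finset.mem_filter, Finset.mem_Ioc]
            rcases hi with rfl | hi
            · exact ⟨⟨by omega, by omega⟩, hbad⟩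
            · exact ⟨⟨by omega, hi.1.2⟩, hi.2⟩
          · rw [Finset.mem_filter, Finset.mem_Ioc]
            rintro ⟨⟨h, _⟩, _⟩
            omega
        have hr : 1 ≤ r := by omega
        rw [if_pos hr, Finset.mem_biUnion]
        refine ⟨K', by rw [hE, Finset.mem_filter]; exact ⟨hk, hdm⟩, ?_⟩
        unfold desc
        rw [Finset.mem_filter]
        exact ⟨hJw, h4, h5, by omega⟩
    have hA : ((D.biUnion (fun K' => desc cuts n B t ω (j + 1) r K')).card : ℝ) ≤
        T * ((2 * T) ^ d * (m / T) ^ r) := by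
      have h1 : ((D.biUnion (fun K' => desc cuts n B t ω (j + 1) r K')).card : ℝ) ≤
          ∑ K' ∈ D, ((desc cuts n B t ω (j + 1) r K').card : ℝ) := by
        exact_mod_cast Finset.card_biUnion_le
      have h2 : ∑ K' ∈ D, ((desc cuts n B t ω (j + 1) r K').card : ℝ) ≤
          ∑ _K' ∈ D, ((2 * T) ^ d * (m / T) ^ r) := by
        apply Finset.sum_le_sum
        intro K' hK'
        rw [hD, Finset.mem_filter] at hK'
        have hk := mem_kids.1 hK'.1
        exact ih (j + 1) r hj1 K' (mem_wins.2 hk.1) (hfar K K' hF hk.2.1 hk.2.2)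
      rw [Finset.sum_const, nsmul_eq_mul] at h2
      exact h1.trans (h2.trans (mul_le_mul_of_nonneg_right (hdom j hjn K hK hF) (by positivity)))
    have hBd : (((if 1 ≤ r then E.biUnion (fun K' => desc cuts n B t ω (j + 1) (r - 1) K')
        else ∅ : Finset (ℝ × ℝ))).card : ℝ) ≤ T * ((2 * T) ^ d * (m / T) ^ r) := by
      split_ifs with hr
      · have h1 : ((E.biUnion (fun K' => desc cuts n B t ω (j + 1) (r - 1) K')).card : ℝ) ≤
            ∑ K' ∈ E, ((desc cuts n B t ω (j + 1) (r - 1) K').card : ℝ) := by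
          exact_mod_cast Finset.card_biUnion_le
        have h2 : ∑ K' ∈ E, ((desc cuts n B t ω (j + 1) (r - 1) K').card : ℝ) ≤
            ∑ _K' ∈ E, ((2 * T) ^ d * (m / T) ^ (r - 1)) := by
          apply Finset.sum_le_sum
          intro K' hK'
          rw [hE, Finset.mem_filter] at hK'
          have hk := mem_kids.1 hK'.1
          exact ih (j + 1) (r - 1) hj1 K' (mem_wins.2 hk.1) (hfar K K' hF hk.2.1 hk.2.2)
        rw [Finset.sum_const, nsmul_eq_mul] at h2
        have h3 : (E.card : ℝ) ≤ m := by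
          refine le_trans ?_ (N.kids_le j hjn K hK)
          exact_mod_cast Finset.card_le_card (Finset.filter_subset _ _)
        have h4 : (E.card : ℝ) * ((2 * T) ^ d * (m / T) ^ (r - 1)) ≤
            m * ((2 * T) ^ d * (m / T) ^ (r - 1)) :=
          mul_le_mul_of_nonneg_right h3 (by positivity)
        have h5 : m * ((2 * T) ^ d * (m / T) ^ (r - 1)) = T * ((2 * T) ^ d * (m / T) ^ r) := by
          obtain ⟨s, rfl⟩ : ∃ s, r = s + 1 := ⟨r - 1, by omega⟩
          rw [Nat.add_sub_cancel, pow_succ (m / T) s]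
          field_simp
        linarith
      · simp only [Finset.card_empty, Nat.cast_zero]
        positivity
    have h1 := (Finset.card_le_card hsub).trans (Finset.card_union_le _ _)
    have h2 : ((desc cuts n B t ω j r K).card : ℝ) ≤
        ((D.biUnion (fun K' => desc cuts n B t ω (j + 1) r K')).card : ℝ) +
        (((if 1 ≤ r then E.biUnion (fun K' => desc cuts n B t ω (j + 1) (r - 1) K')
        else ∅ : Finset (ℝ × ℝ))).card : ℝ) := by exact_mod_cast h1
    calc ((desc cuts n B t ω j r K).card : ℝ) ≤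
        T * ((2 * T) ^ d * (m / T) ^ r) + T * ((2 * T) ^ d * (m / T) ^ r) := by linarith
      _ = (2 * T) ^ (d + 1) * (m / T) ^ r := by ring

/-- far windows -/
def FarW (x R : ℝ) (K : ℝ × ℝ) : Prop := K.2 ≤ x - R ∨ x + R ≤ K.1

lemma farW_mono {x R : ℝ} (K K' : ℝ × ℝ) (h : FarW x R K) (h1 : K.1 ≤ K'.1) (h2 : K'.2 ≤ K.2) :
    FarW x R K' := by
  rcases h with h | h
  · exact Or.inl (h2.trans h)
  · exact Or.inr (h.trans h1)

/-- **near windows of length `≥ ℓ`**: at most `2R/ℓ + 2` -/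
theorem card_near {C : Finset ℝ} {x R ℓ : ℝ} (hR : 0 ≤ R) (hℓ : 0 < ℓ) :
    (((wins C).filter (fun K => ¬ FarW x R K ∧ ℓ ≤ K.2 - K.1)).card : ℝ) ≤ 2 * R / ℓ + 2 := by
  set S := (wins C).filter (fun K => ¬ FarW x R K ∧ ℓ ≤ K.2 - K.1) with hS
  have hmem : ∀ K ∈ S, IsWin C K ∧ x - R < K.2 ∧ K.1 < x + R ∧ ℓ ≤ K.2 - K.1 := by
    intro K hK
    rw [hS, Finset.mem_filter, mem_wins] at hK
    obtain ⟨h1, h2, h3⟩ := hK
    unfold FarW at h2
    push Not at h2
    exact ⟨h1, h2.1, h2.2, h3⟩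
  set S1 := S.filter (fun K => x - R ≤ K.1 ∧ K.2 ≤ x + R) with hS1
  set S2 := S.filter (fun K => K.1 < x - R) with hS2
  set S3 := S.filter (fun K => x + R < K.2) with hS3
  have hcov : S ⊆ S1 ∪ (S2 ∪ S3) := by
    intro K hK
    rw [Finset.mem_union, Finset.mem_union, hS1, hS2, hS3]
    by_cases h1 : K.1 < x - R
    · exact Or.inr (Or.inl (Finset.mem_filter.2 ⟨hK, h1⟩))
    · by_cases h2 : x + R < K.2
      · exact Or.inr (Or.inr (Finset.mem_filter.2 ⟨hK, h2⟩))
      · exact Or.inl (Finset.mem_filter.2 ⟨hK, not_lt.1 h1, not_lt.1 h2⟩)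
  have c1 : (S1.card : ℝ) ≤ 2 * R / ℓ := by
    have h1 : ∑ K ∈ S1, (K.2 - K.1) ≤ (x + R) - (x - R) := by
      apply sum_le_of_mono (C := C) (fun y => y) (x - R) S1 (x + R) (by linarith)
      · intro K hK
        exact (hmem K (Finset.mem_filter.1 hK).1).1
      · intro K hK
        exact (Finset.mem_filter.1 hK).2
      · exact monotoneOn_id
    have h2 : (S1.card : ℝ) * ℓ ≤ ∑ K ∈ S1, (K.2 - K.1) := by
      rw [← nsmul_eq_mul, ← Finset.sum_const]
      apply Finset.sum_le_sum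
      intro K hK
      exact (hmem K (Finset.mem_filter.1 hK).1).2.2.2
    rw [le_div_iff₀ hℓ]
    linarith
  have c2 : S2.card ≤ 1 := by
    rw [Finset.card_le_one]
    intro K hK K' hK'
    have h1 := hmem K (Finset.mem_filter.1 hK).1
    have h2 := hmem K' (Finset.mem_filter.1 hK').1
    exact win_unique (mem_wins.2 h1.1) (mem_wins.2 h2.1) (Finset.mem_filter.1 hK).2 h1.2.1
      (Finset.mem_filter.1 hK').2 h2.2.1
  have c3 : S3.card ≤ 1 := by
    rw [Finset.card_le_one]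
    intro K hK K' hK'
    have h1 := hmem K (Finset.mem_filter.1 hK).1
    have h2 := hmem K' (Finset.mem_filter.1 hK').1
    exact win_unique (mem_wins.2 h1.1) (mem_wins.2 h2.1) h1.2.2.1 (Finset.mem_filter.1 hK).2
      h2.2.2.1 (Finset.mem_filter.1 hK').2
  have h1 := (Finset.card_le_card hcov).trans (Finset.card_union_le _ _)
  have h2 := Finset.card_union_le S2 S3
  have h3 : S.card ≤ S1.card + 2 := by omega
  have h4 : (S.card : ℝ) ≤ (S1.card : ℝ) + 2 := by exact_mod_cast h3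
  linarith

/-- the windows `J` counted for a fixed centre `x`, radius `R`, length `ℓ` -/
def Qset (cuts : ℕ → Finset ℝ) (n B : ℕ) (Λ : ℝ) (j1 τ : ℕ) (x R ℓ : ℝ) : Finset (ℝ × ℝ) :=
  (wins (cuts n)).filter (fun J => ℓ ≤ J.2 - J.1 ∧
    ∃ c, |c - x| ≤ R / 4 ∧ Prb cuts B Λ j1 n c τ J)

theorem card_Qset (N : Nest cuts n lo hi m) {B : ℕ} {Λ : ℝ} {j1 τ : ℕ} {x R ℓ : ℝ}
    (hB : 1 ≤ B) (hΛ : 0 ≤ Λ) (hτ : τ ≤ 2) (hj1 : j1 ≤ n) (hR : 0 < R) (hℓ : 0 < ℓ) {T A W : ℝ}
    (hT : 1 ≤ T) (hmT : T ≤ m) (hTdef : (m / B + 1) * (2 * (16 * Λ) + 1) ≤ T)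
    (hA : 2 * R / ℓ + 2 ≤ A) (hW : ((wins (cuts j1)).card : ℝ) ≤ W) :
    ((Qset cuts n B Λ j1 τ x R ℓ).card : ℝ) ≤
      A + (W + n * (A * m)) * ((2 * T) ^ n * (m / T) ^ (n / 10)) := by
  have hT0 : 0 < T := by linarith
  have hm0 : 0 < m := by linarith
  have hmT' : 1 ≤ m / T := by rw [le_div_iff₀ hT0]; linarith
  have hA0 : 0 ≤ A := le_trans (by positivity) hA
  set r := n / 10 with hr
  set X := (2 * T) ^ n * (m / T) ^ r with hX
  have hX0 : 0 ≤ X := by rw [hX]; positivity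
  -- domination count for far parents
  have hdom : ∀ j < n, ∀ K ∈ wins (cuts j), FarW x R K →
      (((kids (cuts (j + 1)) K).filter
        (fun K' => Dom (cuts (j + 1)) B (16 * Λ) (omg x τ) K K')).card : ℝ) ≤ T := by
    intro j hj K hK hF
    refine le_trans (card_dom_wt (by positivity) hB ?_ ?_ (N.kids_le j hj K hK)) hTdef
    · apply omg_cont
      rcases hF with h | h
      · right; linarith
      · left; linarith
    · intro θ hθ
      apply omg_pos
      rintro rfl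
      rcases hF with h | h
      · linarith [hθ.2]
      · linarith [hθ.1]
  have hdesc : ∀ j ≤ n, ∀ K ∈ wins (cuts j), FarW x R K →
      ((desc cuts n B (16 * Λ) (omg x τ) j r K).card : ℝ) ≤ X := by
    intro j hj K hK hF
    refine (desc_card N farW_mono hT hmT hdom (n - j) j r (by omega) K hK hF).trans ?_
    rw [hX]
    apply mul_le_mul_of_nonneg_right _ (by positivity)
    exact pow_le_pow_right₀ (by linarith) (by omega)
  -- bad levels
  have hbad : ∀ J ∈ Qset cuts n B Λ j1 τ x R ℓ, ∀ j, j1 ≤ j → j ≤ n → ∀ K ∈ wins (cuts j),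
      K.1 ≤ J.1 → J.2 ≤ K.2 → FarW x R K → J ∈ desc cuts n B (16 * Λ) (omg x τ) j r K := by
    intro J hJ j hj1 hjn K hK h1 h2 hF
    unfold Qset at hJ
    rw [Finset.mem_filter] at hJ
    obtain ⟨hJw, hℓJ, c, hc, _, _, _, hP⟩ := hJ
    unfold desc
    rw [Finset.mem_filter]
    refine ⟨hJw, h1, h2, ?_⟩
    have hJlt := (mem_wins.1 hJw).2.2.1
    have hsub : (Finset.Ioc j n).filter (fun i => ¬ DomAt cuts B (16 * Λ) (omg x τ) i J) ⊆
        (Finset.Ioc j1 n).filter (fun i => ¬ DomAt cuts B (4 * Λ) (omg c τ) i J) := by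
      intro i hi
      rw [Finset.mem_filter, Finset.mem_Ioc] at hi ⊢
      refine ⟨⟨by omega, hi.1.2⟩, ?_⟩
      rintro ⟨K₁, hK₁, K₁', hK₁', g1, g2, g3⟩
      apply hi.2
      refine ⟨K₁, hK₁, K₁', hK₁', g1, g2, ?_⟩
      have hk := mem_kids.1 hK₁'
      have hnest := N.nested (i := j) (j := i - 1) (by omega) (by omega) hK hK₁ hJlt h1 h2
        (hk.2.1.trans g1) (g2.trans hk.2.2)
      have hfar' := farW_mono K K₁ hF hnest.1 hnest.2
      have h16 : (16 : ℝ) * Λ = 4 * (4 * Λ) := by ring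
      rw [h16]
      exact dom_far hB (by positivity) hK₁' hτ hR hc hfar' g3
    have h3 := Finset.card_le_card hsub
    have h4 := Finset.card_filter_add_card_filter_not (s := Finset.Ioc j1 n)
      (fun i => DomAt cuts B (4 * Λ) (omg c τ) i J)
    rw [Nat.card_Ioc] at h4
    omega
  -- the cover
  set NB : ℕ → Finset (ℝ × ℝ) := fun j =>
    (wins (cuts j)).filter (fun K => ¬ FarW x R K ∧ ℓ ≤ K.2 - K.1) with hNB
  have hNBcard : ∀ j, ((NB j).card : ℝ) ≤ A := fun j => (card_near hR.le hℓ).trans hA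
  have hcov : Qset cuts n B Λ j1 τ x R ℓ ⊆ NB n ∪
      (((wins (cuts j1)).filter (FarW x R)).biUnion
        (fun K => desc cuts n B (16 * Λ) (omg x τ) j1 r K) ∪
      (Finset.Ioc j1 n).biUnion (fun j => (NB (j - 1)).biUnion (fun K =>
        ((kids (cuts j) K).filter (FarW x R)).biUnion
          (fun K' => desc cuts n B (16 * Λ) (omg x τ) j r K')))) := by
    intro J hJ
    have hJ' := hJ
    unfold Qset at hJ'
    rw [Finset.mem_filter] at hJ'
    obtain ⟨hJw, hℓJ, _⟩ := hJ'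
    have hJlt := (mem_wins.1 hJw).2.2.1
    rw [Finset.mem_union]
    by_cases hJF : FarW x R J
    · right
      have hex : ∃ j, j1 ≤ j ∧ j ≤ n ∧ ∃ K ∈ wins (cuts j), K.1 ≤ J.1 ∧ J.2 ≤ K.2 ∧ FarW x R K :=
        ⟨n, hj1, le_refl _, J, hJw, le_refl _, le_refl _, hJF⟩
      have hspec := Nat.find_spec hex
      have hmin := fun i => Nat.find_min hex (m := i)
      set j := Nat.find hex with hjdef
      obtain ⟨hj1j, hjn, K, hK, h1, h2, hKF⟩ := hspec
      rw [Finset.mem_union]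
      rcases Nat.eq_or_lt_of_le hj1j with he | hlt
      · left
        rw [Finset.mem_biUnion]
        rw [← he] at hK
        refine ⟨K, Finset.mem_filter.2 ⟨hK, hKF⟩, ?_⟩
        exact hbad J hJ j1 (le_refl _) hj1 K hK h1 h2 hKF
      · right
        rw [Finset.mem_biUnion]
        refine ⟨j, Finset.mem_Ioc.2 ⟨hlt, hjn⟩, ?_⟩
        obtain ⟨K₀, hK₀, e1, e2⟩ := N.parent (j := j - 1) (by omega) hJw
        have hnf : ¬ FarW x R K₀ := by
          intro hf
          exact hmin (j - 1) (by omega) ⟨by omega, by omega, K₀, hK₀, e1, e2, hf⟩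
        obtain ⟨e3, e4⟩ := N.nested (i := j - 1) (j := j) (by omega) hjn hK₀ hK hJlt e1 e2 h1 h2
        rw [Finset.mem_biUnion]
        refine ⟨K₀, Finset.mem_filter.2 ⟨hK₀, hnf, by linarith⟩, ?_⟩
        rw [Finset.mem_biUnion]
        refine ⟨K, Finset.mem_filter.2 ⟨mem_kids.2 ⟨mem_wins.1 hK, e3, e4⟩, hKF⟩, ?_⟩
        exact hbad J hJ j hj1j hjn K hK h1 h2 hKF
    · left
      exact Finset.mem_filter.2 ⟨hJw, hJF, hℓJ⟩
  have b1 : ((((wins (cuts j1)).filter (FarW x R)).biUnion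
        (fun K => desc cuts n B (16 * Λ) (omg x τ) j1 r K)).card : ℝ) ≤ W * X := by
    have h1 : ((((wins (cuts j1)).filter (FarW x R)).biUnion
        (fun K => desc cuts n B (16 * Λ) (omg x τ) j1 r K)).card : ℝ) ≤
        ∑ K ∈ (wins (cuts j1)).filter (FarW x R),
          ((desc cuts n B (16 * Λ) (omg x τ) j1 r K).card : ℝ) := by
      exact_mod_cast Finset.card_biUnion_le
    have h2 : ∑ K ∈ (wins (cuts j1)).filter (FarW x R),
          ((desc cuts n B (16 * Λ) (omg x τ) j1 r K).card : ℝ) ≤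
        ∑ _K ∈ (wins (cuts j1)).filter (FarW x R), X := by
      apply Finset.sum_le_sum
      intro K hK
      rw [Finset.mem_filter] at hK
      exact hdesc j1 hj1 K hK.1 hK.2
    rw [Finset.sum_const, nsmul_eq_mul] at h2
    refine h1.trans (h2.trans (mul_le_mul_of_nonneg_right (le_trans ?_ hW) hX0))
    exact_mod_cast Finset.card_le_card (Finset.filter_subset _ _)
  have b2 : (((Finset.Ioc j1 n).biUnion (fun j => (NB (j - 1)).biUnion (fun K =>
        ((kids (cuts j) K).filter (FarW x R)).biUnion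
          (fun K' => desc cuts n B (16 * Λ) (omg x τ) j r K')))).card : ℝ) ≤
        n * (A * (m * X)) := by
    have h1 : (((Finset.Ioc j1 n).biUnion (fun j => (NB (j - 1)).biUnion (fun K =>
        ((kids (cuts j) K).filter (FarW x R)).biUnion
          (fun K' => desc cuts n B (16 * Λ) (omg x τ) j r K')))).card : ℝ) ≤
        ∑ j ∈ Finset.Ioc j1 n, (((NB (j - 1)).biUnion (fun K =>
        ((kids (cuts j) K).filter (FarW x R)).biUnion
          (fun K' => desc cuts n B (16 * Λ) (omg x τ) j r K'))).card : ℝ) := by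
      exact_mod_cast Finset.card_biUnion_le
    have h2 : ∑ j ∈ Finset.Ioc j1 n, (((NB (j - 1)).biUnion (fun K =>
        ((kids (cuts j) K).filter (FarW x R)).biUnion
          (fun K' => desc cuts n B (16 * Λ) (omg x τ) j r K'))).card : ℝ) ≤
        ∑ _j ∈ Finset.Ioc j1 n, A * (m * X) := by
      apply Finset.sum_le_sum
      intro j hj
      rw [Finset.mem_Ioc] at hj
      have h3 : (((NB (j - 1)).biUnion (fun K =>
        ((kids (cuts j) K).filter (FarW x R)).biUnion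
          (fun K' => desc cuts n B (16 * Λ) (omg x τ) j r K'))).card : ℝ) ≤
          ∑ K ∈ NB (j - 1), ((((kids (cuts j) K).filter (FarW x R)).biUnion
          (fun K' => desc cuts n B (16 * Λ) (omg x τ) j r K')).card : ℝ) := by
        exact_mod_cast Finset.card_biUnion_le
      have h4 : ∑ K ∈ NB (j - 1), ((((kids (cuts j) K).filter (FarW x R)).biUnion
          (fun K' => desc cuts n B (16 * Λ) (omg x τ) j r K')).card : ℝ) ≤
          ∑ _K ∈ NB (j - 1), m * X := by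
        apply Finset.sum_le_sum
        intro K hK
        have hKw := (Finset.mem_filter.1 hK).1
        have h5 : ((((kids (cuts j) K).filter (FarW x R)).biUnion
          (fun K' => desc cuts n B (16 * Λ) (omg x τ) j r K')).card : ℝ) ≤
            ∑ K' ∈ (kids (cuts j) K).filter (FarW x R),
              ((desc cuts n B (16 * Λ) (omg x τ) j r K').card : ℝ) := by
          exact_mod_cast Finset.card_biUnion_le
        have h6 : ∑ K' ∈ (kids (cuts j) K).filter (FarW x R),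
              ((desc cuts n B (16 * Λ) (omg x τ) j r K').card : ℝ) ≤
            ∑ _K' ∈ (kids (cuts j) K).filter (FarW x R), X := by
          apply Finset.sum_le_sum
          intro K' hK'
          rw [Finset.mem_filter] at hK'
          exact hdesc j hj.2 K' (mem_wins.2 (mem_kids.1 hK'.1).1) hK'.2
        rw [Finset.sum_const, nsmul_eq_mul] at h6
        refine h5.trans (h6.trans (mul_le_mul_of_nonneg_right ?_ hX0))
        have h7 := N.kids_le (j - 1) (by omega) K hKw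
        rw [Nat.sub_add_cancel (by omega)] at h7
        refine le_trans ?_ h7
        exact_mod_cast Finset.card_le_card (Finset.filter_subset _ _)
      rw [Finset.sum_const, nsmul_eq_mul] at h4
      exact h3.trans (h4.trans (mul_le_mul_of_nonneg_right (hNBcard _) (by positivity)))
    rw [Finset.sum_const, nsmul_eq_mul, Nat.card_Ioc] at h2
    refine h1.trans (h2.trans (mul_le_mul_of_nonneg_right ?_ (by positivity)))
    exact_mod_cast Nat.sub_le n j1
  have h1 := (Finset.card_le_card hcov).trans (Finset.card_union_le _ _)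
  have h2 := Finset.card_union_le (((wins (cuts j1)).filter (FarW x R)).biUnion
        (fun K => desc cuts n B (16 * Λ) (omg x τ) j1 r K))
      ((Finset.Ioc j1 n).biUnion (fun j => (NB (j - 1)).biUnion (fun K =>
        ((kids (cuts j) K).filter (FarW x R)).biUnion
          (fun K' => desc cuts n B (16 * Λ) (omg x τ) j r K'))))
  have h3 : ((Qset cuts n B Λ j1 τ x R ℓ).card : ℝ) ≤ ((NB n).card : ℝ) +
      (((((wins (cuts j1)).filter (FarW x R)).biUnion
        (fun K => desc cuts n B (16 * Λ) (omg x τ) j1 r K)).card : ℝ) +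
      (((Finset.Ioc j1 n).biUnion (fun j => (NB (j - 1)).biUnion (fun K =>
        ((kids (cuts j) K).filter (FarW x R)).biUnion
          (fun K' => desc cuts n B (16 * Λ) (omg x τ) j r K')))).card : ℝ)) := by
    exact_mod_cast h1.trans (Nat.add_le_add_left h2 _)
  have h4 := hNBcard n
  calc ((Qset cuts n B Λ j1 τ x R ℓ).card : ℝ) ≤ A + (W * X + n * (A * (m * X))) := by linarith
    _ = A + (W + n * (A * m)) * X := by ring


/-- the pairs of level-`n` windows which are both in `Prob_{c,τ}` for a common `(c,τ)` -/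
def pairSet (cuts : ℕ → Finset ℝ) (n B : ℕ) (Λ : ℝ) (j1 : ℕ) : Finset ((ℝ × ℝ) × (ℝ × ℝ)) :=
  (wins (cuts n) ×ˢ wins (cuts n)).filter (fun x => ∃ c τ, (τ = 1 ∨ τ = 2) ∧
    Prb cuts B Λ j1 n c τ x.1 ∧ Prb cuts B Λ j1 n c τ x.2)

theorem pair_count_gen (N : Nest cuts n lo hi m) {B : ℕ} {Λ : ℝ} {j1 : ℕ}
    (hB : 1 ≤ B) (hΛ : 1 ≤ Λ) (hj1 : j1 ≤ n) {T W : ℝ}
    (hT : 1 ≤ T) (hmT : T ≤ m) (hTdef : (m / B + 1) * (2 * (16 * Λ) + 1) ≤ T)
    (hW : ((wins (cuts j1)).card : ℝ) ≤ W) :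
    ((pairSet cuts n B Λ j1).card : ℝ) ≤ 4 * ((wins (cuts n)).card : ℝ) *
      ((144 * Λ + 2) + (W + n * ((144 * Λ + 2) * m)) * ((2 * T) ^ n * (m / T) ^ (n / 10))) := by
  set Q := (144 * Λ + 2) + (W + n * ((144 * Λ + 2) * m)) * ((2 * T) ^ n * (m / T) ^ (n / 10))
    with hQ
  set q : ℕ → (ℝ × ℝ) → Finset (ℝ × ℝ) := fun τ I =>
    Qset cuts n B Λ j1 τ ((I.1 + I.2) / 2) (72 * Λ * (I.2 - I.1)) (I.2 - I.1) with hq
  have hqc : ∀ τ, τ ≤ 2 → ∀ I ∈ wins (cuts n), ((q τ I).card : ℝ) ≤ Q := by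
    intro τ hτ I hI
    have hlt := (mem_wins.1 hI).2.2.1
    apply card_Qset N hB (by linarith) hτ hj1 _ (by linarith) hT hmT hTdef _ hW
    · have : 0 < I.2 - I.1 := by linarith
      positivity
    · have : I.2 - I.1 ≠ 0 := by linarith
      apply le_of_eq
      field_simp
      ring
  set A : ℕ → Finset ((ℝ × ℝ) × (ℝ × ℝ)) := fun τ =>
    (wins (cuts n)).biUnion (fun I => (q τ I).image (fun J => (I, J))) with hA
  set A' : ℕ → Finset ((ℝ × ℝ) × (ℝ × ℝ)) := fun τ =>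
    (wins (cuts n)).biUnion (fun I => (q τ I).image (fun J => (J, I))) with hA'
  have hAc : ∀ τ, τ ≤ 2 → ((A τ).card : ℝ) ≤ ((wins (cuts n)).card : ℝ) * Q := by
    intro τ hτ
    have h1 : ((A τ).card : ℝ) ≤ ∑ I ∈ wins (cuts n),
        (((q τ I).image (fun J => (I, J))).card : ℝ) := by
      exact_mod_cast Finset.card_biUnion_le
    have h2 : ∑ I ∈ wins (cuts n), (((q τ I).image (fun J => (I, J))).card : ℝ) ≤
        ∑ _I ∈ wins (cuts n), Q := by
      apply Finset.sum_le_sum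
      intro I hI
      refine le_trans ?_ (hqc τ hτ I hI)
      exact_mod_cast Finset.card_image_le
    rw [Finset.sum_const, nsmul_eq_mul] at h2
    exact h1.trans h2
  have hAc' : ∀ τ, τ ≤ 2 → ((A' τ).card : ℝ) ≤ ((wins (cuts n)).card : ℝ) * Q := by
    intro τ hτ
    have h1 : ((A' τ).card : ℝ) ≤ ∑ I ∈ wins (cuts n),
        (((q τ I).image (fun J => (J, I))).card : ℝ) := by
      exact_mod_cast Finset.card_biUnion_le
    have h2 : ∑ I ∈ wins (cuts n), (((q τ I).image (fun J => (J, I))).card : ℝ) ≤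
        ∑ _I ∈ wins (cuts n), Q := by
      apply Finset.sum_le_sum
      intro I hI
      refine le_trans ?_ (hqc τ hτ I hI)
      exact_mod_cast Finset.card_image_le
    rw [Finset.sum_const, nsmul_eq_mul] at h2
    exact h1.trans h2
  have key : ∀ (c : ℝ) (τ : ℕ) (I J : ℝ × ℝ), Prb cuts B Λ j1 n c τ I →
      Prb cuts B Λ j1 n c τ J → I.2 - I.1 ≤ J.2 - J.1 → J ∈ q τ I := by
    intro c τ I J hI hJ hIJ
    have hlt := (mem_wins.1 hI.1).2.2.1
    rw [hq]
    simp only [Qset, Finset.mem_filter]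
    refine ⟨hJ.1, hIJ, c, ?_, hJ⟩
    have h1 : I.2 - I.1 ≤ Λ * (I.2 - I.1) := by nlinarith
    rw [abs_le]
    constructor
    · linarith [hI.2.1]
    · linarith [hI.2.2.1]
  have hcov : pairSet cuts n B Λ j1 ⊆ (A 1 ∪ A 2) ∪ (A' 1 ∪ A' 2) := by
    rintro ⟨I, J⟩ hx
    unfold pairSet at hx
    rw [Finset.mem_filter] at hx
    obtain ⟨_, c, τ, hτ, hI, hJ⟩ := hx
    simp only at hI hJ
    rw [Finset.mem_union, Finset.mem_union, Finset.mem_union]
    rcases le_total (I.2 - I.1) (J.2 - J.1) with h | h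
    · left
      have hm' := key c τ I J hI hJ h
      have hmem : ((I, J) : (ℝ × ℝ) × (ℝ × ℝ)) ∈ A τ := by
        rw [hA]
        simp only [Finset.mem_biUnion, Finset.mem_image]
        exact ⟨I, hI.1, J, hm', rfl⟩
      rcases hτ with rfl | rfl
      · exact Or.inl hmem
      · exact Or.inr hmem
    · right
      have hm' := key c τ J I hJ hI h
      have hmem : ((I, J) : (ℝ × ℝ) × (ℝ × ℝ)) ∈ A' τ := by
        rw [hA']
        simp only [Finset.mem_biUnion, Finset.mem_image]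
        exact ⟨J, hJ.1, I, hm', rfl⟩
      rcases hτ with rfl | rfl
      · exact Or.inl hmem
      · exact Or.inr hmem
  have h1 := Finset.card_le_card hcov
  have h2 := Finset.card_union_le (A 1 ∪ A 2) (A' 1 ∪ A' 2)
  have h3 := Finset.card_union_le (A 1) (A 2)
  have h4 := Finset.card_union_le (A' 1) (A' 2)
  have h5 : ((pairSet cuts n B Λ j1).card : ℝ) ≤
      ((A 1).card : ℝ) + (A 2).card + (A' 1).card + (A' 2).card := by
    have : (pairSet cuts n B Λ j1).card ≤ (A 1).card + (A 2).card + (A' 1).card + (A' 2).card := by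
      omega
    exact_mod_cast this
  have e1 := hAc 1 (by norm_num)
  have e2 := hAc 2 (by norm_num)
  have e3 := hAc' 1 (by norm_num)
  have e4 := hAc' 2 (by norm_num)
  calc ((pairSet cuts n B Λ j1).card : ℝ) ≤ 4 * (((wins (cuts n)).card : ℝ) * Q) := by linarith
    _ = _ := by ring

/-- **7.3 (PAIR COUNT)** with the constants of the paper, `M = μ^10, Λ = μ^11, B = μ^39` -/
theorem pair_count {μ j1 : ℕ} {Cw : ℝ} (N : Nest cuts n lo hi (Cw * (μ : ℝ) ^ 40))
    (hCw : 1 ≤ Cw) (hμ : (80 * Cw) ^ 5 ≤ (μ : ℝ)) (hj1 : j1 ≤ n) (hn : 1 ≤ n)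
    (hW1 : ((wins (cuts j1)).card : ℝ) ≤ Cw * (μ : ℝ) ^ (40 * j1))
    (hWn : ((wins (cuts n)).card : ℝ) ≤ Cw * (μ : ℝ) ^ (40 * n)) :
    ((pairSet cuts n (μ ^ 39) ((μ : ℝ) ^ 11) j1).card : ℝ) ≤
      4 * Cw * ((144 * (μ : ℝ) ^ 11 + 2) + Cw * (μ : ℝ) ^ (40 * j1) +
        (144 * (μ : ℝ) ^ 11 + 2) * (Cw * (μ : ℝ) ^ 40)) * n * (μ : ℝ) ^ (55 * n) := by
  have hbig : (80 : ℝ) ≤ μ := by
    have h1 : (80 : ℝ) ≤ 80 * Cw := by linarith
    have h2 : (80 * Cw) ≤ (80 * Cw) ^ 5 := le_self_pow₀ (by linarith) (by norm_num)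
    linarith
  have hμ1 : (1 : ℝ) ≤ μ := by linarith
  have hμ0 : (0 : ℝ) < μ := by linarith
  have hμn : 1 ≤ μ := by exact_mod_cast hμ1
  have hCw0 : 0 < Cw := by linarith
  set T : ℝ := 40 * Cw * (μ : ℝ) ^ 12 with hTd
  set m' : ℝ := Cw * (μ : ℝ) ^ 40 with hm'
  have hT : 1 ≤ T := by
    have : (1 : ℝ) ≤ (μ : ℝ) ^ 12 := one_le_pow₀ hμ1
    nlinarith
  have hT0 : 0 < T := by linarith
  have hmT : T ≤ m' := by
    have h1 : (40 : ℝ) ≤ (μ : ℝ) ^ 28 := by
      calc (40 : ℝ) ≤ μ := by linarith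
        _ ≤ (μ : ℝ) ^ 28 := le_self_pow₀ hμ1 (by norm_num)
    have h2 : m' = Cw * (μ : ℝ) ^ 12 * (μ : ℝ) ^ 28 := by rw [hm']; ring
    rw [h2, hTd]
    have h3 : 0 < Cw * (μ : ℝ) ^ 12 := by positivity
    nlinarith
  have hTdef : (m' / ((μ ^ 39 : ℕ) : ℝ) + 1) * (2 * (16 * (μ : ℝ) ^ 11) + 1) ≤ T := by
    push_cast
    have e1 : m' / (μ : ℝ) ^ 39 = Cw * μ := by
      rw [hm']
      field_simp
    rw [e1, hTd]
    have e2 : (1 : ℝ) ≤ (μ : ℝ) ^ 11 := one_le_pow₀ hμ1
    have e3 : (Cw * (μ : ℝ) + 1) * (2 * (16 * (μ : ℝ) ^ 11) + 1) =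
        32 * Cw * (μ : ℝ) ^ 12 + Cw * μ + 32 * (μ : ℝ) ^ 11 + 1 := by ring
    rw [e3]
    have e4 : Cw * (μ : ℝ) ≤ Cw * (μ : ℝ) ^ 12 :=
      mul_le_mul_of_nonneg_left (le_self_pow₀ hμ1 (by norm_num)) hCw0.le
    have e5 : 32 * (μ : ℝ) ^ 11 ≤ (μ : ℝ) ^ 12 := by
      have : (μ : ℝ) ^ 12 = μ * (μ : ℝ) ^ 11 := by ring
      rw [this]
      nlinarith
    have e6 : (μ : ℝ) ^ 12 ≤ Cw * (μ : ℝ) ^ 12 := by
      have : 0 < (μ : ℝ) ^ 12 := by positivity
      nlinarith
    have e7 : (1 : ℝ) ≤ (μ : ℝ) ^ 12 := one_le_pow₀ hμ1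
    linarith
  have h1 := pair_count_gen N (B := μ ^ 39) (Λ := (μ : ℝ) ^ 11) (j1 := j1)
    (Nat.one_le_pow _ _ hμn) (one_le_pow₀ hμ1) hj1 hT hmT hTdef hW1
  set A : ℝ := 144 * (μ : ℝ) ^ 11 + 2 with hAd
  have hA0 : 0 < A := by positivity
  -- the main power estimate
  have hX : (2 * T) ^ n * (m' / T) ^ (n / 10) ≤ (μ : ℝ) ^ (15 * n) := by
    have e1 : m' / T ≤ (μ : ℝ) ^ 28 := by
      rw [div_le_iff₀ hT0, hm', hTd]
      have : (μ : ℝ) ^ 28 * (40 * Cw * (μ : ℝ) ^ 12) = 40 * (Cw * (μ : ℝ) ^ 40) := by ring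
      rw [this]
      have : 0 < Cw * (μ : ℝ) ^ 40 := by positivity
      linarith
    have e2 : (m' / T) ^ (n / 10) ≤ ((μ : ℝ) ^ 28) ^ (n / 10) :=
      pow_le_pow_left₀ (by positivity) e1 _
    have e3 : (2 * T) ^ n = (80 * Cw) ^ n * (μ : ℝ) ^ (12 * n) := by
      rw [hTd, pow_mul, ← mul_pow]
      congr 1
      ring
    have e4 : (80 * Cw) ^ n * ((μ : ℝ) ^ 28) ^ (n / 10) ≤ (μ : ℝ) ^ (3 * n) := by
      apply le_of_pow_le_pow_left₀ (n := 5) (by norm_num) (by positivity)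
      have f1 : ((80 * Cw) ^ n * ((μ : ℝ) ^ 28) ^ (n / 10)) ^ 5 =
          ((80 * Cw) ^ 5) ^ n * (μ : ℝ) ^ (140 * (n / 10)) := by
        rw [mul_pow, ← pow_mul, ← pow_mul, ← pow_mul, ← pow_mul]
        congr 2 <;> ring
      have f2 : ((80 * Cw) ^ 5) ^ n ≤ (μ : ℝ) ^ n := pow_le_pow_left₀ (by positivity) hμ _
      have f3 : (μ : ℝ) ^ (140 * (n / 10)) ≤ (μ : ℝ) ^ (14 * n) :=
        pow_le_pow_right₀ hμ1 (by omega)
      rw [f1]
      calc ((80 * Cw) ^ 5) ^ n * (μ : ℝ) ^ (140 * (n / 10)) ≤ (μ : ℝ) ^ n * (μ : ℝ) ^ (14 * n) :=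
            mul_le_mul f2 f3 (by positivity) (by positivity)
        _ = ((μ : ℝ) ^ (3 * n)) ^ 5 := by
            rw [← pow_add, ← pow_mul]
            congr 1
            ring
    calc (2 * T) ^ n * (m' / T) ^ (n / 10) ≤ (2 * T) ^ n * ((μ : ℝ) ^ 28) ^ (n / 10) :=
          mul_le_mul_of_nonneg_left e2 (by positivity)
      _ = (μ : ℝ) ^ (12 * n) * ((80 * Cw) ^ n * ((μ : ℝ) ^ 28) ^ (n / 10)) := by
          rw [e3]; ring
      _ ≤ (μ : ℝ) ^ (12 * n) * (μ : ℝ) ^ (3 * n) :=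
          mul_le_mul_of_nonneg_left e4 (by positivity)
      _ = (μ : ℝ) ^ (15 * n) := by
          rw [← pow_add]
          congr 1
          ring
  have hn1 : (1 : ℝ) ≤ n := by exact_mod_cast hn
  have hY : (1 : ℝ) ≤ (μ : ℝ) ^ (15 * n) := one_le_pow₀ hμ1
  set Y : ℝ := (μ : ℝ) ^ (15 * n) with hYd
  set W : ℝ := Cw * (μ : ℝ) ^ (40 * j1) with hWd
  have hW0 : 0 < W := by positivity
  have hm0 : 0 < m' := by linarith
  have hQ : A + (W + n * (A * m')) * ((2 * T) ^ n * (m' / T) ^ (n / 10)) ≤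
      (A + W + A * m') * n * Y := by
    have g1 : (W + n * (A * m')) * ((2 * T) ^ n * (m' / T) ^ (n / 10)) ≤
        (W + n * (A * m')) * Y := mul_le_mul_of_nonneg_left hX (by positivity)
    have g2 : A ≤ A * n * Y := by
      have : (1 : ℝ) ≤ n * Y := by nlinarith
      nlinarith
    have g3 : W * Y ≤ W * n * Y := by
      have : W ≤ W * n := by nlinarith
      exact mul_le_mul_of_nonneg_right this (by linarith)
    calc A + (W + n * (A * m')) * ((2 * T) ^ n * (m' / T) ^ (n / 10)) ≤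
        A * n * Y + (W * n * Y + n * (A * m') * Y) := by linarith
      _ = (A + W + A * m') * n * Y := by ring
  have hQ0 : 0 ≤ (A + W + A * m') * n * Y := by positivity
  calc ((pairSet cuts n (μ ^ 39) ((μ : ℝ) ^ 11) j1).card : ℝ) ≤
      4 * ((wins (cuts n)).card : ℝ) *
        (A + (W + n * (A * m')) * ((2 * T) ^ n * (m' / T) ^ (n / 10))) := h1
    _ ≤ 4 * (Cw * (μ : ℝ) ^ (40 * n)) * ((A + W + A * m') * n * Y) := by
        apply mul_le_mul _ hQ (by positivity) (by positivity)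
        linarith
    _ = 4 * Cw * (A + W + A * m') * n * ((μ : ℝ) ^ (40 * n) * Y) := by ring
    _ = 4 * Cw * (A + W + A * m') * n * (μ : ℝ) ^ (55 * n) := by
        rw [hYd, ← pow_add]
        congr 2
        ring

/-- the nest of a window system with levels `V_l = μ^(10 l)` for `l ≤ n` -/
theorem nest_of_wsys {P : Finset Pt} {k : ℕ} {V : ℕ → ℕ} {L : ℕ} {Cw : ℝ} {μ : ℕ}
    (W : WSys P k V L Cw) (hn : n ≤ L) (hμ : 1 ≤ μ) (hV : ∀ l ≤ n, V l = μ ^ (10 * l)) :
    Nest W.cuts n W.lo W.hi (Cw * (μ : ℝ) ^ 40) where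
  sub := fun l l' h1 h2 => W.sub l l' h1 (h2.trans hn)
  lo_mem := W.lo_mem
  hi_mem := W.hi_mem
  lo_le := fun l hl => W.lo_le l (hl.trans hn)
  le_hi := fun l hl => W.le_hi l (hl.trans hn)
  kids_le := by
    intro j hj K hK
    have h := W.count_in j (j + 1) (Nat.le_succ j) (by omega) K hK
    have hμ0 : (0 : ℝ) < μ := by exact_mod_cast hμ
    have e : ((V (j + 1) : ℝ) / V j) ^ 4 = (μ : ℝ) ^ 40 := by
      rw [hV (j + 1) (by omega), hV j (by omega)]
      push_cast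
      have : (μ : ℝ) ^ (10 * (j + 1)) / (μ : ℝ) ^ (10 * j) = (μ : ℝ) ^ 10 := by
        rw [show 10 * (j + 1) = 10 * j + 10 by ring, pow_add]
        field_simp
      rw [this]
      ring
    rw [e] at h
    exact h

lemma card_wins_wsys {P : Finset Pt} {k : ℕ} {V : ℕ → ℕ} {L : ℕ} {Cw : ℝ} {μ : ℕ}
    (W : WSys P k V L Cw) (hn : n ≤ L) (hV : ∀ l ≤ n, V l = μ ^ (10 * l)) {l : ℕ} (hl : l ≤ n) :
    ((wins (W.cuts l)).card : ℝ) ≤ Cw * (μ : ℝ) ^ (40 * l) := by
  have h1 : ((wins (W.cuts l)).card : ℝ) ≤ ((W.cuts l).card : ℝ) := by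
    exact_mod_cast card_wins_le _
  refine h1.trans ((W.count_all l (hl.trans hn)).trans (le_of_eq ?_))
  rw [hV l hl]
  push_cast
  rw [← pow_mul]
  congr 2
  ring

end Crest.Agent.R51.Lac
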