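import Crest.Agent.R51.WalkDefs

/-!
# Row 51, B5: the window-free part of the walk definitions (helper7)

`E = nearAll P k b'` is the fine graph, `dg E w` the degree, `G1` the edges with both ends of
degree `≤ Λ` (`Λ = λ₁ D'`), `T0` the monotone 2-walks `(v,w,x)` in `G1`.
-/

set_option autoImplicit false

noncomputable section

open Classical

namespace Crest.Agent.R51

/-- 2-walks `(v,w,x)` -/
abbrev Walk := Pt × Pt × Pt

/-- number of edges of `G` with an end in `w` -/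
def dg (G : Finset Edge) (w : Pt) : ℕ := (G.filter (fun e => e.1 = w ∨ e.2 = w)).card

/-- the edges of `E` with both ends of degree `≤ Λ` -/
def lowG (E : Finset Edge) (Λ : ℝ) : Finset Edge :=
  E.filter (fun e => (dg E e.1 : ℝ) ≤ Λ ∧ (dg E e.2 : ℝ) ≤ Λ)

/-- monotone 2-walks of a graph `G ⊆ pairs P` -/
def walks (P : Finset Pt) (G : Finset Edge) : Finset Walk :=
  (P ×ˢ (P ×ˢ P)).filter (fun z => (z.1, z.2.1) ∈ G ∧ (z.2.1, z.2.2) ∈ G)

/-- `T₀` of B5.1: monotone 2-walks in the low-degree part of the near-`b'` graph -/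
def T0 (P : Finset Pt) (k b' : ℕ) (Λ : ℝ) : Finset Walk :=
  walks P (lowG (nearAll P k b') Λ)

/-- the last edge `(w,x)` of a walk -/
def lastE (z : Walk) : Edge := (z.2.1, z.2.2)

/-- the first edge `(v,w)` of a walk -/
def firstE (z : Walk) : Edge := (z.1, z.2.1)

/-- the walks of `H` starting at `v`, as a set of edges `(w,x)` -/
def fib (H : Finset Walk) (v : Pt) : Finset Edge := (H.filter (fun z => z.1 = v)).image lastE

/-- `(v,w,x)` and `(v,w',x)` : the middle points of `H` between `v` and `x` -/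
def mids (H : Finset Walk) (v x : Pt) : Finset Pt :=
  (H.filter (fun z => z.1 = v ∧ z.2.2 = x)).image (fun z => z.2.1)

lemma mem_lowG {E : Finset Edge} {Λ : ℝ} {e : Edge} :
    e ∈ lowG E Λ ↔ e ∈ E ∧ (dg E e.1 : ℝ) ≤ Λ ∧ (dg E e.2 : ℝ) ≤ Λ := by
  simp [lowG]

lemma lowG_subset (E : Finset Edge) (Λ : ℝ) : lowG E Λ ⊆ E := Finset.filter_subset _ _

lemma mem_walks {P : Finset Pt} {G : Finset Edge} (hG : G ⊆ pairs P) {z : Walk} :
    z ∈ walks P G ↔ firstE z ∈ G ∧ lastE z ∈ G := by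
  unfold walks firstE lastE
  simp only [Finset.mem_filter, Finset.mem_product]
  constructor
  · rintro ⟨_, h⟩; exact h
  · rintro ⟨h1, h2⟩
    have a := mem_pairs.1 (hG h1)
    have b := mem_pairs.1 (hG h2)
    exact ⟨⟨a.1, a.2.1, b.2.1⟩, h1, h2⟩

lemma mem_T0 {P : Finset Pt} {k b' : ℕ} {Λ : ℝ} {z : Walk} :
    z ∈ T0 P k b' Λ ↔ firstE z ∈ lowG (nearAll P k b') Λ ∧ lastE z ∈ lowG (nearAll P k b') Λ :=
  mem_walks ((lowG_subset _ _).trans nearAll_subset)

lemma mem_T0' {P : Finset Pt} {k b' : ℕ} {Λ : ℝ} {z : Walk} (h : z ∈ T0 P k b' Λ) :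
    z.1 ∈ P ∧ z.2.1 ∈ P ∧ z.2.2 ∈ P ∧ z.1.1 < z.2.1.1 ∧ z.2.1.1 < z.2.2.1
      ∧ Near P k b' (firstE z) ∧ Near P k b' (lastE z)
      ∧ (dg (nearAll P k b') z.1 : ℝ) ≤ Λ ∧ (dg (nearAll P k b') z.2.1 : ℝ) ≤ Λ
      ∧ (dg (nearAll P k b') z.2.2 : ℝ) ≤ Λ := by
  rw [mem_T0, mem_lowG, mem_lowG, mem_nearAll, mem_nearAll, mem_pairs, mem_pairs] at h
  obtain ⟨⟨⟨⟨a1, a2, a3⟩, a4⟩, a5, a6⟩, ⟨⟨⟨b1, b2, b3⟩, b4⟩, b5, b6⟩⟩ := h
  exact ⟨a1, a2, b2, a3, b3, a4, b4, a5, a6, b6⟩

lemma mem_fib {H : Finset Walk} {v : Pt} {e : Edge} : e ∈ fib H v ↔ (v, e.1, e.2) ∈ H := by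
  unfold fib lastE
  simp only [Finset.mem_image, Finset.mem_filter]
  constructor
  · rintro ⟨z, ⟨h1, h2⟩, rfl⟩
    rw [← h2]; exact h1
  · intro h
    exact ⟨(v, e.1, e.2), ⟨h, rfl⟩, rfl⟩

lemma mem_mids {H : Finset Walk} {v x w : Pt} : w ∈ mids H v x ↔ (v, w, x) ∈ H := by
  unfold mids
  simp only [Finset.mem_image, Finset.mem_filter]
  constructor
  · rintro ⟨z, ⟨h1, h2, h3⟩, rfl⟩
    rw [← h2, ← h3]; exact h1
  · intro h
    exact ⟨(v, w, x), ⟨h, rfl, rfl⟩, rfl⟩

/-- total number of walks = sum over the starting points -/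
lemma card_eq_sum_fib {H : Finset Walk} {P : Finset Pt} (h : ∀ z ∈ H, z.1 ∈ P) :
    H.card = ∑ v ∈ P, (fib H v).card := by
  rw [Finset.card_eq_sum_card_fiberwise (f := fun z : Walk => z.1) (t := P)
    (fun z hz => h z (Finset.mem_coe.1 hz))]
  refine Finset.sum_congr rfl (fun v _ => ?_)
  unfold fib
  rw [Finset.card_image_of_injOn]
  intro z hz z' hz' he
  have h1 := (Finset.mem_filter.1 (Finset.mem_coe.1 hz)).2
  have h2 := (Finset.mem_filter.1 (Finset.mem_coe.1 hz')).2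
  have h3 : z.2 = z'.2 := by
    simpa [lastE, Prod.ext_iff] using he
  exact Prod.ext (h1.trans h2.symm) h3

/-- neighbours of `w` in `G` -/
def nbrs (G : Finset Edge) (w : Pt) : Finset Pt :=
  (G.filter (fun e => e.1 = w)).image Prod.snd ∪ (G.filter (fun e => e.2 = w)).image Prod.fst

lemma mem_nbrs {G : Finset Edge} {w u : Pt} : u ∈ nbrs G w ↔ (w, u) ∈ G ∨ (u, w) ∈ G := by
  unfold nbrs
  simp only [Finset.mem_union, Finset.mem_image, Finset.mem_filter]
  constructor
  · rintro (⟨e, ⟨h1, h2⟩, rfl⟩ | ⟨e, ⟨h1, h2⟩, rfl⟩)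
    · left; rw [← h2]; exact h1
    · right; rw [← h2]; exact h1
  · rintro (h | h)
    · exact Or.inl ⟨(w, u), ⟨h, rfl⟩, rfl⟩
    · exact Or.inr ⟨(u, w), ⟨h, rfl⟩, rfl⟩

lemma card_nbrs_le (G : Finset Edge) (w : Pt) : (nbrs G w).card ≤ dg G w := by
  unfold nbrs dg
  have h1 : (G.filter (fun e => e.1 = w)).image Prod.snd
      ∪ (G.filter (fun e => e.2 = w)).image Prod.fst
      ⊆ (G.filter (fun e => e.1 = w ∨ e.2 = w)).image
        (fun e => if e.1 = w then e.2 else e.1) := by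
    intro u hu
    rcases Finset.mem_union.1 hu with hu | hu
    · obtain ⟨e, he, rfl⟩ := Finset.mem_image.1 hu
      rw [Finset.mem_filter] at he
      exact Finset.mem_image.2 ⟨e, Finset.mem_filter.2 ⟨he.1, Or.inl he.2⟩, by rw [if_pos he.2]⟩
    · obtain ⟨e, he, rfl⟩ := Finset.mem_image.1 hu
      rw [Finset.mem_filter] at he
      by_cases h : e.1 = w
      · exact Finset.mem_image.2 ⟨e, Finset.mem_filter.2 ⟨he.1, Or.inr he.2⟩, by
          rw [if_pos h, he.2, h]⟩
      · exact Finset.mem_image.2 ⟨e, Finset.mem_filter.2 ⟨he.1, Or.inr he.2⟩, by rw [if_neg h]⟩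
  exact (Finset.card_le_card h1).trans Finset.card_image_le

lemma dg_mono {G G' : Finset Edge} (h : G ⊆ G') (w : Pt) : dg G w ≤ dg G' w :=
  Finset.card_le_card (Finset.filter_subset_filter _ h)

/-- in the near-`b` graph the degree is the number of near-`b` neighbours -/
lemma dg_nearAll {P : Finset Pt} {k b : ℕ} (v : Pt) :
    dg (nearAll P k b) v = (nb P k b v).card := by
  unfold dg
  refine Finset.card_bij' (fun e _ => if e.1 = v then e.2 else e.1) (fun w _ => mk v w) ?_ ?_ ?_ ?_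
  · intro e he
    rw [Finset.mem_filter, mem_nearAll, mem_pairs] at he
    obtain ⟨⟨⟨h1, h2, h3⟩, h4⟩, h5⟩ := he
    have hne : e.1 ≠ e.2 := fun h => by rw [h] at h3; exact lt_irrefl _ h3
    rw [mem_nb]
    unfold NP
    rcases h5 with h5 | h5
    · rw [if_pos h5, ← h5, mk_of_lt h3, mem_nearAll, mem_pairs]
      exact ⟨⟨h1, h2, h3⟩, h4⟩
    · rw [if_neg (fun h => hne (h.trans h5.symm)), ← h5, mk_of_gt h3, mem_nearAll, mem_pairs]
      exact ⟨⟨h1, h2, h3⟩, h4⟩
  · intro w hw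
    rw [mem_nb] at hw
    rw [Finset.mem_filter]
    refine ⟨hw, ?_⟩
    unfold mk
    split_ifs
    · exact Or.inl rfl
    · exact Or.inr rfl
  · intro e he
    rw [Finset.mem_filter, mem_nearAll, mem_pairs] at he
    obtain ⟨⟨⟨h1, h2, h3⟩, h4⟩, h5⟩ := he
    have hne : e.1 ≠ e.2 := fun h => by rw [h] at h3; exact lt_irrefl _ h3
    rcases h5 with h5 | h5
    · simp only [if_pos h5]
      rw [← h5, mk_of_lt h3]
    · simp only [if_neg (fun h : e.1 = v => hne (h.trans h5.symm))]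
      rw [← h5, mk_of_gt h3]
  · intro w hw
    rw [mem_nb] at hw
    have hne := hw.ne
    unfold mk
    by_cases h : v.1 < w.1
    · simp only [if_pos h, if_true]
    · simp only [if_neg h]
      rw [if_neg (fun h' : w = v => hne (by rw [h']))]

/-- the number of edges of a set `S` whose left end is a `G`-neighbour of `v`, counted over `v`:
each edge `(w,x)` extends to at most `Λ` walks `(v,w,x)`. -/
lemma card_walks_le_of_last {H : Finset Walk} {G S : Finset Edge} {Λ : ℕ}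
    (h1 : ∀ z ∈ H, firstE z ∈ G) (h2 : ∀ z ∈ H, lastE z ∈ S) (h3 : ∀ z ∈ H, dg G z.2.1 ≤ Λ) :
    H.card ≤ Λ * S.card := by
  have h4 : ∀ e ∈ S, (H.filter (fun z => lastE z = e)).card ≤ Λ := by
    intro e _
    by_cases hne : (H.filter (fun z => lastE z = e)).Nonempty
    · obtain ⟨z0, hz0⟩ := hne
      rw [Finset.mem_filter] at hz0
      have hw : z0.2.1 = e.1 := by rw [← hz0.2]; rfl
      have h5 : (H.filter (fun z => lastE z = e)).card ≤ (nbrs G e.1).card := by
        refine Finset.card_le_card_of_injOn (fun z => z.1) ?_ ?_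
        · intro z hz
          have hz' := Finset.mem_filter.1 (Finset.mem_coe.1 hz)
          have : z.2.1 = e.1 := by rw [← hz'.2]; rfl
          refine Finset.mem_coe.2 (mem_nbrs.2 (Or.inr ?_))
          rw [← this]
          exact h1 z hz'.1
        · intro z hz z' hz' he
          have a := (Finset.mem_filter.1 (Finset.mem_coe.1 hz)).2
          have b := (Finset.mem_filter.1 (Finset.mem_coe.1 hz')).2
          have c : z.2 = z'.2 := by
            have := a.trans b.symm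
            simpa [lastE, Prod.ext_iff] using this
          exact Prod.ext he c
      refine h5.trans ((card_nbrs_le G e.1).trans ?_)
      rw [← hw]
      exact h3 z0 hz0.1
    · rw [Finset.not_nonempty_iff_eq_empty] at hne
      rw [hne]; simp
  rw [Finset.card_eq_sum_card_fiberwise (f := lastE) (t := S)
    (fun z hz => h2 z (Finset.mem_coe.1 hz))]
  calc ∑ e ∈ S, (H.filter (fun z => lastE z = e)).card ≤ ∑ _e ∈ S, Λ := Finset.sum_le_sum h4
    _ = Λ * S.card := by rw [Finset.sum_const, smul_eq_mul, mul_comm]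

end Crest.Agent.R51
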