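import Crest.Agent.R51.Defs

/-!
# Row 51: rank, levels and the sweep (note B2: G1, sweep induction, G3, G4, G5, reflection)
-/

set_option autoImplicit false

noncomputable section

open Classical

namespace Crest.Agent.R51

/-! ### Rank formula and G1 -/

lemma rk_formula {P : Finset Pt} (hG : Generic P) {p : Pt} (hp : p ∈ P) (θ : ℝ) :
    rk P θ p = ((pairs P).filter (fun e => e.2 = p ∧ θ < esl e)).card
      + ((pairs P).filter (fun e => e.1 = p ∧ esl e < θ)).card := by
  have h1 : P.filter (fun q => ht θ q < ht θ p)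
      = (P.filter (fun q => q.1 < p.1 ∧ θ < sl q p)) ∪ (P.filter (fun q => p.1 < q.1 ∧ sl p q < θ)) := by
    ext q
    simp only [Finset.mem_filter, Finset.mem_union]
    constructor
    · rintro ⟨hq, hlt⟩
      have hne : q ≠ p := by rintro rfl; exact lt_irrefl _ hlt
      rcases hG.x_lt_or_gt hq hp hne with hx | hx
      · exact Or.inl ⟨hq, hx, (ht_lt_iff hx θ).1 hlt⟩
      · exact Or.inr ⟨hq, hx, (ht_gt_iff hx θ).1 hlt⟩
    · rintro (⟨hq, hx, h⟩ | ⟨hq, hx, h⟩)
      · exact ⟨hq, (ht_lt_iff hx θ).2 h⟩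
      · exact ⟨hq, (ht_gt_iff hx θ).2 h⟩
  have hdis : Disjoint (P.filter (fun q => q.1 < p.1 ∧ θ < sl q p))
      (P.filter (fun q => p.1 < q.1 ∧ sl p q < θ)) := by
    rw [Finset.disjoint_left]
    intro q hq hq'
    simp only [Finset.mem_filter] at hq hq'
    linarith [hq.2.1, hq'.2.1]
  have h2 : (P.filter (fun q => q.1 < p.1 ∧ θ < sl q p)).card
      = ((pairs P).filter (fun e => e.2 = p ∧ θ < esl e)).card := by
    refine Finset.card_bij (fun q _ => (q, p)) ?_ ?_ ?_
    · intro q hq
      simp only [Finset.mem_filter] at hq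
      exact Finset.mem_filter.2 ⟨mem_pairs.2 ⟨hq.1, hp, hq.2.1⟩, rfl, hq.2.2⟩
    · intro a _ b _ hab
      exact (Prod.ext_iff.1 hab).1
    · rintro ⟨a, b⟩ hab
      simp only [Finset.mem_filter, mem_pairs] at hab
      obtain ⟨⟨ha, _, hx⟩, hb, hs⟩ := hab
      subst hb
      exact ⟨a, Finset.mem_filter.2 ⟨ha, hx, hs⟩, rfl⟩
  have h3 : (P.filter (fun q => p.1 < q.1 ∧ sl p q < θ)).card
      = ((pairs P).filter (fun e => e.1 = p ∧ esl e < θ)).card := by
    refine Finset.card_bij (fun q _ => (p, q)) ?_ ?_ ?_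
    · intro q hq
      simp only [Finset.mem_filter] at hq
      exact Finset.mem_filter.2 ⟨mem_pairs.2 ⟨hp, hq.1, hq.2.1⟩, rfl, hq.2.2⟩
    · intro a _ b _ hab
      exact (Prod.ext_iff.1 hab).2
    · rintro ⟨a, b⟩ hab
      simp only [Finset.mem_filter, mem_pairs] at hab
      obtain ⟨⟨_, hb, hx⟩, ha, hs⟩ := hab
      subst ha
      exact ⟨b, Finset.mem_filter.2 ⟨hb, hx, hs⟩, rfl⟩
  unfold rk
  rw [h1, Finset.card_union_of_disjoint hdis, h2, h3]

/-- **G1** (rank change). -/
lemma rank_change {P : Finset Pt} (hG : Generic P) {p : Pt} (hp : p ∈ P) {s t : ℝ}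
    (hs : NonSlope P s) (ht' : NonSlope P t) (hst : s < t) :
    rk P t p + LpA P s t p = rk P s p + RpA P s t p := by
  rw [rk_formula hG hp, rk_formula hG hp]
  have h1 : ((pairs P).filter (fun e => e.2 = p ∧ s < esl e)).card
      = ((pairs P).filter (fun e => e.2 = p ∧ t < esl e)).card + LpA P s t p := by
    unfold LpA
    rw [← Finset.card_union_of_disjoint]
    · congr 1
      ext e
      simp only [Finset.mem_filter, Finset.mem_union, mem_pairsIn]
      constructor
      · rintro ⟨he, h2, h3⟩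
        rcases lt_trichotomy (esl e) t with h | h | h
        · exact Or.inr ⟨⟨he, h3, h⟩, h2⟩
        · exact absurd h (ht' e he)
        · exact Or.inl ⟨he, h2, h⟩
      · rintro (⟨he, h2, h3⟩ | ⟨⟨he, h3, h4⟩, h2⟩)
        · exact ⟨he, h2, hst.trans h3⟩
        · exact ⟨he, h2, h3⟩
    · rw [Finset.disjoint_left]
      intro e he he'
      simp only [Finset.mem_filter, mem_pairsIn] at he he'
      linarith [he.2.2, he'.1.2.2]
  have h2 : ((pairs P).filter (fun e => e.1 = p ∧ esl e < t)).card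
      = ((pairs P).filter (fun e => e.1 = p ∧ esl e < s)).card + RpA P s t p := by
    unfold RpA
    rw [← Finset.card_union_of_disjoint]
    · congr 1
      ext e
      simp only [Finset.mem_filter, Finset.mem_union, mem_pairsIn]
      constructor
      · rintro ⟨he, h2, h3⟩
        rcases lt_trichotomy (esl e) s with h | h | h
        · exact Or.inl ⟨he, h2, h⟩
        · exact absurd h (hs e he)
        · exact Or.inr ⟨⟨he, h, h3⟩, h2⟩
      · rintro (⟨he, h2, h3⟩ | ⟨⟨he, h3, h4⟩, h2⟩)
        · exact ⟨he, h2, h3.trans hst⟩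
        · exact ⟨he, h2, h4⟩
    · rw [Finset.disjoint_left]
      intro e he he'
      simp only [Finset.mem_filter, mem_pairsIn] at he he'
      linarith [he.2.2, he'.1.2.1]
  omega

lemma rk_esl_right {P : Finset Pt} {e : Edge} (he : e ∈ pairs P) :
    rk P (esl e) e.2 = rk P (esl e) e.1 := by
  unfold rk
  rw [ht_esl (mem_pairs.1 he).2.2]

/-! ### Rank and height order -/

lemma rk_lt_rk {P : Finset Pt} {θ : ℝ} {p q : Pt} (hp : p ∈ P) (h : ht θ p < ht θ q) :
    rk P θ p < rk P θ q := by
  unfold rk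
  apply Finset.card_lt_card
  rw [Finset.ssubset_iff_of_subset]
  · exact ⟨p, Finset.mem_filter.2 ⟨hp, h⟩, fun h' => lt_irrefl _ (Finset.mem_filter.1 h').2⟩
  · intro r hr
    rw [Finset.mem_filter] at hr ⊢
    exact ⟨hr.1, hr.2.trans h⟩

lemma rk_le_rk {P : Finset Pt} {θ : ℝ} {p q : Pt} (h : ht θ p ≤ ht θ q) :
    rk P θ p ≤ rk P θ q := by
  unfold rk
  apply Finset.card_le_card
  intro r hr
  rw [Finset.mem_filter] at hr ⊢
  exact ⟨hr.1, hr.2.trans_le h⟩

lemma rk_lt_rk_iff {P : Finset Pt} {θ : ℝ} {p q : Pt} (hp : p ∈ P) :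
    rk P θ p < rk P θ q ↔ ht θ p < ht θ q := by
  constructor
  · intro h
    by_contra h'
    exact absurd (rk_le_rk (P := P) (not_lt.1 h')) (not_le.2 h)
  · exact rk_lt_rk hp

lemma rk_lt_card {P : Finset Pt} {θ : ℝ} {p : Pt} (hp : p ∈ P) : rk P θ p < P.card := by
  unfold rk
  apply Finset.card_lt_card
  rw [Finset.ssubset_iff_of_subset (Finset.filter_subset _ _)]
  exact ⟨p, hp, fun h' => lt_irrefl _ (Finset.mem_filter.1 h').2⟩

lemma rk_injOn {P : Finset Pt} (hG : Generic P) {θ : ℝ} (hθ : NonSlope P θ) :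
    Set.InjOn (rk P θ) (P : Set Pt) := by
  intro p hp q hq h
  by_contra hne
  rcases lt_or_gt_of_ne (ht_ne_of_nonSlope hG hθ hp hq hne) with h' | h'
  · exact absurd h (rk_lt_rk hp h').ne
  · exact absurd h (rk_lt_rk hq h').ne'

lemma image_rk {P : Finset Pt} (hG : Generic P) {θ : ℝ} (hθ : NonSlope P θ) :
    P.image (rk P θ) = Finset.range P.card := by
  apply Finset.eq_of_subset_of_card_le
  · intro m hm
    obtain ⟨p, hp, rfl⟩ := Finset.mem_image.1 hm
    exact Finset.mem_range.2 (rk_lt_card hp)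
  · rw [Finset.card_range, Finset.card_image_of_injOn (rk_injOn hG hθ)]

lemma card_filter_rk {P : Finset Pt} (hG : Generic P) {θ : ℝ} (hθ : NonSlope P θ)
    (Q : ℕ → Prop) [DecidablePred Q] :
    (P.filter (fun p => Q (rk P θ p))).card = ((Finset.range P.card).filter Q).card := by
  rw [← image_rk hG hθ, Finset.filter_image, Finset.card_image_of_injOn]
  exact (rk_injOn hG hθ).mono (by
    intro p hp
    exact (Finset.mem_filter.1 (Finset.mem_coe.1 hp)).1)

lemma card_Bel {P : Finset Pt} (hG : Generic P) {θ : ℝ} (hθ : NonSlope P θ) (i : ℕ) :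
    (Bel P i θ).card = min i P.card := by
  unfold Bel
  rw [card_filter_rk hG hθ (fun m => m < i)]
  have : (Finset.range P.card).filter (fun m => m < i) = Finset.range (min i P.card) := by
    ext m
    simp only [Finset.mem_filter, Finset.mem_range, lt_min_iff]
    tauto
  rw [this, Finset.card_range]

lemma Bel_subset {P : Finset Pt} {i : ℕ} {θ : ℝ} : Bel P i θ ⊆ P := Finset.filter_subset _ _

lemma Bel_mono_level {P : Finset Pt} {i j : ℕ} (h : i ≤ j) (θ : ℝ) : Bel P i θ ⊆ Bel P j θ := by
  intro p hp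
  rw [mem_Bel] at hp ⊢
  exact ⟨hp.1, hp.2.trans_le h⟩

/-- Number of points with rank in `[i,j)` at a non-slope is at most `j - i`. -/
lemma card_Bel_sdiff_le {P : Finset Pt} (hG : Generic P) {θ : ℝ} (hθ : NonSlope P θ)
    (i j : ℕ) : (Bel P j θ \ Bel P i θ).card ≤ j - i := by
  have h : Bel P j θ \ Bel P i θ = P.filter (fun p => i ≤ rk P θ p ∧ rk P θ p < j) := by
    ext p
    simp only [Finset.mem_sdiff, mem_Bel, Finset.mem_filter, not_and, not_lt]
    constructor
    · rintro ⟨⟨hp, h1⟩, h2⟩; exact ⟨hp, h2 hp, h1⟩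
    · rintro ⟨hp, h1, h2⟩; exact ⟨⟨hp, h2⟩, fun _ => h1⟩
  rw [h, card_filter_rk hG hθ (fun m => i ≤ m ∧ m < j)]
  calc ((Finset.range P.card).filter (fun m => i ≤ m ∧ m < j)).card
      ≤ (Finset.Ico i j).card := by
        apply Finset.card_le_card
        intro m hm
        simp only [Finset.mem_filter, Finset.mem_range] at hm
        exact Finset.mem_Ico.2 hm.2
    _ = j - i := by simp

/-! ### Empty windows -/

lemma LpA_eq_zero {P : Finset Pt} {s t : ℝ} (h : pairsIn P s t = ∅) (p : Pt) :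
    LpA P s t p = 0 := by simp [LpA, h]

lemma RpA_eq_zero {P : Finset Pt} {s t : ℝ} (h : pairsIn P s t = ∅) (p : Pt) :
    RpA P s t p = 0 := by simp [RpA, h]

lemma rk_const {P : Finset Pt} (hG : Generic P) {s t : ℝ} (hs : NonSlope P s)
    (ht' : NonSlope P t) (hst : s < t) (h : pairsIn P s t = ∅) {p : Pt} (hp : p ∈ P) :
    rk P s p = rk P t p := by
  have := rank_change hG hp hs ht' hst
  rw [LpA_eq_zero h, RpA_eq_zero h] at this
  omega

lemma Bel_const {P : Finset Pt} (hG : Generic P) {s t : ℝ} (hs : NonSlope P s)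
    (ht' : NonSlope P t) (hst : s < t) (h : pairsIn P s t = ∅) (i : ℕ) :
    Bel P i s = Bel P i t := by
  ext p
  rw [mem_Bel, mem_Bel]
  constructor
  · rintro ⟨hp, h1⟩
    exact ⟨hp, by rw [← rk_const hG hs ht' hst h hp]; exact h1⟩
  · rintro ⟨hp, h1⟩
    exact ⟨hp, by rw [rk_const hG hs ht' hst h hp]; exact h1⟩

lemma kE_subset {P : Finset Pt} {i : ℕ} {s t : ℝ} : kE P i s t ⊆ pairsIn P s t :=
  Finset.filter_subset _ _

lemma pairsIn_mono {P : Finset Pt} {s t s' t' : ℝ} (hs : s' ≤ s) (ht' : t ≤ t') :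
    pairsIn P s t ⊆ pairsIn P s' t' := by
  intro e he
  rw [mem_pairsIn] at he ⊢
  exact ⟨he.1, hs.trans_lt he.2.1, he.2.2.trans_le ht'⟩

lemma kE_mono {P : Finset Pt} {i : ℕ} {s t s' t' : ℝ} (hs : s' ≤ s) (ht' : t ≤ t') :
    kE P i s t ⊆ kE P i s' t' := by
  intro e he
  rw [mem_kE] at he ⊢
  exact ⟨he.1, hs.trans_lt he.2.1, he.2.2.1.trans_le ht', he.2.2.2⟩

lemma nearE_mono {P : Finset Pt} {k b : ℕ} {s t s' t' : ℝ} (hs : s' ≤ s) (ht' : t ≤ t') :
    nearE P k b s t ⊆ nearE P k b s' t' := by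
  intro e he
  rw [mem_nearE] at he ⊢
  exact ⟨he.1, hs.trans_lt he.2.1, he.2.2.1.trans_le ht', he.2.2.2⟩

/-! ### One-slope windows -/

section Step

variable {P : Finset Pt} (hG : Generic P) {s t : ℝ} (hs : NonSlope P s) (ht' : NonSlope P t)
  (hst : s < t) {e : Edge} (h : pairsIn P s t = {e})

include h in
lemma step_mem : e ∈ pairs P ∧ s < esl e ∧ esl e < t := by
  have : e ∈ pairsIn P s t := by rw [h]; exact Finset.mem_singleton_self _
  exact mem_pairsIn.1 this

include h in
lemma step_unique {f : Edge} (hf : f ∈ pairs P) (h1 : s < esl f) (h2 : esl f < t) : f = e := by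
  have : f ∈ pairsIn P s t := mem_pairsIn.2 ⟨hf, h1, h2⟩
  rw [h] at this
  exact Finset.mem_singleton.1 this

include h in
lemma step_ne : e.1 ≠ e.2 := by
  have := (mem_pairs.1 (step_mem h).1).2.2
  intro h'
  rw [h'] at this
  exact lt_irrefl _ this

include h in
lemma step_LpA (p : Pt) : LpA P s t p = if p = e.2 then 1 else 0 := by
  unfold LpA
  rw [h, Finset.filter_singleton]
  by_cases hp : p = e.2
  · rw [if_pos hp.symm, if_pos hp]; rfl
  · rw [if_neg (fun h' => hp h'.symm), if_neg hp]; rfl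

include h in
lemma step_RpA (p : Pt) : RpA P s t p = if p = e.1 then 1 else 0 := by
  unfold RpA
  rw [h, Finset.filter_singleton]
  by_cases hp : p = e.1
  · rw [if_pos hp.symm, if_pos hp]; rfl
  · rw [if_neg (fun h' => hp h'.symm), if_neg hp]; rfl

include hG hs ht' hst h

lemma step_rk_other {p : Pt} (hp : p ∈ P) (h1 : p ≠ e.1) (h2 : p ≠ e.2) :
    rk P s p = rk P t p := by
  have := rank_change hG hp hs ht' hst
  rw [step_LpA h, step_RpA h, if_neg h2, if_neg h1] at this
  omega

lemma step_rk_left : rk P s e.1 + 1 = lv P e ∧ rk P t e.1 = lv P e := by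
  obtain ⟨he, h1, h2⟩ := step_mem h
  have hp : e.1 ∈ P := (mem_pairs.1 he).1
  have hchg := rank_change hG hp hs ht' hst
  rw [step_LpA h, step_RpA h, if_neg (step_ne h), if_pos rfl] at hchg
  have hlv : rk P s e.1 = rk P (esl e) e.1 := by
    rw [rk_formula hG hp, rk_formula hG hp]
    congr 2
    · ext f
      simp only [Finset.mem_filter]
      constructor
      · rintro ⟨hf, hf2, hf3⟩
        refine ⟨hf, hf2, ?_⟩
        by_contra hcon
        have hfe : f = e := step_unique h hf hf3 (lt_of_le_of_lt (not_lt.1 hcon) h2)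
        rw [hfe] at hf2
        exact step_ne h hf2.symm
      · rintro ⟨hf, hf2, hf3⟩
        exact ⟨hf, hf2, h1.trans hf3⟩
    · ext f
      simp only [Finset.mem_filter]
      constructor
      · rintro ⟨hf, hf2, hf3⟩
        exact ⟨hf, hf2, hf3.trans h1⟩
      · rintro ⟨hf, hf2, hf3⟩
        refine ⟨hf, hf2, ?_⟩
        rcases lt_trichotomy (esl f) s with h' | h' | h'
        · exact h'
        · exact absurd h' (hs f hf)
        · have hfe : f = e := step_unique h hf h' (hf3.trans h2)
          rw [hfe] at hf3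
          exact absurd hf3 (lt_irrefl _)
  unfold lv
  omega

lemma step_rk_right : rk P s e.2 = lv P e ∧ rk P t e.2 + 1 = lv P e := by
  obtain ⟨he, h1, h2⟩ := step_mem h
  have hp : e.2 ∈ P := (mem_pairs.1 he).2.1
  have hchg := rank_change hG hp hs ht' hst
  rw [step_LpA h, step_RpA h, if_neg (step_ne h).symm, if_pos rfl] at hchg
  have hlv : rk P t e.2 = rk P (esl e) e.2 := by
    rw [rk_formula hG hp, rk_formula hG hp]
    congr 2
    · ext f
      simp only [Finset.mem_filter]
      constructor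
      · rintro ⟨hf, hf2, hf3⟩
        exact ⟨hf, hf2, h2.trans hf3⟩
      · rintro ⟨hf, hf2, hf3⟩
        refine ⟨hf, hf2, ?_⟩
        rcases lt_trichotomy (esl f) t with h' | h' | h'
        · have hfe : f = e := step_unique h hf (h1.trans hf3) h'
          rw [hfe] at hf3
          exact absurd hf3 (lt_irrefl _)
        · exact absurd h' (ht' f hf)
        · exact h'
    · ext f
      simp only [Finset.mem_filter]
      constructor
      · rintro ⟨hf, hf2, hf3⟩
        refine ⟨hf, hf2, ?_⟩
        by_contra hcon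
        have hfe : f = e := step_unique h hf (lt_of_lt_of_le h1 (not_lt.1 hcon)) hf3
        rw [hfe] at hf2
        exact step_ne h hf2
      · rintro ⟨hf, hf2, hf3⟩
        exact ⟨hf, hf2, hf3.trans h2⟩
  rw [rk_esl_right he] at hlv
  unfold lv
  omega

lemma step_Bel_eq {i : ℕ} (hi : lv P e ≠ i) : Bel P i s = Bel P i t := by
  have hl := step_rk_left hG hs ht' hst h
  have hr := step_rk_right hG hs ht' hst h
  ext p
  rw [mem_Bel, mem_Bel]
  by_cases h1 : p = e.1
  · subst h1
    constructor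
    · rintro ⟨hp, h3⟩; exact ⟨hp, by omega⟩
    · rintro ⟨hp, h3⟩; exact ⟨hp, by omega⟩
  · by_cases h2 : p = e.2
    · subst h2
      constructor
      · rintro ⟨hp, h3⟩; exact ⟨hp, by omega⟩
      · rintro ⟨hp, h3⟩; exact ⟨hp, by omega⟩
    · constructor
      · rintro ⟨hp, h3⟩
        exact ⟨hp, by rw [← step_rk_other hG hs ht' hst h hp h1 h2]; exact h3⟩
      · rintro ⟨hp, h3⟩
        exact ⟨hp, by rw [step_rk_other hG hs ht' hst h hp h1 h2]; exact h3⟩

lemma step_Bel_swap {i : ℕ} (hi : lv P e = i) :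
    e.1 ∈ Bel P i s ∧ e.2 ∉ Bel P i s ∧ Bel P i t = insert e.2 ((Bel P i s).erase e.1) := by
  obtain ⟨he, -, -⟩ := step_mem h
  have hl := step_rk_left hG hs ht' hst h
  have hr := step_rk_right hG hs ht' hst h
  refine ⟨mem_Bel.2 ⟨(mem_pairs.1 he).1, by omega⟩, ?_, ?_⟩
  · rw [mem_Bel]; rintro ⟨_, h3⟩; omega
  · ext p
    rw [Finset.mem_insert, Finset.mem_erase, mem_Bel, mem_Bel]
    by_cases h1 : p = e.1
    · subst h1
      constructor
      · rintro ⟨_, h3⟩; omega
      · rintro (h3 | ⟨h3, _⟩)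
        · exact absurd h3 (step_ne h)
        · exact absurd rfl h3
    · by_cases h2 : p = e.2
      · subst h2
        constructor
        · intro _; exact Or.inl rfl
        · intro _; exact ⟨(mem_pairs.1 he).2.1, by omega⟩
      · constructor
        · rintro ⟨hp, h3⟩
          exact Or.inr ⟨h1, hp, by rw [step_rk_other hG hs ht' hst h hp h1 h2]; exact h3⟩
        · rintro (h3 | ⟨_, hp, h3⟩)
          · exact absurd h3 h2
          · exact ⟨hp, by rw [← step_rk_other hG hs ht' hst h hp h1 h2]; exact h3⟩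

end Step

/-! ### The sweep -/

/-- Below any `b` there is a left neighbourhood free of slopes. -/
lemma exists_free_left (P : Finset Pt) {a b : ℝ} (hab : a < b) :
    ∃ u, a < u ∧ u < b ∧ ∀ e ∈ pairs P, esl e < b → esl e < u := by
  have hne : (insert a (((pairs P).filter (fun e => esl e < b)).image esl)).Nonempty :=
    ⟨a, Finset.mem_insert_self _ _⟩
  set M := (insert a (((pairs P).filter (fun e => esl e < b)).image esl)).max' hne with hM
  have hMb : M < b := by
    rw [hM, Finset.max'_lt_iff]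
    intro x hx
    rcases Finset.mem_insert.1 hx with rfl | hx
    · exact hab
    · obtain ⟨e, he, rfl⟩ := Finset.mem_image.1 hx
      exact (Finset.mem_filter.1 he).2
  have haM : a ≤ M := Finset.le_max' _ _ (Finset.mem_insert_self _ _)
  refine ⟨(M + b) / 2, by linarith, by linarith, ?_⟩
  intro e he h
  have : esl e ≤ M := Finset.le_max' _ _ (Finset.mem_insert_of_mem
    (Finset.mem_image.2 ⟨e, Finset.mem_filter.2 ⟨he, h⟩, rfl⟩))
  linarith

/-- Above any `a` there is a right neighbourhood free of slopes. -/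
lemma exists_free_right (P : Finset Pt) {a b : ℝ} (hab : a < b) :
    ∃ u, a < u ∧ u < b ∧ ∀ e ∈ pairs P, a < esl e → u < esl e := by
  have hne : (insert b (((pairs P).filter (fun e => a < esl e)).image esl)).Nonempty :=
    ⟨b, Finset.mem_insert_self _ _⟩
  set M := (insert b (((pairs P).filter (fun e => a < esl e)).image esl)).min' hne with hM
  have hMb : a < M := by
    rw [hM, Finset.lt_min'_iff]
    intro x hx
    rcases Finset.mem_insert.1 hx with rfl | hx
    · exact hab
    · obtain ⟨e, he, rfl⟩ := Finset.mem_image.1 hx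
      exact (Finset.mem_filter.1 he).2
  have haM : M ≤ b := Finset.min'_le _ _ (Finset.mem_insert_self _ _)
  refine ⟨(a + M) / 2, by linarith, by linarith, ?_⟩
  intro e he h
  have : M ≤ esl e := Finset.min'_le _ _ (Finset.mem_insert_of_mem
    (Finset.mem_image.2 ⟨e, Finset.mem_filter.2 ⟨he, h⟩, rfl⟩))
  linarith

/-- A non-slope in every open interval. -/
lemma exists_nonSlope (P : Finset Pt) {a b : ℝ} (hab : a < b) :
    ∃ u, a < u ∧ u < b ∧ NonSlope P u := by
  obtain ⟨u, h1, h2, h3⟩ := exists_free_left P hab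
  refine ⟨u, h1, h2, fun e he hu => ?_⟩
  have := h3 e he (hu ▸ h2)
  rw [hu] at this
  exact lt_irrefl _ this

/-- **Sweep induction**: from an empty window, adding one slope at a time. -/
theorem sweep {P : Finset Pt} (hG : Generic P) {s : ℝ} {motive : ℝ → Prop}
    (base : ∀ t, s < t → NonSlope P t → pairsIn P s t = ∅ → motive t)
    (step : ∀ u t e, s < u → u < t → NonSlope P u → NonSlope P t → pairsIn P u t = {e} →
      motive u → motive t) :
    ∀ t, s < t → NonSlope P t → motive t := by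
  suffices H : ∀ n : ℕ, ∀ t, s < t → NonSlope P t → (pairsIn P s t).card ≤ n → motive t by
    intro t h1 h2
    exact H _ t h1 h2 le_rfl
  intro n
  induction n with
  | zero =>
    intro t h1 h2 h3
    exact base t h1 h2 (Finset.card_eq_zero.1 (Nat.le_zero.1 h3))
  | succ n ih =>
    intro t h1 h2 h3
    rcases (pairsIn P s t).eq_empty_or_nonempty with h0 | h0
    · exact base t h1 h2 h0
    obtain ⟨e, he, hmax⟩ := Finset.exists_max_image (pairsIn P s t) esl h0
    obtain ⟨hep, hes, het⟩ := mem_pairsIn.1 he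
    obtain ⟨u, hu1, hu2, hu3⟩ := exists_free_left P hes
    have huns : NonSlope P u := by
      intro f hf hfu
      have := hu3 f hf (hfu ▸ hu2)
      rw [hfu] at this
      exact lt_irrefl _ this
    have hone : pairsIn P u t = {e} := by
      ext f
      rw [Finset.mem_singleton, mem_pairsIn]
      constructor
      · rintro ⟨hf, hf1, hf2⟩
        have hle := hmax f (mem_pairsIn.2 ⟨hf, hu1.trans hf1, hf2⟩)
        rcases hle.lt_or_eq with hlt | heq
        · exact absurd (hu3 f hf hlt) (not_lt.2 hf1.le)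
        · exact hG.esl_inj hf hep heq
      · rintro rfl
        exact ⟨hep, hu2, het⟩
    refine step u t e hu1 (hu2.trans het) huns h2 hone (ih u hu1 huns ?_)
    have hss : pairsIn P s u ⊂ pairsIn P s t := by
      rw [Finset.ssubset_iff_of_subset (pairsIn_mono le_rfl (hu2.trans het).le)]
      exact ⟨e, he, fun h' => absurd (mem_pairsIn.1 h').2.2 (not_lt.2 hu2.le)⟩
    have := Finset.card_lt_card hss
    omega

end Crest.Agent.R51
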