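import Mathlib
import Crest.Agent.R51.Level

/-!
# Row 51, section B3: windows, window systems (definitions and elementary facts)

`bb N V = ⌊N / V ^ 3⌋` is the level width, `cen P k b s t` the set of points which are `b`-central at
some direction of the open window `(s,t)`, `wins C` the set of windows (pairs of consecutive cuts),
`winOf C θ` the window containing `θ`, `widx C θ` the number of cuts `≤ θ` (an integer label of the
window), `WSys` a window system (W1).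
-/

set_option autoImplicit false

noncomputable section

open Classical

namespace Crest.Agent.R51

/-- level width `b_V = ⌊N / V^3⌋`. -/
def bb (N V : ℕ) : ℕ := N / V ^ 3

/-- points which are `b`-central at some direction of the open window `(s,t)`. -/
def cen (P : Finset Pt) (k b : ℕ) (s t : ℝ) : Finset Pt :=
  P.filter (fun p => ∃ θ, s < θ ∧ θ < t ∧ Central P k b θ p)

/-- `J` is a window of the finite set of cuts `C`: a pair of consecutive cuts. -/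
def IsWin (C : Finset ℝ) (J : ℝ × ℝ) : Prop :=
  J.1 ∈ C ∧ J.2 ∈ C ∧ J.1 < J.2 ∧ ∀ c ∈ C, ¬ (J.1 < c ∧ c < J.2)

/-- the windows of the finite set of cuts `C`. -/
def wins (C : Finset ℝ) : Finset (ℝ × ℝ) := (C ×ˢ C).filter (IsWin C)

/-- number of cuts `≤ θ`: the integer label of the window containing `θ`. -/
def widx (C : Finset ℝ) (θ : ℝ) : ℕ := (C.filter (fun c => c ≤ θ)).card

/-- the window containing `θ` (junk value `(0,0)` if there is none). -/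
def winOf (C : Finset ℝ) (θ : ℝ) : ℝ × ℝ :=
  if h : ∃ J ∈ wins C, J.1 < θ ∧ θ < J.2 then h.choose else (0, 0)

/-- A window system (W1): nested finite sets of cuts `cuts 0 ⊆ ... ⊆ cuts L` avoiding all slopes;
all slopes and all cuts lie between the common first cut `lo` and the common last cut `hi`. -/
structure WSys (P : Finset Pt) (k : ℕ) (V : ℕ → ℕ) (L : ℕ) (Cw : ℝ) where
  cuts : ℕ → Finset ℝ
  lo : ℝ
  hi : ℝ
  sub : ∀ l l', l ≤ l' → l' ≤ L → cuts l ⊆ cuts l'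
  nons : ∀ l ≤ L, ∀ c ∈ cuts l, NonSlope P c
  lo_mem : lo ∈ cuts 0
  hi_mem : hi ∈ cuts 0
  lo_le : ∀ l ≤ L, ∀ c ∈ cuts l, lo ≤ c
  le_hi : ∀ l ≤ L, ∀ c ∈ cuts l, c ≤ hi
  lo_lt_slope : ∀ e ∈ pairs P, lo < esl e
  slope_lt_hi : ∀ e ∈ pairs P, esl e < hi
  few : ∀ l ≤ L, ∀ J ∈ wins (cuts l),
    (nearE P k (2 * bb P.card (V l)) J.1 J.2).card ≤ (bb P.card (V l)) ^ 2
  cen_le : ∀ l ≤ L, ∀ J ∈ wins (cuts l),
    (cen P k (bb P.card (V l)) J.1 J.2).card ≤ 7 * bb P.card (V l)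
  count_in : ∀ l l', l ≤ l' → l' ≤ L → ∀ J ∈ wins (cuts l),
    (((wins (cuts l')).filter (fun J' => J.1 ≤ J'.1 ∧ J'.2 ≤ J.2)).card : ℝ) ≤
      Cw * ((V l' : ℝ) / V l) ^ 4
  count_all : ∀ l ≤ L, ((cuts l).card : ℝ) ≤ Cw * (V l : ℝ) ^ 4

/-! ### elementary facts on windows -/

lemma mem_wins {C : Finset ℝ} {J : ℝ × ℝ} : J ∈ wins C ↔ IsWin C J := by
  unfold wins
  rw [Finset.mem_filter, Finset.mem_product]
  exact ⟨fun h => h.2, fun h => ⟨⟨h.1, h.2.1⟩, h⟩⟩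

lemma mem_cen {P : Finset Pt} {k b : ℕ} {s t : ℝ} {p : Pt} :
    p ∈ cen P k b s t ↔ p ∈ P ∧ ∃ θ, s < θ ∧ θ < t ∧ Central P k b θ p := by
  unfold cen
  rw [Finset.mem_filter]

lemma Central.mono {P : Finset Pt} {k b b' : ℕ} {θ : ℝ} {p : Pt} (h : Central P k b θ p)
    (hb : b ≤ b') : Central P k b' θ p := ⟨h.1.trans (by omega), h.2.trans (by omega)⟩

lemma Near.mono {P : Finset Pt} {k b b' : ℕ} {e : Edge} (h : Near P k b e)
    (hb : b ≤ b') : Near P k b' e := ⟨h.1.trans (by omega), h.2.trans (by omega)⟩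

lemma cen_mono {P : Finset Pt} {k b b' : ℕ} {s t s' t' : ℝ} (hb : b ≤ b') (hs : s' ≤ s)
    (ht' : t ≤ t') : cen P k b s t ⊆ cen P k b' s' t' := by
  intro p hp
  rw [mem_cen] at hp ⊢
  obtain ⟨h1, θ, h2, h3, h4⟩ := hp
  exact ⟨h1, θ, hs.trans_lt h2, h3.trans_le ht', h4.mono hb⟩

lemma nearE_mono_b {P : Finset Pt} {k b b' : ℕ} {s t : ℝ} (hb : b ≤ b') :
    nearE P k b s t ⊆ nearE P k b' s t := by
  intro e he
  rw [mem_nearE] at he ⊢
  exact ⟨he.1, he.2.1, he.2.2.1, he.2.2.2.mono hb⟩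

/-- at its slope both endpoints of a near-`b` pair are `(b+1)`-central. -/
lemma central_left {P : Finset Pt} {k b : ℕ} {e : Edge} (h : Near P k b e) :
    Central P k (b + 1) (esl e) e.1 := by
  obtain ⟨h1, h2⟩ := h
  unfold lv at h1 h2
  constructor <;> omega

lemma central_right {P : Finset Pt} {k b : ℕ} {e : Edge} (he : e ∈ pairs P) (h : Near P k b e) :
    Central P k (b + 1) (esl e) e.2 := by
  obtain ⟨h1, h2⟩ := central_left h
  unfold Central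
  rw [rk_esl_right he]
  exact ⟨h1, h2⟩

lemma ends_nearE_subset {P : Finset Pt} {k b : ℕ} {s t : ℝ} :
    ends (nearE P k b s t) ⊆ cen P k (b + 1) s t := by
  intro p hp
  obtain ⟨e, he, h⟩ := mem_ends.1 hp
  obtain ⟨he1, he2, he3, he4⟩ := mem_nearE.1 he
  rcases h with rfl | rfl
  · exact mem_cen.2 ⟨(mem_pairs.1 he1).1, esl e, he2, he3, central_left he4⟩
  · exact mem_cen.2 ⟨(mem_pairs.1 he1).2.1, esl e, he2, he3, central_right he1 he4⟩

lemma left_mem_cen {P : Finset Pt} {k b : ℕ} {s t : ℝ} {e : Edge} (he : e ∈ nearE P k b s t) :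
    e.1 ∈ cen P k (b + 1) s t := ends_nearE_subset (mem_ends.2 ⟨e, he, Or.inl rfl⟩)

lemma right_mem_cen {P : Finset Pt} {k b : ℕ} {s t : ℝ} {e : Edge} (he : e ∈ nearE P k b s t) :
    e.2 ∈ cen P k (b + 1) s t := ends_nearE_subset (mem_ends.2 ⟨e, he, Or.inr rfl⟩)

lemma win_unique {C : Finset ℝ} {J J' : ℝ × ℝ} (hJ : J ∈ wins C) (hJ' : J' ∈ wins C) {θ : ℝ}
    (h1 : J.1 < θ) (h2 : θ < J.2) (h1' : J'.1 < θ) (h2' : θ < J'.2) : J = J' := by
  rw [mem_wins] at hJ hJ'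
  obtain ⟨a1, a2, a3, a4⟩ := hJ
  obtain ⟨c1, c2, c3, c4⟩ := hJ'
  have e1 : J.1 = J'.1 := by
    rcases lt_trichotomy J.1 J'.1 with h | h | h
    · exact absurd ⟨h, h1'.trans h2⟩ (a4 _ c1)
    · exact h
    · exact absurd ⟨h, h1.trans h2'⟩ (c4 _ a1)
  have e2 : J.2 = J'.2 := by
    rcases lt_trichotomy J.2 J'.2 with h | h | h
    · exact absurd ⟨h1'.trans h2, h⟩ (c4 _ a2)
    · exact h
    · exact absurd ⟨h1.trans h2', h⟩ (a4 _ c2)
  exact Prod.ext e1 e2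

lemma exists_win {C : Finset ℝ} {lo hi θ : ℝ} (hlo : lo ∈ C) (hhi : hi ∈ C) (h1 : lo < θ)
    (h2 : θ < hi) (hθ : θ ∉ C) : ∃ J ∈ wins C, J.1 < θ ∧ θ < J.2 := by
  have n1 : (C.filter (fun c => c < θ)).Nonempty := ⟨lo, Finset.mem_filter.2 ⟨hlo, h1⟩⟩
  have n2 : (C.filter (fun c => θ < c)).Nonempty := ⟨hi, Finset.mem_filter.2 ⟨hhi, h2⟩⟩
  have m1 := Finset.mem_filter.1 (Finset.max'_mem _ n1)
  have m2 := Finset.mem_filter.1 (Finset.min'_mem _ n2)
  refine ⟨(Finset.max' _ n1, Finset.min' _ n2), mem_wins.2 ⟨m1.1, m2.1, m1.2.trans m2.2, ?_⟩,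
    m1.2, m2.2⟩
  rintro c hc ⟨c1, c2⟩
  rcases lt_trichotomy c θ with h | h | h
  · exact absurd (Finset.le_max' _ c (Finset.mem_filter.2 ⟨hc, h⟩)) (not_le.2 c1)
  · exact hθ (h ▸ hc)
  · exact absurd (Finset.min'_le _ c (Finset.mem_filter.2 ⟨hc, h⟩)) (not_le.2 c2)

lemma winOf_spec {C : Finset ℝ} {θ : ℝ} (h : ∃ J ∈ wins C, J.1 < θ ∧ θ < J.2) :
    winOf C θ ∈ wins C ∧ (winOf C θ).1 < θ ∧ θ < (winOf C θ).2 := by
  unfold winOf
  rw [dif_pos h]
  exact ⟨h.choose_spec.1, h.choose_spec.2.1, h.choose_spec.2.2⟩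

lemma winOf_eq {C : Finset ℝ} {J : ℝ × ℝ} {θ : ℝ} (hJ : J ∈ wins C) (h1 : J.1 < θ)
    (h2 : θ < J.2) : winOf C θ = J := by
  obtain ⟨a, b, c⟩ := winOf_spec (C := C) ⟨J, hJ, h1, h2⟩
  exact win_unique a hJ b c h1 h2

/-- windows of a finer system are contained in windows of the coarser one. -/
lemma exists_parent {C C' : Finset ℝ} (hC : C ⊆ C') {lo hi : ℝ} (hlo : lo ∈ C) (hhi : hi ∈ C)
    (hlo' : ∀ c ∈ C', lo ≤ c) (hhi' : ∀ c ∈ C', c ≤ hi) {J' : ℝ × ℝ} (hJ' : J' ∈ wins C') :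
    ∃ J ∈ wins C, J.1 ≤ J'.1 ∧ J'.2 ≤ J.2 := by
  rw [mem_wins] at hJ'
  obtain ⟨a1, a2, a3, a4⟩ := hJ'
  obtain ⟨θ, h1, h2⟩ := exists_between a3
  have hθ : θ ∉ C := fun h => a4 θ (hC h) ⟨h1, h2⟩
  obtain ⟨J, hJ, b1, b2⟩ := exists_win hlo hhi ((hlo' _ a1).trans_lt h1)
    (h2.trans_le (hhi' _ a2)) hθ
  refine ⟨J, hJ, ?_, ?_⟩
  · by_contra h
    rw [not_le] at h
    exact a4 _ (hC (mem_wins.1 hJ).1) ⟨h, b1.trans h2⟩
  · by_contra h
    rw [not_le] at h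
    exact a4 _ (hC (mem_wins.1 hJ).2.1) ⟨h1.trans b2, h⟩

lemma parent_unique {C : Finset ℝ} {J J₁ J' : ℝ × ℝ} (hJ : J ∈ wins C) (hJ₁ : J₁ ∈ wins C)
    (hJ' : J'.1 < J'.2) (h1 : J.1 ≤ J'.1) (h2 : J'.2 ≤ J.2) (h3 : J₁.1 ≤ J'.1)
    (h4 : J'.2 ≤ J₁.2) : J = J₁ := by
  obtain ⟨θ, h5, h6⟩ := exists_between hJ'
  exact win_unique hJ hJ₁ (h1.trans_lt h5) (h6.trans_le h2) (h3.trans_lt h5) (h6.trans_le h4)

/-! ### labels -/

lemma widx_mono {C : Finset ℝ} {θ θ' : ℝ} (h : θ ≤ θ') : widx C θ ≤ widx C θ' := by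
  apply Finset.card_le_card
  intro c hc
  rw [Finset.mem_filter] at hc ⊢
  exact ⟨hc.1, hc.2.trans h⟩

lemma widx_eq_iff {C : Finset ℝ} {θ θ' : ℝ} (h : θ ≤ θ') :
    widx C θ = widx C θ' ↔ ∀ c ∈ C, ¬ (θ < c ∧ c ≤ θ') := by
  unfold widx
  have hs : C.filter (fun c => c ≤ θ) ⊆ C.filter (fun c => c ≤ θ') := by
    intro c hc
    rw [Finset.mem_filter] at hc ⊢
    exact ⟨hc.1, hc.2.trans h⟩
  constructor
  · rintro he c hc ⟨h1, h2⟩
    have := Finset.eq_of_subset_of_card_le hs he.ge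
    have h3 : c ∈ C.filter (fun c => c ≤ θ) := by
      rw [this]; exact Finset.mem_filter.2 ⟨hc, h2⟩
    exact absurd (Finset.mem_filter.1 h3).2 (not_le.2 h1)
  · intro hn
    congr 1
    ext c
    rw [Finset.mem_filter, Finset.mem_filter]
    refine ⟨fun hc => ⟨hc.1, hc.2.trans h⟩, fun hc => ⟨hc.1, ?_⟩⟩
    by_contra h1
    exact hn c hc.1 ⟨not_le.1 h1, hc.2⟩

/-- labels are order-convex. -/
lemma widx_convex {C : Finset ℝ} {θ θ' θ'' : ℝ} (h : widx C θ = widx C θ'') (h1 : θ ≤ θ')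
    (h2 : θ' ≤ θ'') : widx C θ' = widx C θ :=
  _root_.le_antisymm (h ▸ widx_mono h2) (widx_mono h1)

/-- labels of a finer system determine the labels of the coarser one. -/
lemma widx_refine {C C' : Finset ℝ} (hC : C ⊆ C') {θ θ' : ℝ} (h : widx C' θ = widx C' θ') :
    widx C θ = widx C θ' := by
  rcases le_total θ θ' with hle | hle
  · rw [widx_eq_iff hle] at h ⊢
    exact fun c hc => h c (hC hc)
  · symm
    rw [eq_comm, widx_eq_iff hle] at h
    rw [widx_eq_iff hle]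
    exact fun c hc => h c (hC hc)

/-- for directions which are not cuts: same label iff same window. -/
lemma widx_eq_iff_winOf {C : Finset ℝ} {lo hi θ θ' : ℝ} (hlo : lo ∈ C) (hhi : hi ∈ C)
    (h1 : lo < θ) (h2 : θ < hi) (h1' : lo < θ') (h2' : θ' < hi) (hθ : θ ∉ C) (hθ' : θ' ∉ C) :
    widx C θ = widx C θ' ↔ winOf C θ = winOf C θ' := by
  obtain ⟨a1, a2, a3⟩ := winOf_spec (exists_win hlo hhi h1 h2 hθ)
  obtain ⟨c1, c2, c3⟩ := winOf_spec (exists_win hlo hhi h1' h2' hθ')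
  constructor
  · intro h
    apply win_unique a1 c1 a2 a3
    · rcases le_total θ θ' with hle | hle
      · rw [widx_eq_iff hle] at h
        by_contra hn
        rw [not_lt] at hn
        rcases hn.lt_or_eq with h3 | h3
        · exact h _ (mem_wins.1 c1).1 ⟨h3, c2.le⟩
        · exact hθ (h3 ▸ (mem_wins.1 c1).1)
      · exact c2.trans_le hle
    · rcases le_total θ θ' with hle | hle
      · exact hle.trans_lt c3
      · rw [eq_comm, widx_eq_iff hle] at h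
        by_contra hn
        rw [not_lt] at hn
        exact h _ (mem_wins.1 c1).2.1 ⟨c3, hn⟩
  · intro h
    rw [h] at a2 a3
    rcases le_total θ θ' with hle | hle
    · rw [widx_eq_iff hle]
      rintro c hc ⟨h3, h4⟩
      exact (mem_wins.1 c1).2.2.2 c hc ⟨a2.trans h3, h4.trans_lt c3⟩
    · symm
      rw [widx_eq_iff hle]
      rintro c hc ⟨h3, h4⟩
      exact (mem_wins.1 c1).2.2.2 c hc ⟨c2.trans h3, h4.trans_lt a3⟩

end Crest.Agent.R51
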