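import Crest.Agent.R51.Iface
import Crest.Agent.R51.WinDefs
import Crest.Agent.R51.WalkA

/-!
# Row 51: THE CENTRAL INTERFACE (integration: helper169)

* `HSystem` : all facts about the set `H` of good 2-walks (B5 + 7.4), used in B6, 7.5, B8
  (helper422's `HSys` in QuadDefs is the part used by B6);
* `FinalCfg` : the final configuration (output of B6);
* `HExists`, `FinalExists`, `NoFinal` : the three blocks with explicit order of constants;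
* `core_of : HExists → FinalExists → NoFinal → CoreProp`.

Conventions: `N = #P`, `D' = N / V'^2`, levels `V_l = μ^(10 l)` for `l ≤ n0`, `V_{n0+1} = β₁ μ^(10 n0)`,
finest windows = level `n0`, `j1 = 1`, `n1 = 2 n2`, `Λ = μ^11`, `B = μ^39`.
-/

set_option autoImplicit false

noncomputable section

open Classical

namespace Crest.Agent.R51

theorem nearR_bb {P : Finset Pt} {k V : ℕ} :
    nearR P k ((P.card : ℝ) / (V : ℝ) ^ 3) = nearAll P k (bb P.card V) := by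
  rw [nearR_eq (by positivity)]
  congr 1
  have h : ((P.card : ℝ) / (V : ℝ) ^ 3) = ((P.card : ℝ) / ((V ^ 3 : ℕ) : ℝ)) := by push_cast; rfl
  rw [h, Nat.floor_div_eq_div]
  rfl

theorem tight_iff {P : Finset Pt} {k V : ℕ} {c₀ : ℝ} :
    Tight P k c₀ V ↔ c₀ * (P.card : ℝ) ^ 2 / (V : ℝ) ^ 2 ≤ ((nearAll P k (bb P.card V)).card : ℝ) := by
  rw [Tight, nearR_bb]

/-- the levels of the main window system -/
def lev (mu n0 be : ℕ) (l : ℕ) : ℕ := if l ≤ n0 then mu ^ (10 * l) else be * mu ^ (10 * n0)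

namespace WSys

variable {P : Finset Pt} {k : ℕ} {V : ℕ → ℕ} {L : ℕ} {Cw : ℝ} (W : WSys P k V L Cw)

/-- `A_l(J)`: the points which are `b_l`-central somewhere in `J` -/
def A (_W : WSys P k V L Cw) (l : ℕ) (J : ℝ × ℝ) : Finset Pt := cen P k (bb P.card (V l)) J.1 J.2

/-- the window of level `l` containing the direction `θ` -/
def J (l : ℕ) (θ : ℝ) : ℝ × ℝ := winOf (W.cuts l) θ

/-- the windows of level `l` at which `v` is active -/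
def act (l : ℕ) (v : Pt) : Finset (ℝ × ℝ) := (wins (W.cuts l)).filter (fun J => v ∈ W.A l J)

/-- the windows of level `l` inside `I` at which `v` is active -/
def actIn (l : ℕ) (I : ℝ × ℝ) (v : Pt) : Finset (ℝ × ℝ) :=
  (W.act l v).filter (fun J => I.1 ≤ J.1 ∧ J.2 ≤ I.2)

/-- `(t6)_l`: `v` is active in more than `λ₃ V_l` windows of level `l` -/
def T6 (lam3 : ℝ) (l : ℕ) (v : Pt) : Prop := lam3 * (V l : ℝ) < ((W.act l v).card : ℝ)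

/-- `(t7)_l`: `v` is active in more than `λ₃ V / V_l` windows of level `n0` inside `J_l(θ)` -/
def T7 (lam3 : ℝ) (n0 l : ℕ) (v : Pt) (θ : ℝ) : Prop :=
  lam3 * ((V n0 : ℝ) / (V l : ℝ)) < ((W.actIn n0 (W.J l θ) v).card : ℝ)

/-- the points active in `I` and in `J` (only points without `(t6)_l`): `c_l(I,J)` is its
cardinality -/
def cc (lam3 : ℝ) (l : ℕ) (I J : ℝ × ℝ) : Finset Pt :=
  P.filter (fun v => v ∈ W.A l I ∧ v ∈ W.A l J ∧ ¬ W.T6 lam3 l v)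

/-- the relation `N_l(K)` -/
def NK (lam3 K : ℝ) (l : ℕ) (I J : ℝ × ℝ) : Prop :=
  I ≠ J ∧ ((W.cc lam3 l I J).card : ℝ) ≤ K * (P.card : ℝ) / (V l : ℝ) ^ 4

end WSys

/-! ### dominating windows (B7) -/

/-- `l`, `r` are the outer ends of the `B` next windows of `C` to the left and to the right of `J`,
and both blocks stay inside the parent `I` -/
def Blocks (C : Finset ℝ) (B : ℕ) (I J : ℝ × ℝ) (l r : ℝ) : Prop :=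
  l ∈ C ∧ r ∈ C ∧ l < J.1 ∧ J.2 < r ∧ I.1 ≤ l ∧ r ≤ I.2 ∧
    (C.filter (fun c => l ≤ c ∧ c < J.1)).card = B ∧ (C.filter (fun c => J.2 < c ∧ c ≤ r)).card = B

/-- `J` is `(wt,t)`-dominating in its parent `I`; `wt s t` = weight of the interval `(s,t)` -/
def Domin (C : Finset ℝ) (B : ℕ) (I : ℝ × ℝ) (wt : ℝ → ℝ → ℝ) (t : ℝ) (J : ℝ × ℝ) : Prop :=
  ∃ l r, Blocks C B I J l r ∧ wt l J.1 < t * wt J.1 J.2 ∧ wt J.2 r < t * wt J.1 J.2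

/-- flagged: not interior, or `(1,16Λ)`-dominating -/
def Flagged (C : Finset ℝ) (B : ℕ) (Lam : ℝ) (I J : ℝ × ℝ) : Prop :=
  (¬ ∃ l r, Blocks C B I J l r) ∨ Domin C B I (fun s t => t - s) (16 * Lam) J

/-- weight of `(s,t)` for `ω_{c,1}(θ) = 1/|θ-c|` -/
def om1 (c s t : ℝ) : ℝ := abs (Real.log (abs (t - c)) - Real.log (abs (s - c)))

/-- weight of `(s,t)` for `ω_{c,2}(θ) = 1/|θ-c|^2` -/
def om2 (c s t : ℝ) : ℝ := abs (1 / (s - c) - 1 / (t - c))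

/-- `ω_{c,τ}`, `τ = 2` iff `two = true` -/
def om (two : Bool) (c s t : ℝ) : ℝ := if two then om2 c s t else om1 c s t

/-- the direction `θ` lies in a window of `Prob_{c,τ}` (B7.3, with `j1 = 1`) -/
def Lac {P : Finset Pt} {k : ℕ} {V : ℕ → ℕ} {L : ℕ} {Cw : ℝ} (W : WSys P k V L Cw) (mu n2 : ℕ)
    (c : ℝ) (two : Bool) (θ : ℝ) : Prop :=
  ¬ ((W.J 1 θ).1 ≤ c ∧ c ≤ (W.J 1 θ).2) ∧
    (W.J n2 θ).1 - c ≤ 17 * (mu : ℝ) ^ 11 * ((W.J n2 θ).2 - (W.J n2 θ).1) ∧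
    c - (W.J n2 θ).2 ≤ 17 * (mu : ℝ) ^ 11 * ((W.J n2 θ).2 - (W.J n2 θ).1) ∧
    9 * n2 ≤ 10 * ((Finset.Ioc 1 n2).filter (fun j =>
      Domin (W.cuts j) (mu ^ 39) (W.J (j - 1) θ) (om two c) (4 * (mu : ℝ) ^ 11) (W.J j θ))).card

/-! ### constants -/

/-- the constants which depend on `c₀` only -/
structure Cst where
  Cw : ℝ
  lam1 : ℝ
  lam2 : ℝ
  lam3 : ℝ
  kap : ℝ
  LL : ℕ
  c2 : ℝ
  c8 : ℝ

/-- admissible constants -/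
structure Cst.Good (a : Cst) : Prop where
  Cw : 1 ≤ a.Cw
  lam1 : 1 ≤ a.lam1
  lam2 : 1 ≤ a.lam2
  lam3 : 1 ≤ a.lam3
  kap_pos : 0 < a.kap
  kap_le : a.kap ≤ 1 / 2
  LL : 1 ≤ a.LL
  c2 : 0 < a.c2
  c2_le : a.c2 ≤ 1
  c8 : 0 < a.c8
  c8_le : a.c8 ≤ 1

/-- **the set `H` of good 2-walks** -/
structure HSystem {P : Finset Pt} {k : ℕ} (mu n2 n0 be Vp : ℕ) (a : Cst) (K1 d1 d8 : ℝ)
    (W : WSys P k (lev mu n0 be) (n0 + 1) a.Cw) (H : Finset Walk) : Prop where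
  /-- `H ⊆ T₀`: monotone walks in the low-degree part of the near-`b'` graph -/
  sub : H ⊆ T0 P k (bb P.card Vp) (a.lam1 * ((P.card : ℝ) / (Vp : ℝ) ^ 2))
  big : a.c2 / 4 * (P.card : ℝ) * ((P.card : ℝ) / (Vp : ℝ) ^ 2) ^ 2 ≤ (H.card : ℝ)
  fib_le : ∀ v, ((fib H v).card : ℝ) ≤ a.lam1 ^ 2 * ((P.card : ℝ) / (Vp : ℝ) ^ 2) ^ 2
  t2 : ∀ z ∈ H, Central P k ⌊a.kap * (bb P.card (lev mu n0 be (n0 + 1)) : ℝ)⌋₊ (esl (lastE z)) z.1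
  t3 : ∀ l, l = 1 ∨ l = n2 ∨ l = n0 ∨ l = n0 + 1 → ∀ v, ∀ J ∈ wins (W.cuts l),
    (((fib H v).filter (fun e => W.J l (esl e) = J)).card : ℝ) ≤
      a.lam1 * a.lam2 * ((P.card : ℝ) / (Vp : ℝ) ^ 2) ^ 2 / (lev mu n0 be l : ℝ)
  t4 : ∀ z ∈ H, 12 * a.kap * (bb P.card (lev mu n0 be (n0 + 1)) : ℝ) <
    (Dl P k (W.J (n0 + 1) (esl (lastE z))).1 (W.J (n0 + 1) (esl (lastE z))).2 : ℝ)
  t5 : ∀ z ∈ H, ∀ θ, (W.J n0 (esl (lastE z))).1 < θ → θ < (W.J n0 (esl (lastE z))).2 →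
    Central P k (a.LL * bb P.card (lev mu n0 be n0)) θ z.1
  t6 : ∀ z ∈ H, ¬ W.T6 a.lam3 n0 z.1
  t7 : ∀ z ∈ H, ¬ W.T7 a.lam3 n0 1 z.1 (esl (lastE z))
  t67 : ∀ z ∈ H, 200 * ((Finset.Icc 1 (2 * n2)).filter (fun l =>
    W.T6 a.lam3 l z.1 ∨ W.T7 a.lam3 n0 l z.1 (esl (lastE z)))).card ≤ 2 * n2
  t8 : ∀ z ∈ H, 200 * ((Finset.Icc 1 (2 * n2)).filter (fun l =>
    Flagged (W.cuts l) (mu ^ 39) ((mu : ℝ) ^ 11) (W.J (l - 1) (esl (lastE z)))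
      (W.J l (esl (lastE z))))).card ≤ 2 * n2
  /-- robustness (5.4), also for subsets -/
  rob : ∀ v, ∀ S ⊆ fib H v, d1 * ((P.card : ℝ) / (Vp : ℝ) ^ 2) ^ 2 ≤ (S.card : ℝ) →
    a.c8 * (S.card : ℝ) ^ 3 / ((P.card : ℝ) / (Vp : ℝ) ^ 2) ^ 2 ≤
      (((S ×ˢ S).filter (fun x =>
        W.NK a.lam3 K1 n0 (W.J n0 (esl x.1)) (W.J n0 (esl x.2)))).card : ℝ)
  /-- no vertex is lacunary (7.4) -/
  lac : ∀ v, ∀ c : ℝ, ∀ two : Bool,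
    (((fib H v).filter (fun e => Lac W mu n2 c two (esl e))).card : ℝ) <
      d8 * ((P.card : ℝ) / (Vp : ℝ) ^ 2) ^ 2

/-- **the final configuration** (end of B6) -/
structure FinalCfg {P : Finset Pt} {k : ℕ} (mu n0 be Vp : ℕ) (a : Cst) (K1 e1 c5 : ℝ)
    (W : WSys P k (lev mu n0 be) (n0 + 1) a.Cw) (H : Finset Walk) (p : Fin 3 → Pt)
    (R : Finset Pt) : Prop where
  memP : ∀ i, p i ∈ P
  sub : R ⊆ P
  inj : Function.Injective p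
  big : c5 * ((P.card : ℝ) / (lev mu n0 be n0 : ℝ) ^ 2) ≤ (R.card : ℝ)
  left : ∀ v ∈ R, ∀ i, (p i).1 < v.1
  /-- `(p_i, J_i(v))` is alive -/
  alive : ∀ v ∈ R, ∀ i, e1 * ((P.card : ℝ) / (Vp : ℝ) ^ 2) ^ 2 / (lev mu n0 be n0 : ℝ) ≤
    (((fib H (p i)).filter (fun e => W.J n0 (esl e) = W.J n0 (sl (p i) v))).card : ℝ)
  actv : ∀ v ∈ R, ∀ i, v ∈ W.A n0 (W.J n0 (sl (p i) v))
  nk : ∀ v ∈ R, ∀ i j, i ≠ j → W.NK a.lam3 K1 n0 (W.J n0 (sl (p i) v)) (W.J n0 (sl (p j) v))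
  t6 : ∀ v ∈ R, ¬ W.T6 a.lam3 n0 v

/-- **block B5 + 7.4** -/
def HExists : Prop :=
  ∀ c0 : ℝ, 0 < c0 → ∃ a : Cst, a.Good ∧
  ∀ d1 : ℝ, 0 < d1 → ∀ be : ℕ, 2 ≤ be → ∃ K1 : ℝ, 0 < K1 ∧
  ∀ d8 : ℝ, 0 < d8 →
  ∃ mu0 : ℕ, ∀ mu : ℕ, mu0 ≤ mu →
  ∃ n20 : ℕ, ∀ n2 : ℕ, n20 ≤ n2 →
  ∃ n00 : ℕ, ∀ n0 : ℕ, n00 ≤ n0 →
  ∃ Vp0 : ℕ, ∀ Vp : ℕ, Vp0 ≤ Vp →
  ∃ N0 : ℕ, ∀ P : Finset Pt, Generic P → N0 ≤ P.card → ∀ k : ℕ, Tight P k c0 Vp →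
  ∃ (W : WSys P k (lev mu n0 be) (n0 + 1) a.Cw) (H : Finset Walk),
    HSystem mu n2 n0 be Vp a K1 d1 d8 W H

/-- **block B6** -/
def FinalExists : Prop :=
  ∀ a : Cst, a.Good → ∃ d1 : ℝ, 0 < d1 ∧ ∃ be : ℕ, 2 ≤ be ∧
  ∃ e1 : ℝ, 0 < e1 ∧ ∃ c5 : ℝ, 0 < c5 ∧
  ∀ K1 : ℝ, 0 < K1 → ∀ d8 : ℝ, 0 < d8 →
  ∃ mu0 : ℕ, ∀ mu : ℕ, mu0 ≤ mu →
  ∃ n20 : ℕ, ∀ n2 : ℕ, n20 ≤ n2 →
  ∃ n00 : ℕ, ∀ n0 : ℕ, n00 ≤ n0 →
  ∃ Vp0 : ℕ, ∀ Vp : ℕ, Vp0 ≤ Vp →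
  ∃ N0 : ℕ, ∀ P : Finset Pt, Generic P → N0 ≤ P.card → ∀ k : ℕ,
  ∀ (W : WSys P k (lev mu n0 be) (n0 + 1) a.Cw) (H : Finset Walk),
    HSystem mu n2 n0 be Vp a K1 d1 d8 W H →
    ∃ (p : Fin 3 → Pt) (R : Finset Pt), FinalCfg mu n0 be Vp a K1 e1 c5 W H p R

/-- **block 7.5 + B8 + B9** -/
def NoFinal : Prop :=
  ∀ a : Cst, a.Good → ∀ K1 : ℝ, 0 < K1 → ∀ be : ℕ, 2 ≤ be → ∀ e1 : ℝ, 0 < e1 →
  ∀ c5 : ℝ, 0 < c5 → ∃ d8 : ℝ, 0 < d8 ∧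
  ∃ mu0 : ℕ, ∀ mu : ℕ, mu0 ≤ mu →
  ∃ n20 : ℕ, ∀ n2 : ℕ, n20 ≤ n2 →
  ∃ n00 : ℕ, ∀ n0 : ℕ, n00 ≤ n0 →
  ∃ Vp0 : ℕ, ∀ Vp : ℕ, Vp0 ≤ Vp →
  ∃ N0 : ℕ, ∀ P : Finset Pt, Generic P → N0 ≤ P.card → ∀ k : ℕ,
  ∀ (W : WSys P k (lev mu n0 be) (n0 + 1) a.Cw) (H : Finset Walk) (d1 : ℝ)
    (p : Fin 3 → Pt) (R : Finset Pt),
    HSystem mu n2 n0 be Vp a K1 d1 d8 W H → FinalCfg mu n0 be Vp a K1 e1 c5 W H p R → False

/-- **assembly of the core theorem** -/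
theorem core_of (hH : HExists) (hF : FinalExists) (hN : NoFinal) : CoreProp := by
  intro c0 hc0 V1 hV1
  obtain ⟨a, ha, h1⟩ := hH c0 hc0
  obtain ⟨d1, hd1, be, hbe, e1, he1, c5, hc5, f2⟩ := hF a ha
  obtain ⟨K1, hK1, h2⟩ := h1 d1 hd1 be hbe
  obtain ⟨d8, hd8, mu3, g1⟩ := hN a ha K1 hK1 be hbe e1 he1 c5 hc5
  obtain ⟨mu1, h3⟩ := h2 d8 hd8
  obtain ⟨mu2, f3⟩ := f2 K1 hK1 d8 hd8
  obtain ⟨n1, h4⟩ := h3 (max mu1 (max mu2 mu3)) (by omega)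
  obtain ⟨n2, f4⟩ := f3 (max mu1 (max mu2 mu3)) (by omega)
  obtain ⟨n3, g2⟩ := g1 (max mu1 (max mu2 mu3)) (by omega)
  obtain ⟨m1, h5⟩ := h4 (max n1 (max n2 n3)) (by omega)
  obtain ⟨m2, f5⟩ := f4 (max n1 (max n2 n3)) (by omega)
  obtain ⟨m3, g3⟩ := g2 (max n1 (max n2 n3)) (by omega)
  obtain ⟨v1, h6⟩ := h5 (max m1 (max m2 m3)) (by omega)
  obtain ⟨v2, f6⟩ := f5 (max m1 (max m2 m3)) (by omega)
  obtain ⟨v3, g4⟩ := g3 (max m1 (max m2 m3)) (by omega)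
  obtain ⟨N1, h7⟩ := h6 (max V1 (max v1 (max v2 v3))) (by omega)
  obtain ⟨N2, f7⟩ := f6 (max V1 (max v1 (max v2 v3))) (by omega)
  obtain ⟨N3, g5⟩ := g4 (max V1 (max v1 (max v2 v3))) (by omega)
  refine ⟨max V1 (max v1 (max v2 v3)), max N1 (max N2 N3), fun P hP k hN0 => ?_⟩
  refine ⟨max V1 (max v1 (max v2 v3)), le_max_left _ _, le_rfl, fun hT => ?_⟩
  obtain ⟨W, H, hHS⟩ := h7 P hP (by omega) k hT
  obtain ⟨p, R, hFC⟩ := f7 P hP (by omega) k W H hHS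
  exact g5 P hP (by omega) k W H d1 p R hHS hFC

end Crest.Agent.R51
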