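import Crest.Agent.R51.WalkA
import Crest.Agent.R51.WinIrr
import Crest.Agent.R51.HSys

/-!
# Row 51, B5.2: the discards `(t3)_l`, `(t67)`, `(t8)` (helper834)

* `card_T0_last_le`, `card_T0_first_le`: the number of walks of `T₀` over a set `S` of edges is at most
  `Λ |S|`;
* `t3_of_W4`, `t3_card`, `t3_eps` : `(t3)` from W4 (i);
* `fib_card_le`, `fib_win_le`: the sizes of the fibres, also over one window;
* `card_avg_le` : averaging over levels (Markov), `card_avg_or_le` with two kinds of bad events;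
* `t8_level`, `t8_card` : walks whose last edge lies in a flagged window;
* `t67_H`, `t8_H`: the same in the form of `HSystem`.
-/

set_option autoImplicit false

noncomputable section

open Classical

namespace Crest.Agent.R51

/-! ### walks over a set of edges -/

/-- walks of `T₀` whose last edge lies in `S` -/
lemma card_T0_last_le {P : Finset Pt} {k b' : ℕ} {Λ : ℝ} (hΛ : 0 ≤ Λ) {H : Finset Walk}
    (hH : H ⊆ T0 P k b' Λ) {S : Finset Edge} (hS : ∀ z ∈ H, lastE z ∈ S) :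
    (H.card : ℝ) ≤ Λ * S.card := by
  have h : H.card ≤ ⌊Λ⌋₊ * S.card := by
    refine card_walks_le_of_last (G := nearAll P k b') ?_ hS ?_
    · intro z hz
      exact lowG_subset _ _ (mem_T0.1 (hH hz)).1
    · intro z hz
      exact Nat.le_floor (mem_T0' (hH hz)).2.2.2.2.2.2.2.2.1
  calc (H.card : ℝ) ≤ (⌊Λ⌋₊ : ℝ) * S.card := by exact_mod_cast h
    _ ≤ Λ * S.card := mul_le_mul_of_nonneg_right (Nat.floor_le hΛ) (Nat.cast_nonneg _)

/-- walks of `T₀` whose first edge lies in `S` -/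
lemma card_T0_first_le {P : Finset Pt} {k b' : ℕ} {Λ : ℝ} (hΛ : 0 ≤ Λ) {H : Finset Walk}
    (hH : H ⊆ T0 P k b' Λ) {S : Finset Edge} (hS : ∀ z ∈ H, firstE z ∈ S) :
    (H.card : ℝ) ≤ Λ * S.card := by
  have h4 : ∀ e ∈ S, ((H.filter (fun z => firstE z = e)).card : ℝ) ≤ Λ := by
    intro e _
    by_cases hne : (H.filter (fun z => firstE z = e)).Nonempty
    · obtain ⟨z0, hz0⟩ := hne
      rw [Finset.mem_filter] at hz0
      have hw : z0.2.1 = e.2 := by rw [← hz0.2]; rfl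
      have h5 : (H.filter (fun z => firstE z = e)).card ≤ (nbrs (nearAll P k b') e.2).card := by
        refine Finset.card_le_card_of_injOn (fun z => z.2.2) ?_ ?_
        · intro z hz
          have hz' := Finset.mem_filter.1 (Finset.mem_coe.1 hz)
          have : z.2.1 = e.2 := by rw [← hz'.2]; rfl
          refine Finset.mem_coe.2 (mem_nbrs.2 (Or.inl ?_))
          rw [← this]
          exact lowG_subset _ _ (mem_T0.1 (hH hz'.1)).2
        · intro z hz z' hz' he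
          have a := (Finset.mem_filter.1 (Finset.mem_coe.1 hz)).2
          have b := (Finset.mem_filter.1 (Finset.mem_coe.1 hz')).2
          have c : ((z.1, z.2.1) : Edge) = (z'.1, z'.2.1) := a.trans b.symm
          obtain ⟨c1, c2⟩ := Prod.ext_iff.1 c
          exact Prod.ext c1 (Prod.ext c2 he)
      have h6 : ((nbrs (nearAll P k b') e.2).card : ℝ) ≤ (dg (nearAll P k b') e.2 : ℝ) := by
        exact_mod_cast card_nbrs_le _ _
      have h7 : (dg (nearAll P k b') e.2 : ℝ) ≤ Λ := by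
        rw [← hw]
        exact (mem_T0' (hH hz0.1)).2.2.2.2.2.2.2.2.1
      exact le_trans (by exact_mod_cast h5) (h6.trans h7)
    · rw [Finset.not_nonempty_iff_eq_empty] at hne
      rw [hne]; simpa using hΛ
  have h8 : (H.card : ℝ) = ∑ e ∈ S, ((H.filter (fun z => firstE z = e)).card : ℝ) := by
    rw [Finset.card_eq_sum_card_fiberwise (f := firstE) (t := S)
      (fun z hz => hS z (Finset.mem_coe.1 hz))]
    push_cast
    rfl
  rw [h8]
  calc ∑ e ∈ S, ((H.filter (fun z => firstE z = e)).card : ℝ) ≤ ∑ _e ∈ S, Λ :=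
        Finset.sum_le_sum h4
    _ = Λ * S.card := by rw [Finset.sum_const, nsmul_eq_mul, mul_comm]

/-! ### (t3) -/

/-- the window degree of the middle point of a walk: number of near-`b'` partners `u` of `w` with
`sl w u` in the window of `C` containing the slope of `(w,x)` -/
def wdeg (P : Finset Pt) (k b' : ℕ) (C : Finset ℝ) (z : Walk) : ℕ :=
  (nbW P k b' (winOf C (esl (lastE z))).1 (winOf C (esl (lastE z))).2 z.2.1).card

/-- `(t3)` from the count of W4 (i): `X` bounds the number of ordered near-`b'` pairs `(w,x)` with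
window degree `> y` at `w`. -/
lemma t3_of_W4 {P : Finset Pt} {k b' : ℕ} {Λ X y : ℝ} (hΛ : 0 ≤ Λ) {C : Finset ℝ}
    (hW : (((P ×ˢ P).filter (fun a : Pt × Pt => a.2 ∈ nb P k b' a.1 ∧
      y < ((nbW P k b' (winOf C (sl a.1 a.2)).1 (winOf C (sl a.1 a.2)).2 a.1).card : ℝ))).card : ℝ)
      ≤ X) :
    (((T0 P k b' Λ).filter (fun z => y < (wdeg P k b' C z : ℝ))).card : ℝ) ≤ Λ * X := by
  refine (card_T0_last_le hΛ (Finset.filter_subset _ _)
    (S := (P ×ˢ P).filter (fun a : Pt × Pt => a.2 ∈ nb P k b' a.1 ∧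
      y < ((nbW P k b' (winOf C (sl a.1 a.2)).1 (winOf C (sl a.1 a.2)).2 a.1).card : ℝ)))
    ?_).trans (mul_le_mul_of_nonneg_left hW hΛ)
  intro z hz
  rw [Finset.mem_filter] at hz
  obtain ⟨hz1, hz2⟩ := hz
  obtain ⟨a1, a2, a3, a4, a5, a6, a7, _⟩ := mem_T0' hz1
  rw [Finset.mem_filter, Finset.mem_product]
  refine ⟨⟨a2, a3⟩, ?_, hz2⟩
  rw [mem_nb]
  unfold NP lastE
  rw [mk_of_lt a5, mem_nearAll, mem_pairs]
  exact ⟨⟨a2, a3, a5⟩, a7⟩

/-- `(t3)_l` with explicit constants -/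
theorem t3_card {C : ℝ} (hC : 0 ≤ C) (h2 : W2V C) (h3 : W3V C) {P : Finset Pt} (hG : Generic P)
    {k : ℕ} {V : ℕ → ℕ} {L : ℕ} {Cw : ℝ} (S : WSys P k V L Cw) {l : ℕ} (hl : l ≤ L)
    (hV : 1 ≤ V l) {V' : ℕ} (hV' : 2 * V l ≤ V') (hN : V' ^ 3 ≤ P.card) {lam1 lam2 : ℝ}
    (hlam1 : 0 ≤ lam1) (hlam2 : 0 < lam2) :
    (((T0 P k (bb P.card V') (lam1 * ((P.card : ℝ) / (V' : ℝ) ^ 2))).filter (fun z =>
      lam2 * ((P.card : ℝ) / (V' : ℝ) ^ 2) / (V l : ℝ)
        < (wdeg P k (bb P.card V') (S.cuts l) z : ℝ))).card : ℝ)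
      ≤ lam1 * ((P.card : ℝ) / (V' : ℝ) ^ 2) * (2 * Cw * C * (2 * C / lam2) ^ ((1 : ℝ) / 3)
          * ((P.card : ℝ) * ((P.card : ℝ) / (V' : ℝ) ^ 2))
        + 2 * Cw * C * ((P.card : ℝ) * (V l : ℝ))) := by
  refine t3_of_W4 (by positivity) ?_
  exact W4_i hC h2 h3 hG S hl hV hV' hN hlam2

/-- `(t3)_l`: at most `ε N D'^2` walks if `λ₂` is large in terms of `λ₁`, `ε` -/
theorem t3_eps {C Cw lam1 ε : ℝ} (hC : 0 ≤ C) (h2 : W2V C) (h3 : W3V C) (hCw : 0 ≤ Cw)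
    (hlam1 : 0 ≤ lam1) (hε : 0 < ε) :
    ∃ lam0 : ℝ, 1 ≤ lam0 ∧ ∀ lam2 : ℝ, lam0 ≤ lam2 → ∀ Vm V' : ℕ, 0 < V' →
    ∃ N0 : ℕ, ∀ P : Finset Pt, Generic P → N0 ≤ P.card → ∀ (k : ℕ) (V : ℕ → ℕ) (L : ℕ)
      (S : WSys P k V L Cw) (l : ℕ), l ≤ L → 1 ≤ V l → V l ≤ Vm → 2 * V l ≤ V' →
    (((T0 P k (bb P.card V') (lam1 * ((P.card : ℝ) / (V' : ℝ) ^ 2))).filter (fun z =>
      lam2 * ((P.card : ℝ) / (V' : ℝ) ^ 2) / (V l : ℝ)
        < (wdeg P k (bb P.card V') (S.cuts l) z : ℝ))).card : ℝ)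
      ≤ ε * ((P.card : ℝ) * ((P.card : ℝ) / (V' : ℝ) ^ 2) ^ 2) := by
  -- a positive number `δ` with `λ₁ * 2 Cw C δ ≤ ε / 2`
  set A : ℝ := lam1 * (2 * Cw * C) with hA
  have hA0 : 0 ≤ A := by positivity
  obtain ⟨δ, hδ, hδA⟩ : ∃ δ : ℝ, 0 < δ ∧ A * δ ≤ ε / 2 := by
    refine ⟨ε / (2 * (A + 1)), by positivity, ?_⟩
    rw [mul_div_assoc', div_le_div_iff₀ (by positivity) (by norm_num)]
    nlinarith
  refine ⟨max 1 (2 * C / δ ^ 3), le_max_left _ _, fun lam2 hlam Vm V' hV'0 => ?_⟩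
  have hlam2 : 0 < lam2 := lt_of_lt_of_le one_pos ((le_max_left _ _).trans hlam)
  obtain ⟨M, hM⟩ := exists_nat_ge ((2 * A * Vm + 2 * A) * (V' : ℝ) ^ 2 / ε)
  refine ⟨max (V' ^ 3) M, fun P hG hN k V L S l hl hV hVm hV' => ?_⟩
  have hN1 : V' ^ 3 ≤ P.card := (le_max_left _ _).trans hN
  have hN2 : (M : ℝ) ≤ (P.card : ℝ) := by exact_mod_cast (le_max_right _ _).trans hN
  have hV'pos : (0 : ℝ) < (V' : ℝ) := by exact_mod_cast hV'0
  refine (t3_card hC h2 h3 hG S hl hV hV' hN1 hlam1 hlam2).trans ?_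
  set N : ℝ := (P.card : ℝ) with hNd
  have hN0 : 0 ≤ N := Nat.cast_nonneg _
  set D : ℝ := N / (V' : ℝ) ^ 2 with hD
  have hD0 : 0 ≤ D := by positivity
  have e1 : (2 * C / lam2) ^ ((1 : ℝ) / 3) ≤ δ := by
    have h4 : 2 * C / lam2 ≤ δ ^ 3 := by
      rw [div_le_iff₀ hlam2]
      have h5 := (le_max_right _ _).trans hlam
      rw [div_le_iff₀ (by positivity)] at h5
      linarith
    calc (2 * C / lam2) ^ ((1 : ℝ) / 3) ≤ (δ ^ 3) ^ ((1 : ℝ) / 3) :=
          Real.rpow_le_rpow (by positivity) h4 (by norm_num)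
      _ = δ := by
          rw [← Real.rpow_natCast, ← Real.rpow_mul hδ.le]
          norm_num
  have e2 : A * (V l : ℝ) ≤ ε / 2 * D := by
    have h4 : (V l : ℝ) ≤ (Vm : ℝ) := by exact_mod_cast hVm
    have h5 := hM.trans hN2
    rw [div_le_iff₀ hε] at h5
    rw [hD, mul_div_assoc', le_div_iff₀ (by positivity)]
    have h6 : A * (V l : ℝ) * (V' : ℝ) ^ 2 ≤ A * (Vm : ℝ) * (V' : ℝ) ^ 2 := by gcongr
    have h7 : 0 ≤ A * (V' : ℝ) ^ 2 := by positivity
    nlinarith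
  have e3 : lam1 * D * (2 * Cw * C * (2 * C / lam2) ^ ((1 : ℝ) / 3) * (N * D)
      + 2 * Cw * C * (N * (V l : ℝ)))
      = A * (2 * C / lam2) ^ ((1 : ℝ) / 3) * (N * D ^ 2) + A * (V l : ℝ) * (N * D) := by
    rw [hA]; ring
  rw [e3]
  have e4 : A * (2 * C / lam2) ^ ((1 : ℝ) / 3) * (N * D ^ 2) ≤ ε / 2 * (N * D ^ 2) := by
    refine mul_le_mul_of_nonneg_right ?_ (by positivity)
    exact (mul_le_mul_of_nonneg_left e1 hA0).trans hδA
  have e5 : A * (V l : ℝ) * (N * D) ≤ ε / 2 * D * (N * D) :=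
    mul_le_mul_of_nonneg_right e2 (by positivity)
  have e6 : ε / 2 * D * (N * D) = ε / 2 * (N * D ^ 2) := by ring
  linarith

/-! ### sizes of the fibres -/

/-- a set of edges `(w,x)` of the fibre of `v` is at most `Λ y` if every `w` occurs at most
`y` times -/
lemma fib_sub_card_le {P : Finset Pt} {k b' : ℕ} {Λ y : ℝ} {H : Finset Walk} (hΛ : 0 ≤ Λ)
    (hH : H ⊆ T0 P k b' Λ) {v : Pt} {S : Finset Edge} (hS : S ⊆ fib H v) (hy : 0 ≤ y)
    (hSy : ∀ e ∈ S, ((S.filter (fun f => f.1 = e.1)).card : ℝ) ≤ y) :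
    (S.card : ℝ) ≤ Λ * y := by
  rcases S.eq_empty_or_nonempty with h0 | ⟨e0, he0⟩
  · rw [h0]; simpa using mul_nonneg hΛ hy
  have h1 : S.card = ∑ w ∈ S.image Prod.fst, (S.filter (fun f => f.1 = w)).card :=
    Finset.card_eq_sum_card_fiberwise (fun e he => Finset.mem_image_of_mem _ he)
  have h2 : ((S.image Prod.fst).card : ℝ) ≤ Λ := by
    have h3 : (S.image Prod.fst) ⊆ nbrs (nearAll P k b') v := by
      intro w hw
      obtain ⟨e, he, rfl⟩ := Finset.mem_image.1 hw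
      have h4 := mem_fib.1 (hS he)
      exact mem_nbrs.2 (Or.inl (lowG_subset _ _ (mem_T0.1 (hH h4)).1))
    have h4 : (dg (nearAll P k b') v : ℝ) ≤ Λ :=
      (mem_T0' (hH (mem_fib.1 (hS he0)))).2.2.2.2.2.2.2.1
    have h5 := (Finset.card_le_card h3).trans (card_nbrs_le _ _)
    exact le_trans (by exact_mod_cast h5) h4
  have h3 : (S.card : ℝ) ≤ ∑ _w ∈ S.image Prod.fst, y := by
    rw [h1]
    push_cast
    refine Finset.sum_le_sum (fun w hw => ?_)
    obtain ⟨e, he, rfl⟩ := Finset.mem_image.1 hw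
    exact hSy e he
  rw [Finset.sum_const, nsmul_eq_mul] at h3
  exact h3.trans (mul_le_mul_of_nonneg_right h2 hy)

/-- `|H_v| ≤ Λ²` -/
theorem fib_card_le {P : Finset Pt} {k b' : ℕ} {Λ : ℝ} {H : Finset Walk} (hΛ : 0 ≤ Λ)
    (hH : H ⊆ T0 P k b' Λ) (v : Pt) : ((fib H v).card : ℝ) ≤ Λ ^ 2 := by
  rw [sq]
  refine fib_sub_card_le hΛ hH subset_rfl hΛ (fun e he => ?_)
  have h1 : ((fib H v).filter (fun f => f.1 = e.1)).card ≤ (nbrs (nearAll P k b') e.1).card := by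
    refine Finset.card_le_card_of_injOn Prod.snd ?_ ?_
    · intro f hf
      obtain ⟨hf1, hf2⟩ := Finset.mem_filter.1 (Finset.mem_coe.1 hf)
      refine Finset.mem_coe.2 (mem_nbrs.2 (Or.inl ?_))
      rw [← hf2]
      exact lowG_subset _ _ (mem_T0.1 (hH (mem_fib.1 hf1))).2
    · intro f hf g hg hfg
      have a := (Finset.mem_filter.1 (Finset.mem_coe.1 hf)).2
      have b := (Finset.mem_filter.1 (Finset.mem_coe.1 hg)).2
      exact Prod.ext (a.trans b.symm) hfg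
  have h2 : (dg (nearAll P k b') e.1 : ℝ) ≤ Λ :=
    (mem_T0' (hH (mem_fib.1 he))).2.2.2.2.2.2.2.2.1
  have h3 := h1.trans (card_nbrs_le _ _)
  exact le_trans (by exact_mod_cast h3) h2

/-- the part of the fibre in one window `J`, from `not (t3)_l` -/
theorem fib_win_le {P : Finset Pt} {k : ℕ} {V : ℕ → ℕ} {L : ℕ} {Cw : ℝ} (S : WSys P k V L Cw)
    {l b' : ℕ} (hl : l ≤ L) {Λ y : ℝ} {H : Finset Walk} (hΛ : 0 ≤ Λ) (hy : 0 ≤ y)
    (hH : H ⊆ T0 P k b' Λ) (h3 : ∀ z ∈ H, (wdeg P k b' (S.cuts l) z : ℝ) ≤ y) (v : Pt)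
    (J : ℝ × ℝ) :
    (((fib H v).filter (fun e => winOf (S.cuts l) (esl e) = J)).card : ℝ) ≤ Λ * y := by
  refine fib_sub_card_le hΛ hH (Finset.filter_subset _ _) hy (fun e he => ?_)
  obtain ⟨he1, he2⟩ := Finset.mem_filter.1 he
  have h1 : (((fib H v).filter (fun e => winOf (S.cuts l) (esl e) = J)).filter
      (fun f => f.1 = e.1)).card ≤ wdeg P k b' (S.cuts l) (v, e.1, e.2) := by
    unfold wdeg
    refine Finset.card_le_card_of_injOn Prod.snd ?_ ?_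
    · intro f hf
      obtain ⟨hf1, hf2⟩ := Finset.mem_filter.1 (Finset.mem_coe.1 hf)
      obtain ⟨hf3, hf4⟩ := Finset.mem_filter.1 hf1
      have h4 : f ∈ nearAll P k b' := lowG_subset _ _ (mem_T0.1 (hH (mem_fib.1 hf3))).2
      have h5 := S.winOf_pair hl (nearAll_subset h4)
      rw [hf4] at h5
      have h6 : winOf (S.cuts l) (esl (lastE (v, e.1, e.2))) = J := he2
      rw [Finset.mem_coe, h6, mem_nbW]
      have h7 := mem_pairs.1 (nearAll_subset h4)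
      have h8 : mk e.1 f.2 = f := by
        rw [← hf2, mk_of_lt h7.2.2]
      show mk e.1 f.2 ∈ _
      rw [h8]
      rw [mem_nearAll] at h4
      exact mem_nearE.2 ⟨h4.1, h5.2.1, h5.2.2, h4.2⟩
    · intro f hf g hg hfg
      have a := (Finset.mem_filter.1 (Finset.mem_coe.1 hf)).2
      have b := (Finset.mem_filter.1 (Finset.mem_coe.1 hg)).2
      exact Prod.ext (a.trans b.symm) hfg
  have h2 := h3 _ (mem_fib.1 he1)
  exact le_trans (by exact_mod_cast h1) h2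

/-! ### averaging over levels -/

/-- Markov over levels: if at each level of `I` at most `x` elements of `T` are bad, then at most
`x / η` elements of `T` are bad at more than `η |I|` levels. -/
lemma card_avg_le {α : Type*} (T : Finset α) (I : Finset ℕ) (B : ℕ → α → Prop)
    [∀ l z, Decidable (B l z)] {x η : ℝ} (hη : 0 < η) (hx : 0 ≤ x) (h : ∀ l ∈ I, ((T.filter (fun z => B l z)).card : ℝ) ≤ x) :
    ((T.filter (fun z => η * I.card < ((I.filter (fun l => B l z)).card : ℝ))).card : ℝ)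
      ≤ x / η := by
  set Z := T.filter (fun z => η * I.card < ((I.filter (fun l => B l z)).card : ℝ)) with hZ
  rcases I.eq_empty_or_nonempty with hI | hI
  · have : Z = ∅ := by
      rw [hZ, Finset.filter_eq_empty_iff]
      intro z _
      simp [hI]
    rw [this]
    simpa using div_nonneg hx hη.le
  have hIc : (0 : ℝ) < I.card := by exact_mod_cast Finset.card_pos.2 hI
  have h1 : (Z.card : ℝ) * (η * I.card) ≤ ∑ z ∈ Z, ((I.filter (fun l => B l z)).card : ℝ) := by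
    rw [← nsmul_eq_mul, ← Finset.sum_const]
    exact Finset.sum_le_sum (fun z hz => (Finset.mem_filter.1 hz).2.le)
  have h2 : ∑ z ∈ Z, ((I.filter (fun l => B l z)).card : ℝ)
      ≤ ∑ z ∈ T, ((I.filter (fun l => B l z)).card : ℝ) :=
    Finset.sum_le_sum_of_subset_of_nonneg (Finset.filter_subset _ _)
      (fun _ _ _ => Nat.cast_nonneg _)
  have h3 : ∑ z ∈ T, ((I.filter (fun l => B l z)).card : ℝ)
      = ∑ l ∈ I, ((T.filter (fun z => B l z)).card : ℝ) := by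
    simp only [Finset.card_filter]
    push_cast
    exact Finset.sum_comm
  have h4 : ∑ l ∈ I, ((T.filter (fun z => B l z)).card : ℝ) ≤ I.card * x := by
    rw [← nsmul_eq_mul, ← Finset.sum_const]
    exact Finset.sum_le_sum h
  rw [le_div_iff₀ hη]
  have h6 : ((Z.card : ℝ) * η) * I.card ≤ x * I.card := by
    have h5 := h1.trans h2
    rw [h3] at h5
    have h7 := h5.trans h4
    nlinarith [h7]
  exact le_of_mul_le_mul_right h6 hIc

/-- averaging with two kinds of bad events, the second one counted only outside the first. -/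
lemma card_avg_or_le {α : Type*} (T : Finset α) (I : Finset ℕ) (A B : ℕ → α → Prop)
    [∀ l z, Decidable (A l z)] [∀ l z, Decidable (B l z)] {x y η : ℝ} (hη : 0 < η) (hx : 0 ≤ x) (hy : 0 ≤ y)
    (hA : ∀ l ∈ I, ((T.filter (fun z => A l z)).card : ℝ) ≤ x)
    (hB : ∀ l ∈ I, ((T.filter (fun z => ¬ A l z ∧ B l z)).card : ℝ) ≤ y) :
    ((T.filter (fun z => η * I.card < ((I.filter (fun l => A l z ∨ B l z)).card : ℝ))).card : ℝ)
      ≤ (x + y) / η := by
  refine card_avg_le T I (fun l z => A l z ∨ B l z) hη (add_nonneg hx hy) ?_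
  intro l hl
  have h1 : (T.filter (fun z => A l z ∨ B l z)).card
      ≤ (T.filter (fun z => A l z)).card + (T.filter (fun z => ¬ A l z ∧ B l z)).card := by
    refine (Finset.card_le_card ?_).trans (Finset.card_union_le _ _)
    intro z hz
    rw [Finset.mem_filter] at hz
    rw [Finset.mem_union, Finset.mem_filter, Finset.mem_filter]
    by_cases h : A l z
    · exact Or.inl ⟨hz.1, h⟩
    · exact Or.inr ⟨hz.1, h, hz.2.resolve_left h⟩
  calc ((T.filter (fun z => A l z ∨ B l z)).card : ℝ)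
      ≤ ((T.filter (fun z => A l z)).card : ℝ)
        + ((T.filter (fun z => ¬ A l z ∧ B l z)).card : ℝ) := by exact_mod_cast h1
    _ ≤ x + y := add_le_add (hA l hl) (hB l hl)

/-! ### (t8) -/

/-- near-`b'` pairs with slope in one of the windows of `F` -/
lemma card_near_in_le {P : Finset Pt} {k b' : ℕ} (F : Finset (ℝ × ℝ)) {y : ℝ}
    (hF : ∀ J ∈ F, ((nearE P k b' J.1 J.2).card : ℝ) ≤ y) :
    (((nearAll P k b').filter (fun e => ∃ J ∈ F, J.1 < esl e ∧ esl e < J.2)).card : ℝ)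
      ≤ F.card * y := by
  have h1 : (nearAll P k b').filter (fun e => ∃ J ∈ F, J.1 < esl e ∧ esl e < J.2)
      ⊆ F.biUnion (fun J => nearE P k b' J.1 J.2) := by
    intro e he
    rw [Finset.mem_filter, mem_nearAll] at he
    obtain ⟨⟨h1, h2⟩, J, hJ, h3, h4⟩ := he
    exact Finset.mem_biUnion.2 ⟨J, hJ, mem_nearE.2 ⟨h1, h3, h4, h2⟩⟩
  have h2 := (Finset.card_le_card h1).trans Finset.card_biUnion_le
  calc (((nearAll P k b').filter (fun e => ∃ J ∈ F, J.1 < esl e ∧ esl e < J.2)).card : ℝ)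
      ≤ ∑ J ∈ F, ((nearE P k b' J.1 J.2).card : ℝ) := by exact_mod_cast h2
    _ ≤ ∑ _J ∈ F, y := Finset.sum_le_sum hF
    _ = F.card * y := by rw [Finset.sum_const, nsmul_eq_mul]

/-- walks whose last edge lies in a window of `F` -/
lemma t8_level {P : Finset Pt} {k : ℕ} {V : ℕ → ℕ} {L : ℕ} {Cw : ℝ} (S : WSys P k V L Cw)
    {l b' : ℕ} (hl : l ≤ L) {Λ : ℝ} (hΛ : 0 ≤ Λ) (F : Finset (ℝ × ℝ)) {y : ℝ}
    (hF : ∀ J ∈ F, ((nearE P k b' J.1 J.2).card : ℝ) ≤ y) :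
    (((T0 P k b' Λ).filter (fun z => winOf (S.cuts l) (esl (lastE z)) ∈ F)).card : ℝ)
      ≤ Λ * (F.card * y) := by
  refine (card_T0_last_le hΛ (Finset.filter_subset _ _)
    (S := (nearAll P k b').filter (fun e => ∃ J ∈ F, J.1 < esl e ∧ esl e < J.2))
    ?_).trans (mul_le_mul_of_nonneg_left (card_near_in_le F hF) hΛ)
  intro z hz
  rw [Finset.mem_filter] at hz
  have h1 : lastE z ∈ nearAll P k b' := lowG_subset _ _ (mem_T0.1 hz.1).2
  have h2 := S.winOf_pair hl (nearAll_subset h1)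
  exact Finset.mem_filter.2 ⟨h1, _, hz.2, h2.2.1, h2.2.2⟩

/-- (t8): walks whose last edge lies in a flagged window at more than `η |I|` levels `l ∈ I`;
`F l` = flagged windows of level `l`, `cF` = the constant of their number, `C2` the constant
of W2. -/
theorem t8_card {P : Finset Pt} {k : ℕ} {V : ℕ → ℕ} {L : ℕ} {Cw : ℝ} (S : WSys P k V L Cw)
    {V' b' : ℕ} {I : Finset ℕ} (hI : ∀ l ∈ I, l ≤ L) (hV : ∀ l ∈ I, 0 < V l)
    {lam1 cF C2 η : ℝ} (h1 : 0 ≤ lam1) (hcF : 0 ≤ cF) (hC2 : 0 ≤ C2) (hη : 0 < η)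
    (F : ℕ → Finset (ℝ × ℝ)) (hF : ∀ l ∈ I, F l ⊆ wins (S.cuts l))
    (hFc : ∀ l ∈ I, ((F l).card : ℝ) ≤ cF * (V l : ℝ) ^ 4)
    (hW2 : ∀ l ∈ I, ∀ J ∈ wins (S.cuts l), ((nearE P k b' J.1 J.2).card : ℝ)
      ≤ C2 * (P.card : ℝ) ^ 2 / ((V l : ℝ) ^ 4 * (V' : ℝ) ^ 2)) :
    (((T0 P k b' (lam1 * ((P.card : ℝ) / (V' : ℝ) ^ 2))).filter (fun z => η * I.card <
      ((I.filter (fun l => winOf (S.cuts l) (esl (lastE z)) ∈ F l)).card : ℝ))).card : ℝ)
      ≤ lam1 * cF * C2 / η * ((P.card : ℝ) * ((P.card : ℝ) / (V' : ℝ) ^ 2) ^ 2) := by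
  set N : ℝ := (P.card : ℝ) with hN
  have hN0 : 0 ≤ N := Nat.cast_nonneg _
  have hD : 0 ≤ N / (V' : ℝ) ^ 2 := by positivity
  have key : ∀ l ∈ I, (((T0 P k b' (lam1 * (N / (V' : ℝ) ^ 2))).filter
      (fun z => winOf (S.cuts l) (esl (lastE z)) ∈ F l)).card : ℝ)
      ≤ lam1 * cF * C2 * (N * (N / (V' : ℝ) ^ 2) ^ 2) := by
    intro l hl
    have hVl : (0 : ℝ) < V l := by exact_mod_cast hV l hl
    have hy : 0 ≤ C2 * N ^ 2 / ((V l : ℝ) ^ 4 * (V' : ℝ) ^ 2) := by positivity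
    refine (t8_level S (hI l hl) (Λ := lam1 * (N / (V' : ℝ) ^ 2)) (by positivity) (F l)
      (fun J hJ => hW2 l hl J (hF l hl hJ))).trans ?_
    have h3 : ((F l).card : ℝ) * (C2 * N ^ 2 / ((V l : ℝ) ^ 4 * (V' : ℝ) ^ 2))
        ≤ cF * C2 * (N * (N / (V' : ℝ) ^ 2)) := by
      calc ((F l).card : ℝ) * (C2 * N ^ 2 / ((V l : ℝ) ^ 4 * (V' : ℝ) ^ 2))
          ≤ (cF * (V l : ℝ) ^ 4) * (C2 * N ^ 2 / ((V l : ℝ) ^ 4 * (V' : ℝ) ^ 2)) :=
            mul_le_mul_of_nonneg_right (hFc l hl) hy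
        _ = cF * C2 * (N * (N / (V' : ℝ) ^ 2)) := by
            by_cases hV' : (V' : ℝ) = 0
            · simp [hV']
            · field_simp
    calc lam1 * (N / (V' : ℝ) ^ 2)
          * (((F l).card : ℝ) * (C2 * N ^ 2 / ((V l : ℝ) ^ 4 * (V' : ℝ) ^ 2)))
        ≤ lam1 * (N / (V' : ℝ) ^ 2) * (cF * C2 * (N * (N / (V' : ℝ) ^ 2))) :=
          mul_le_mul_of_nonneg_left h3 (by positivity)
      _ = lam1 * cF * C2 * (N * (N / (V' : ℝ) ^ 2) ^ 2) := by ring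
  have h4 := card_avg_le (T0 P k b' (lam1 * (N / (V' : ℝ) ^ 2))) I
    (fun l z => winOf (S.cuts l) (esl (lastE z)) ∈ F l) hη (by positivity) key
  refine h4.trans (le_of_eq ?_)
  ring

/-! ### the forms used in `HSystem` -/

/-- a family of levels of size `m`, with `200 * (number of bad levels) ≤ m` failing -/
lemma card_200_le {α : Type*} (T : Finset α) (I : Finset ℕ) (B : ℕ → α → Prop)
    [∀ l z, Decidable (B l z)] {x : ℝ} (hx : 0 ≤ x)
    (h : ∀ l ∈ I, ((T.filter (fun z => B l z)).card : ℝ) ≤ x) :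
    ((T.filter (fun z => ¬ (200 * (I.filter (fun l => B l z)).card ≤ I.card))).card : ℝ)
      ≤ 200 * x := by
  have h1 := card_avg_le T I B (η := 1 / 200) (by norm_num) hx h
  have h2 : x / (1 / 200) = 200 * x := by ring
  rw [h2] at h1
  refine le_trans ?_ h1
  have h3 : (T.filter (fun z => ¬ (200 * (I.filter (fun l => B l z)).card ≤ I.card))).card
      ≤ (T.filter (fun z => 1 / 200 * (I.card : ℝ)
          < ((I.filter (fun l => B l z)).card : ℝ))).card := by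
    refine Finset.card_le_card ?_
    intro z hz
    rw [Finset.mem_filter] at hz ⊢
    refine ⟨hz.1, ?_⟩
    have h4 : ((I.card : ℕ) : ℝ) < ((200 * (I.filter (fun l => B l z)).card : ℕ) : ℝ) := by
      exact_mod_cast not_le.1 hz.2
    push_cast at h4
    linarith
  exact_mod_cast h3

/-- `(t67)`, in the form of `HSystem.t67`: `y l` is the threshold of `(t3)_l`; per level at most
`x₁` walks with `(t3)_l` and at most `x₂` walks with `(t6)_l` or `(t7)_l` but not `(t3)_l`. -/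
theorem t67_H {P : Finset Pt} {k : ℕ} {V : ℕ → ℕ} {L : ℕ} {Cw : ℝ} (W : WSys P k V L Cw)
    {n0 n2 b' : ℕ} {lam3 x1 x2 : ℝ} (T : Finset Walk) (y : ℕ → ℝ) (hx1 : 0 ≤ x1) (hx2 : 0 ≤ x2)
    (h3 : ∀ l ∈ Finset.Icc 1 (2 * n2),
      ((T.filter (fun z => y l < (wdeg P k b' (W.cuts l) z : ℝ))).card : ℝ) ≤ x1)
    (h67 : ∀ l ∈ Finset.Icc 1 (2 * n2),
      ((T.filter (fun z => ¬ (y l < (wdeg P k b' (W.cuts l) z : ℝ)) ∧
        (W.T6 lam3 l z.1 ∨ W.T7 lam3 n0 l z.1 (esl (lastE z))))).card : ℝ) ≤ x2) :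
    ((T.filter (fun z => ¬ (200 * ((Finset.Icc 1 (2 * n2)).filter (fun l =>
      W.T6 lam3 l z.1 ∨ W.T7 lam3 n0 l z.1 (esl (lastE z)))).card ≤ 2 * n2))).card : ℝ)
      ≤ 200 * (x1 + x2) := by
  have key : ∀ l ∈ Finset.Icc 1 (2 * n2), ((T.filter (fun z =>
      W.T6 lam3 l z.1 ∨ W.T7 lam3 n0 l z.1 (esl (lastE z)))).card : ℝ) ≤ x1 + x2 := by
    intro l hl
    have h1 : (T.filter (fun z =>
        W.T6 lam3 l z.1 ∨ W.T7 lam3 n0 l z.1 (esl (lastE z)))).card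
        ≤ (T.filter (fun z => y l < (wdeg P k b' (W.cuts l) z : ℝ))).card
          + (T.filter (fun z => ¬ (y l < (wdeg P k b' (W.cuts l) z : ℝ)) ∧
            (W.T6 lam3 l z.1 ∨ W.T7 lam3 n0 l z.1 (esl (lastE z))))).card := by
      refine (Finset.card_le_card ?_).trans (Finset.card_union_le _ _)
      intro z hz
      rw [Finset.mem_filter] at hz
      rw [Finset.mem_union, Finset.mem_filter, Finset.mem_filter]
      by_cases h : y l < (wdeg P k b' (W.cuts l) z : ℝ)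
      · exact Or.inl ⟨hz.1, h⟩
      · exact Or.inr ⟨hz.1, h, hz.2⟩
    calc ((T.filter (fun z =>
        W.T6 lam3 l z.1 ∨ W.T7 lam3 n0 l z.1 (esl (lastE z)))).card : ℝ)
        ≤ ((T.filter (fun z => y l < (wdeg P k b' (W.cuts l) z : ℝ))).card : ℝ)
          + ((T.filter (fun z => ¬ (y l < (wdeg P k b' (W.cuts l) z : ℝ)) ∧
            (W.T6 lam3 l z.1 ∨ W.T7 lam3 n0 l z.1 (esl (lastE z))))).card : ℝ) := by
          exact_mod_cast h1
      _ ≤ x1 + x2 := add_le_add (h3 l hl) (h67 l hl)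
  have h := card_200_le T (Finset.Icc 1 (2 * n2))
    (fun l z => W.T6 lam3 l z.1 ∨ W.T7 lam3 n0 l z.1 (esl (lastE z))) (add_nonneg hx1 hx2) key
  have hc : (Finset.Icc 1 (2 * n2)).card = 2 * n2 := by rw [Nat.card_Icc]; omega
  rw [hc] at h
  exact h

/-- the flagged windows of level `l` -/
def flagW {P : Finset Pt} {k : ℕ} {V : ℕ → ℕ} {L : ℕ} {Cw : ℝ} (W : WSys P k V L Cw)
    (mu l : ℕ) : Finset (ℝ × ℝ) :=
  (wins (W.cuts l)).filter (fun J => ∃ I ∈ wins (W.cuts (l - 1)), I.1 ≤ J.1 ∧ J.2 ≤ I.2 ∧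
    Flagged (W.cuts l) (mu ^ 39) ((mu : ℝ) ^ 11) I J)

/-- windows of a slope at two levels are nested -/
lemma WSys.winOf_nested {P : Finset Pt} {k : ℕ} {V : ℕ → ℕ} {L : ℕ} {Cw : ℝ}
    (W : WSys P k V L Cw) {l l' : ℕ} (hll : l ≤ l') (hl' : l' ≤ L) {e : Edge}
    (he : e ∈ pairs P) :
    (winOf (W.cuts l) (esl e)).1 ≤ (winOf (W.cuts l') (esl e)).1 ∧
      (winOf (W.cuts l') (esl e)).2 ≤ (winOf (W.cuts l) (esl e)).2 := by
  obtain ⟨a1, a2, a3⟩ := W.winOf_pair (hll.trans hl') he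
  obtain ⟨b1, b2, b3⟩ := W.winOf_pair hl' he
  obtain ⟨J, hJ, h1, h2⟩ := exists_parent (W.sub l l' hll hl')
    (W.sub 0 l (Nat.zero_le _) (hll.trans hl') W.lo_mem)
    (W.sub 0 l (Nat.zero_le _) (hll.trans hl') W.hi_mem)
    (W.lo_le l' hl') (W.le_hi l' hl') b1
  have h3 : winOf (W.cuts l) (esl e) = J :=
    winOf_eq hJ (h1.trans_lt b2) (b3.trans_le h2)
  rw [h3]
  exact ⟨h1, h2⟩

/-- `(t8)`, in the form of `HSystem.t8`; `cF` is the constant of the number of flagged windows. -/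
theorem t8_H {C : ℝ} (hC : 0 ≤ C) (h2 : W2V C) {P : Finset Pt} (hG : Generic P)
    {k mu n0 be Vp n2 : ℕ} {Cw lam1 cF : ℝ} (hlam1 : 0 ≤ lam1) (hcF : 0 ≤ cF)
    (W : WSys P k (lev mu n0 be) (n0 + 1) Cw) (hmu : 1 ≤ mu) (hn : 2 * n2 ≤ n0)
    (hVp : 2 * mu ^ (10 * n0) ≤ Vp) (hN : Vp ^ 3 ≤ P.card)
    (hF : ∀ l ∈ Finset.Icc 1 (2 * n2),
      ((flagW W mu l).card : ℝ) ≤ cF * (lev mu n0 be l : ℝ) ^ 4) :
    (((T0 P k (bb P.card Vp) (lam1 * ((P.card : ℝ) / (Vp : ℝ) ^ 2))).filter (fun z =>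
      ¬ (200 * ((Finset.Icc 1 (2 * n2)).filter (fun l =>
        Flagged (W.cuts l) (mu ^ 39) ((mu : ℝ) ^ 11) (W.J (l - 1) (esl (lastE z)))
          (W.J l (esl (lastE z))))).card ≤ 2 * n2))).card : ℝ)
      ≤ 200 * (lam1 * cF * C) * ((P.card : ℝ) * ((P.card : ℝ) / (Vp : ℝ) ^ 2) ^ 2) := by
  set N : ℝ := (P.card : ℝ) with hNd
  have hN0 : 0 ≤ N := Nat.cast_nonneg _
  set T := T0 P k (bb P.card Vp) (lam1 * (N / (Vp : ℝ) ^ 2)) with hT
  have key : ∀ l ∈ Finset.Icc 1 (2 * n2), ((T.filter (fun z =>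
      Flagged (W.cuts l) (mu ^ 39) ((mu : ℝ) ^ 11) (W.J (l - 1) (esl (lastE z)))
          (W.J l (esl (lastE z))))).card : ℝ)
      ≤ lam1 * cF * C * (N * (N / (Vp : ℝ) ^ 2) ^ 2) := by
    intro l hl
    obtain ⟨hl1, hl2⟩ := Finset.mem_Icc.1 hl
    have hlL : l ≤ n0 + 1 := by omega
    have hlev : lev mu n0 be l = mu ^ (10 * l) := by
      unfold lev; rw [if_pos (by omega)]
    have hV1 : 1 ≤ lev mu n0 be l := by rw [hlev]; exact Nat.one_le_pow _ _ hmu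
    have hVpos : (0 : ℝ) < (lev mu n0 be l : ℝ) := by exact_mod_cast hV1
    have hV' : 2 * lev mu n0 be l ≤ Vp := by
      rw [hlev]
      refine le_trans ?_ hVp
      exact Nat.mul_le_mul_left _ (Nat.pow_le_pow_right hmu (by omega))
    have e1 : ((T.filter (fun z =>
        Flagged (W.cuts l) (mu ^ 39) ((mu : ℝ) ^ 11) (W.J (l - 1) (esl (lastE z)))
          (W.J l (esl (lastE z))))).card : ℝ)
        ≤ ((T.filter (fun z => winOf (W.cuts l) (esl (lastE z)) ∈ flagW W mu l)).card : ℝ) := by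
      refine Nat.cast_le.2 (Finset.card_le_card ?_)
      intro z hz
      rw [Finset.mem_filter] at hz ⊢
      refine ⟨hz.1, ?_⟩
      have h4 : lastE z ∈ pairs P :=
        nearAll_subset (lowG_subset _ _ (mem_T0.1 hz.1).2)
      have h5 := W.winOf_pair hlL h4
      have h6 := W.winOf_pair (l := l - 1) (by omega) h4
      have h7 := W.winOf_nested (l := l - 1) (l' := l) (by omega) hlL h4
      exact Finset.mem_filter.2 ⟨h5.1, _, h6.1, h7.1, h7.2, hz.2⟩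
    refine e1.trans ?_
    have e2 := t8_level (b' := bb P.card Vp) W hlL (Λ := lam1 * (N / (Vp : ℝ) ^ 2))
      (by positivity) (flagW W mu l)
      (y := C * (N ^ 2 / ((lev mu n0 be l : ℝ) ^ 4 * (Vp : ℝ) ^ 2)))
      (fun J hJ => h2 P hG k _ Vp hV1 hV' hN J.1 J.2
        (W.cen_le l hlL J (Finset.mem_filter.1 hJ).1))
    refine e2.trans ?_
    have hy : 0 ≤ C * (N ^ 2 / ((lev mu n0 be l : ℝ) ^ 4 * (Vp : ℝ) ^ 2)) := by positivity
    have e3 : ((flagW W mu l).card : ℝ)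
          * (C * (N ^ 2 / ((lev mu n0 be l : ℝ) ^ 4 * (Vp : ℝ) ^ 2)))
        ≤ cF * C * (N * (N / (Vp : ℝ) ^ 2)) := by
      calc ((flagW W mu l).card : ℝ)
            * (C * (N ^ 2 / ((lev mu n0 be l : ℝ) ^ 4 * (Vp : ℝ) ^ 2)))
          ≤ (cF * (lev mu n0 be l : ℝ) ^ 4)
            * (C * (N ^ 2 / ((lev mu n0 be l : ℝ) ^ 4 * (Vp : ℝ) ^ 2))) :=
            mul_le_mul_of_nonneg_right (hF l hl) hy
        _ = cF * C * (N * (N / (Vp : ℝ) ^ 2)) := by
            by_cases hV'0 : (Vp : ℝ) = 0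
            · simp [hV'0]
            · field_simp
    calc lam1 * (N / (Vp : ℝ) ^ 2) * (((flagW W mu l).card : ℝ)
          * (C * (N ^ 2 / ((lev mu n0 be l : ℝ) ^ 4 * (Vp : ℝ) ^ 2))))
        ≤ lam1 * (N / (Vp : ℝ) ^ 2) * (cF * C * (N * (N / (Vp : ℝ) ^ 2))) :=
          mul_le_mul_of_nonneg_left e3 (by positivity)
      _ = lam1 * cF * C * (N * (N / (Vp : ℝ) ^ 2) ^ 2) := by ring
  have h := card_200_le T (Finset.Icc 1 (2 * n2))
    (fun l z => Flagged (W.cuts l) (mu ^ 39) ((mu : ℝ) ^ 11) (W.J (l - 1) (esl (lastE z)))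
          (W.J l (esl (lastE z)))) (by positivity) key
  have hc : (Finset.Icc 1 (2 * n2)).card = 2 * n2 := by rw [Nat.card_Icc]; omega
  rw [hc] at h
  calc _ ≤ 200 * (lam1 * cF * C * (N * (N / (Vp : ℝ) ^ 2) ^ 2)) := h
    _ = _ := by ring

end Crest.Agent.R51
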