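import Crest.Agent.R51.HSys

/-!
# Row 51, section B5: the conditions (t1)-(t8), `H₀`, `H`, and the interface of the counts

`TT P k Vp lam1` is `T₀`, `DD P Vp` is `D'`.  The propositions `I51`, `I1`, ..., `I10` are the
counting statements proved by the owners; `WalkAss.lean` proves `HExists` from them.
-/

set_option autoImplicit false

noncomputable section

open Classical

namespace Crest.Agent.R51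

/-- `D' = N / V'^2` -/
def DD (P : Finset Pt) (Vp : ℕ) : ℝ := (P.card : ℝ) / (Vp : ℝ) ^ 2

/-- `T₀`: monotone 2-walks in the low-degree part of the near-`b'` graph -/
def TT (P : Finset Pt) (k Vp : ℕ) (lam1 : ℝ) : Finset Walk :=
  T0 P k (bb P.card Vp) (lam1 * DD P Vp)

variable {P : Finset Pt} {k : ℕ} {V : ℕ → ℕ} {L : ℕ} {Cw : ℝ}

/-- not (t3)_l : `deg'(w; J_l(wx)) ≤ λ₂ D' / V_l` -/
def G3 (W : WSys P k V L Cw) (Vp : ℕ) (lam2 : ℝ) (l : ℕ) (z : Walk) : Prop :=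
  ((nbW P k (bb P.card Vp) (W.J l (esl (lastE z))).1 (W.J l (esl (lastE z))).2 z.2.1).card : ℝ)
    ≤ lam2 * DD P Vp / (V l : ℝ)

/-- not (t4) : `D^k(J_l(wx)) > 12 κ b_l` -/
def G4 (W : WSys P k V L Cw) (kap : ℝ) (l : ℕ) (z : Walk) : Prop :=
  12 * kap * (bb P.card (V l) : ℝ) <
    (Dl P k (W.J l (esl (lastE z))).1 (W.J l (esl (lastE z))).2 : ℝ)

/-- not (t5) : `v` is `LL b_l`-central on the whole window `J_l(wx)` -/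
def G5 (W : WSys P k V L Cw) (LL l : ℕ) (z : Walk) : Prop :=
  ∀ θ, (W.J l (esl (lastE z))).1 < θ → θ < (W.J l (esl (lastE z))).2 →
    Central P k (LL * bb P.card (V l)) θ z.1

/-- `J_l(wx)` is flagged -/
def F8 (W : WSys P k V L Cw) (mu l : ℕ) (z : Walk) : Prop :=
  Flagged (W.cuts l) (mu ^ 39) ((mu : ℝ) ^ 11) (W.J (l - 1) (esl (lastE z)))
    (W.J l (esl (lastE z)))

/-- the ordered crossing pairs of `H_v` which are not in `N_l(K)` -/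
def badX (W : WSys P k V L Cw) (lam3 K : ℝ) (l : ℕ) (H : Finset Walk) (v : Pt) :
    Finset (Edge × Edge) :=
  (fib H v ×ˢ fib H v).filter (fun x => Cross x.1 x.2 ∧
    ¬ W.NK lam3 K l (W.J l (esl x.1)) (W.J l (esl x.2)))

/-- **W1** (956 / 633): existence of window systems -/
def IW1 (Cw : ℝ) : Prop :=
  ∀ (V : ℕ → ℕ) (L : ℕ), 1 ≤ V 0 → (∀ l < L, 2 * V l ≤ V (l + 1)) → ∃ N0 : ℕ,
    ∀ P : Finset Pt, Generic P → N0 ≤ P.card → ∀ k : ℕ, Nonempty (WSys P k V L Cw)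

/-- **5.1** (774) -/
def I51 : Prop :=
  ∀ c0 : ℝ, 0 < c0 → ∃ lam1 : ℝ, 1 ≤ lam1 ∧ ∃ c2 : ℝ, 0 < c2 ∧ c2 ≤ 1 ∧ ∃ Vp0 : ℕ,
    ∀ Vp : ℕ, Vp0 ≤ Vp → ∃ N0 : ℕ, ∀ P : Finset Pt, Generic P → N0 ≤ P.card → ∀ k : ℕ,
      Tight P k c0 Vp → c2 * (P.card : ℝ) * DD P Vp ^ 2 ≤ ((TT P k Vp lam1).card : ℝ)

/-- **(t1)** (889, done: `few_mids`) -/
def I1 : Prop :=
  ∀ lam1 ε : ℝ, 1 ≤ lam1 → 0 < ε → ∃ c3 : ℝ, 0 < c3 ∧ ∀ Vp : ℕ, 1 ≤ Vp → ∃ N0 : ℕ,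
    ∀ P : Finset Pt, Generic P → N0 ≤ P.card → ∀ k : ℕ,
      (((TT P k Vp lam1).filter (fun z =>
        ((mids (TT P k Vp lam1) z.1 z.2.2).card : ℝ) < c3 * DD P Vp)).card : ℝ) ≤
        ε * (P.card : ℝ) * DD P Vp ^ 2

/-- **(t2)** (943, from B4) -/
def I2 : Prop :=
  ∀ lam1 ε kap : ℝ, 1 ≤ lam1 → 0 < ε → 0 < kap → kap ≤ 1 → ∀ v : ℕ, 1 ≤ v →
    ∃ Vp0 : ℕ, ∀ Vp : ℕ, Vp0 ≤ Vp → ∃ N0 : ℕ,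
    ∀ P : Finset Pt, Generic P → N0 ≤ P.card → ∀ k : ℕ,
      (((TT P k Vp lam1).filter (fun z =>
        ¬ Central P k ⌊kap * (bb P.card v : ℝ)⌋₊ (esl (lastE z)) z.1)).card : ℝ) ≤
        ε * (P.card : ℝ) * DD P Vp ^ 2

/-- **(t3)_l** (834, from 952's W4_i) -/
def I3 : Prop :=
  ∀ Cw lam1 ε : ℝ, 1 ≤ Cw → 1 ≤ lam1 → 0 < ε → ∃ lam2 : ℝ, 1 ≤ lam2 ∧
    ∀ v : ℕ, 1 ≤ v → ∃ Vp0 : ℕ, ∀ Vp : ℕ, Vp0 ≤ Vp → ∃ N0 : ℕ,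
    ∀ P : Finset Pt, Generic P → N0 ≤ P.card → ∀ (k : ℕ) (V : ℕ → ℕ) (L : ℕ)
      (W : WSys P k V L Cw) (l : ℕ), l ≤ L → 1 ≤ V l → V l ≤ v →
      (((TT P k Vp lam1).filter (fun z => ¬ G3 W Vp lam2 l z)).card : ℝ) ≤
        ε * (P.card : ℝ) * DD P Vp ^ 2

/-- **(t4)** (943, from 952's W5) -/
def I4 : Prop :=
  ∀ Cw lam1 ε : ℝ, 1 ≤ Cw → 1 ≤ lam1 → 0 < ε → ∃ kap : ℝ, 0 < kap ∧ kap ≤ 1 / 2 ∧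
    ∀ v : ℕ, 1 ≤ v → ∃ Vp0 : ℕ, ∀ Vp : ℕ, Vp0 ≤ Vp → ∃ N0 : ℕ,
    ∀ P : Finset Pt, Generic P → N0 ≤ P.card → ∀ (k : ℕ) (V : ℕ → ℕ) (L : ℕ)
      (W : WSys P k V L Cw) (l : ℕ), l ≤ L → V l = v →
      (((TT P k Vp lam1).filter (fun z => ¬ G4 W kap l z)).card : ℝ) ≤
        ε * (P.card : ℝ) * DD P Vp ^ 2

/-- **(t5)** (209) -/
def I5 : Prop :=
  ∀ Cw lam1 lam2 kap ε : ℝ, 1 ≤ Cw → 1 ≤ lam1 → 1 ≤ lam2 → 0 < kap → kap ≤ 1 / 2 → 0 < ε →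
    ∃ LL : ℕ, 1 ≤ LL ∧ ∀ v vb : ℕ, 1 ≤ v → v ≤ vb → ∃ Vp0 : ℕ, ∀ Vp : ℕ, Vp0 ≤ Vp → ∃ N0 : ℕ,
    ∀ P : Finset Pt, Generic P → N0 ≤ P.card → ∀ (k : ℕ) (V : ℕ → ℕ) (L : ℕ)
      (W : WSys P k V L Cw) (l : ℕ), l ≤ L → V l = v →
      (((TT P k Vp lam1).filter (fun z => G3 W Vp lam2 l z ∧
        Central P k ⌊kap * (bb P.card vb : ℝ)⌋₊ (esl (lastE z)) z.1 ∧ ¬ G5 W LL l z)).card : ℝ) ≤
        ε * (P.card : ℝ) * DD P Vp ^ 2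

/-- **(t6)_l** (209) -/
def I6 : Prop :=
  ∀ Cw lam1 lam3 : ℝ, 1 ≤ Cw → 1 ≤ lam1 → 1 ≤ lam3 →
    ∀ (P : Finset Pt), Generic P → ∀ (k Vp : ℕ), 1 ≤ Vp → ∀ (V : ℕ → ℕ) (L : ℕ)
      (W : WSys P k V L Cw) (l : ℕ), l ≤ L → 1 ≤ V l →
      (((TT P k Vp lam1).filter (fun z => W.T6 lam3 l z.1)).card : ℝ) ≤
        7 * Cw / lam3 * lam1 ^ 2 * ((P.card : ℝ) * DD P Vp ^ 2)

/-- **(t7)_l** (209) -/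
def I7 : Prop :=
  ∀ Cw lam1 lam2 lam3 : ℝ, 1 ≤ Cw → 1 ≤ lam1 → 1 ≤ lam2 → 1 ≤ lam3 →
    ∀ (P : Finset Pt), Generic P → ∀ (k Vp : ℕ), 1 ≤ Vp → ∀ (V : ℕ → ℕ) (L : ℕ)
      (W : WSys P k V L Cw) (l n0 : ℕ), l ≤ n0 → n0 ≤ L → 1 ≤ V l → 1 ≤ V n0 →
      (((TT P k Vp lam1).filter (fun z => G3 W Vp lam2 l z ∧
        W.T7 lam3 n0 l z.1 (esl (lastE z)))).card : ℝ) ≤
        7 * Cw ^ 2 / lam3 * lam1 * lam2 * ((P.card : ℝ) * DD P Vp ^ 2)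

/-- **(t8)**, one level (834, from 259's `flag_count` and 956's W2) -/
def I8 : Prop :=
  ∀ Cw lam1 ε : ℝ, 1 ≤ Cw → 1 ≤ lam1 → 0 < ε → ∃ mu0 : ℕ, ∀ mu : ℕ, mu0 ≤ mu →
    ∀ n0 be : ℕ, 2 ≤ be → ∃ Vp0 : ℕ, ∀ Vp : ℕ, Vp0 ≤ Vp → ∃ N0 : ℕ,
    ∀ P : Finset Pt, Generic P → N0 ≤ P.card → ∀ (k : ℕ)
      (W : WSys P k (lev mu n0 be) (n0 + 1) Cw) (l : ℕ), 1 ≤ l → l ≤ n0 →
      (((TT P k Vp lam1).filter (fun z => F8 W mu l z)).card : ℝ) ≤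
        ε * (P.card : ℝ) * DD P Vp ^ 2

/-- **5.3** (238): non-concentration -/
def I53 : Prop :=
  ∀ Cw lam1 lam3 K : ℝ, 1 ≤ Cw → 1 ≤ lam1 → 1 ≤ lam3 → 0 < K →
    ∀ (Vp : ℕ), 1 ≤ Vp → ∃ N0 : ℕ, ∀ P : Finset Pt, Generic P → N0 ≤ P.card →
    ∀ (k : ℕ) (V : ℕ → ℕ) (L : ℕ) (W : WSys P k V L Cw) (l : ℕ), l ≤ L → 1 ≤ V l → 2 * V l ≤ Vp →
    ∀ H : Finset Walk, H ⊆ TT P k Vp lam1 →
      (∑ v ∈ P, ((badX W lam3 K l H v).card : ℝ)) ≤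
        882 * lam1 * (lam3 ^ 2 / K + Cw / (V l : ℝ) ^ 2) * ((P.card : ℝ) * DD P Vp ^ 4)

/-- **5.4** (238): robustness from few bad crossing pairs (crossing lemma on `W_v`) -/
def I54 : Prop :=
  ∀ lam1 c3 : ℝ, 1 ≤ lam1 → 0 < c3 → ∃ c8 : ℝ, 0 < c8 ∧ c8 ≤ 1 ∧
    ∀ d : ℝ, 0 < d → ∀ Vp : ℕ, 1 ≤ Vp → ∃ N0 : ℕ, ∀ P : Finset Pt, Generic P → N0 ≤ P.card →
    ∀ (k : ℕ) (H : Finset Walk), H ⊆ TT P k Vp lam1 →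
      (∀ z ∈ H, c3 * DD P Vp ≤ ((mids (TT P k Vp lam1) z.1 z.2.2).card : ℝ)) →
    ∀ (V : ℕ → ℕ) (L : ℕ) (Cw : ℝ) (W : WSys P k V L Cw) (lam3 K : ℝ) (l : ℕ) (v : Pt),
      ((badX W lam3 K l H v).card : ℝ) ≤ c8 * d ^ 3 * DD P Vp ^ 4 →
      ∀ S ⊆ fib H v, d * DD P Vp ^ 2 ≤ (S.card : ℝ) →
        c8 * (S.card : ℝ) ^ 3 / DD P Vp ^ 2 ≤
          (((S ×ˢ S).filter (fun x =>
            W.NK lam3 K l (W.J l (esl x.1)) (W.J l (esl x.2)))).card : ℝ)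

/-- **7.4** (445, from 259's pair count): few robust points are lacunary.  `H` has (t3), (t6) at the
level `n2` -/
def I74 : Prop :=
  ∀ Cw lam1 lam2 lam3 c8 K d ε : ℝ, 1 ≤ Cw → 1 ≤ lam1 → 1 ≤ lam2 → 1 ≤ lam3 → 0 < c8 → 0 < K →
    0 < d → 0 < ε → ∃ mu0 : ℕ, ∀ mu : ℕ, mu0 ≤ mu → ∃ n20 : ℕ, ∀ n2 : ℕ, n20 ≤ n2 →
    ∀ n0 be : ℕ, n2 ≤ n0 → 2 ≤ be → ∀ Vp : ℕ, 1 ≤ Vp → ∃ N0 : ℕ,
    ∀ P : Finset Pt, Generic P → N0 ≤ P.card → ∀ (k : ℕ)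
      (W : WSys P k (lev mu n0 be) (n0 + 1) Cw) (H : Finset Walk), H ⊆ TT P k Vp lam1 →
      (∀ z ∈ H, G3 W Vp lam2 n2 z) → (∀ z ∈ H, ¬ W.T6 lam3 n2 z.1) →
      (∀ z ∈ H, z.1 ∈ W.A n2 (W.J n2 (esl (lastE z)))) →
    ∀ LP : Finset Pt, LP ⊆ P →
      (∀ v ∈ LP, ∀ S ⊆ fib H v, d * DD P Vp ^ 2 ≤ (S.card : ℝ) →
        c8 * (S.card : ℝ) ^ 3 / DD P Vp ^ 2 ≤
          (((S ×ˢ S).filter (fun x =>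
            W.NK lam3 K n2 (W.J n2 (esl x.1)) (W.J n2 (esl x.2)))).card : ℝ)) →
      (∀ v ∈ LP, ∃ c : ℝ, ∃ two : Bool,
        d * DD P Vp ^ 2 ≤ (((fib H v).filter (fun e => Lac W mu n2 c two (esl e))).card : ℝ)) →
      (LP.card : ℝ) ≤ ε * (P.card : ℝ)

end Crest.Agent.R51
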