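import Crest.Agent.R51.LacPts
import Crest.Agent.R51.LacPair
import Crest.Agent.R51.LacBridge
import Crest.Agent.R51.WalkH
import Crest.Agent.R51.WalkDis

/-!
# Row 51, section B7 (7.4): the number of lacunary points is `≤ ε N` (helper445)

`i74 : I74` from helper259's pair count, helper209's bridge, and `card_lac_le`.
-/

set_option autoImplicit false
set_option linter.unusedVariables false

noncomputable section

open Classical Finset

namespace Crest.Agent.R51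

namespace Lac7

/-- the window `J` contains a direction of `Prob_{c,τ}` -/
def LacWin {P : Finset Pt} {k : ℕ} {V : ℕ → ℕ} {L : ℕ} {Cw : ℝ} (W : WSys P k V L Cw)
    (mu n2 : ℕ) (c : ℝ) (two : Bool) (J : ℝ × ℝ) : Prop :=
  ∃ θ, LacB.OK W θ ∧ W.J n2 θ = J ∧ Lac W mu n2 c two θ

/-- **7.3** (pair count) for the windows of `Lac` -/
theorem pairCount {Cw : ℝ} (hCw : 1 ≤ Cw) {mu n2 : ℕ} (hmu : (80 * Cw) ^ 5 ≤ (mu : ℝ))
    (hn2 : 1 ≤ n2) {P : Finset Pt} {k : ℕ} {V : ℕ → ℕ} {L : ℕ} (W : WSys P k V L Cw)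
    (hL : n2 ≤ L) (hV : ∀ l ≤ n2, V l = mu ^ (10 * l)) :
    (((wins (W.cuts n2) ×ˢ wins (W.cuts n2)).filter (fun x : (ℝ × ℝ) × (ℝ × ℝ) =>
      x.1 ≠ x.2 ∧ ∃ (c : ℝ) (two : Bool), LacWin W mu n2 c two x.1 ∧
        LacWin W mu n2 c two x.2)).card : ℝ) ≤
      4 * Cw * ((144 * (mu : ℝ) ^ 11 + 2) + Cw * (mu : ℝ) ^ (40 * 1) +
        (144 * (mu : ℝ) ^ 11 + 2) * (Cw * (mu : ℝ) ^ 40)) * n2 * (mu : ℝ) ^ (55 * n2) := by
  have hmu1 : 1 ≤ mu := by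
    have h1 : (1 : ℝ) ≤ (80 * Cw) ^ 5 := one_le_pow₀ (by linarith)
    exact_mod_cast h1.trans hmu
  have hN := Lac.nest_of_wsys W hL hmu1 hV
  have h := Lac.pair_count hN hCw hmu hn2 hn2 (Lac.card_wins_wsys W hL hV hn2)
    (Lac.card_wins_wsys W hL hV le_rfl)
  refine le_trans ?_ h
  have hsub : (wins (W.cuts n2) ×ˢ wins (W.cuts n2)).filter (fun x : (ℝ × ℝ) × (ℝ × ℝ) =>
      x.1 ≠ x.2 ∧ ∃ (c : ℝ) (two : Bool), LacWin W mu n2 c two x.1 ∧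
        LacWin W mu n2 c two x.2) ⊆ Lac.pairSet W.cuts n2 (mu ^ 39) ((mu : ℝ) ^ 11) 1 := by
    intro x hx
    rw [Finset.mem_filter] at hx
    obtain ⟨hx1, _, c, two, ⟨θ, h1, h2, h3⟩, ⟨θ', h1', h2', h3'⟩⟩ := hx
    unfold Lac.pairSet
    rw [Finset.mem_filter]
    refine ⟨hx1, c, LacB.tau two, LacB.tau_cases two, ?_, ?_⟩
    · rw [← h2]
      exact LacB.prb_of_lac W hmu1 hL h1 h3
    · rw [← h2']
      exact LacB.prb_of_lac W hmu1 hL h1' h3'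
  exact_mod_cast Finset.card_le_card hsub

/-- `n q^n → 0` in the form used below -/
lemma exists_small {mu : ℕ} (hmu : 2 ≤ mu) {c η : ℝ} (hc : 0 < c) (hη : 0 < η) :
    ∃ n0 : ℕ, ∀ n : ℕ, n0 ≤ n → c * n ≤ η * (mu : ℝ) ^ (5 * n) := by
  obtain ⟨n0, hn0⟩ := exists_nat_gt (c / η)
  refine ⟨n0, fun n hn => ?_⟩
  have h1 : c / η ≤ n := hn0.le.trans (by exact_mod_cast hn)
  have h2 : (n : ℝ) ≤ 2 ^ n := by exact_mod_cast n.lt_two_pow_self.le
  have hmu' : (2 : ℝ) ≤ mu := by exact_mod_cast hmu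
  have h3 : (n : ℝ) * n ≤ (mu : ℝ) ^ (5 * n) := by
    calc (n : ℝ) * n ≤ 2 ^ n * 2 ^ n := mul_le_mul h2 h2 (by positivity) (by positivity)
      _ = 2 ^ (2 * n) := by rw [← pow_add]; congr 1; ring
      _ ≤ 2 ^ (5 * n) := pow_le_pow_right₀ (by norm_num) (by omega)
      _ ≤ (mu : ℝ) ^ (5 * n) := pow_le_pow_left₀ (by norm_num) hmu' _
  rw [div_le_iff₀ hη] at h1
  have hn' : (0 : ℝ) ≤ n := by positivity
  nlinarith

/-- the numerical conclusion of 7.4 -/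
lemma num_concl {mu n2 : ℕ} {LL N Cm K c0 ε v : ℝ} (hmu : 0 < mu) (hc0 : 0 < c0) (hN : 0 ≤ N)
    (hv : v = (mu : ℝ) ^ (10 * n2))
    (hsm : (Cm * K + 1) * n2 ≤ ε * c0 * (mu : ℝ) ^ (5 * n2))
    (key : LL * c0 * v ^ 2 ≤ (Cm * n2 * (mu : ℝ) ^ (55 * n2)) * (K * N / v ^ 4)) :
    LL ≤ ε * N := by
  have hmuR : (0 : ℝ) < mu := by exact_mod_cast hmu
  set q : ℝ := (mu : ℝ) ^ (5 * n2) with hq
  have hq0 : 0 < q := by positivity
  have e10 : v = q ^ 2 := by rw [hv, hq, ← pow_mul]; congr 1; ring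
  have e55 : (mu : ℝ) ^ (55 * n2) = q ^ 11 := by rw [hq, ← pow_mul]; congr 1; ring
  rw [e10, e55] at key
  have hn2' : (0 : ℝ) ≤ n2 := by positivity
  have key2 : LL * c0 * q ^ 12 ≤ (Cm * K * n2) * N * q ^ 11 := by
    have h1 : Cm * ↑n2 * q ^ 11 * (K * N / (q ^ 2) ^ 4) * q ^ 8
        = (Cm * K * n2) * N * q ^ 11 := by
      field_simp
    have h2 : LL * c0 * (q ^ 2) ^ 2 * q ^ 8 = LL * c0 * q ^ 12 := by ring
    rw [← h1, ← h2]
    exact mul_le_mul_of_nonneg_right key (by positivity)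
  have key3 : LL * c0 * q ≤ (Cm * K * n2) * N := by
    have h1 : LL * c0 * q ^ 12 = (LL * c0 * q) * q ^ 11 := by ring
    rw [h1] at key2
    exact le_of_mul_le_mul_right key2 (by positivity)
  have key4 : (Cm * K * n2) * N ≤ (ε * c0 * q) * N := by
    refine mul_le_mul_of_nonneg_right ?_ hN
    refine le_trans ?_ hsm
    nlinarith
  have key5 : LL * (c0 * q) ≤ (ε * N) * (c0 * q) := by
    calc LL * (c0 * q) = LL * c0 * q := by ring
      _ ≤ _ := key3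
      _ ≤ _ := key4
      _ = (ε * N) * (c0 * q) := by ring
  exact le_of_mul_le_mul_right key5 (by positivity)

/-- **7.4**: the number of robust lacunary points is `≤ ε N`. -/
theorem card_lac (Cw : ℝ) (hCw : 1 ≤ Cw) : ∃ mu0 : ℕ, ∀ mu : ℕ, mu0 ≤ mu →
    ∀ a lam3 K c8 δ8 ε : ℝ, 0 < a → 0 ≤ K → 0 < c8 → 0 < δ8 → 0 < ε →
    ∃ n20 : ℕ, ∀ n2 : ℕ, n20 ≤ n2 →
    ∀ (P : Finset Pt) (k : ℕ) (V : ℕ → ℕ) (L : ℕ) (W : WSys P k V L Cw),
      n2 ≤ L → (∀ l ≤ n2, V l = mu ^ (10 * l)) → ∀ D' : ℝ, 0 < D' →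
    ∀ (F : Pt → Finset Edge) (LL : Finset Pt), LL ⊆ P →
      (∀ v ∈ LL, ∀ e ∈ F v, e ∈ pairs P) →
      (∀ v ∈ LL, ∀ e ∈ F v, v ∈ W.A n2 (W.J n2 (esl e))) →
      (∀ v ∈ LL, ∀ J ∈ wins (W.cuts n2),
        (((F v).filter (fun e => W.J n2 (esl e) = J)).card : ℝ) ≤ a * D' ^ 2 / (V n2 : ℝ)) →
      (∀ v ∈ LL, (F v).Nonempty → ¬ W.T6 lam3 n2 v) →
      (∀ v ∈ LL, ∀ S ⊆ F v, δ8 * D' ^ 2 ≤ (S.card : ℝ) →
        c8 * (S.card : ℝ) ^ 3 / D' ^ 2 ≤ (((S ×ˢ S).filter (fun x : Edge × Edge =>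
          W.NK lam3 K n2 (W.J n2 (esl x.1)) (W.J n2 (esl x.2)))).card : ℝ)) →
      (∀ v ∈ LL, ∃ c two, δ8 * D' ^ 2 ≤
        (((F v).filter (fun e => Lac W mu n2 c two (esl e))).card : ℝ)) →
      (LL.card : ℝ) ≤ ε * P.card := by
  obtain ⟨mu0, hmu0⟩ := exists_nat_ge ((80 * Cw) ^ 5)
  refine ⟨max mu0 2, fun mu hmu a lam3 K c8 δ8 ε ha hK hc8 hδ8 hε => ?_⟩
  have hmu2 : 2 ≤ mu := (le_max_right _ _).trans hmu
  have hmu80 : (80 * Cw) ^ 5 ≤ (mu : ℝ) :=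
    hmu0.trans (by exact_mod_cast (le_max_left _ _).trans hmu)
  obtain ⟨Cm, hCm, hCmdef⟩ : ∃ Cm : ℝ, 0 < Cm ∧ Cm = 4 * Cw * ((144 * (mu : ℝ) ^ 11 + 2) +
      Cw * (mu : ℝ) ^ (40 * 1) + (144 * (mu : ℝ) ^ 11 + 2) * (Cw * (mu : ℝ) ^ 40)) :=
    ⟨_, by positivity, rfl⟩
  have hc0 : 0 < c8 * δ8 ^ 3 / a ^ 2 := by positivity
  obtain ⟨n1, hn1⟩ := exists_small hmu2 (c := Cm * K + 1) (η := ε * (c8 * δ8 ^ 3 / a ^ 2))
    (by positivity) (by positivity)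
  refine ⟨max 1 n1, ?_⟩
  intro n2 hn2 P k V L W hL hVl D' hD F LL hLP hpair hcen hwin hT6 hrob hlac
  have hM := pairCount hCw hmu80 ((le_max_left _ _).trans hn2) W hL hVl
  rw [← hCmdef] at hM
  have hVn := hVl n2 le_rfl
  have hmupos : 0 < mu := by omega
  have hVpos : 0 < V n2 := by rw [hVn]; positivity
  have key := card_lac_le W n2 (β := Bool) (H := F) (good := LacWin W mu n2) (LL := LL) (M := _)
    hVpos hD ha hc8 hδ8 hK hLP (fun v hv e he => (W.winOf_pair hL (hpair v hv e he)).1) hcen hwin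
    hT6 hrob hM (by
      intro v hv
      obtain ⟨c, two, h⟩ := hlac v hv
      refine ⟨c, two, h.trans ?_⟩
      have : (F v).filter (fun e => Lac W mu n2 c two (esl e)) ⊆
          (F v).filter (fun e => LacWin W mu n2 c two (W.J n2 (esl e))) := by
        intro e he
        rw [Finset.mem_filter] at he ⊢
        exact ⟨he.1, esl e, LacB.OK_esl W (hpair v hv e he.1), rfl, he.2⟩
      exact_mod_cast Finset.card_le_card this)
  have hVR : (V n2 : ℝ) = (mu : ℝ) ^ (10 * n2) := by rw [hVn]; push_cast; rfl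
  exact num_concl hmupos hc0 (by positivity) hVR (hn1 n2 ((le_max_right _ _).trans hn2)) key

end Lac7

/-- **7.4**, in the interface of `WalkH.lean`. -/
theorem i74 : I74 := by
  intro Cw lam1 lam2 lam3 c8 K d ε hCw hlam1 hlam2 hlam3 hc8 hK hd hε
  obtain ⟨mu0, hmu0⟩ := Lac7.card_lac Cw hCw
  refine ⟨mu0, fun mu hmu => ?_⟩
  obtain ⟨n20, hn20⟩ := hmu0 mu hmu (lam1 * lam2) lam3 K c8 d ε (by positivity) hK.le hc8 hd hε
  refine ⟨n20, fun n2 hn2 n0 be hn0 hbe Vp hVp => ⟨1, ?_⟩⟩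
  intro P hG hN k W H hH hg3 ht6 hcen LP hLP hrob hlac
  have hNR : (0 : ℝ) < P.card := by exact_mod_cast hN
  have hVpR : (0 : ℝ) < Vp := by exact_mod_cast hVp
  have hD : 0 < DD P Vp := by unfold DD; positivity
  have hpair : ∀ z ∈ H, lastE z ∈ pairs P := by
    intro z hz
    have h := mem_T0' (hH hz)
    exact mem_pairs.2 ⟨h.2.1, h.2.2.1, h.2.2.2.2.1⟩
  have hL : n2 ≤ n0 + 1 := by omega
  have hVl : ∀ l ≤ n2, lev mu n0 be l = mu ^ (10 * l) := by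
    intro l hl
    have : l ≤ n0 := hl.trans hn0
    unfold lev
    simp [this]
  have h3 : ∀ (v : Pt) (J : ℝ × ℝ),
      (((fib H v).filter (fun e => W.J n2 (esl e) = J)).card : ℝ) ≤
        lam1 * lam2 * DD P Vp ^ 2 / (lev mu n0 be n2 : ℝ) := by
    intro v J
    have h := fib_win_le W hL (Λ := lam1 * DD P Vp) (y := lam2 * DD P Vp / (lev mu n0 be n2 : ℝ))
      (by positivity) (by positivity) hH hg3 v J
    refine h.trans (le_of_eq ?_)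
    ring
  have hfpair : ∀ v ∈ LP, ∀ e ∈ fib H v, e ∈ pairs P := by
    intro v _ e he
    have := hpair _ (mem_fib.1 he)
    exact this
  have hfcen : ∀ v ∈ LP, ∀ e ∈ fib H v, v ∈ W.A n2 (W.J n2 (esl e)) := by
    intro v _ e he
    have := hcen _ (mem_fib.1 he)
    exact this
  have hft6 : ∀ v ∈ LP, (fib H v).Nonempty → ¬ W.T6 lam3 n2 v := by
    rintro v _ ⟨e, he⟩
    have := ht6 _ (mem_fib.1 he)
    exact this
  exact hn20 n2 hn2 P k _ _ W hL hVl (DD P Vp) hD (fib H) LP hLP hfpair hfcen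
    (fun v _ J _ => h3 v J) hft6 hrob hlac

end Crest.Agent.R51
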