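import Crest.Agent.R51.Loc2
import Crest.Agent.R51.WalkA
import Crest.Agent.R51.WinIrr

/-!
# Row 51, B5.2: the removals (t2) (from B4) and (t4) (from W5)  (helper943)
-/

set_option autoImplicit false

noncomputable section

open Classical

namespace Crest.Agent.R51.Trim24

variable {P : Finset Pt}

/-- A monotone walk of `T0` violating centrality of `v` at the last edge is a bad walk of B4. -/
theorem t2_subset (P : Finset Pt) (k b' K : ℕ) (Λ : ℝ) :
    (T0 P k b' Λ).filter (fun z => ¬ Central P k K (esl (lastE z)) z.1) ⊆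
      Loc.Bad P k b' K Λ := by
  intro z hz
  rw [Finset.mem_filter] at hz
  obtain ⟨hz, hc⟩ := hz
  obtain ⟨h1, h2, h3, h4, h5, h6, h7, h8, h9, -⟩ := mem_T0' hz
  rw [Loc.mem_Bad]
  rw [dg_nearAll] at h8 h9
  have e1 : mk z.1 z.2.1 = firstE z := mk_of_lt h4
  have e2 : mk z.2.1 z.2.2 = lastE z := mk_of_lt h5
  refine ⟨?_, ?_, ?_, h8, h9, hc⟩
  · intro h
    rw [h] at h4
    exact lt_irrefl _ (h4.trans h5)
  · unfold NP
    rw [e1, mem_nearAll]
    exact ⟨mem_pairs.2 ⟨h1, h2, h4⟩, h6⟩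
  · unfold NP
    rw [e2, mem_nearAll]
    exact ⟨mem_pairs.2 ⟨h2, h3, h5⟩, h7⟩

theorem t2_card_le (P : Finset Pt) (k b' K : ℕ) (Λ : ℝ) :
    ((T0 P k b' Λ).filter (fun z => ¬ Central P k K (esl (lastE z)) z.1)).card ≤
      (Loc.Bad P k b' K Λ).card := Finset.card_le_card (t2_subset P k b' K Λ)

/-- Number of walks of `T0` whose last edge lies in a given set. -/
theorem last_mem_card_le (P : Finset Pt) (k b' : ℕ) {Λ : ℝ} (hΛ : 0 ≤ Λ) (S : Finset Edge) :
    (((T0 P k b' Λ).filter (fun z => lastE z ∈ S)).card : ℝ) ≤ Λ * S.card := by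
  have h := card_walks_le_of_last (H := (T0 P k b' Λ).filter (fun z => lastE z ∈ S))
    (G := nearAll P k b') (S := S) (Λ := ⌊Λ⌋₊)
    (fun z hz => lowG_subset _ _ (mem_T0.1 (Finset.mem_filter.1 hz).1).1)
    (fun z hz => (Finset.mem_filter.1 hz).2)
    (fun z hz => Nat.le_floor (mem_T0' (Finset.mem_filter.1 hz).1).2.2.2.2.2.2.2.2.1)
  calc (((T0 P k b' Λ).filter (fun z => lastE z ∈ S)).card : ℝ) ≤ ((⌊Λ⌋₊ * S.card : ℕ) : ℝ) := by
        exact_mod_cast h
    _ = (⌊Λ⌋₊ : ℝ) * S.card := by push_cast; ring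
    _ ≤ Λ * S.card := by
        apply mul_le_mul_of_nonneg_right (Nat.floor_le hΛ) (Nat.cast_nonneg _)

/-- The same with a predicate on the last edge. -/
theorem last_pred_card_le (P : Finset Pt) (k b' : ℕ) {Λ : ℝ} (hΛ : 0 ≤ Λ) (Q : Edge → Prop) :
    (((T0 P k b' Λ).filter (fun z => Q (lastE z))).card : ℝ) ≤
      Λ * ((nearAll P k b').filter Q).card := by
  refine le_trans ?_ (last_mem_card_le P k b' hΛ ((nearAll P k b').filter Q))
  have : (T0 P k b' Λ).filter (fun z => Q (lastE z)) ⊆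
      (T0 P k b' Λ).filter (fun z => lastE z ∈ (nearAll P k b').filter Q) := by
    intro z hz
    rw [Finset.mem_filter] at hz ⊢
    exact ⟨hz.1, Finset.mem_filter.2 ⟨lowG_subset _ _ (mem_T0.1 hz.1).2, hz.2⟩⟩
  exact_mod_cast Finset.card_le_card this

/-- Near-`b'` pairs in windows of level `l` with a property `Q` (of the window). -/
theorem card_nearAll_winOf_le {k : ℕ} {V : ℕ → ℕ} {L : ℕ} {Cw : ℝ} (S : WSys P k V L Cw) {l : ℕ}
    (hl : l ≤ L) (b' : ℕ) (Q : ℝ × ℝ → Prop) {B : ℝ} (hB0 : 0 ≤ B)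
    (hB : ∀ J ∈ wins (S.cuts l), Q J → ((nearE P k b' J.1 J.2).card : ℝ) ≤ B) :
    (((nearAll P k b').filter (fun e => Q (winOf (S.cuts l) (esl e)))).card : ℝ) ≤
      Cw * (V l : ℝ) ^ 4 * B := by
  have hsub : (nearAll P k b').filter (fun e => Q (winOf (S.cuts l) (esl e))) ⊆
      ((wins (S.cuts l)).filter Q).biUnion (fun J => nearE P k b' J.1 J.2) := by
    intro e he
    rw [Finset.mem_filter, mem_nearAll] at he
    obtain ⟨h1, h2, h3⟩ := S.winOf_pair hl he.1.1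
    rw [Finset.mem_biUnion]
    refine ⟨_, Finset.mem_filter.2 ⟨h1, he.2⟩, ?_⟩
    rw [mem_nearE]
    exact ⟨he.1.1, h2, h3, he.1.2⟩
  have h1 := (Finset.card_le_card hsub).trans Finset.card_biUnion_le
  calc (((nearAll P k b').filter (fun e => Q (winOf (S.cuts l) (esl e)))).card : ℝ)
      ≤ ∑ J ∈ (wins (S.cuts l)).filter Q, ((nearE P k b' J.1 J.2).card : ℝ) := by
        exact_mod_cast h1
    _ ≤ ∑ _J ∈ (wins (S.cuts l)).filter Q, B :=
        Finset.sum_le_sum fun J hJ => hB J (Finset.mem_filter.1 hJ).1 (Finset.mem_filter.1 hJ).2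
    _ = ((wins (S.cuts l)).filter Q).card * B := by rw [Finset.sum_const, nsmul_eq_mul]
    _ ≤ Cw * (V l : ℝ) ^ 4 * B := by
        apply mul_le_mul_of_nonneg_right _ hB0
        refine le_trans ?_ (S.card_wins hl)
        exact_mod_cast Finset.card_filter_le _ _

/-- Walks of `T0` whose last edge lies in a window of level `l` with the property `Q`. -/
theorem card_walks_winOf_le {k : ℕ} {V : ℕ → ℕ} {L : ℕ} {Cw : ℝ} (S : WSys P k V L Cw) {l : ℕ}
    (hl : l ≤ L) (b' : ℕ) {Λ : ℝ} (hΛ : 0 ≤ Λ) (Q : ℝ × ℝ → Prop) {B : ℝ} (hB0 : 0 ≤ B)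
    (hB : ∀ J ∈ wins (S.cuts l), Q J → ((nearE P k b' J.1 J.2).card : ℝ) ≤ B) :
    (((T0 P k b' Λ).filter (fun z => Q (winOf (S.cuts l) (esl (lastE z))))).card : ℝ) ≤
      Λ * (Cw * (V l : ℝ) ^ 4 * B) :=
  (last_pred_card_le P k b' hΛ (fun e => Q (winOf (S.cuts l) (esl e)))).trans
    (mul_le_mul_of_nonneg_left (card_nearAll_winOf_le S hl b' Q hB0 hB) hΛ)

/-- From ordered pairs to edges: every near-`b'` pair with a property gives an ordered pair. -/
theorem card_filter_edge_le_ordered {k b' : ℕ} (Q : ℝ → Prop) :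
    ((nearAll P k b').filter (fun e => Q (esl e))).card ≤
      ((P ×ˢ P).filter (fun x : Pt × Pt => x.2 ∈ nb P k b' x.1 ∧ Q (sl x.1 x.2))).card := by
  apply Finset.card_le_card
  intro e he
  rw [Finset.mem_filter, mem_nearAll, mem_pairs] at he
  obtain ⟨⟨⟨h1, h2, h3⟩, h4⟩, h5⟩ := he
  rw [Finset.mem_filter, Finset.mem_product]
  refine ⟨⟨h1, h2⟩, ?_, h5⟩
  rw [mem_nb]
  unfold NP
  rw [mk_of_lt h3, mem_nearAll, mem_pairs]
  exact ⟨⟨h1, h2, h3⟩, h4⟩

/-- Walks of `T0` whose last edge has a property, bounded through ordered near pairs. -/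
theorem last_pred_card_le_ordered (P : Finset Pt) (k b' : ℕ) {Λ : ℝ} (hΛ : 0 ≤ Λ)
    (Q : ℝ → Prop) :
    (((T0 P k b' Λ).filter (fun z => Q (esl (lastE z)))).card : ℝ) ≤
      Λ * ((P ×ˢ P).filter (fun x : Pt × Pt => x.2 ∈ nb P k b' x.1 ∧ Q (sl x.1 x.2))).card := by
  refine (last_pred_card_le P k b' hΛ (fun e => Q (esl e))).trans
    (mul_le_mul_of_nonneg_left ?_ hΛ)
  exact_mod_cast card_filter_edge_le_ordered Q

end Crest.Agent.R51.Trim24
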