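import Crest.Agent.R51.WalkH
import Crest.Agent.R51.Trim24

/-!
# Row 51, B5.2: `I2` (from the locality lemma B4) and `I4` (from W5)  (helper943)
-/

set_option autoImplicit false

noncomputable section

open Classical

namespace Crest.Agent.R51

/-- The locality lemma in the form used for (t2). -/
def B4F : Prop :=
  ∀ κ ε lam1 : ℝ, 0 < κ → κ ≤ 1 → 0 < ε → 1 ≤ lam1 → ∀ V : ℕ, 1 ≤ V →
    ∃ V3 : ℕ, ∀ V' : ℕ, V3 ≤ V' → ∃ N0 : ℕ, ∀ P : Finset Pt, Generic P → N0 ≤ P.card → ∀ k : ℕ,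
      ((Loc.Bad P k (P.card / V' ^ 3) ⌊κ * ((P.card / V ^ 3 : ℕ) : ℝ)⌋₊
        (lam1 * ((P.card : ℝ) / (V' : ℝ) ^ 2))).card : ℝ) ≤
        ε * (P.card * ((P.card : ℝ) / (V' : ℝ) ^ 2) ^ 2)

theorem i2_of (h : B4F) : I2 := by
  intro lam1 ε kap hlam1 hε hk hk1 v hv
  obtain ⟨V3, h3⟩ := h kap ε lam1 hk hk1 hε hlam1 v hv
  refine ⟨V3, fun Vp hVp => ?_⟩
  obtain ⟨N0, h0⟩ := h3 Vp hVp
  refine ⟨N0, fun P hP hN k => ?_⟩
  have h1 := h0 P hP hN k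
  have h2 := Trim24.t2_card_le P k (bb P.card Vp) ⌊kap * (bb P.card v : ℝ)⌋₊
    (lam1 * DD P Vp)
  calc (((TT P k Vp lam1).filter (fun z =>
        ¬ Central P k ⌊kap * (bb P.card v : ℝ)⌋₊ (esl (lastE z)) z.1)).card : ℝ)
      ≤ ((Loc.Bad P k (bb P.card Vp) ⌊kap * (bb P.card v : ℝ)⌋₊ (lam1 * DD P Vp)).card : ℝ) := by
        exact_mod_cast h2
    _ ≤ ε * (P.card * ((P.card : ℝ) / (Vp : ℝ) ^ 2) ^ 2) := h1
    _ = ε * (P.card : ℝ) * DD P Vp ^ 2 := by rw [DD]; ring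

/-- W5 in the form used for (t4): windows with few edges of level `k` carry few near-`b'` pairs. -/
def W5F (Cw C : ℝ) : Prop :=
  ∀ q : ℕ, 1 ≤ q → ∀ v : ℕ, 1 ≤ v → ∃ Vp0 : ℕ, ∀ Vp : ℕ, Vp0 ≤ Vp → ∃ N0 : ℕ,
    ∀ P : Finset Pt, Generic P → N0 ≤ P.card → ∀ (k : ℕ) (V : ℕ → ℕ) (L : ℕ)
      (W : WSys P k V L Cw) (l : ℕ), l ≤ L → V l = v → ∀ J ∈ wins (W.cuts l),
      (Dl P k J.1 J.2 : ℝ) ≤ (bb P.card v : ℝ) / (q : ℝ) ^ 3 →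
      ((nearE P k (bb P.card Vp) J.1 J.2).card : ℝ) ≤
        C / q * ((P.card : ℝ) ^ 2 / ((v : ℝ) ^ 4 * (Vp : ℝ) ^ 2))

theorem i4_of (h : ∀ Cw : ℝ, 1 ≤ Cw → ∃ C : ℝ, 0 ≤ C ∧ W5F Cw C) : I4 := by
  intro Cw lam1 ε hCw hlam1 hε
  obtain ⟨C, hC, hW⟩ := h Cw hCw
  obtain ⟨q, hq⟩ := exists_nat_ge (lam1 * Cw * C / ε + 1)
  have hq1 : (1 : ℝ) ≤ q := by
    have : 0 ≤ lam1 * Cw * C / ε := by positivity
    linarith
  have hq1' : 1 ≤ q := by exact_mod_cast hq1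
  have hq0 : (0 : ℝ) < q := by linarith
  have hq3 : (1 : ℝ) ≤ (q : ℝ) ^ 3 := one_le_pow₀ hq1
  refine ⟨1 / (12 * (q : ℝ) ^ 3), by positivity, ?_, ?_⟩
  · rw [div_le_div_iff₀ (by positivity) (by norm_num)]
    linarith
  intro v hv
  obtain ⟨Vp0, hVp0⟩ := hW q hq1' v hv
  refine ⟨max Vp0 1, fun Vp hVp => ?_⟩
  obtain ⟨N0, hN0⟩ := hVp0 Vp (le_trans (le_max_left _ _) hVp)
  refine ⟨N0, fun P hP hN k V L W l hl hVl => ?_⟩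
  have hVp1 : 1 ≤ Vp := le_trans (le_max_right _ _) hVp
  have hVpr : (1 : ℝ) ≤ Vp := by exact_mod_cast hVp1
  have hvr : (1 : ℝ) ≤ v := by exact_mod_cast hv
  have hD : 0 ≤ DD P Vp := by unfold DD; positivity
  have key := Trim24.card_walks_winOf_le W hl (bb P.card Vp) (Λ := lam1 * DD P Vp)
    (by positivity)
    (fun J => (Dl P k J.1 J.2 : ℝ) ≤ (bb P.card v : ℝ) / (q : ℝ) ^ 3)
    (B := C / q * ((P.card : ℝ) ^ 2 / ((v : ℝ) ^ 4 * (Vp : ℝ) ^ 2))) (by positivity)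
    (fun J hJ hQ => hN0 P hP hN k V L W l hl hVl J hJ hQ)
  have hsub : (TT P k Vp lam1).filter (fun z => ¬ G4 W (1 / (12 * (q : ℝ) ^ 3)) l z) ⊆
      (T0 P k (bb P.card Vp) (lam1 * DD P Vp)).filter (fun z =>
        (Dl P k (winOf (W.cuts l) (esl (lastE z))).1 (winOf (W.cuts l) (esl (lastE z))).2 : ℝ) ≤
          (bb P.card v : ℝ) / (q : ℝ) ^ 3) := by
    intro z hz
    rw [Finset.mem_filter] at hz ⊢
    refine ⟨hz.1, ?_⟩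
    have h1 := hz.2
    unfold G4 WSys.J at h1
    rw [not_lt, hVl] at h1
    refine h1.trans (le_of_eq ?_)
    field_simp
  have h1 : (((TT P k Vp lam1).filter (fun z => ¬ G4 W (1 / (12 * (q : ℝ) ^ 3)) l z)).card : ℝ) ≤
      lam1 * DD P Vp * (Cw * (V l : ℝ) ^ 4 *
        (C / q * ((P.card : ℝ) ^ 2 / ((v : ℝ) ^ 4 * (Vp : ℝ) ^ 2)))) := by
    refine le_trans ?_ key
    exact_mod_cast Finset.card_le_card hsub
  refine h1.trans ?_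
  rw [hVl]
  have e1 : lam1 * DD P Vp * (Cw * (v : ℝ) ^ 4 *
        (C / q * ((P.card : ℝ) ^ 2 / ((v : ℝ) ^ 4 * (Vp : ℝ) ^ 2)))) =
      (lam1 * Cw * C / q) * ((P.card : ℝ) * DD P Vp ^ 2) := by
    unfold DD
    field_simp
  rw [e1]
  have h2 : lam1 * Cw * C / q ≤ ε := by
    rw [div_le_iff₀ hq0]
    have h3 : lam1 * Cw * C / ε ≤ q := by linarith
    rw [div_le_iff₀ hε] at h3
    linarith
  calc (lam1 * Cw * C / q) * ((P.card : ℝ) * DD P Vp ^ 2)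
      ≤ ε * ((P.card : ℝ) * DD P Vp ^ 2) := mul_le_mul_of_nonneg_right h2 (by positivity)
    _ = ε * (P.card : ℝ) * DD P Vp ^ 2 := by ring

end Crest.Agent.R51
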