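import Crest.Agent.R51.Loc4
import Crest.Agent.R51.WinIrr

/-!
# Row 51, B4 (locality lemma): choice of the constants (helper476)

`b4_of` : B4 from W0, W1, W2, W3, W6 and the flux hypothesis.
-/

set_option autoImplicit false

noncomputable section

open Classical

namespace Crest.Agent.R51.Loc

/-- The locality lemma B4 (EQ). -/
def B4Prop : Prop :=
  ∀ κ ε lam1 : ℝ, 0 < κ → κ ≤ 1 → 0 < ε → 1 ≤ lam1 → ∀ V : ℕ, 1 ≤ V →
    ∃ V3 : ℕ, ∀ V' : ℕ, V3 ≤ V' → ∃ N0 : ℕ, ∀ P : Finset Pt, Generic P → N0 ≤ P.card → ∀ k : ℕ,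
      ((Bad P k (P.card / V' ^ 3) ⌊κ * ((P.card / V ^ 3 : ℕ) : ℝ)⌋₊
        (lam1 * ((P.card : ℝ) / (V' : ℝ) ^ 2))).card : ℝ) ≤
        ε * (P.card * ((P.card : ℝ) / (V' : ℝ) ^ 2) ^ 2)

/-- W0 in `V`-form. -/
def W0V (C : ℝ) : Prop :=
  ∀ P : Finset Pt, Generic P → ∀ k V : ℕ, 1 ≤ V → V ^ 3 ≤ P.card →
    ((nearAll P k (P.card / V ^ 3)).card : ℝ) ≤ C * (P.card * ((P.card : ℝ) / (V : ℝ) ^ 2))

/-- W1: existence of window systems (levels `V 0 < V 1`). -/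
def W1Two (Cw : ℝ) : Prop :=
  ∀ V0 V1 : ℕ, 1 ≤ V0 → 2 * V0 ≤ V1 → ∃ N0 : ℕ, ∀ P : Finset Pt, Generic P → N0 ≤ P.card →
    ∀ k : ℕ, Nonempty (WSys P k (fun l => if l = 0 then V0 else V1) 1 Cw)

/-- W6 for a two-level system. -/
def W6Two (Cw : ℝ) : Prop :=
  ∀ ε : ℝ, 0 < ε → ∃ c : ℝ, 0 < c ∧ ∃ M : ℕ, 1 ≤ M ∧ ∀ V0 V1 : ℕ, 1 ≤ V0 → 2 * V0 ≤ V1 →
    ∀ V' : ℕ, M * V1 ≤ V' → ∃ N0 : ℕ, ∀ P : Finset Pt, Generic P → N0 ≤ P.card → ∀ k : ℕ,
    ∀ S : WSys P k (fun l => if l = 0 then V0 else V1) 1 Cw,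
      (((P ×ˢ P).filter (fun z : Pt × Pt => z.2 ∈ nb P k (P.card / V' ^ 3) z.1 ∧
        ((nbW P k (P.card / V1 ^ 3) (winOf (S.cuts 0) (sl z.1 z.2)).1
          (winOf (S.cuts 0) (sl z.1 z.2)).2 z.1).card : ℝ) <
          c * P.card / (V0 * (V1 : ℝ) ^ 2))).card : ℝ) ≤
        ε * (P.card * ((P.card : ℝ) / (V' : ℝ) ^ 2))

/-- The flux hypothesis for all windows. -/
def FluxAll : Prop :=
  ∀ (P : Finset Pt) (W : Finset (ℝ × ℝ)), Generic P → Wins P W → ∀ k bf X : ℕ, 4 ≤ bf →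
    100 * bf ≤ X → FluxHyp P W k bf X (bf * X / 16)

lemma exists_nat_ge_real (x : ℝ) : ∃ n : ℕ, x ≤ n := exists_nat_ge x

/-- numerical: the five terms add up -/
lemma five {ε lam1 N D A B Cc F S a1 : ℝ} (hN : 0 ≤ N) (hD : 0 ≤ D) (hlam1 : 1 ≤ lam1)
    (hA : A ≤ (ε / (5 * lam1)) * (N * D)) (hB : B ≤ (ε / (5 * lam1)) * (N * D))
    (hC : Cc * lam1 ^ 2 ≤ ε / 5 * N) (hF : F ≤ ε / 5) (hS : S ≤ ε / 5)
    (ha : a1 ≤ A * (lam1 * D) + B * (lam1 * D) + Cc * (lam1 * D) ^ 2 + F * (N * D ^ 2) +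
      S * (N * D ^ 2)) : a1 ≤ ε * (N * D ^ 2) := by
  have hl : 0 < lam1 := by linarith
  have e1 : (ε / (5 * lam1)) * (N * D) * (lam1 * D) = ε / 5 * (N * D ^ 2) := by
    field_simp
  have h1 := mul_le_mul_of_nonneg_right hA (mul_nonneg hl.le hD)
  have h2 := mul_le_mul_of_nonneg_right hB (mul_nonneg hl.le hD)
  have h3 := mul_le_mul_of_nonneg_right hC (sq_nonneg D)
  have hND : 0 ≤ N * D ^ 2 := by positivity
  have h4 := mul_le_mul_of_nonneg_right hF hND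
  have h5 := mul_le_mul_of_nonneg_right hS hND
  rw [e1] at h1 h2
  have e2 : Cc * (lam1 * D) ^ 2 = Cc * lam1 ^ 2 * D ^ 2 := by ring
  have e3 : ε / 5 * N * D ^ 2 = ε / 5 * (N * D ^ 2) := by ring
  rw [e3] at h3
  rw [e2] at ha
  linarith

lemma AA_subset {P : Finset Pt} {k : ℕ} {V : ℕ → ℕ} {L : ℕ} {Cw : ℝ} (S : WSys P k V L Cw)
    {l b' : ℕ} {L2 : ℝ} :
    AA P (wins (S.cuts l)) k b' L2 ⊆ (P ×ˢ P).filter (fun x : Pt × Pt => x.2 ∈ nb P k b' x.1 ∧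
      L2 < ((nbW P k b' (winOf (S.cuts l) (sl x.1 x.2)).1
          (winOf (S.cuts l) (sl x.1 x.2)).2 x.1).card : ℝ)) := by
  intro x hx
  rw [AA, Finset.mem_filter] at hx
  obtain ⟨h1, h2, J, hJ, h3, h4, h5⟩ := hx
  rw [Finset.mem_filter]
  refine ⟨h1, h2, ?_⟩
  rw [winOf_eq hJ h3 h4]
  exact h5

lemma BB_subset {P : Finset Pt} {k : ℕ} {V : ℕ → ℕ} {L : ℕ} {Cw : ℝ} (S : WSys P k V L Cw)
    {l b' bf : ℕ} {x : ℝ} :
    BB P (wins (S.cuts l)) k b' bf ⌈x⌉₊ ⊆ (P ×ˢ P).filter (fun z : Pt × Pt =>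
      z.2 ∈ nb P k b' z.1 ∧ ((nbW P k bf (winOf (S.cuts l) (sl z.1 z.2)).1
          (winOf (S.cuts l) (sl z.1 z.2)).2 z.1).card : ℝ) < x) := by
  intro z hz
  rw [BB, Finset.mem_filter] at hz
  obtain ⟨h1, h2, J, hJ, h3, h4, h5⟩ := hz
  rw [Finset.mem_filter]
  refine ⟨h1, h2, ?_⟩
  rw [winOf_eq hJ h3 h4]
  exact Nat.lt_ceil.1 h5

set_option maxHeartbeats 1000000 in
theorem b4_of {Cw C C0 : ℝ} (hCw : 0 ≤ Cw) (hC : 0 ≤ C) (hC0 : 0 ≤ C0) (hW0 : W0V C0)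
    (hW1 : W1Two Cw) (h2 : W2V C) (h3 : W3V C) (hW6 : W6Two Cw)
    (hWins : ∀ (P : Finset Pt) (k : ℕ) (V : ℕ → ℕ) (L : ℕ) (S : WSys P k V L Cw) (l : ℕ),
      l ≤ L → Wins P (wins (S.cuts l)))
    (hFlux : FluxAll) : B4Prop := by
  intro κ ε lam1 hκ hκ1 hε hlam1 V hV
  have hl1 : 0 < lam1 := by linarith
  -- lam2
  set δ : ℝ := ε / (20 * lam1 * (Cw * C + 1)) with hδ
  have hCC : 0 ≤ Cw * C := mul_nonneg hCw hC
  have hδ0 : 0 < δ := by positivity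
  set lam2 : ℝ := 1 + 2 * C / δ ^ 3 with hlam2
  have hlam2' : 1 ≤ lam2 := by
    have : 0 ≤ 2 * C / δ ^ 3 := by positivity
    linarith
  have hpow : (2 * C / lam2) ^ ((1 : ℝ) / 3) ≤ δ := by
    have h4 : 2 * C / lam2 ≤ δ ^ 3 := by
      rw [div_le_iff₀ (by linarith)]
      have : δ ^ 3 * lam2 = δ ^ 3 + 2 * C := by
        rw [hlam2]; field_simp
      rw [this]
      have : 0 < δ ^ 3 := by positivity
      linarith
    calc (2 * C / lam2) ^ ((1 : ℝ) / 3) ≤ (δ ^ 3) ^ ((1 : ℝ) / 3) :=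
          Real.rpow_le_rpow (by positivity) h4 (by norm_num)
      _ = δ := by
          rw [← Real.rpow_natCast, ← Real.rpow_mul hδ0.le]
          norm_num
  -- lam3
  set lam3 : ℝ := 1 + 10 * C0 * lam1 ^ 2 / ε with hlam3
  have hlam3' : 1 ≤ lam3 := by
    have : 0 ≤ 10 * C0 * lam1 ^ 2 / ε := by positivity
    linarith
  -- W6
  obtain ⟨c, hc, M, hM, hW6'⟩ := hW6 (ε / (5 * lam1)) (by positivity)
  -- V2
  obtain ⟨m2, hm2⟩ := exists_nat_ge_real (20 * lam1 * lam2 * lam3 / (κ * ε))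
  set V2 : ℕ := (m2 + 1) * V with hV2def
  have hV2 : 1 ≤ V2 := Nat.mul_pos (Nat.succ_pos _) hV
  -- Vf
  obtain ⟨m3, hm3⟩ := exists_nat_ge_real (100 / c)
  obtain ⟨m4, hm4⟩ := exists_nat_ge_real (8 / κ)
  set Vf : ℕ := (m3 + m4 + 2) * V2 with hVfdef
  have h2V : 2 * V2 ≤ Vf := Nat.mul_le_mul_right _ (by omega)
  have hVf : 1 ≤ Vf := by omega
  -- V3
  obtain ⟨m5, hm5⟩ := exists_nat_ge_real (5 * 4608 * lam2 * (Vf : ℝ) ^ 2 / (c * ε))
  refine ⟨2 * Vf + M * Vf + m5 + 1, fun V' hV' => ?_⟩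
  have hV'f : 2 * Vf ≤ V' := by
    have : 0 ≤ M * Vf := Nat.zero_le _
    omega
  have hMV : M * Vf ≤ V' := by omega
  obtain ⟨N1, hN1⟩ := hW1 V2 Vf hV2 h2V
  obtain ⟨N6, hN6⟩ := hW6' V2 Vf hV2 h2V V' hMV
  obtain ⟨n1, hn1⟩ := exists_nat_ge_real (6 * (V : ℝ) ^ 3 / κ)
  obtain ⟨n2, hn2⟩ := exists_nat_ge_real (64 * ((V2 : ℝ) * (Vf : ℝ) ^ 5) / c)
  obtain ⟨n3, hn3⟩ := exists_nat_ge_real (20 * Cw * C * V2 * lam1 * (V' : ℝ) ^ 2 / ε)
  refine ⟨N1 + N6 + n1 + n2 + n3 + 16 * Vf ^ 3 + V' ^ 3 + V ^ 3, fun P hG hN k => ?_⟩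
  obtain ⟨S⟩ := hN1 P hG (by omega) k
  set N : ℕ := P.card with hNdef
  have hW := hWins P k _ 1 S 0 (by norm_num)
  have hV'pos : (0 : ℝ) < V' := by
    have : 0 < V' := by omega
    exact_mod_cast this
  have hVr : (1 : ℝ) ≤ V := by exact_mod_cast hV
  have hV2r : (1 : ℝ) ≤ V2 := by exact_mod_cast hV2
  have hVfr : (1 : ℝ) ≤ Vf := by exact_mod_cast hVf
  have hNn1 : (n1 : ℝ) ≤ N := by
    have : n1 ≤ N := by omega
    exact_mod_cast this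
  have hNn2 : (n2 : ℝ) ≤ N := by
    have : n2 ≤ N := by omega
    exact_mod_cast this
  have hNn3 : (n3 : ℝ) ≤ N := by
    have : n3 ≤ N := by omega
    exact_mod_cast this
  have hNVf : 16 * (Vf : ℝ) ^ 3 ≤ N := by
    have : 16 * Vf ^ 3 ≤ N := by omega
    exact_mod_cast this
  have hNV'n : V' ^ 3 ≤ N := by omega
  have hNV' : (V' : ℝ) ^ 3 ≤ N := by exact_mod_cast hNV'n
  have hNVn : V ^ 3 ≤ N := by omega
  have hN1r : (1 : ℝ) ≤ N := by
    have : (1 : ℝ) ≤ (Vf : ℝ) ^ 3 := one_le_pow₀ hVfr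
    linarith
  set D : ℝ := (N : ℝ) / (V' : ℝ) ^ 2 with hD
  have hD0 : 0 < D := by positivity
  -- hypotheses of core_real
  have c1 : 8 * (V : ℝ) ^ 3 ≤ κ * (Vf : ℝ) ^ 3 := by
    have e1 : (V : ℝ) ≤ V2 := by
      have : V ≤ V2 := Nat.le_mul_of_pos_left V (Nat.succ_pos _)
      exact_mod_cast this
    have e2 : ((m4 : ℝ)) * (V : ℝ) ≤ Vf := by
      have : m4 * V ≤ Vf := by
        calc m4 * V ≤ (m3 + m4 + 2) * V := Nat.mul_le_mul_right _ (by omega)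
          _ ≤ Vf := Nat.mul_le_mul_left _ (Nat.le_mul_of_pos_left V (Nat.succ_pos _))
      exact_mod_cast this
    have e3 : 8 / κ * (V : ℝ) ≤ Vf := (mul_le_mul_of_nonneg_right hm4 (by linarith)).trans e2
    have e4 : (V : ℝ) ≤ Vf := by
      have : V2 ≤ Vf := by omega
      have : (V2 : ℝ) ≤ Vf := by exact_mod_cast this
      linarith
    have e5 : 8 * (V : ℝ) ≤ κ * Vf := by
      have := mul_le_mul_of_nonneg_left e3 hκ.le
      have e : κ * (8 / κ * (V : ℝ)) = 8 * V := by field_simp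
      linarith
    calc 8 * (V : ℝ) ^ 3 = (8 * (V : ℝ)) * (V : ℝ) ^ 2 := by ring
      _ ≤ (κ * Vf) * (Vf : ℝ) ^ 2 :=
          mul_le_mul e5 (pow_le_pow_left₀ (by linarith) e4 2) (by positivity) (by positivity)
      _ = κ * (Vf : ℝ) ^ 3 := by ring
  have c2 : 100 * (V2 : ℝ) ≤ c * Vf := by
    have e2 : (m3 : ℝ) * (V2 : ℝ) ≤ Vf := by
      have : m3 * V2 ≤ Vf := Nat.mul_le_mul_right _ (by omega)
      exact_mod_cast this
    have e3 : 100 / c * (V2 : ℝ) ≤ Vf := (mul_le_mul_of_nonneg_right hm3 (by linarith)).trans e2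
    have := mul_le_mul_of_nonneg_left e3 hc.le
    have e : c * (100 / c * (V2 : ℝ)) = 100 * V2 := by field_simp
    linarith
  have c3 : 6 * (V : ℝ) ^ 3 ≤ κ * N := by
    have := hn1.trans hNn1
    rw [div_le_iff₀ hκ] at this
    linarith
  have c4 : 64 * ((V2 : ℝ) * (Vf : ℝ) ^ 5) ≤ c * (N : ℝ) ^ 2 := by
    have h5 := hn2.trans hNn2
    rw [div_le_iff₀ hc] at h5
    have h6 : (N : ℝ) * c ≤ c * (N : ℝ) ^ 2 := by
      have : (N : ℝ) ≤ (N : ℝ) ^ 2 := by nlinarith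
      have := mul_le_mul_of_nonneg_left this hc.le
      linarith
    linarith
  have key := core_real (k := k) (W := wins (S.cuts 0)) hG hW hV hV2 hVf hV'f hκ hκ1 hc hlam1
    hlam2' hlam3' (fun X h4 h5 => hFlux P _ hG hW k _ X h4 h5) c1 c2 hNVf hNV' c3 c4
  -- the five terms
  refine five (N := (N : ℝ)) (D := D) (by linarith) hD0.le hlam1 ?_ ?_ ?_ ?_ ?_ key
  · -- AA
    have h4 := W4_i hC h2 h3 hG S (l := 0) (by norm_num) (by simpa using hV2) (V' := V')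
      (by simp only [if_true]; omega) hNV'n (lam := lam2) (by linarith)
    have h5 : ((AA P (wins (S.cuts 0)) k (N / V' ^ 3) (lam2 * D / V2)).card : ℝ) ≤
        2 * Cw * C * (2 * C / lam2) ^ ((1 : ℝ) / 3) * ((N : ℝ) * D) +
          2 * Cw * C * ((N : ℝ) * V2) := by
      refine (Nat.cast_le.2 (Finset.card_le_card (AA_subset S))).trans ?_
      simpa [bb] using h4
    refine h5.trans ?_
    have h6 : 2 * Cw * C * (2 * C / lam2) ^ ((1 : ℝ) / 3) * ((N : ℝ) * D) ≤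
        ε / (10 * lam1) * (N * D) := by
      refine mul_le_mul_of_nonneg_right ?_ (by positivity)
      calc 2 * Cw * C * (2 * C / lam2) ^ ((1 : ℝ) / 3) ≤ 2 * Cw * C * δ :=
            mul_le_mul_of_nonneg_left hpow (by positivity)
        _ ≤ 2 * (Cw * C + 1) * δ := by nlinarith
        _ = ε / (10 * lam1) := by
            rw [hδ]; field_simp; ring
    have h7 : 2 * Cw * C * ((N : ℝ) * V2) ≤ ε / (10 * lam1) * (N * D) := by
      have h8 := hn3.trans hNn3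
      rw [div_le_iff₀ hε] at h8
      have h9 : 20 * Cw * C * V2 * lam1 ≤ D * ε := by
        rw [hD, div_mul_eq_mul_div, le_div_iff₀ (by positivity)]
        linarith
      have h10 : 2 * Cw * C * V2 ≤ ε / (10 * lam1) * D := by
        rw [div_mul_eq_mul_div, le_div_iff₀ (by positivity)]
        linarith
      calc 2 * Cw * C * ((N : ℝ) * V2) = N * (2 * Cw * C * V2) := by ring
        _ ≤ N * (ε / (10 * lam1) * D) := mul_le_mul_of_nonneg_left h10 (by positivity)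
        _ = _ := by ring
    have e : ε / (5 * lam1) * ((N : ℝ) * D) = ε / (10 * lam1) * (N * D) +
        ε / (10 * lam1) * (N * D) := by
      field_simp
      ring
    rw [e]
    linarith
  · -- BB
    refine (Nat.cast_le.2 (Finset.card_le_card (BB_subset S))).trans ?_
    exact hN6 P hG (by omega) k S
  · -- CC
    have h4 : ((CC P k (N / V ^ 3) (lam3 * ((N : ℝ) / (V : ℝ) ^ 2))).card : ℝ) ≤
        2 * C0 * N / lam3 :=
      W4_iii (by linarith) (by positivity) (hW0 P hG k V hV hNVn)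
    have h5 := mul_le_mul_of_nonneg_right h4 (sq_nonneg lam1)
    refine h5.trans ?_
    rw [div_mul_eq_mul_div, div_le_iff₀ (by linarith)]
    have e : ε / 5 * (N : ℝ) * lam3 = ε / 5 * N + 2 * C0 * N * lam1 ^ 2 := by
      rw [hlam3]; field_simp; ring
    rw [e]
    have : 0 ≤ ε / 5 * (N : ℝ) := by positivity
    linarith
  · -- F
    have h4 : 20 * lam1 * lam2 * lam3 / (κ * ε) * (V : ℝ) ≤ V2 := by
      have e2 : (m2 : ℝ) * (V : ℝ) ≤ V2 := by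
        have : m2 * V ≤ V2 := Nat.mul_le_mul_right _ (by omega)
        exact_mod_cast this
      exact (mul_le_mul_of_nonneg_right hm2 (by linarith)).trans e2
    rw [div_mul_eq_mul_div, div_le_iff₀ (by positivity)] at h4
    rw [div_mul_div_comm, div_le_iff₀ (by positivity)]
    have e : ε / 5 * (κ * (V2 : ℝ)) = V2 * (κ * ε) / 5 := by ring
    rw [e]
    linarith
  · -- S
    have h4 : 5 * 4608 * lam2 * (Vf : ℝ) ^ 2 / (c * ε) ≤ V' := by
      have : m5 ≤ V' := by omega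
      exact hm5.trans (by exact_mod_cast this)
    rw [div_le_iff₀ (by positivity)] at h4
    rw [div_mul_div_comm, div_le_iff₀ (by positivity)]
    have e : ε / 5 * (c * (V' : ℝ)) = V' * (c * ε) / 5 := by ring
    rw [e]
    linarith

end Crest.Agent.R51.Loc
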