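import Crest.Agent.R51.WinMany
import Crest.Agent.R51.Level2
import Crest.Agent.R51.CrossStr

/-!
# Row 51, section B3: W5 (bad windows)
-/

set_option autoImplicit false

noncomputable section

open Classical

namespace Crest.Agent.R51

/-! ### cutting a window into pieces with few pairs -/

lemma exists_rank (S : Finset ℝ) : ∀ m : ℕ, 1 ≤ m → m ≤ S.card →
    ∃ σ ∈ S, (S.filter (fun x => x ≤ σ)).card = m := by
  induction S using Finset.induction_on_max with
  | empty =>
    intro m h1 h2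
    rw [Finset.card_empty] at h2
    omega
  | insert a s ha ih =>
    intro m h1 h2
    have hna : a ∉ s := fun h => lt_irrefl _ (ha a h)
    rw [Finset.card_insert_of_notMem hna] at h2
    rcases Nat.lt_or_ge s.card m with h | h
    · refine ⟨a, Finset.mem_insert_self _ _, ?_⟩
      rw [Finset.filter_true_of_mem, Finset.card_insert_of_notMem hna]
      · omega
      · intro x hx
        rcases Finset.mem_insert.1 hx with rfl | hx
        · exact le_rfl
        · exact (ha x hx).le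
    · obtain ⟨σ, hσ, hc⟩ := ih m h1 h
      refine ⟨σ, Finset.mem_insert_of_mem hσ, ?_⟩
      rw [Finset.filter_insert, if_neg (not_le.2 (ha σ hσ))]
      exact hc

/-- the pairs of `E` with slope in `(s,t)` -/
def slIn (E : Finset Edge) (s t : ℝ) : Finset Edge := E.filter (fun e => s < esl e ∧ esl e < t)

lemma mem_slIn {E : Finset Edge} {s t : ℝ} {e : Edge} :
    e ∈ slIn E s t ↔ e ∈ E ∧ s < esl e ∧ esl e < t := by
  rw [slIn, Finset.mem_filter]

lemma esl_injOn {P : Finset Pt} (hG : Generic P) {E : Finset Edge} (hE : E ⊆ pairs P) :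
    Set.InjOn esl (E : Set Edge) := by
  intro e he f hf h
  have h1 := mem_pairs.1 (hE he)
  have h2 := mem_pairs.1 (hE hf)
  obtain ⟨h3, h4⟩ := hG.sl_inj _ h1.1 _ h1.2.1 _ h2.1 _ h2.2.1 h1.2.2 h2.2.2 h
  exact Prod.ext h3 h4

/-- cut off the first `m` pairs -/
lemma exists_first {P : Finset Pt} (hG : Generic P) {E : Finset Edge} (hE : E ⊆ pairs P)
    {m : ℕ} (hm : 1 ≤ m) {s t : ℝ} (h : m ≤ (slIn E s t).card) :
    ∃ u, s < u ∧ u < t ∧ NonSlope P u ∧ (slIn E s u).card = m ∧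
      (slIn E s u).card + (slIn E u t).card = (slIn E s t).card := by
  have hinj : Set.InjOn esl (slIn E s t : Set Edge) :=
    esl_injOn hG ((Finset.filter_subset _ _).trans hE)
  have hcard : ((slIn E s t).image esl).card = (slIn E s t).card :=
    Finset.card_image_of_injOn hinj
  obtain ⟨σ, hσ, hc⟩ := exists_rank ((slIn E s t).image esl) m hm (by rw [hcard]; exact h)
  obtain ⟨e0, he0, rfl⟩ := Finset.mem_image.1 hσ
  obtain ⟨h1, h2, h3⟩ := mem_slIn.1 he0
  obtain ⟨u, hu1, hu2, hu3⟩ := exists_free_right P h3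
  have hu : NonSlope P u := by
    intro e he h'
    have := hu3 e he (h' ▸ hu1)
    rw [h'] at this
    exact lt_irrefl _ this
  refine ⟨u, h2.trans hu1, hu2, hu, ?_, ?_⟩
  · rw [← hc, Finset.filter_image, Finset.card_image_of_injOn
      (hinj.mono (Finset.coe_subset.2 (Finset.filter_subset _ _)))]
    congr 1
    ext e
    rw [Finset.mem_filter, mem_slIn, mem_slIn]
    constructor
    · rintro ⟨a1, a2, a3⟩
      refine ⟨⟨a1, a2, a3.trans hu2⟩, ?_⟩
      by_contra hcon
      exact absurd (hu3 e (hE a1) (not_le.1 hcon)) (not_lt.2 a3.le)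
    · rintro ⟨⟨a1, a2, a3⟩, a4⟩
      exact ⟨a1, a2, a4.trans_lt hu1⟩
  · rw [← Finset.card_union_of_disjoint]
    · congr 1
      ext e
      rw [Finset.mem_union, mem_slIn, mem_slIn, mem_slIn]
      constructor
      · rintro (⟨a1, a2, a3⟩ | ⟨a1, a2, a3⟩)
        · exact ⟨a1, a2, a3.trans hu2⟩
        · exact ⟨a1, (h2.trans hu1).trans a2, a3⟩
      · rintro ⟨a1, a2, a3⟩
        rcases lt_trichotomy (esl e) u with h' | h' | h'
        · exact Or.inl ⟨a1, a2, h'⟩
        · exact absurd h' (hu e (hE a1))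
        · exact Or.inr ⟨a1, h', a3⟩
    · rw [Finset.disjoint_left]
      intro e h' h''
      exact absurd (mem_slIn.1 h').2.2 (not_lt.2 (mem_slIn.1 h'').2.1.le)

theorem exists_cuts {P : Finset Pt} (hG : Generic P) {E : Finset Edge} (hE : E ⊆ pairs P)
    {m : ℕ} (hm : 1 ≤ m) {t : ℝ} (ht : NonSlope P t) :
    ∀ (n : ℕ) (s : ℝ), s < t → NonSlope P s → (slIn E s t).card ≤ n →
    ∃ C : Finset ℝ, s ∈ C ∧ t ∈ C ∧ (∀ c ∈ C, s ≤ c ∧ c ≤ t ∧ NonSlope P c) ∧
      (∀ J ∈ wins C, (slIn E J.1 J.2).card ≤ m) ∧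
      C.card * m ≤ (slIn E s t).card + 2 * m := by
  intro n
  induction n with
  | zero =>
    intro s hst hs h0
    refine ⟨{s, t}, by simp, by simp, ?_, ?_, ?_⟩
    · intro c hc
      rcases Finset.mem_insert.1 hc with rfl | hc
      · exact ⟨le_rfl, hst.le, hs⟩
      · rw [Finset.mem_singleton.1 hc]
        exact ⟨hst.le, le_rfl, ht⟩
    · intro J hJ
      obtain ⟨a1, a2, a3, a4⟩ := mem_wins.1 hJ
      have hle : (slIn E J.1 J.2).card ≤ (slIn E s t).card := by
        refine Finset.card_le_card fun e he => ?_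
        obtain ⟨b1, b2, b3⟩ := mem_slIn.1 he
        have c1 : s ≤ J.1 := by
          rcases Finset.mem_insert.1 a1 with h | h
          · exact h.ge
          · rw [Finset.mem_singleton.1 h]; exact hst.le
        have c2 : J.2 ≤ t := by
          rcases Finset.mem_insert.1 a2 with h | h
          · rw [h]; exact hst.le
          · exact (Finset.mem_singleton.1 h).le
        exact mem_slIn.2 ⟨b1, c1.trans_lt b2, b3.trans_le c2⟩
      omega
    · have : ({s, t} : Finset ℝ).card ≤ 2 := Finset.card_le_two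
      calc ({s, t} : Finset ℝ).card * m ≤ 2 * m := Nat.mul_le_mul_right _ this
        _ ≤ _ := Nat.le_add_left _ _
  | succ n ih =>
    intro s hst hs h0
    by_cases hle' : (slIn E s t).card ≤ m
    · refine ⟨{s, t}, by simp, by simp, ?_, ?_, ?_⟩
      · intro c hc
        rcases Finset.mem_insert.1 hc with rfl | hc
        · exact ⟨le_rfl, hst.le, hs⟩
        · rw [Finset.mem_singleton.1 hc]
          exact ⟨hst.le, le_rfl, ht⟩
      · intro J hJ
        obtain ⟨a1, a2, a3, a4⟩ := mem_wins.1 hJ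
        have hle : (slIn E J.1 J.2).card ≤ (slIn E s t).card := by
          refine Finset.card_le_card fun e he => ?_
          obtain ⟨b1, b2, b3⟩ := mem_slIn.1 he
          have c1 : s ≤ J.1 := by
            rcases Finset.mem_insert.1 a1 with h | h
            · exact h.ge
            · rw [Finset.mem_singleton.1 h]; exact hst.le
          have c2 : J.2 ≤ t := by
            rcases Finset.mem_insert.1 a2 with h | h
            · rw [h]; exact hst.le
            · exact (Finset.mem_singleton.1 h).le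
          exact mem_slIn.2 ⟨b1, c1.trans_lt b2, b3.trans_le c2⟩
        omega
      · have : ({s, t} : Finset ℝ).card ≤ 2 := Finset.card_le_two
        calc ({s, t} : Finset ℝ).card * m ≤ 2 * m := Nat.mul_le_mul_right _ this
          _ ≤ _ := Nat.le_add_left _ _
    · obtain ⟨u, hu1, hu2, hu3, hu4, hu5⟩ := exists_first hG hE hm (not_le.1 hle').le
      obtain ⟨C, hC1, hC2, hC3, hC4, hC5⟩ := ih u hu2 hu3 (by omega)
      refine ⟨insert s C, Finset.mem_insert_self _ _, Finset.mem_insert_of_mem hC2, ?_, ?_, ?_⟩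
      · intro c hc
        rcases Finset.mem_insert.1 hc with rfl | hc
        · exact ⟨le_rfl, hst.le, hs⟩
        · exact ⟨hu1.le.trans (hC3 c hc).1, (hC3 c hc).2.1, (hC3 c hc).2.2⟩
      · intro J hJ
        obtain ⟨a1, a2, a3, a4⟩ := mem_wins.1 hJ
        rcases Finset.mem_insert.1 a1 with h | h
        · have h2 : J.2 ∈ C := by
            rcases Finset.mem_insert.1 a2 with h' | h'
            · rw [h, h'] at a3
              exact absurd a3 (lt_irrefl _)
            · exact h'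
          have h3 : J.2 = u := by
            refine le_antisymm ?_ (hC3 _ h2).1
            by_contra hcon
            exact a4 u (Finset.mem_insert_of_mem hC1) ⟨by rw [h]; exact hu1, not_le.1 hcon⟩
          rw [h, h3, hu4]
        · have h2 : J.2 ∈ C := by
            rcases Finset.mem_insert.1 a2 with h' | h'
            · have := (hC3 _ h).1
              rw [h'] at a3
              linarith
            · exact h'
          exact hC4 J (mem_wins.2 ⟨h, h2, a3, fun c hc => a4 c (Finset.mem_insert_of_mem hc)⟩)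
      · calc (insert s C).card * m ≤ (C.card + 1) * m :=
              Nat.mul_le_mul_right _ (Finset.card_insert_le _ _)
          _ = C.card * m + m := by ring
          _ ≤ _ := by omega

/-! ### W5 -/

/-- the number of near pairs in a window with small activity -/
lemma near_le_of_Dl {P : Finset Pt} (hG : Generic P) {k b1 bV : ℕ} (hb1 : 1 ≤ b1)
    (hb : 2 * b1 + 1 ≤ bV) {s t : ℝ} (hs : NonSlope P s) (ht : NonSlope P t)
    (hcen : (cen P k bV s t).card ≤ 7 * bV) (hD : Dl P k s t ≤ b1) :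
    ((nearE P k (2 * b1) s t).card : ℝ) ≤ 976 * bV * b1 := by
  set E := nearE P k (2 * b1) s t with hE
  set A := cen P k bV s t with hA
  have hAP : A ⊆ P := Finset.filter_subset _ _
  have hEA : E ⊆ pairs A := by
    intro e he
    have h1 := cen_mono (P := P) (k := k) hb (le_refl s) (le_refl t) (left_mem_cen he)
    have h2 := cen_mono (P := P) (k := k) hb (le_refl s) (le_refl t) (right_mem_cen he)
    exact mem_pairs.2 ⟨h1, h2, (mem_pairs.1 (mem_nearE.1 he).1).2.2⟩
  -- Lovász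
  have hlov : ∀ f ∈ E, (E.filter (fun e => Cross e f)).card ≤ 30 * b1 ^ 2 := by
    intro f hf
    obtain ⟨hf1, hf2, hf3, -⟩ := mem_nearE.1 hf
    rw [hE, nearE_filter_card]
    have h1 : ∀ i ∈ Finset.Icc (k - 2 * b1) (k + 2 * b1),
        ((kE P i s t).filter (fun e => Cross e f)).card ≤ 6 * b1 := by
      intro i hi
      rw [Finset.mem_Icc] at hi
      have h2 := lovasz hG (i := i) hs ht hf1 hf2 hf3
      have h3 : Dl P i s t ≤ 3 * b1 := by
        rcases le_total i k with hik | hik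
        · have := (Dl_level_le hG hs ht hik).1
          omega
        · have := (Dl_level_le hG hs ht hik).2
          omega
      omega
    calc ∑ i ∈ Finset.Icc (k - 2 * b1) (k + 2 * b1),
          ((kE P i s t).filter (fun e => Cross e f)).card
        ≤ (Finset.Icc (k - 2 * b1) (k + 2 * b1)).card • (6 * b1) :=
          Finset.sum_le_card_nsmul _ _ _ h1
      _ ≤ (2 * (2 * b1) + 1) * (6 * b1) := by
          rw [smul_eq_mul]
          exact Nat.mul_le_mul_right _ (card_levels_le k (2 * b1))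
      _ ≤ 30 * b1 ^ 2 := by nlinarith
  have hcrs : crs E E ≤ E.card * (30 * b1 ^ 2) := by
    unfold crs
    have h1 : ((E ×ˢ E).filter (fun x : Edge × Edge => Cross x.1 x.2)).card
        ≤ ∑ f ∈ E, (E.filter (fun e => Cross e f)).card := by
      have : ((E ×ˢ E).filter (fun x : Edge × Edge => Cross x.1 x.2))
          ⊆ E.biUnion (fun f => (E.filter (fun e => Cross e f)).image (fun e => (e, f))) := by
        rintro ⟨e, f⟩ hx
        rw [Finset.mem_filter, Finset.mem_product] at hx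
        exact Finset.mem_biUnion.2 ⟨f, hx.1.2, Finset.mem_image.2
          ⟨e, Finset.mem_filter.2 ⟨hx.1.1, hx.2⟩, rfl⟩⟩
      refine (Finset.card_le_card this).trans (Finset.card_biUnion_le.trans ?_)
      exact Finset.sum_le_sum fun f _ => Finset.card_image_le
    refine h1.trans ?_
    rw [← smul_eq_mul]
    exact Finset.sum_le_card_nsmul _ _ _ hlov
  have hb1r : (1 : ℝ) ≤ (b1 : ℝ) := by exact_mod_cast hb1
  have hbVr : (0 : ℝ) ≤ (bV : ℝ) := Nat.cast_nonneg _
  have hAr : (A.card : ℝ) ≤ 7 * (bV : ℝ) := by exact_mod_cast hcen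
  have hcrsr : (crs E E : ℝ) ≤ (E.card : ℝ) * (30 * (b1 : ℝ) ^ 2) := by exact_mod_cast hcrs
  rcases crossing_lemma hG hAP hEA with h | h
  · calc (E.card : ℝ) ≤ 18 * (A.card : ℝ) := h
      _ ≤ 18 * (7 * (bV : ℝ)) := by linarith
      _ ≤ 976 * bV * 1 := by linarith
      _ ≤ 976 * bV * b1 := mul_le_mul_of_nonneg_left hb1r (by positivity)
  · by_contra hcon
    rw [not_le] at hcon
    have he0 : (0 : ℝ) < (E.card : ℝ) := lt_of_le_of_lt (by positivity) hcon
    have h1 : (E.card : ℝ) ^ 3 ≤ 648 * (7 * (bV : ℝ)) ^ 2 * ((E.card : ℝ) * (30 * (b1 : ℝ) ^ 2)) := by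
      refine h.trans ?_
      have h2 : (A.card : ℝ) ^ 2 ≤ (7 * (bV : ℝ)) ^ 2 :=
        pow_le_pow_left₀ (Nat.cast_nonneg _) hAr 2
      refine mul_le_mul ?_ hcrsr (Nat.cast_nonneg _) (by positivity)
      linarith
    have h2 : (E.card : ℝ) ^ 2 ≤ 952560 * ((bV : ℝ) * b1) ^ 2 := by
      have h3 : (E.card : ℝ) * (E.card : ℝ) ^ 2
          ≤ (E.card : ℝ) * (952560 * ((bV : ℝ) * b1) ^ 2) := by
        calc (E.card : ℝ) * (E.card : ℝ) ^ 2 = (E.card : ℝ) ^ 3 := by ring
          _ ≤ _ := h1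
          _ = _ := by ring
      exact le_of_mul_le_mul_left h3 he0
    have h4 : (976 * ((bV : ℝ) * b1)) ^ 2 < (E.card : ℝ) ^ 2 :=
      pow_lt_pow_left₀ (by linarith) (by positivity) (by norm_num)
    have h5 : 0 ≤ ((bV : ℝ) * b1) ^ 2 := by positivity
    nlinarith

/-- **W5** (bad windows) -/
theorem W5 {C : ℝ} (hC : 0 ≤ C) (h2 : W2V C) : W5V (1200 * C) := by
  intro P hG k V V' q hV hq hqV' hV'3 s t hst hs ht hcen hD
  have hV'1 : 1 ≤ V' := by
    have : 1 ≤ q * V := Nat.one_le_iff_ne_zero.2 (by positivity)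
    omega
  have hvpos : (0 : ℝ) < (V : ℝ) := by exact_mod_cast hV
  have hv'pos : (0 : ℝ) < (V' : ℝ) := by exact_mod_cast hV'1
  have hqpos : (0 : ℝ) < (q : ℝ) := by exact_mod_cast hq
  have hNpos : (0 : ℝ) < (P.card : ℝ) := by
    have h1 : 0 < V' ^ 3 := by positivity
    exact_mod_cast lt_of_lt_of_le h1 hV'3
  have hF0 : (0 : ℝ) ≤ (P.card : ℝ) ^ 2 / ((V : ℝ) ^ 4 * (V' : ℝ) ^ 2) := by positivity
  rcases Nat.lt_or_ge q 2 with hq2 | hq2
  · have hq1 : q = 1 := by omega
    subst hq1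
    refine (h2 P hG k V V' hV (by omega) hV'3 s t hcen).trans ?_
    refine mul_le_mul_of_nonneg_right ?_ hF0
    rw [Nat.cast_one, div_one]
    linarith
  · -- the main case
    obtain ⟨b1, hb1def⟩ : ∃ b1, b1 = bb P.card (q * V) := ⟨_, rfl⟩
    obtain ⟨bV, hbVdef⟩ : ∃ bV, bV = bb P.card V := ⟨_, rfl⟩
    have hqV0 : 0 < (q * V) ^ 3 := by positivity
    have h8 : 8 * (q * V) ^ 3 ≤ P.card := by
      refine le_trans ?_ hV'3
      calc 8 * (q * V) ^ 3 = (2 * (q * V)) ^ 3 := by ring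
        _ ≤ V' ^ 3 := Nat.pow_le_pow_left hqV' 3
    have hb18 : 8 ≤ b1 := by
      rw [hb1def, bb, Nat.le_div_iff_mul_le hqV0]
      exact h8
    have hbV8 : 8 * b1 ≤ bV := by
      rw [hbVdef, bb, Nat.le_div_iff_mul_le (by positivity)]
      have h1 : b1 * (q * V) ^ 3 ≤ P.card := by rw [hb1def, bb]; exact Nat.div_mul_le_self _ _
      have h3 : 8 ≤ q ^ 3 := by
        calc 8 = 2 ^ 3 := by norm_num
          _ ≤ q ^ 3 := Nat.pow_le_pow_left hq2 3
      calc 8 * b1 * V ^ 3 ≤ q ^ 3 * b1 * V ^ 3 :=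
            Nat.mul_le_mul_right _ (Nat.mul_le_mul_right _ h3)
        _ = b1 * (q * V) ^ 3 := by ring
        _ ≤ P.card := h1
    rw [← hb1def] at hD
    rw [← hbVdef] at hcen
    have he := near_le_of_Dl hG (by omega) (by omega) hs ht hcen hD
    -- `b_V ≤ (8/7) q ^ 3 b_1`
    have hb1pos : (0 : ℝ) < (b1 : ℝ) := by
      have : 0 < b1 := by omega
      exact_mod_cast this
    have hratio : (bV : ℝ) ≤ 8 / 7 * (q : ℝ) ^ 3 * (b1 : ℝ) := by
      have h1 : P.card < b1 * (q * V) ^ 3 + (q * V) ^ 3 := by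
        rw [hb1def, bb]
        exact Nat.lt_div_mul_add (a := P.card) hqV0
      have h3 : bV * V ^ 3 ≤ P.card := by rw [hbVdef, bb]; exact Nat.div_mul_le_self _ _
      have h4 : (P.card : ℝ) < (b1 : ℝ) * ((q : ℝ) * V) ^ 3 + ((q : ℝ) * V) ^ 3 := by
        exact_mod_cast h1
      have h5 : (bV : ℝ) * (V : ℝ) ^ 3 ≤ (P.card : ℝ) := by exact_mod_cast h3
      have h6 : 8 * ((q : ℝ) * V) ^ 3 ≤ (P.card : ℝ) := by exact_mod_cast h8
      have h7 : (bV : ℝ) * (V : ℝ) ^ 3 ≤ (8 / 7 * (q : ℝ) ^ 3 * (b1 : ℝ)) * (V : ℝ) ^ 3 := by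
        have h9 : 8 / 7 * (q : ℝ) ^ 3 * (b1 : ℝ) * (V : ℝ) ^ 3
            = 8 / 7 * ((b1 : ℝ) * ((q : ℝ) * V) ^ 3) := by ring
        rw [h9]
        linarith
      exact le_of_mul_le_mul_right h7 (by positivity)
    -- cutting
    obtain ⟨Cu, c1, c2, c3, c4, c5⟩ := exists_cuts hG
      (E := nearE P k (2 * b1) s t)
      (fun e he => (mem_nearE.1 he).1) (m := b1 ^ 2) (Nat.one_le_pow _ _ (by omega)) ht
      _ s hst hs le_rfl
    have hCu : (Cu.card : ℝ) ≤ 1118 * (q : ℝ) ^ 3 := by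
      have h1 : (slIn (nearE P k (2 * b1) s t) s t).card ≤ (nearE P k (2 * b1) s t).card :=
        Finset.card_filter_le _ _
      have h3 : ((Cu.card * b1 ^ 2 : ℕ) : ℝ)
          ≤ (((nearE P k (2 * b1) s t).card + 2 * b1 ^ 2 : ℕ) : ℝ) :=
        Nat.cast_le.2 (c5.trans (by omega))
      push_cast at h3
      have h4 : (Cu.card : ℝ) * (b1 : ℝ) ^ 2 ≤ (1118 * (q : ℝ) ^ 3) * (b1 : ℝ) ^ 2 := by
        have h5 : 976 * (bV : ℝ) * (b1 : ℝ) ≤ 976 * (8 / 7 * (q : ℝ) ^ 3 * (b1 : ℝ)) * (b1 : ℝ) := by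
          have := mul_le_mul_of_nonneg_right hratio hb1pos.le
          linarith
        have h6 : (1 : ℝ) ≤ (q : ℝ) ^ 3 := one_le_pow₀ (by exact_mod_cast hq)
        have h7 : (b1 : ℝ) ^ 2 ≤ (q : ℝ) ^ 3 * (b1 : ℝ) ^ 2 :=
          le_mul_of_one_le_left (by positivity) h6
        have h9 : 976 * (8 / 7 * (q : ℝ) ^ 3 * (b1 : ℝ)) * (b1 : ℝ)
            = 7808 / 7 * ((q : ℝ) ^ 3 * (b1 : ℝ) ^ 2) := by ring
        have h10 : 0 ≤ (q : ℝ) ^ 3 * (b1 : ℝ) ^ 2 := by positivity
        nlinarith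
      exact le_of_mul_le_mul_right h4 (by positivity)
    -- each piece
    have hpiece : ∀ J ∈ wins Cu, ((nearE P k (bb P.card V') J.1 J.2).card : ℝ)
        ≤ C * ((P.card : ℝ) ^ 2 / (((q * V : ℕ) : ℝ) ^ 4 * (V' : ℝ) ^ 2)) := by
      intro J hJ
      obtain ⟨a1, a2, a3, -⟩ := mem_wins.1 hJ
      refine h2 P hG k (q * V) V' (Nat.one_le_iff_ne_zero.2 (by positivity)) hqV' hV'3 J.1 J.2 ?_
      rw [← hb1def]
      have h4 : (nearE P k (2 * b1) J.1 J.2).card ≤ b1 ^ 2 := by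
        refine le_trans (Finset.card_le_card fun e he => ?_) (c4 J hJ)
        obtain ⟨d1, d2, d3, d4⟩ := mem_nearE.1 he
        exact mem_slIn.2 ⟨mem_nearE.2 ⟨d1, (c3 _ a1).1.trans_lt d2, d3.trans_le (c3 _ a2).2.1, d4⟩,
          d2, d3⟩
      have h5 := Active.active_card hG a3.le (c3 _ a1).2.2 (c3 _ a2).2.2 k b1
      have h6 : (cen P k b1 J.1 J.2).card ≤ (Active.Actv P k b1 J.1 J.2).card := by
        refine Finset.card_le_card fun p hp => ?_
        obtain ⟨d1, θ, d2, d3, d4⟩ := mem_cen.1 hp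
        exact Finset.mem_filter.2 ⟨d1, θ, d2.le, d3.le, d4⟩
      have h7 : b1 * (Active.Actv P k b1 J.1 J.2).card ≤ b1 * (7 * b1) := by
        calc b1 * (Active.Actv P k b1 J.1 J.2).card
            ≤ b1 * (4 * b1 + 1) + 2 * (nearE P k (2 * b1) J.1 J.2).card := h5
          _ ≤ b1 * (4 * b1 + 1) + 2 * b1 ^ 2 := by omega
          _ ≤ b1 * (7 * b1) := by nlinarith
      exact h6.trans (Nat.le_of_mul_le_mul_left h7 (by omega))
    -- summation
    have hsum : ((nearE P k (bb P.card V') s t).card : ℝ)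
        ≤ ∑ J ∈ wins Cu, ((nearE P k (bb P.card V') J.1 J.2).card : ℝ) := by
      have h1 : (nearE P k (bb P.card V') s t).card
          ≤ ∑ J ∈ wins Cu, (nearE P k (bb P.card V') J.1 J.2).card := by
        refine le_trans (Finset.card_le_card ?_) Finset.card_biUnion_le
        intro e he
        obtain ⟨d1, d2, d3, d4⟩ := mem_nearE.1 he
        obtain ⟨J, hJ, hJ1, hJ2⟩ := exists_win c1 c2 d2 d3
          (fun h => (c3 _ h).2.2 e d1 rfl)
        exact Finset.mem_biUnion.2 ⟨J, hJ, mem_nearE.2 ⟨d1, hJ1, hJ2, d4⟩⟩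
      exact_mod_cast h1
    have hw : ((wins Cu).card : ℝ) ≤ 1118 * (q : ℝ) ^ 3 :=
      le_trans (by exact_mod_cast card_wins_le Cu) hCu
    calc ((nearE P k (bb P.card V') s t).card : ℝ)
        ≤ ∑ J ∈ wins Cu, ((nearE P k (bb P.card V') J.1 J.2).card : ℝ) := hsum
      _ ≤ ∑ J ∈ wins Cu, C * ((P.card : ℝ) ^ 2 / (((q * V : ℕ) : ℝ) ^ 4 * (V' : ℝ) ^ 2)) :=
          Finset.sum_le_sum hpiece
      _ = ((wins Cu).card : ℝ)
            * (C * ((P.card : ℝ) ^ 2 / (((q * V : ℕ) : ℝ) ^ 4 * (V' : ℝ) ^ 2))) := by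
          rw [Finset.sum_const, nsmul_eq_mul]
      _ ≤ (1118 * (q : ℝ) ^ 3)
            * (C * ((P.card : ℝ) ^ 2 / (((q * V : ℕ) : ℝ) ^ 4 * (V' : ℝ) ^ 2))) :=
          mul_le_mul_of_nonneg_right hw (by positivity)
      _ = 1118 * C / q * ((P.card : ℝ) ^ 2 / ((V : ℝ) ^ 4 * (V' : ℝ) ^ 2)) := by
          push_cast
          field_simp
      _ ≤ 1200 * C / q * ((P.card : ℝ) ^ 2 / ((V : ℝ) ^ 4 * (V' : ℝ) ^ 2)) := by
          refine mul_le_mul_of_nonneg_right ?_ hF0
          exact div_le_div_of_nonneg_right (by linarith) hqpos.le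

/-- **W6** with W5 discharged -/
theorem W6_of {C : ℝ} (hC : 0 ≤ C) (h2 : W2V C) (h3 : W3V C) {Cw : ℝ}
    (hCw : 0 ≤ Cw) {ε : ℝ} (hε : 0 < ε) :
    ∃ c : ℝ, 0 < c ∧ ∃ Ce : ℕ, 1 ≤ Ce ∧ ∀ P : Finset Pt, Generic P → ∀ (k : ℕ) (V : ℕ → ℕ) (L : ℕ)
      (S : WSys P k V L Cw) (l l' : ℕ), l ≤ l' → l' ≤ L → 1 ≤ V l → 2 * V l ≤ V l' →
      ∀ V' : ℕ, Ce * V l' ≤ V' → Ce * V' ^ 3 ≤ P.card →
      (((P ×ˢ P).filter (fun x : Pt × Pt => x.2 ∈ nb P k (bb P.card V') x.1 ∧
        ((nbW P k (bb P.card (V l')) (winOf (S.cuts l) (sl x.1 x.2)).1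
          (winOf (S.cuts l) (sl x.1 x.2)).2 x.1).card : ℝ)
          < c * ((P.card : ℝ) / ((V l : ℝ) * (V l' : ℝ) ^ 2)))).card : ℝ)
        ≤ ε * ((P.card : ℝ) * ((P.card : ℝ) / (V' : ℝ) ^ 2)) :=
  W6 hC (by positivity) h3 (W5 hC h2) hCw hε

end Crest.Agent.R51
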