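import Crest.Agent.R51.WinDey
import Crest.Agent.R51.WinBad
import Crest.Agent.R51.Loc5
import Crest.Agent.R51.WalkT24

/-!
# Row 51, section B3: W5 and W6 in the forms used by B4 and B5 (unconditional)
-/

set_option autoImplicit false

noncomputable section

open Classical

namespace Crest.Agent.R51

/-- **W5**, unconditional -/
theorem w5V : W5V (1200 * 304) := W5 (by norm_num) w2V

/-- **W6**, unconditional -/
theorem w6 {Cw : ℝ} (hCw : 0 ≤ Cw) {ε : ℝ} (hε : 0 < ε) :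
    ∃ c : ℝ, 0 < c ∧ ∃ Ce : ℕ, 1 ≤ Ce ∧ ∀ P : Finset Pt, Generic P → ∀ (k : ℕ) (V : ℕ → ℕ) (L : ℕ)
      (S : WSys P k V L Cw) (l l' : ℕ), l ≤ l' → l' ≤ L → 1 ≤ V l → 2 * V l ≤ V l' →
      ∀ V' : ℕ, Ce * V l' ≤ V' → Ce * V' ^ 3 ≤ P.card →
      (((P ×ˢ P).filter (fun x : Pt × Pt => x.2 ∈ nb P k (bb P.card V') x.1 ∧
        ((nbW P k (bb P.card (V l')) (winOf (S.cuts l) (sl x.1 x.2)).1
          (winOf (S.cuts l) (sl x.1 x.2)).2 x.1).card : ℝ)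
          < c * ((P.card : ℝ) / ((V l : ℝ) * (V l' : ℝ) ^ 2)))).card : ℝ)
        ≤ ε * ((P.card : ℝ) * ((P.card : ℝ) / (V' : ℝ) ^ 2)) :=
  W6 (by norm_num : (0 : ℝ) ≤ 504) (by norm_num) w3V w5V hCw hε

/-- 943's form of W5 -/
theorem w5F (Cw : ℝ) : W5F Cw (1200 * 304) := by
  intro q hq v hv
  refine ⟨2 * (q * v), fun Vp hVp => ⟨Vp ^ 3, ?_⟩⟩
  intro P hP hN k V L W l hl hVl J hJ hD
  obtain ⟨a1, a2, a3, -⟩ := mem_wins.1 hJ
  refine w5V P hP k v Vp q hv hq hVp hN J.1 J.2 a3 (W.nons l hl _ a1) (W.nons l hl _ a2) ?_ ?_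
  · rw [← hVl]
    exact W.cen_le l hl J hJ
  · have hqv : 0 < (q * v) ^ 3 := by positivity
    rw [bb, Nat.le_div_iff_mul_le hqv]
    have hq0 : (0 : ℝ) < (q : ℝ) ^ 3 := by positivity
    rw [le_div_iff₀ hq0] at hD
    have h1 : Dl P k J.1 J.2 * q ^ 3 ≤ bb P.card v := by exact_mod_cast hD
    calc Dl P k J.1 J.2 * (q * v) ^ 3 = (Dl P k J.1 J.2 * q ^ 3) * v ^ 3 := by ring
      _ ≤ bb P.card v * v ^ 3 := Nat.mul_le_mul_right _ h1
      _ ≤ P.card := Nat.div_mul_le_self _ _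

theorem i4 : I4 := i4_of fun Cw _ => ⟨1200 * 304, by norm_num, w5F Cw⟩

/-- 476's form of W6 -/
theorem w6Two {Cw : ℝ} (hCw : 0 ≤ Cw) : Loc.W6Two Cw := by
  intro ε hε
  obtain ⟨c, hc, M, hM, h⟩ := w6 hCw hε
  refine ⟨c, hc, M, hM, fun V0 V1 hV0 h2V V' hV' => ⟨M * V' ^ 3, ?_⟩⟩
  intro P hP hN k S
  have h1 := h P hP k _ 1 S 0 1 (Nat.zero_le _) le_rfl (by simpa using hV0) (by simpa using h2V)
    V' (by simpa using hV') hN
  simp only [if_true, one_ne_zero, if_false] at h1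
  refine le_trans (Nat.cast_le.2 (Finset.card_le_card fun z hz => ?_)) h1
  rw [Finset.mem_filter] at hz ⊢
  rw [mul_div_assoc] at hz
  exact hz

end Crest.Agent.R51
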