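import Crest.Agent.R51.WinCuts

/-!
# Row 51, section B3: W1 (existence of window systems)
-/

set_option autoImplicit false

noncomputable section

open Classical

namespace Crest.Agent.R51

namespace WinD

lemma V_mono {V : ℕ → ℕ} {L : ℕ} (hV : ∀ l < L, 2 * V l ≤ V (l + 1)) :
    ∀ l l', l ≤ l' → l' ≤ L → V l ≤ V l' := by
  intro l l' hll
  induction l', hll using Nat.le_induction with
  | base => exact fun _ => le_rfl
  | succ n _ ih =>
    intro h
    have := hV n (by omega)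
    have := ih (by omega)
    omega

lemma V_lt {V : ℕ → ℕ} {L : ℕ} (hV : ∀ l < L, 2 * V l ≤ V (l + 1)) {l l' : ℕ} (h : l < l')
    (h' : l' ≤ L) : 2 * V l ≤ V l' :=
  (hV l (by omega)).trans (V_mono hV (l + 1) l' (by omega) h')

lemma geo {V : ℕ → ℕ} {L : ℕ} (hV : ∀ l < L, 2 * V l ≤ V (l + 1)) :
    ∀ l ≤ L, ∑ i ∈ Finset.range (l + 1), (V i : ℝ) ^ 4 ≤ 2 * (V l : ℝ) ^ 4 := by
  intro l
  induction l with
  | zero =>
    intro _
    rw [zero_add, Finset.sum_range_one]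
    nlinarith [pow_nonneg (Nat.cast_nonneg (α := ℝ) (V 0)) 4]
  | succ n ih =>
    intro h
    rw [Finset.sum_range_succ]
    have h1 := ih (by omega)
    have h2 : 2 * (V n : ℝ) ≤ (V (n + 1) : ℝ) := by exact_mod_cast hV n (by omega)
    have h3 : (2 * (V n : ℝ)) ^ 4 ≤ (V (n + 1) : ℝ) ^ 4 := by gcongr
    have h4 : (2 * (V n : ℝ)) ^ 4 = 16 * (V n : ℝ) ^ 4 := by ring
    have h5 : (0 : ℝ) ≤ (V n : ℝ) ^ 4 := by positivity
    linarith

lemma N_le_bb {N V : ℕ} (hV : 1 ≤ V) (h : V ^ 3 ≤ N) : N ≤ 2 * (V ^ 3 * bb N V) := by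
  have h1 := one_le_bb hV h
  have h2 : N < V ^ 3 * (bb N V + 1) := by
    unfold bb
    exact Nat.lt_mul_div_succ N (by positivity)
  nlinarith [Nat.zero_le (V ^ 3 * (bb N V - 1)), Nat.mul_le_mul_left (V ^ 3) h1]

lemma bb_mul_le {N V : ℕ} : bb N V * V ^ 3 ≤ N := by
  unfold bb; exact Nat.div_mul_le_self N _

/-- slopes of a set of edges. -/
def slo (E : Finset Edge) : Finset ℝ := E.image esl

lemma slo_card {P : Finset Pt} (hP : Generic P) {E : Finset Edge} (hE : E ⊆ pairs P) :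
    (slo E).card = E.card := by
  unfold slo
  apply Finset.card_image_of_injOn
  intro e he f hf h
  exact hP.esl_inj (hE he) (hE hf) h

lemma slo_cin {P : Finset Pt} (hP : Generic P) (k b : ℕ) (s t : ℝ) :
    cin (slo (nearAll P k b)) s t = (nearE P k b s t).card := by
  have : (slo (nearAll P k b)).filter (fun x => s < x ∧ x < t) = slo (nearE P k b s t) := by
    unfold slo
    ext x
    rw [Finset.mem_filter, Finset.mem_image, Finset.mem_image]
    constructor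
    · rintro ⟨⟨e, he, rfl⟩, h1, h2⟩
      rw [mem_nearAll] at he
      exact ⟨e, mem_nearE.2 ⟨he.1, h1, h2, he.2⟩, rfl⟩
    · rintro ⟨e, he, rfl⟩
      rw [mem_nearE] at he
      exact ⟨⟨e, mem_nearAll.2 ⟨he.1, he.2.2.2⟩, rfl⟩, he.2.1, he.2.2.1⟩
  unfold cin
  rw [this, slo_card hP nearE_subset_pairs]

/-- number of near-`2b` pairs. -/
lemma nearAll_two (P : Finset Pt) (hP : Generic P) (k V : ℕ) (hV : 1 ≤ V) (hN : V ^ 3 ≤ P.card) :
    ((nearAll P k (2 * bb P.card V)).card : ℝ) ≤ 91 * (V : ℝ) ^ 4 * (bb P.card V : ℝ) ^ 2 := by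
  have hV0 : (1 : ℝ) ≤ (V : ℝ) := by exact_mod_cast hV
  have hb := one_le_bb hV hN
  have hb0 : (1 : ℝ) ≤ (bb P.card V : ℝ) := by exact_mod_cast hb
  have hNb : (P.card : ℝ) ≤ 2 * ((V : ℝ) ^ 3 * (bb P.card V : ℝ)) := by
    exact_mod_cast N_le_bb hV hN
  set b := bb P.card V with hbdef
  rcases W0_cube hP k (2 * b) (by omega) with h | h
  · refine h.trans ?_
    have h1 : (V : ℝ) ^ 3 ≤ (V : ℝ) ^ 4 := pow_le_pow_right₀ hV0 (by norm_num)
    have h2 : (b : ℝ) ≤ (b : ℝ) ^ 2 := by nlinarith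
    calc 18 * (P.card : ℝ) ≤ 18 * (2 * ((V : ℝ) ^ 3 * (b : ℝ))) := by gcongr
      _ = 36 * ((V : ℝ) ^ 3 * (b : ℝ)) := by ring
      _ ≤ 91 * ((V : ℝ) ^ 4 * (b : ℝ) ^ 2) := by gcongr; norm_num
      _ = _ := by ring
  · rw [mul_assoc]
    refine cube_le (c := 746496) (by norm_num) (by positivity) (by norm_num) (h.trans ?_)
    push_cast
    calc 11664 * (P.card : ℝ) ^ 4 * (2 * (b : ℝ)) ^ 2
        ≤ 11664 * (2 * ((V : ℝ) ^ 3 * (b : ℝ))) ^ 4 * (2 * (b : ℝ)) ^ 2 := by gcongr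
      _ = 746496 * ((V : ℝ) ^ 4 * (b : ℝ) ^ 2) ^ 3 := by ring

/-- near-`2b''` pairs in a window of level `V`. -/
lemma nearE_two (P : Finset Pt) (hP : Generic P) (k V V' : ℕ) (hV : 1 ≤ V) (h2 : 2 * V ≤ V')
    (hN : V' ^ 3 ≤ P.card) (s t : ℝ)
    (hc : (cen P k (bb P.card V) s t).card ≤ 7 * bb P.card V) :
    ((nearE P k (2 * bb P.card V') s t).card : ℝ) ≤
      1215 * ((V' : ℝ) / V) ^ 4 * (bb P.card V' : ℝ) ^ 2 := by
  have hV' : 1 ≤ V' := by omega
  have hV0 : (1 : ℝ) ≤ (V : ℝ) := by exact_mod_cast hV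
  have hV0' : (1 : ℝ) ≤ (V' : ℝ) := by exact_mod_cast hV'
  have hVV : (V : ℝ) ≤ (V' : ℝ) := by exact_mod_cast (by omega : V ≤ V')
  have hb := one_le_bb hV' hN
  have hb0 : (1 : ℝ) ≤ (bb P.card V' : ℝ) := by exact_mod_cast hb
  have hNb : P.card ≤ 2 * (V' ^ 3 * bb P.card V') := N_le_bb hV' hN
  have hbV : bb P.card V * V ^ 3 ≤ P.card := bb_mul_le
  have h8 : 2 * bb P.card V' + 1 ≤ bb P.card V := by
    have h3 : 8 * V ^ 3 ≤ V' ^ 3 := by
      calc 8 * V ^ 3 = (2 * V) ^ 3 := by ring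
        _ ≤ V' ^ 3 := Nat.pow_le_pow_left h2 3
    have h4 : 8 * bb P.card V' ≤ bb P.card V := by
      unfold bb
      rw [Nat.le_div_iff_mul_le (by positivity)]
      calc 8 * (P.card / V' ^ 3) * V ^ 3 = (P.card / V' ^ 3) * (8 * V ^ 3) := by ring
        _ ≤ (P.card / V' ^ 3) * V' ^ 3 := Nat.mul_le_mul_left _ h3
        _ ≤ P.card := Nat.div_mul_le_self _ _
    omega
  set b := bb P.card V with hbd
  set b' := bb P.card V' with hbd'
  -- b ≤ 2 ρ^3 b'
  set ρ : ℝ := (V' : ℝ) / V with hρ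
  have hρ1 : 1 ≤ ρ := by rw [hρ, le_div_iff₀ (by positivity)]; linarith
  have hbρ : (b : ℝ) ≤ 2 * ρ ^ 3 * b' := by
    have h5 : (b : ℝ) * (V : ℝ) ^ 3 ≤ 2 * ((V' : ℝ) ^ 3 * b') := by
      exact_mod_cast hbV.trans hNb
    rw [hρ, div_pow, mul_div_assoc', div_mul_eq_mul_div, le_div_iff₀ (by positivity)]
    linarith
  have hAe : ActN P k (2 * b') s t ⊆ cen P k b s t :=
    ends_nearE_subset.trans (cen_mono h8 _root_.le_rfl _root_.le_rfl)
  have hc' : ((cen P k b s t).card : ℝ) ≤ 7 * (b : ℝ) := by exact_mod_cast hc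
  rcases W2_cube hP k (2 * b') (by omega) s t (A := cen P k b s t)
    (Finset.filter_subset _ _) hAe with h | h
  · refine h.trans ?_
    have h1 : ρ ^ 3 ≤ ρ ^ 4 := pow_le_pow_right₀ hρ1 (by norm_num)
    have h3 : (b' : ℝ) ≤ (b' : ℝ) ^ 2 := by nlinarith
    calc 18 * ((cen P k b s t).card : ℝ) ≤ 18 * (7 * (b : ℝ)) := by gcongr
      _ ≤ 18 * (7 * (2 * ρ ^ 3 * b')) := by gcongr
      _ = 252 * (ρ ^ 3 * b') := by ring
      _ ≤ 1215 * (ρ ^ 4 * (b' : ℝ) ^ 2) := by gcongr; norm_num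
      _ = _ := by ring
  · rw [mul_assoc]
    refine cube_le (c := 1792336896) (by norm_num) (by positivity) (by norm_num) (h.trans ?_)
    push_cast
    calc 11664 * ((cen P k b s t).card : ℝ) ^ 4 * (2 * (b' : ℝ)) ^ 2
        ≤ 11664 * (7 * (2 * ρ ^ 3 * b')) ^ 4 * (2 * (b' : ℝ)) ^ 2 := by
          have : ((cen P k b s t).card : ℝ) ≤ 7 * (2 * ρ ^ 3 * b') := by
            refine hc'.trans ?_
            gcongr
          gcongr
      _ = 1792336896 * (ρ ^ 4 * (b' : ℝ) ^ 2) ^ 3 := by ring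

end WinD

open WinD

/-- **W1.** Existence of window systems. -/
theorem w1 (V : ℕ → ℕ) (L : ℕ) (hV0 : 1 ≤ V 0) (hV : ∀ l < L, 2 * V l ≤ V (l + 1))
    (P : Finset Pt) (hP : Generic P) (hN : (V L) ^ 3 ≤ P.card) (k : ℕ) :
    Nonempty (WSys P k V L 2433) := by
  -- elementary facts on `V`
  have hVpos : ∀ l ≤ L, 1 ≤ V l := fun l hl => hV0.trans (V_mono hV 0 l (Nat.zero_le _) hl)
  have hVN : ∀ l ≤ L, (V l) ^ 3 ≤ P.card := fun l hl =>
    (Nat.pow_le_pow_left (V_mono hV l L hl le_rfl) 3).trans hN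
  have hbpos : ∀ l ≤ L, 1 ≤ bb P.card (V l) := fun l hl => one_le_bb (hVpos l hl) (hVN l hl)
  -- bounds for the slopes
  set T : Finset ℝ := slo (pairs P) with hT
  obtain ⟨lo, hlo⟩ : ∃ lo, ∀ x ∈ T, lo < x := by
    rcases T.eq_empty_or_nonempty with h | h
    · exact ⟨0, by simp [h]⟩
    · exact ⟨T.min' h - 1, fun x hx => by linarith [Finset.min'_le T x hx]⟩
  obtain ⟨hi, hhi'⟩ : ∃ hi, lo < hi ∧ ∀ x ∈ T, x < hi := by
    rcases T.eq_empty_or_nonempty with h | h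
    · exact ⟨lo + 1, by linarith, by simp [h]⟩
    · refine ⟨T.max' h + 1, ?_, fun x hx => by linarith [Finset.le_max' T x hx]⟩
      linarith [hlo _ (Finset.max'_mem T h)]
  obtain ⟨hlh, hhi⟩ := hhi'
  have hsub : ∀ l, slo (nearAll P k (2 * bb P.card (V l))) ⊆ T := fun l =>
    Finset.image_subset_image nearAll_subset_pairs
  -- the cuts of each level
  have hcut : ∀ l, ∃ C : Finset ℝ, l ≤ L →
      (∀ c ∈ C, lo < c ∧ c < hi ∧ c ∉ T) ∧
      (∀ s t : ℝ, (∀ c ∈ C, ¬ (s < c ∧ c < t)) →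
        (nearE P k (2 * bb P.card (V l)) s t).card ≤ (bb P.card (V l)) ^ 2) ∧
      (∀ s t : ℝ, cin C s t ≤
        (nearE P k (2 * bb P.card (V l)) s t).card / (bb P.card (V l)) ^ 2 + 1) ∧
      C.card ≤ (nearAll P k (2 * bb P.card (V l))).card / (bb P.card (V l)) ^ 2 := by
    intro l
    by_cases hl : l ≤ L
    · obtain ⟨C, h1, h2, h3, h4⟩ := cut_lemma (slo (nearAll P k (2 * bb P.card (V l)))) T hlh
        (fun x hx => ⟨hlo x (hsub l hx), hhi x (hsub l hx)⟩) (m := (bb P.card (V l)) ^ 2)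
        (Nat.one_le_pow _ _ (hbpos l hl))
      refine ⟨C, fun _ => ⟨h1, ?_, ?_, ?_⟩⟩
      · intro s t hst
        rw [← slo_cin hP]
        exact h2 s t hst
      · intro s t
        rw [← slo_cin hP]
        exact h3 s t
      · rw [← slo_card hP nearAll_subset_pairs]
        exact h4
    · exact ⟨∅, fun h => absurd h hl⟩
  choose C hC using hcut
  set cuts : ℕ → Finset ℝ := fun l => {lo, hi} ∪ (Finset.range (l + 1)).biUnion C with hcuts
  have mem_cuts : ∀ l x, x ∈ cuts l ↔ x = lo ∨ x = hi ∨ ∃ i ≤ l, x ∈ C i := by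
    intro l x
    simp only [hcuts, Finset.mem_union, Finset.mem_insert, Finset.mem_singleton,
      Finset.mem_biUnion, Finset.mem_range, Nat.lt_succ_iff, or_assoc]
  have hlohi : ∀ l ≤ L, ∀ c ∈ cuts l, lo ≤ c ∧ c ≤ hi := by
    intro l hl c hc
    rcases (mem_cuts l c).1 hc with rfl | rfl | ⟨i, hil, hci⟩
    · exact ⟨le_rfl, hlh.le⟩
    · exact ⟨hlh.le, le_rfl⟩
    · have := ((hC i (hil.trans hl)).1 c hci)
      exact ⟨this.1.le, this.2.1.le⟩
  have hnons : ∀ l ≤ L, ∀ c ∈ cuts l, NonSlope P c := by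
    intro l hl c hc e he hec
    have heT : esl e ∈ T := Finset.mem_image.2 ⟨e, he, rfl⟩
    rcases (mem_cuts l c).1 hc with rfl | rfl | ⟨i, hil, hci⟩
    · exact absurd (hlo _ heT) (by rw [hec]; exact lt_irrefl _)
    · exact absurd (hhi _ heT) (by rw [hec]; exact lt_irrefl _)
    · exact ((hC i (hil.trans hl)).1 c hci).2.2 (hec ▸ heT)
  have hfree : ∀ l ≤ L, ∀ J ∈ wins (cuts l), ∀ i ≤ l, ∀ c ∈ C i, ¬ (J.1 < c ∧ c < J.2) := by
    intro l hl J hJ i hi c hc
    exact (mem_wins.1 hJ).2.2.2 c ((mem_cuts l c).2 (Or.inr (Or.inr ⟨i, hi, hc⟩)))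
  have hfew : ∀ l ≤ L, ∀ J ∈ wins (cuts l),
      (nearE P k (2 * bb P.card (V l)) J.1 J.2).card ≤ (bb P.card (V l)) ^ 2 := by
    intro l hl J hJ
    exact (hC l hl).2.1 J.1 J.2 (hfree l hl J hJ l le_rfl)
  have hcen : ∀ l ≤ L, ∀ J ∈ wins (cuts l),
      (cen P k (bb P.card (V l)) J.1 J.2).card ≤ 7 * bb P.card (V l) := by
    intro l hl J hJ
    have hJ' := mem_wins.1 hJ
    have h1 := Active.active_card hP hJ'.2.2.1.le (hnons l hl _ hJ'.1) (hnons l hl _ hJ'.2.1) k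
      (bb P.card (V l))
    have h2 := hfew l hl J hJ
    have h3 : cen P k (bb P.card (V l)) J.1 J.2 ⊆ Active.Actv P k (bb P.card (V l)) J.1 J.2 := by
      intro p hp
      obtain ⟨hp1, θ, hp2, hp3, hp4⟩ := mem_cen.1 hp
      exact Finset.mem_filter.2 ⟨hp1, θ, hp2.le, hp3.le, hp4⟩
    have h4 := hbpos l hl
    set b := bb P.card (V l)
    have h5 : b * (cen P k b J.1 J.2).card ≤ b * (7 * b) := by
      calc b * (cen P k b J.1 J.2).card ≤ b * (Active.Actv P k b J.1 J.2).card :=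
            Nat.mul_le_mul_left _ (Finset.card_le_card h3)
        _ ≤ b * (4 * b + 1) + 2 * (nearE P k (2 * b) J.1 J.2).card := h1
        _ ≤ b * (4 * b + 1) + 2 * b ^ 2 := by omega
        _ ≤ b * (7 * b) := by nlinarith
    exact Nat.le_of_mul_le_mul_left h5 h4
  have hsum : ∀ l ≤ L, ∑ i ∈ Finset.range (l + 1), (V i : ℝ) ^ 4 ≤ 2 * (V l : ℝ) ^ 4 := geo hV
  refine ⟨{ cuts := cuts, lo := lo, hi := hi, sub := ?_, nons := hnons, lo_mem := ?_, hi_mem := ?_,
            lo_le := fun l hl c hc => (hlohi l hl c hc).1,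
            le_hi := fun l hl c hc => (hlohi l hl c hc).2,
            lo_lt_slope := fun e he => hlo _ (Finset.mem_image.2 ⟨e, he, rfl⟩),
            slope_lt_hi := fun e he => hhi _ (Finset.mem_image.2 ⟨e, he, rfl⟩),
            few := hfew, cen_le := hcen, count_in := ?_, count_all := ?_ }⟩
  · intro l l' hll _ x hx
    rcases (mem_cuts l x).1 hx with h | h | ⟨i, h1, h2⟩
    · exact (mem_cuts l' x).2 (Or.inl h)
    · exact (mem_cuts l' x).2 (Or.inr (Or.inl h))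
    · exact (mem_cuts l' x).2 (Or.inr (Or.inr ⟨i, h1.trans hll, h2⟩))
  · exact (mem_cuts 0 lo).2 (Or.inl rfl)
  · exact (mem_cuts 0 hi).2 (Or.inr (Or.inl rfl))
  · -- count_in
    intro l l' hll hl' J hJ
    have hl : l ≤ L := hll.trans hl'
    have hJ' := mem_wins.1 hJ
    have hVl : (1 : ℝ) ≤ (V l : ℝ) := by exact_mod_cast hVpos l hl
    have hVll : (V l : ℝ) ≤ (V l' : ℝ) := by exact_mod_cast V_mono hV l l' hll hl'
    -- the cuts of level `l'` inside `J`
    have hinj : ((wins (cuts l')).filter (fun J' => J.1 ≤ J'.1 ∧ J'.2 ≤ J.2)).card ≤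
        (insert J.1 ((cuts l').filter (fun x => J.1 < x ∧ x < J.2))).card := by
      refine Finset.card_le_card_of_injOn Prod.fst ?_ ?_
      · intro J' hJ2
        obtain ⟨g1, g2, g3⟩ := Finset.mem_filter.1 (Finset.mem_coe.1 hJ2)
        have g4 := mem_wins.1 g1
        rw [Finset.mem_coe, Finset.mem_insert]
        rcases g2.eq_or_lt with h | h
        · exact Or.inl h.symm
        · exact Or.inr (Finset.mem_filter.2 ⟨g4.1, h, g4.2.2.1.trans_le g3⟩)
      · intro J1 h1 J2 h2 h12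
        have hJ1 := mem_wins.1 (Finset.mem_filter.1 (Finset.mem_coe.1 h1)).1
        have hJ2 := mem_wins.1 (Finset.mem_filter.1 (Finset.mem_coe.1 h2)).1
        have h12' : J1.1 = J2.1 := h12
        refine Prod.ext h12' ?_
        rcases lt_trichotomy J1.2 J2.2 with h | h | h
        · exact absurd ⟨by rw [← h12']; exact hJ1.2.2.1, h⟩ (hJ2.2.2.2 _ hJ1.2.1)
        · exact h
        · exact absurd ⟨by rw [h12']; exact hJ2.2.2.1, h⟩ (hJ1.2.2.2 _ hJ2.2.1)
    have hsub2 : (cuts l').filter (fun x => J.1 < x ∧ x < J.2) ⊆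
        (Finset.Ioc l l').biUnion (fun i => (C i).filter (fun x => J.1 < x ∧ x < J.2)) := by
      intro x hx
      obtain ⟨hx1, hx2⟩ := Finset.mem_filter.1 hx
      rcases (mem_cuts l' x).1 hx1 with h | h | ⟨i, h1, h2⟩
      · exact absurd hx2.1 (not_lt.2 (h ▸ (hlohi l hl _ hJ'.1).1))
      · exact absurd hx2.2 (not_lt.2 (h ▸ (hlohi l hl _ hJ'.2.1).2))
      · rcases le_or_gt i l with h3 | h3
        · exact absurd hx2 (hfree l hl J hJ i h3 x h2)
        · exact Finset.mem_biUnion.2 ⟨i, Finset.mem_Ioc.2 ⟨h3, h1⟩,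
            Finset.mem_filter.2 ⟨h2, hx2⟩⟩
    have hone : ∀ i ∈ Finset.Ioc l l', (((C i).filter (fun x => J.1 < x ∧ x < J.2)).card : ℝ) ≤
        1216 * ((V i : ℝ) / V l) ^ 4 := by
      intro i hi
      obtain ⟨hi1, hi2⟩ := Finset.mem_Ioc.1 hi
      have hiL : i ≤ L := hi2.trans hl'
      have h1 := (hC i hiL).2.2.1 J.1 J.2
      have h2 := nearE_two P hP k (V l) (V i) (hVpos l hl) (V_lt hV hi1 hiL) (hVN i hiL) J.1 J.2
        (hcen l hl J hJ)
      have hbi : (1 : ℝ) ≤ (bb P.card (V i) : ℝ) := by exact_mod_cast hbpos i hiL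
      have h3 : ((nearE P k (2 * bb P.card (V i)) J.1 J.2).card / (bb P.card (V i)) ^ 2 : ℕ) ≤
          1215 * ((V i : ℝ) / V l) ^ 4 := by
        have hb0 : (0 : ℝ) < (bb P.card (V i) : ℝ) := by linarith
        refine (Nat.cast_div_le).trans ?_
        rw [div_le_iff₀ (by push_cast; positivity)]
        push_cast
        exact h2
      have h4 : (1 : ℝ) ≤ ((V i : ℝ) / V l) ^ 4 := by
        apply one_le_pow₀
        rw [le_div_iff₀ (by positivity), one_mul]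
        exact_mod_cast V_mono hV l i hi1.le hiL
      have h5 : (((C i).filter (fun x => J.1 < x ∧ x < J.2)).card : ℝ) ≤
          ((nearE P k (2 * bb P.card (V i)) J.1 J.2).card / (bb P.card (V i)) ^ 2 : ℕ) + 1 := by
        exact_mod_cast h1
      linarith
    have hsum2 : ∑ i ∈ Finset.Ioc l l', (V i : ℝ) ^ 4 ≤ 2 * (V l' : ℝ) ^ 4 := by
      refine le_trans (Finset.sum_le_sum_of_subset_of_nonneg ?_ (fun _ _ _ => by positivity))
        (hsum l' hl')
      intro i hi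
      rw [Finset.mem_Ioc] at hi
      rw [Finset.mem_range]
      omega
    have htot : (((cuts l').filter (fun x => J.1 < x ∧ x < J.2)).card : ℝ) ≤
        2432 * ((V l' : ℝ) / V l) ^ 4 := by
      calc (((cuts l').filter (fun x => J.1 < x ∧ x < J.2)).card : ℝ)
          ≤ ((∑ i ∈ Finset.Ioc l l', ((C i).filter (fun x => J.1 < x ∧ x < J.2)).card : ℕ) : ℝ) := by
            exact_mod_cast (Finset.card_le_card hsub2).trans Finset.card_biUnion_le
        _ = ∑ i ∈ Finset.Ioc l l', (((C i).filter (fun x => J.1 < x ∧ x < J.2)).card : ℝ) := by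
            push_cast; rfl
        _ ≤ ∑ i ∈ Finset.Ioc l l', 1216 * ((V i : ℝ) / V l) ^ 4 := Finset.sum_le_sum hone
        _ = 1216 / (V l : ℝ) ^ 4 * ∑ i ∈ Finset.Ioc l l', (V i : ℝ) ^ 4 := by
            rw [Finset.mul_sum]
            refine Finset.sum_congr rfl (fun i _ => ?_)
            rw [div_pow]
            ring
        _ ≤ 1216 / (V l : ℝ) ^ 4 * (2 * (V l' : ℝ) ^ 4) := by gcongr
        _ = 2432 * ((V l' : ℝ) / V l) ^ 4 := by rw [div_pow]; ring
    have h4 : (1 : ℝ) ≤ ((V l' : ℝ) / V l) ^ 4 := by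
      apply one_le_pow₀
      rw [le_div_iff₀ (by positivity), one_mul]
      exact hVll
    calc (((wins (cuts l')).filter (fun J' => J.1 ≤ J'.1 ∧ J'.2 ≤ J.2)).card : ℝ)
        ≤ (((cuts l').filter (fun x => J.1 < x ∧ x < J.2)).card + 1 : ℕ) := by
          exact_mod_cast hinj.trans (Finset.card_insert_le _ _)
      _ ≤ 2432 * ((V l' : ℝ) / V l) ^ 4 + 1 := by push_cast; linarith
      _ ≤ 2433 * ((V l' : ℝ) / V l) ^ 4 := by linarith
  · -- count_all
    intro l hl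
    have hVl : (1 : ℝ) ≤ (V l : ℝ) := by exact_mod_cast hVpos l hl
    have hone : ∀ i ∈ Finset.range (l + 1), ((C i).card : ℝ) ≤ 91 * (V i : ℝ) ^ 4 := by
      intro i hi
      have hiL : i ≤ L := by
        have := Finset.mem_range.1 hi
        omega
      have h1 := (hC i hiL).2.2.2
      have h2 := nearAll_two P hP k (V i) (hVpos i hiL) (hVN i hiL)
      have hbi : (1 : ℝ) ≤ (bb P.card (V i) : ℝ) := by exact_mod_cast hbpos i hiL
      have h3 : ((nearAll P k (2 * bb P.card (V i))).card / (bb P.card (V i)) ^ 2 : ℕ) ≤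
          91 * (V i : ℝ) ^ 4 := by
        have hb0 : (0 : ℝ) < (bb P.card (V i) : ℝ) := by linarith
        refine (Nat.cast_div_le).trans ?_
        rw [div_le_iff₀ (by push_cast; positivity)]
        push_cast
        exact h2
      exact le_trans (by exact_mod_cast h1) h3
    have hc1 : (cuts l).card ≤ 2 + ∑ i ∈ Finset.range (l + 1), (C i).card := by
      refine (Finset.card_union_le _ _).trans (Nat.add_le_add ?_ Finset.card_biUnion_le)
      exact Finset.card_le_two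
    calc ((cuts l).card : ℝ) ≤ 2 + ∑ i ∈ Finset.range (l + 1), ((C i).card : ℝ) := by
          exact_mod_cast hc1
      _ ≤ 2 + ∑ i ∈ Finset.range (l + 1), 91 * (V i : ℝ) ^ 4 := by
          gcongr with i hi; exact hone i hi
      _ = 2 + 91 * ∑ i ∈ Finset.range (l + 1), (V i : ℝ) ^ 4 := by rw [Finset.mul_sum]
      _ ≤ 2 + 91 * (2 * (V l : ℝ) ^ 4) := by gcongr; exact hsum l hl
      _ ≤ 2433 * (V l : ℝ) ^ 4 := by
          have : (1 : ℝ) ≤ (V l : ℝ) ^ 4 := one_le_pow₀ hVl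
          linarith

/-- **IW1** -/
theorem iw1_of : ∀ (V : ℕ → ℕ) (L : ℕ), 1 ≤ V 0 → (∀ l < L, 2 * V l ≤ V (l + 1)) → ∃ N0 : ℕ,
    ∀ P : Finset Pt, Generic P → N0 ≤ P.card → ∀ k : ℕ, Nonempty (WSys P k V L 2433) :=
  fun V L h0 h1 => ⟨(V L) ^ 3, fun P hP hN k => w1 V L h0 h1 P hP hN k⟩

end Crest.Agent.R51
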