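import Crest.Agent.R51.Loc6
import Crest.Agent.R51.WinSysB
import Crest.Agent.R51.WinFin
import Crest.Agent.R51.WalkT24

/-!
# Row 51, B4 (locality lemma) and (t2): final form (helper476)
-/

set_option autoImplicit false

noncomputable section

open Classical

namespace Crest.Agent.R51

/-- **B4** (locality lemma) -/
theorem Loc.b4 : Loc.B4Prop :=
  Loc.b4_of_W15 (Cw := 2433) (by norm_num) iw1_of (by norm_num) w5V

/-- **(t2)** -/
theorem i2 : I2 := i2_of Loc.b4

end Crest.Agent.R51
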