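import Crest.Agent.R51.TrimWin
import Crest.Agent.R51.WalkH
import Crest.Agent.R51.CrossStr
import Crest.Agent.R51.Dey

/-!
# Row 51: `I5`, `I6`, `I7` of WalkH.lean  (helper209)
-/

set_option autoImplicit false

noncomputable section

open Classical

namespace Crest.Agent.R51.TrimI

/-- Dey's bound, cube form (W0) -/
theorem nearAll_cube {P : Finset Pt} (hP : Generic P) (k : ℕ) {b : ℕ} (hb : 1 ≤ b) :
    ((nearAll P k b).card : ℝ) ≤ 18 * P.card ∨
      ((nearAll P k b).card : ℝ) ^ 3 ≤ 11664 * (b : ℝ) ^ 2 * (P.card : ℝ) ^ 4 := by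
  rcases crossing_lemma hP (A := P) (E := nearAll P k b) (Finset.Subset.refl _)
    nearAll_subset with h | h
  · exact Or.inl h
  · right
    refine h.trans ?_
    have h1 := dey_all hP k b k b hb hb
    have h2 : ((crs (nearAll P k b) (nearAll P k b) : ℕ) : ℝ) ≤
        18 * b * b * P.card * P.card := by exact_mod_cast h1
    calc 648 * (P.card : ℝ) ^ 2 * (crs (nearAll P k b) (nearAll P k b) : ℝ)
        ≤ 648 * (P.card : ℝ) ^ 2 * (18 * b * b * P.card * P.card) :=
          mul_le_mul_of_nonneg_left h2 (by positivity)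
      _ = _ := by ring

end Crest.Agent.R51.TrimI

namespace Crest.Agent.R51

open TrimI TrimWin

/-- **(t6)_l** -/
theorem i6 : I6 := by
  intro Cw lam1 lam3 _ hlam1 hlam3 P _ k Vp _ V L W l hl hV
  have hD : 0 ≤ DD P Vp := by unfold DD; positivity
  have h := t6_W W hl hV (b' := bb P.card Vp) (Λ := lam1 * DD P Vp)
    (mul_nonneg (by linarith) hD) (lam3 := lam3) (by linarith)
  refine h.trans (le_of_eq ?_)
  ring

/-- **(t7)_l** -/
theorem i7 : I7 := by
  intro Cw lam1 lam2 lam3 _ hlam1 hlam2 hlam3 P _ k Vp _ V L W l n0 hl hn0 hV hV0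
  have hD : 0 ≤ DD P Vp := by unfold DD; positivity
  have hVp : (0 : ℝ) < V l := by exact_mod_cast hV
  have h := t7_W W hl hn0 hV hV0 (b' := bb P.card Vp) (Λ := lam1 * DD P Vp)
    (Λl := lam2 * DD P Vp / (V l : ℝ)) (lam3 := lam3)
    (mul_nonneg (by linarith) hD) (div_nonneg (mul_nonneg (by linarith) hD) hVp.le) (by linarith)
    (H := (TT P k Vp lam1).filter (fun z => G3 W Vp lam2 l z))
    (Finset.filter_subset _ _) (fun z hz => (Finset.mem_filter.1 hz).2)
  rw [Finset.filter_filter] at h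
  refine h.trans (le_of_eq ?_)
  field_simp

/-- **(t5)** -/
theorem i5 : I5 := by
  intro Cw lam1 lam2 kap ε _ hlam1 hlam2 hkap hkap2 hε
  set Q : ℝ := 1492992 * lam1 ^ 3 * lam2 ^ 3 / ε ^ 3 with hQ
  have hl1 : 0 < lam1 := by linarith
  have hl2 : 0 < lam2 := by linarith
  have hQ0 : 0 < Q := by rw [hQ]; positivity
  refine ⟨⌈Q⌉₊ + 1, by omega, ?_⟩
  intro v vb hv hvb
  refine ⟨0, fun Vp _ => ⟨max (2 * v ^ 3) ⌈144 * lam1 * lam2 * (v : ℝ) ^ 2 / ε⌉₊, ?_⟩⟩
  intro P hP hN k V L W l hl hVl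
  set LL : ℕ := ⌈Q⌉₊ + 1 with hLL
  set B : ℕ := LL * bb P.card (V l) with hB
  have hD : 0 ≤ DD P Vp := by unfold DD; positivity
  have hN1 : 2 * v ^ 3 ≤ P.card := le_trans (le_max_left _ _) hN
  have hN2 : 144 * lam1 * lam2 * (v : ℝ) ^ 2 / ε ≤ (P.card : ℝ) := by
    refine (Nat.le_ceil _).trans ?_
    exact_mod_cast le_trans (le_max_right _ _) hN
  have hvr : (1 : ℝ) ≤ v := by exact_mod_cast hv
  have hv0 : (0 : ℝ) < v := by linarith
  have hv3 : 1 ≤ v ^ 3 := Nat.one_le_pow _ _ hv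
  -- size of the level width
  have hbb : (P.card : ℝ) / (2 * (v : ℝ) ^ 3) ≤ (bb P.card v : ℝ) := by
    unfold bb
    have h1 : P.card < (P.card / v ^ 3 + 1) * v ^ 3 := by
      have := Nat.lt_div_mul_add (a := P.card) (b := v ^ 3) (by omega)
      calc P.card < P.card / v ^ 3 * v ^ 3 + v ^ 3 := this
        _ = _ := by ring
    have h2 : 2 ≤ P.card / v ^ 3 := (Nat.le_div_iff_mul_le (by omega)).2 hN1
    have h3 : P.card ≤ 2 * v ^ 3 * (P.card / v ^ 3) := by nlinarith
    rw [div_le_iff₀ (by positivity)]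
    have h4 : (P.card : ℝ) ≤ 2 * (v : ℝ) ^ 3 * ((P.card / v ^ 3 : ℕ) : ℝ) := by exact_mod_cast h3
    linarith
  have hbb1 : 1 ≤ bb P.card v := by
    unfold bb
    exact (Nat.le_div_iff_mul_le (by omega)).2 (by omega)
  have hB1 : 1 ≤ B := by
    rw [hB, hVl]
    exact Nat.mul_pos (by omega) (by omega)
  have hLLQ : Q ≤ (LL : ℝ) := by
    rw [hLL]
    push_cast
    have := Nat.le_ceil Q
    linarith
  have hLL1 : (1 : ℝ) ≤ LL := by rw [hLL]; push_cast; have := Nat.cast_nonneg (α := ℝ) ⌈Q⌉₊; linarith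
  have hBr : (LL : ℝ) * ((P.card : ℝ) / (2 * (v : ℝ) ^ 3)) ≤ (B : ℝ) := by
    rw [hB, hVl]
    push_cast
    exact mul_le_mul_of_nonneg_left hbb (by linarith)
  have hBpos : (0 : ℝ) < B := by exact_mod_cast hB1
  have hNpos : (0 : ℝ) < P.card := by
    have : 1 ≤ P.card := by omega
    exact_mod_cast this
  -- the centrality parameter
  have ha : 2 * ⌊kap * (bb P.card vb : ℝ)⌋₊ ≤ B := by
    have h1 : (⌊kap * (bb P.card vb : ℝ)⌋₊ : ℝ) ≤ kap * (bb P.card vb : ℝ) :=
      Nat.floor_le (by positivity)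
    have h2 : bb P.card vb ≤ bb P.card v := by
      unfold bb
      exact Nat.div_le_div_left (Nat.pow_le_pow_left hvb 3) (by omega)
    have h3 : (bb P.card vb : ℝ) ≤ (bb P.card v : ℝ) := by exact_mod_cast h2
    have h4 : (2 : ℝ) * (⌊kap * (bb P.card vb : ℝ)⌋₊ : ℝ) ≤ (bb P.card v : ℝ) := by
      have h5 : kap * (bb P.card vb : ℝ) ≤ 1 / 2 * (bb P.card v : ℝ) := by
        apply mul_le_mul hkap2 h3 (Nat.cast_nonneg _) (by norm_num)
      linarith
    have h5 : 2 * ⌊kap * (bb P.card vb : ℝ)⌋₊ ≤ bb P.card v := by exact_mod_cast h4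
    refine h5.trans ?_
    rw [hB, hVl]
    exact Nat.le_mul_of_pos_left _ (by omega)
  -- the edge bound
  have hE : ((nearAll P k B).card : ℝ) ≤ ε * P.card * B * v / (4 * lam1 * lam2) := by
    rcases nearAll_cube hP k hB1 with h | h
    · refine h.trans ?_
      rw [le_div_iff₀ (by positivity)]
      have h6 : 72 * lam1 * lam2 ≤ ε * B * v := by
        have h7 : (P.card : ℝ) / (2 * (v : ℝ) ^ 3) ≤ (B : ℝ) := by
          refine le_trans ?_ hBr
          have h8 : (0 : ℝ) ≤ (P.card : ℝ) / (2 * (v : ℝ) ^ 3) := by positivity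
          nlinarith
        have h9 : 72 * lam1 * lam2 / (ε * v) ≤ (P.card : ℝ) / (2 * (v : ℝ) ^ 3) := by
          rw [div_le_div_iff₀ (by positivity) (by positivity)]
          rw [div_le_iff₀ hε] at hN2
          have h10 : 0 ≤ (v : ℝ) := hv0.le
          nlinarith [mul_le_mul_of_nonneg_right hN2 h10]
        have h11 := h9.trans h7
        rw [div_le_iff₀ (by positivity)] at h11
        linarith
      have h12 : (0 : ℝ) ≤ P.card := Nat.cast_nonneg _
      nlinarith [mul_le_mul_of_nonneg_left h6 h12]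
    · have hpos : (0 : ℝ) ≤ ε * P.card * B * v / (4 * lam1 * lam2) := by positivity
      refine le_of_pow_le_pow_left₀ (n := 3) (by norm_num) hpos (h.trans ?_)
      have e1 : (ε * P.card * B * v / (4 * lam1 * lam2)) ^ 3 =
          (B : ℝ) ^ 2 * (P.card : ℝ) ^ 3 * (ε ^ 3 * (B * (v : ℝ) ^ 3) /
            (64 * lam1 ^ 3 * lam2 ^ 3)) := by
        field_simp
        ring
      have e2 : 11664 * (B : ℝ) ^ 2 * (P.card : ℝ) ^ 4 =
          (B : ℝ) ^ 2 * (P.card : ℝ) ^ 3 * (11664 * P.card) := by ring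
      rw [e1, e2]
      refine mul_le_mul_of_nonneg_left ?_ (by positivity)
      rw [le_div_iff₀ (by positivity)]
      have h13 : Q * (P.card : ℝ) ≤ 2 * (B * (v : ℝ) ^ 3) := by
        have h14 : (LL : ℝ) * (P.card : ℝ) ≤ 2 * (B * (v : ℝ) ^ 3) := by
          have h15 := mul_le_mul_of_nonneg_right hBr (show (0 : ℝ) ≤ 2 * (v : ℝ) ^ 3 by positivity)
          have e3 : (LL : ℝ) * ((P.card : ℝ) / (2 * (v : ℝ) ^ 3)) * (2 * (v : ℝ) ^ 3) =
              LL * P.card := by field_simp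
          rw [e3] at h15
          linarith
        exact (mul_le_mul_of_nonneg_right hLLQ hNpos.le).trans h14
      have h16 : 11664 * (P.card : ℝ) * (64 * lam1 ^ 3 * lam2 ^ 3) =
          ε ^ 3 * (Q * P.card) / 2 := by
        rw [hQ]
        field_simp
        ring
      rw [h16]
      have h17 := mul_le_mul_of_nonneg_left h13 (show (0 : ℝ) ≤ ε ^ 3 by positivity)
      linarith
  -- apply (t5)
  have hVl0 : (0 : ℝ) < V l := by rw [hVl]; exact hv0
  have h := t5 hP W hl (b' := bb P.card Vp) ha (Λ := lam1 * DD P Vp)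
    (Λl := lam2 * DD P Vp / (V l : ℝ)) (mul_nonneg hl1.le hD)
    (div_nonneg (mul_nonneg hl2.le hD) hVl0.le)
    (H := (TT P k Vp lam1).filter (fun z => G3 W Vp lam2 l z ∧
        Central P k ⌊kap * (bb P.card vb : ℝ)⌋₊ (esl (lastE z)) z.1))
    (Finset.filter_subset _ _) (fun z hz => (Finset.mem_filter.1 hz).2.1)
    (fun z hz => (Finset.mem_filter.1 hz).2.2)
  rw [Finset.filter_filter] at h
  have e4 : ((TT P k Vp lam1).filter (fun z => G3 W Vp lam2 l z ∧
        Central P k ⌊kap * (bb P.card vb : ℝ)⌋₊ (esl (lastE z)) z.1 ∧ ¬ G5 W LL l z)).card ≤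
      ((TT P k Vp lam1).filter (fun z => (G3 W Vp lam2 l z ∧
        Central P k ⌊kap * (bb P.card vb : ℝ)⌋₊ (esl (lastE z)) z.1) ∧
        ¬ ∀ θ, (winOf (W.cuts l) (esl (lastE z))).1 < θ →
          θ < (winOf (W.cuts l) (esl (lastE z))).2 → Central P k B θ z.1)).card := by
    refine Finset.card_le_card fun z hz => ?_
    rw [Finset.mem_filter] at hz ⊢
    exact ⟨hz.1, ⟨hz.2.1, hz.2.2.1⟩, hz.2.2.2⟩
  have e5 : (((TT P k Vp lam1).filter (fun z => G3 W Vp lam2 l z ∧
        Central P k ⌊kap * (bb P.card vb : ℝ)⌋₊ (esl (lastE z)) z.1 ∧ ¬ G5 W LL l z)).card : ℝ) * B ≤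
      4 * ((nearAll P k B).card : ℝ) * (lam1 * DD P Vp * (lam2 * DD P Vp / (V l : ℝ))) := by
    refine le_trans ?_ h
    refine mul_le_mul_of_nonneg_right ?_ hBpos.le
    exact_mod_cast e4
  refine le_of_mul_le_mul_right ?_ hBpos
  refine e5.trans ?_
  rw [hVl]
  have hq : (0 : ℝ) ≤ lam1 * DD P Vp * (lam2 * DD P Vp / (v : ℝ)) := by positivity
  calc 4 * ((nearAll P k B).card : ℝ) * (lam1 * DD P Vp * (lam2 * DD P Vp / (v : ℝ)))
      ≤ 4 * (ε * P.card * B * v / (4 * lam1 * lam2)) *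
          (lam1 * DD P Vp * (lam2 * DD P Vp / (v : ℝ))) :=
        mul_le_mul_of_nonneg_right (mul_le_mul_of_nonneg_left hE (by norm_num)) hq
    _ = ε * (P.card : ℝ) * DD P Vp ^ 2 * B := by
        field_simp

end Crest.Agent.R51
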