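import Crest.Agent.R51.Level2
import Crest.Agent.R51.CrossStr
import Crest.Agent.R51.Dey
import Crest.Agent.R51.WalkH

/-!
# Row 51, B5, section 5.1: lower bound for the number of monotone 2-walks (helper774)
-/

set_option autoImplicit false

noncomputable section

open Classical

namespace Crest.Agent.R51

namespace W51

lemma crs_mono {E E' F F' : Finset Edge} (h : E ⊆ E') (h' : F ⊆ F') : crs E F ≤ crs E' F' := by
  unfold crs
  exact Finset.card_le_card (Finset.filter_subset_filter _ (Finset.product_subset_product h h'))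

/-- A window containing all slopes. -/
lemma exists_wide (P : Finset Pt) : ∃ s t : ℝ, s < t ∧ NonSlope P s ∧ NonSlope P t ∧
    ∀ e ∈ pairs P, s < esl e ∧ esl e < t := by
  obtain ⟨s, hs⟩ : ∃ s, ∀ e ∈ pairs P, s < esl e := by
    rcases (pairs P).eq_empty_or_nonempty with h | h
    · exact ⟨0, by simp [h]⟩
    · obtain ⟨m, _, hm2⟩ := Finset.exists_min_image (pairs P) esl h
      exact ⟨esl m - 1, fun e he => by have := hm2 e he; linarith⟩
  obtain ⟨t, ht⟩ : ∃ t, ∀ e ∈ pairs P, esl e < t := by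
    rcases (pairs P).eq_empty_or_nonempty with h | h
    · exact ⟨0, by simp [h]⟩
    · obtain ⟨m, _, hm2⟩ := Finset.exists_max_image (pairs P) esl h
      exact ⟨esl m + 1, fun e he => by have := hm2 e he; linarith⟩
  refine ⟨min s (t - 1), t, ?_, ?_, ?_, ?_⟩
  · have := min_le_right s (t - 1)
    linarith
  · intro e he h
    have := min_le_left s (t - 1)
    have := hs e he
    linarith
  · intro e he h
    exact absurd (ht e he) (by rw [h]; exact lt_irrefl _)
  · intro e he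
    exact ⟨lt_of_le_of_lt (min_le_left _ _) (hs e he), ht e he⟩

/-- left degree -/
def dL (E : Finset Edge) (w : Pt) : ℕ := (E.filter (fun e => e.2 = w)).card
/-- right degree -/
def dR (E : Finset Edge) (w : Pt) : ℕ := (E.filter (fun e => e.1 = w)).card

lemma nearE_wide {P : Finset Pt} {k b : ℕ} {s t : ℝ}
    (h : ∀ e ∈ pairs P, s < esl e ∧ esl e < t) : nearE P k b s t = nearAll P k b := by
  ext e
  rw [mem_nearE, mem_nearAll]
  constructor
  · exact fun h' => ⟨h'.1, h'.2.2.2⟩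
  · exact fun h' => ⟨h'.1, (h e h'.1).1, (h e h'.1).2, h'.2⟩

lemma deg_eq {P : Finset Pt} {E : Finset Edge} (hE : E ⊆ pairs P) (w : Pt) :
    dg E w = dL E w + dR E w := by
  unfold dg dL dR
  rw [Finset.filter_or, add_comm, Finset.card_union_of_disjoint]
  rw [Finset.disjoint_left]
  intro e he he'
  have h1 := Finset.mem_filter.1 he
  have h2 := (Finset.mem_filter.1 he').2
  have h3 := (mem_pairs.1 (hE h1.1)).2.2
  rw [h1.2, h2] at h3
  exact lt_irrefl _ h3

lemma deg_balance {P : Finset Pt} (hG : Generic P) (k b : ℕ) (w : Pt) :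
    dL (nearAll P k b) w ≤ dR (nearAll P k b) w + (2 * b + 1) ∧
      dR (nearAll P k b) w ≤ dL (nearAll P k b) w + (2 * b + 1) := by
  obtain ⟨s, t, hst, hs, ht, h⟩ := exists_wide P
  have := balance hG hs ht hst k b w
  unfold Lp Rp at this
  rw [nearE_wide h] at this
  exact this

/-- Handshake inequality/equality for the edge sets in `pairs P`. -/
lemma sum_dg {P : Finset Pt} {E : Finset Edge} (hE : E ⊆ pairs P) :
    ∑ w ∈ P, dg E w = 2 * E.card := by
  have hL : ∑ w ∈ P, dL E w = E.card := by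
    unfold dL
    rw [← Finset.card_eq_sum_card_fiberwise]
    intro e he
    exact (mem_pairs.1 (hE (Finset.mem_coe.1 he))).2.1
  have hR : ∑ w ∈ P, dR E w = E.card := by
    unfold dR
    rw [← Finset.card_eq_sum_card_fiberwise]
    intro e he
    exact (mem_pairs.1 (hE (Finset.mem_coe.1 he))).1
  calc ∑ w ∈ P, dg E w = ∑ w ∈ P, (dL E w + dR E w) :=
        Finset.sum_congr rfl (fun w _ => deg_eq hE w)
    _ = 2 * E.card := by rw [Finset.sum_add_distrib, hL, hR]; ring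

/-- W0 (Dey): upper bound for the number of near-`b` pairs. -/
lemma dey_upper {P : Finset Pt} (hG : Generic P) (k b : ℕ) (hb : 1 ≤ b) {D : ℝ} (hD1 : 1 ≤ D)
    (hD : (P.card : ℝ) * (b : ℝ) ^ 2 ≤ D ^ 3) : ((nearAll P k b).card : ℝ) ≤ 23 * P.card * D := by
  have hN : (0 : ℝ) ≤ P.card := Nat.cast_nonneg _
  rcases crossing_lemma hG (Finset.Subset.refl P) (nearAll_subset (k := k) (b := b)) with h | h
  · nlinarith
  · have h2 : (crs (nearAll P k b) (nearAll P k b) : ℝ) ≤ 18 * b * b * P.card * P.card := by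
      exact_mod_cast dey_all hG k b k b hb hb
    have h3 : ((nearAll P k b).card : ℝ) ^ 3 ≤ (23 * P.card * D) ^ 3 := by
      calc ((nearAll P k b).card : ℝ) ^ 3
          ≤ 648 * (P.card : ℝ) ^ 2 * (18 * b * b * P.card * P.card) :=
            h.trans (mul_le_mul_of_nonneg_left h2 (by positivity))
        _ = 11664 * (P.card : ℝ) ^ 3 * (P.card * (b : ℝ) ^ 2) := by ring
        _ ≤ 11664 * (P.card : ℝ) ^ 3 * D ^ 3 := mul_le_mul_of_nonneg_left hD (by positivity)
        _ ≤ 12167 * (P.card : ℝ) ^ 3 * D ^ 3 := by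
            have : (0 : ℝ) ≤ (P.card : ℝ) ^ 3 * D ^ 3 := by positivity
            nlinarith
        _ = (23 * P.card * D) ^ 3 := by ring
    exact le_of_pow_le_pow_left₀ (by norm_num) (by positivity) h3

/-- points of degree `> Λ` -/
def High (P : Finset Pt) (E : Finset Edge) (Λ : ℝ) : Finset Pt := P.filter (fun p => Λ < (dg E p : ℝ))

/-- edges with an end of degree `> Λ` -/
def EH (P : Finset Pt) (E : Finset Edge) (Λ : ℝ) : Finset Edge :=
  E.filter (fun e => e.1 ∈ High P E Λ ∨ e.2 ∈ High P E Λ)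

lemma EH_subset {P : Finset Pt} {E : Finset Edge} {Λ : ℝ} : EH P E Λ ⊆ E := Finset.filter_subset _ _

lemma mem_lowG_or_EH {P : Finset Pt} {E : Finset Edge} (hE : E ⊆ pairs P) {Λ : ℝ} {e : Edge}
    (he : e ∈ E) : e ∈ lowG E Λ ∨ e ∈ EH P E Λ := by
  by_cases h : (dg E e.1 : ℝ) ≤ Λ ∧ (dg E e.2 : ℝ) ≤ Λ
  · exact Or.inl (mem_lowG.2 ⟨he, h⟩)
  · right
    have h1 := mem_pairs.1 (hE he)
    unfold EH High
    rw [Finset.mem_filter, Finset.mem_filter, Finset.mem_filter]
    rw [not_and_or, not_le, not_le] at h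
    exact ⟨he, h.imp (fun h => ⟨h1.1, h⟩) (fun h => ⟨h1.2.1, h⟩)⟩

/-- the number of edges meeting high points is small -/
lemma card_EH {P : Finset Pt} (hG : Generic P) (k b : ℕ) (hb : 1 ≤ b) {c0 D lam1 : ℝ}
    (hc0 : 0 < c0) (hlam : 3 * 10 ^ 11 ≤ lam1 * c0 ^ 3) (hlam0 : 0 < lam1) (hD1 : 1 ≤ D)
    (hD : (P.card : ℝ) * (b : ℝ) ^ 2 ≤ D ^ 3) (hD2 : 1728 ≤ c0 * D) :
    ((EH P (nearAll P k b) (lam1 * D)).card : ℝ) ≤ c0 / 24 * P.card * D := by
  have hN : (0 : ℝ) ≤ P.card := Nat.cast_nonneg _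
  have hsub : EH P (nearAll P k b) (lam1 * D) ⊆ pairs P := EH_subset.trans nearAll_subset
  have hHP : High P (nearAll P k b) (lam1 * D) ⊆ P := Finset.filter_subset _ _
  have hcardH : ((High P (nearAll P k b) (lam1 * D)).card : ℝ) * (lam1 * D) ≤ 46 * P.card * D := by
    have h1 : ((High P (nearAll P k b) (lam1 * D)).card : ℝ) * (lam1 * D)
        ≤ ∑ w ∈ P, (dg (nearAll P k b) w : ℝ) := by
      calc ((High P (nearAll P k b) (lam1 * D)).card : ℝ) * (lam1 * D)
          = ∑ _w ∈ High P (nearAll P k b) (lam1 * D), lam1 * D := by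
            rw [Finset.sum_const, nsmul_eq_mul]
        _ ≤ ∑ w ∈ High P (nearAll P k b) (lam1 * D), (dg (nearAll P k b) w : ℝ) :=
            Finset.sum_le_sum (fun w hw => (Finset.mem_filter.1 hw).2.le)
        _ ≤ ∑ w ∈ P, (dg (nearAll P k b) w : ℝ) :=
            Finset.sum_le_sum_of_subset_of_nonneg hHP (fun _ _ _ => Nat.cast_nonneg _)
    have h2 : (∑ w ∈ P, (dg (nearAll P k b) w : ℝ)) = 2 * ((nearAll P k b).card : ℝ) := by
      exact_mod_cast sum_dg (P := P) (E := nearAll P k b) nearAll_subset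
    have h3 := dey_upper hG k b hb hD1 hD
    rw [h2] at h1
    linarith
  rcases crossing_lemma_unbalanced hG (Finset.Subset.refl P) hHP hsub
    (fun e he => (Finset.mem_filter.1 he).2) with h | h
  · have : (72 : ℝ) * P.card ≤ c0 / 24 * P.card * D := by nlinarith
    linarith
  · have h2 : (crs (EH P (nearAll P k b) (lam1 * D)) (EH P (nearAll P k b) (lam1 * D)) : ℝ)
        ≤ 18 * b * b * P.card * P.card := by
      have h3 := dey_all hG k b k b hb hb
      have h4 := crs_mono (EH_subset (P := P) (E := nearAll P k b) (Λ := lam1 * D))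
        (EH_subset (P := P) (E := nearAll P k b) (Λ := lam1 * D))
      exact_mod_cast h4.trans h3
    have hD0 : 0 < D := by linarith
    have hcardH' : ((High P (nearAll P k b) (lam1 * D)).card : ℝ) ≤ 46 * P.card / lam1 := by
      rw [le_div_iff₀ hlam0]
      have : ((High P (nearAll P k b) (lam1 * D)).card : ℝ) * lam1 * D ≤ 46 * P.card * D := by
        linarith
      exact le_of_mul_le_mul_right this hD0
    have h3 : ((EH P (nearAll P k b) (lam1 * D)).card : ℝ) ^ 3 ≤ (c0 / 24 * P.card * D) ^ 3 := by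
      have hX : (20736 : ℝ) * 18 * 46 / lam1 ≤ (c0 / 24) ^ 3 := by
        rw [div_le_iff₀ hlam0]
        have : (c0 / 24) ^ 3 * lam1 = (lam1 * c0 ^ 3) / 13824 := by ring
        rw [this, le_div_iff₀ (by norm_num)]
        linarith
      calc ((EH P (nearAll P k b) (lam1 * D)).card : ℝ) ^ 3
          ≤ 20736 * (P.card : ℝ) * ((High P (nearAll P k b) (lam1 * D)).card : ℝ)
              * (crs (EH P (nearAll P k b) (lam1 * D)) (EH P (nearAll P k b) (lam1 * D)) : ℝ) := h
        _ ≤ 20736 * (P.card : ℝ) * (46 * P.card / lam1) * (18 * b * b * P.card * P.card) := by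
            gcongr
        _ = (20736 * 18 * 46 / lam1) * ((P.card : ℝ) ^ 3 * (P.card * (b : ℝ) ^ 2)) := by
            ring
        _ ≤ (20736 * 18 * 46 / lam1) * ((P.card : ℝ) ^ 3 * D ^ 3) := by
            gcongr
        _ ≤ (c0 / 24) ^ 3 * ((P.card : ℝ) ^ 3 * D ^ 3) :=
            mul_le_mul_of_nonneg_right hX (by positivity)
        _ = (c0 / 24 * P.card * D) ^ 3 := by ring
    exact le_of_pow_le_pow_left₀ (by norm_num) (by positivity) h3

/-- number of walks through the middle point `w` -/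
lemma card_walks_ge {P : Finset Pt} {G : Finset Edge} (hG : G ⊆ pairs P) (S : Finset Pt)
    (hS : S ⊆ P) : ∑ w ∈ S, dL G w * dR G w ≤ (walks P G).card := by
  have h1 : ∑ w ∈ S, dL G w * dR G w
      ≤ ∑ w ∈ P, ((walks P G).filter (fun z => z.2.1 = w)).card := by
    refine le_trans (Finset.sum_le_sum (fun w _ => ?_))
      (Finset.sum_le_sum_of_subset hS)
    unfold dL dR
    rw [← Finset.card_product]
    refine Finset.card_le_card_of_injOn (fun x => (x.1.1, (w, x.2.2))) ?_ ?_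
    · rintro ⟨e, f⟩ hx
      rw [Finset.mem_coe, Finset.mem_product, Finset.mem_filter, Finset.mem_filter] at hx
      obtain ⟨⟨he, he2⟩, hf, hf1⟩ := hx
      rw [Finset.mem_coe, Finset.mem_filter, mem_walks hG]
      refine ⟨⟨?_, ?_⟩, rfl⟩
      · show (e.1, w) ∈ G
        rw [← he2]; exact he
      · show (w, f.2) ∈ G
        rw [← hf1]; exact hf
    · rintro ⟨e, f⟩ hx ⟨e', f'⟩ hx' hh
      rw [Finset.mem_coe, Finset.mem_product, Finset.mem_filter, Finset.mem_filter] at hx hx'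
      simp only [Prod.mk.injEq, true_and] at hh
      obtain ⟨h1, h2⟩ := hh
      exact Prod.ext (Prod.ext h1 (hx.1.2.trans hx'.1.2.symm))
        (Prod.ext (hx.2.2.trans hx'.2.2.symm) h2)
  refine h1.trans (le_of_eq ?_)
  rw [← Finset.card_eq_sum_card_fiberwise]
  intro z hz
  have := (mem_walks hG).1 (Finset.mem_coe.1 hz)
  exact (mem_pairs.1 (hG this.1)).2.1

/-- **5.1**, b-form. -/
theorem T0_lower {P : Finset Pt} (hG : Generic P) (k b : ℕ) (hb : 1 ≤ b) {c0 D lam1 : ℝ}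
    (hc0 : 0 < c0) (hlam : 3 * 10 ^ 11 ≤ lam1 * c0 ^ 3) (hlam0 : 0 < lam1) (hD1 : 1 ≤ D)
    (hD : (P.card : ℝ) * (b : ℝ) ^ 2 ≤ D ^ 3) (hD2 : 1728 ≤ c0 * D)
    (hb2 : (b : ℝ) + 1 ≤ c0 / 32 * D)
    (hE : c0 * P.card * D ≤ ((nearAll P k b).card : ℝ)) :
    c0 ^ 2 / 64 * P.card * D ^ 2 ≤ ((T0 P k b (lam1 * D)).card : ℝ) := by
  have hN : (0 : ℝ) ≤ P.card := Nat.cast_nonneg _
  have hD0 : 0 < D := by linarith
  set E := nearAll P k b with hEdef
  have hEP : E ⊆ pairs P := nearAll_subset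
  set Λ := lam1 * D with hΛ
  set G := lowG E Λ with hGdef
  have hGP : G ⊆ pairs P := (lowG_subset _ _).trans hEP
  set S := P.filter (fun w => c0 / 4 * D ≤ (dg E w : ℝ) ∧ 8 * dg (EH P E Λ) w ≤ dg E w) with hS
  have hSP : S ⊆ P := Finset.filter_subset _ _
  -- degrees of good points in `G`
  have hdeg : ∀ w ∈ S, (dg E w : ℝ) / 4 ≤ dL G w ∧ (dg E w : ℝ) / 4 ≤ dR G w := by
    intro w hw
    obtain ⟨hwP, hw1, hw2⟩ := Finset.mem_filter.1 hw
    obtain ⟨hb1, hb3⟩ := deg_balance hG k b w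
    have hde := deg_eq hEP w
    have hL : dL E w ≤ dL G w + dg (EH P E Λ) w := by
      unfold dL dg
      refine (Finset.card_le_card ?_).trans (Finset.card_union_le _ _)
      intro e he
      rw [Finset.mem_filter] at he
      rw [Finset.mem_union, Finset.mem_filter, Finset.mem_filter]
      rcases mem_lowG_or_EH hEP (Λ := Λ) he.1 with h | h
      · exact Or.inl ⟨h, he.2⟩
      · exact Or.inr ⟨h, Or.inr he.2⟩
    have hR : dR E w ≤ dR G w + dg (EH P E Λ) w := by
      unfold dR dg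
      refine (Finset.card_le_card ?_).trans (Finset.card_union_le _ _)
      intro e he
      rw [Finset.mem_filter] at he
      rw [Finset.mem_union, Finset.mem_filter, Finset.mem_filter]
      rcases mem_lowG_or_EH hEP (Λ := Λ) he.1 with h | h
      · exact Or.inl ⟨h, he.2⟩
      · exact Or.inr ⟨h, Or.inl he.2⟩
    have hb1' : (dL E w : ℝ) ≤ dR E w + (2 * b + 1) := by exact_mod_cast hb1
    have hb3' : (dR E w : ℝ) ≤ dL E w + (2 * b + 1) := by exact_mod_cast hb3
    have hde' : (dg E w : ℝ) = dL E w + dR E w := by exact_mod_cast hde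
    have hL' : (dL E w : ℝ) ≤ dL G w + dg (EH P E Λ) w := by exact_mod_cast hL
    have hR' : (dR E w : ℝ) ≤ dR G w + dg (EH P E Λ) w := by exact_mod_cast hR
    have hw2' : 8 * (dg (EH P E Λ) w : ℝ) ≤ dg E w := by exact_mod_cast hw2
    have h8 : (b : ℝ) + 1 ≤ (dg E w : ℝ) / 8 := by
      have : c0 / 32 * D = (c0 / 4 * D) / 8 := by ring
      rw [this] at hb2
      linarith
    constructor <;> linarith
  -- the degree mass of good points
  have hmass : c0 * P.card * D ≤ ∑ w ∈ S, (dg E w : ℝ) := by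
    have h1 : (∑ w ∈ P, (dg E w : ℝ)) = 2 * (E.card : ℝ) := by
      exact_mod_cast sum_dg (P := P) hEP
    have h2 : (∑ w ∈ P, (dg (EH P E Λ) w : ℝ)) = 2 * ((EH P E Λ).card : ℝ) := by
      exact_mod_cast sum_dg (P := P) (EH_subset.trans hEP)
    have h3 : ((EH P E Λ).card : ℝ) ≤ c0 / 24 * P.card * D :=
      card_EH hG k b hb hc0 hlam hlam0 hD1 hD hD2
    have h4 : ∑ w ∈ P, (dg E w : ℝ) ≤ (∑ w ∈ S, (dg E w : ℝ))
        + ∑ w ∈ P, (c0 / 4 * D + 8 * (dg (EH P E Λ) w : ℝ)) := by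
      rw [hS, Finset.sum_filter, ← Finset.sum_add_distrib]
      refine Finset.sum_le_sum (fun w _ => ?_)
      have hn : (0 : ℝ) ≤ dg (EH P E Λ) w := Nat.cast_nonneg _
      have hn' : (0 : ℝ) ≤ c0 / 4 * D := by positivity
      split_ifs with hc
      · linarith
      · rw [not_and_or, not_le, not_le] at hc
        rcases hc with hc | hc
        · linarith
        · have : (dg E w : ℝ) < 8 * dg (EH P E Λ) w := by exact_mod_cast hc
          linarith
    have h6 : ∑ w ∈ P, (c0 / 4 * D + 8 * (dg (EH P E Λ) w : ℝ))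
        = P.card * (c0 / 4 * D) + 8 * (2 * ((EH P E Λ).card : ℝ)) := by
      rw [Finset.sum_add_distrib, Finset.sum_const, nsmul_eq_mul, ← h2, Finset.mul_sum]
    rw [h6, h1] at h4
    have h5 : c0 * P.card * D ≤ (E.card : ℝ) := hE
    linarith
  -- conclusion
  have hw : ((∑ w ∈ S, dL G w * dR G w : ℕ) : ℝ) ≤ ((T0 P k b Λ).card : ℝ) := by
    exact_mod_cast card_walks_ge hGP S hSP
  have hlow : (c0 / 4 * D) / 16 * ∑ w ∈ S, (dg E w : ℝ) ≤ ((∑ w ∈ S, dL G w * dR G w : ℕ) : ℝ) := by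
    push_cast
    rw [Finset.mul_sum]
    refine Finset.sum_le_sum (fun w hw => ?_)
    obtain ⟨h1, h2⟩ := hdeg w hw
    have h3 := (Finset.mem_filter.1 hw).2.1
    have h0 : (0 : ℝ) ≤ dg E w := Nat.cast_nonneg _
    calc (c0 / 4 * D) / 16 * (dg E w : ℝ) ≤ (dg E w : ℝ) / 16 * dg E w := by gcongr
      _ = (dg E w : ℝ) / 4 * ((dg E w : ℝ) / 4) := by ring
      _ ≤ (dL G w : ℝ) * (dR G w : ℝ) := by gcongr
  calc c0 ^ 2 / 64 * P.card * D ^ 2 = (c0 / 4 * D) / 16 * (c0 * P.card * D) := by ring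
    _ ≤ (c0 / 4 * D) / 16 * ∑ w ∈ S, (dg E w : ℝ) := by gcongr
    _ ≤ _ := hlow.trans hw

end W51

/-- **5.1** in the frozen form. -/
theorem i51 : I51 := by
  intro c0 hc0
  refine ⟨3 * 10 ^ 11 / c0 ^ 3 + 1, ?_, min 1 (c0 ^ 2 / 64), lt_min one_pos (by positivity),
    min_le_left _ _, ⌈64 / c0⌉₊ + 1, ?_⟩
  · have : 0 < 3 * 10 ^ 11 / c0 ^ 3 := by positivity
    linarith
  intro Vp hVp
  refine ⟨Vp ^ 3 + ⌈(1728 / c0 + 64 / c0 + 1) * (Vp : ℝ) ^ 2⌉₊, ?_⟩
  intro P hG hN k hT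
  have hVp0 : (0 : ℝ) < Vp := by
    have : 1 ≤ Vp := by omega
    exact_mod_cast this
  have hVpc : 64 / c0 ≤ (Vp : ℝ) := by
    have h1 := Nat.le_ceil (64 / c0)
    have h2 : ((⌈64 / c0⌉₊ + 1 : ℕ) : ℝ) ≤ Vp := by exact_mod_cast hVp
    push_cast at h2
    linarith
  set D := DD P Vp with hDdef
  have hDval : D = (P.card : ℝ) / (Vp : ℝ) ^ 2 := rfl
  have hDlow : 1728 / c0 + 64 / c0 + 1 ≤ D := by
    rw [hDval, le_div_iff₀ (by positivity)]
    have h1 := Nat.le_ceil ((1728 / c0 + 64 / c0 + 1) * (Vp : ℝ) ^ 2)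
    have h2 : ((⌈(1728 / c0 + 64 / c0 + 1) * (Vp : ℝ) ^ 2⌉₊ : ℕ) : ℝ) ≤ P.card := by
      exact_mod_cast (Nat.le_add_left _ _).trans hN
    linarith
  have hq1 : 0 < 1728 / c0 := by positivity
  have hq2 : 0 < 64 / c0 := by positivity
  have hD1 : 1 ≤ D := by linarith
  have hb : 1 ≤ bb P.card Vp := by
    unfold bb
    have hVpN : 0 < Vp := by omega
    rw [Nat.one_le_div_iff (by positivity)]
    exact (Nat.le_add_right _ _).trans hN
  have hbR : (bb P.card Vp : ℝ) ≤ (P.card : ℝ) / (Vp : ℝ) ^ 3 := by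
    have : ((bb P.card Vp : ℕ) : ℝ) ≤ ((P.card : ℕ) : ℝ) / ((Vp ^ 3 : ℕ) : ℝ) := Nat.cast_div_le
    push_cast at this
    exact this
  have hbD : (bb P.card Vp : ℝ) ≤ D / Vp := by
    refine hbR.trans (le_of_eq ?_)
    rw [hDval]
    field_simp
  have hN0 : (0 : ℝ) ≤ P.card := Nat.cast_nonneg _
  have key := W51.T0_lower hG k (bb P.card Vp) hb (c0 := c0) (D := D)
    (lam1 := 3 * 10 ^ 11 / c0 ^ 3 + 1) hc0 ?_ (by positivity) hD1 ?_ ?_ ?_ ?_
  · refine le_trans ?_ key
    have hp : (0 : ℝ) ≤ (P.card : ℝ) * D ^ 2 := by positivity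
    have := mul_le_mul_of_nonneg_right (min_le_right 1 (c0 ^ 2 / 64)) hp
    calc min 1 (c0 ^ 2 / 64) * (P.card : ℝ) * D ^ 2
        = min 1 (c0 ^ 2 / 64) * ((P.card : ℝ) * D ^ 2) := by ring
      _ ≤ c0 ^ 2 / 64 * ((P.card : ℝ) * D ^ 2) := this
      _ = c0 ^ 2 / 64 * P.card * D ^ 2 := by ring
  · have : (3 * 10 ^ 11 / c0 ^ 3 + 1) * c0 ^ 3 = 3 * 10 ^ 11 + c0 ^ 3 := by
      field_simp
    rw [this]
    have : 0 < c0 ^ 3 := by positivity
    linarith
  · have h1 : (bb P.card Vp : ℝ) ^ 2 ≤ ((P.card : ℝ) / (Vp : ℝ) ^ 3) ^ 2 := by gcongr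
    calc (P.card : ℝ) * (bb P.card Vp : ℝ) ^ 2
        ≤ (P.card : ℝ) * ((P.card : ℝ) / (Vp : ℝ) ^ 3) ^ 2 := by gcongr
      _ = D ^ 3 := by
          rw [hDval]
          field_simp
  · have h1 : 1728 / c0 ≤ D := by linarith
    rw [div_le_iff₀ hc0] at h1
    linarith
  · have h1 : D / Vp ≤ c0 / 64 * D := by
      rw [div_le_iff₀ hVp0]
      have : 64 ≤ Vp * c0 := by
        rw [div_le_iff₀ hc0] at hVpc
        exact hVpc
      have hD0 : 0 < D := by linarith
      nlinarith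
    have h2 : 64 / c0 ≤ D := by linarith
    rw [div_le_iff₀ hc0] at h2
    have h3 : 1 ≤ c0 / 64 * D := by linarith
    have h4 : c0 / 32 * D = c0 / 64 * D + c0 / 64 * D := by ring
    rw [h4]
    linarith
  · have := tight_iff.1 hT
    calc c0 * P.card * D = c0 * (P.card : ℝ) ^ 2 / (Vp : ℝ) ^ 2 := by
          rw [hDval]; field_simp
      _ ≤ _ := this

end Crest.Agent.R51
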