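import Crest.Agent.R51.LacDefs

/-!
# Row 51, section B7: 7.1 for integral weights, flagged windows, 7.2, comparison of weights
-/

set_option autoImplicit false

noncomputable section

open Classical

namespace Crest.Agent.R51.Lac

lemma left_bound {C : Finset ℝ} {B : ℕ} {u v l : ℝ} (hB : 1 ≤ B) (hI : B ≤ cntL C u v)
    (hl : l ∈ C) (hc : cntL C l v = B) : u ≤ l ∧ l < v := by
  have hlJ : l < v := by
    by_contra hge
    rw [not_lt] at hge
    have : cntL C l v = 0 := by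
      unfold cntL
      rw [Finset.card_eq_zero, Finset.filter_eq_empty_iff]
      rintro x _ ⟨h1, h2⟩
      linarith
    omega
  refine ⟨?_, hlJ⟩
  by_contra hlK
  rw [not_le] at hlK
  rcases le_or_gt u v with h2 | h2
  · rw [cntL_add hlK.le h2] at hc
    have := cntL_pos hl hlK
    omega
  · have : cntL C u v = 0 := by
      unfold cntL
      rw [Finset.card_eq_zero, Finset.filter_eq_empty_iff]
      rintro x _ ⟨h1, h2⟩
      linarith
    omega

lemma right_bound {C : Finset ℝ} {B : ℕ} {u v r : ℝ} (hB : 1 ≤ B) (hI : B ≤ cntR C u v)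
    (hr : r ∈ C) (hc : cntR C u r = B) : u < r ∧ r ≤ v := by
  rw [← cntL_neg] at hI hc
  have h := left_bound hB hI (by rw [mem_neg, neg_neg]; exact hr) hc
  exact ⟨by linarith [h.2], by linarith [h.1]⟩

lemma integrable_sub {ω : ℝ → ℝ} {u v a b : ℝ} (hω : ContinuousOn ω (Set.Icc u v)) (ha : u ≤ a)
    (hab : a ≤ b) (hb : b ≤ v) : IntervalIntegrable ω MeasureTheory.volume a b := by
  apply ContinuousOn.intervalIntegrable
  apply hω.mono
  rw [Set.uIcc_of_le hab]
  exact Set.Icc_subset_Icc ha hb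

lemma domF_of_dom {C : Finset ℝ} {B : ℕ} {t : ℝ} {ω : ℝ → ℝ} {K J : ℝ × ℝ} (hB : 1 ≤ B)
    (hω : ContinuousOn ω (Set.Icc K.1 K.2)) (hJ : J ∈ kids C K) (h : Dom C B t ω K J) :
    DomF C B t (fun x => ∫ θ in K.1..x, ω θ) K J := by
  have hJ' := mem_kids.1 hJ
  have hlt := hJ'.1.2.2.1
  have key : ∀ a b : ℝ, K.1 ≤ a → a ≤ b → b ≤ K.2 →
      (∫ θ in K.1..b, ω θ) - (∫ θ in K.1..a, ω θ) = ∫ θ in a..b, ω θ := by
    intro a b h1 h2 h3
    have i1 : IntervalIntegrable ω MeasureTheory.volume K.1 a :=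
      integrable_sub hω (le_refl _) h1 (h2.trans h3)
    have i2 : IntervalIntegrable ω MeasureTheory.volume a b := integrable_sub hω h1 h2 h3
    have := intervalIntegral.integral_add_adjacent_intervals i1 i2
    linarith
  refine ⟨h.1, ?_, ?_⟩
  · intro l hl hc
    obtain ⟨h1, h2⟩ := left_bound hB h.1.1 hl hc
    simp only
    rw [key l J.1 h1 h2.le (by linarith [hJ'.2.2]), key J.1 J.2 hJ'.2.1 hlt.le hJ'.2.2]
    exact h.2.1 l hl hc
  · intro r hr hc
    obtain ⟨h1, h2⟩ := right_bound hB h.1.2 hr hc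
    simp only
    rw [key J.2 r (by linarith [hJ'.2.1]) h1.le h2, key J.1 J.2 hJ'.2.1 hlt.le hJ'.2.2]
    exact h.2.2 r hr hc

/-- **7.1 for a continuous positive weight** -/
theorem card_dom_wt {C : Finset ℝ} {B : ℕ} {t : ℝ} {ω : ℝ → ℝ} {K : ℝ × ℝ} (ht : 0 ≤ t)
    (hB : 1 ≤ B) (hω : ContinuousOn ω (Set.Icc K.1 K.2)) (hpos : ∀ θ ∈ Set.Icc K.1 K.2, 0 < ω θ)
    {n : ℝ} (hn : ((kids C K).card : ℝ) ≤ n) :
    (((kids C K).filter (fun J => Dom C B t ω K J)).card : ℝ) ≤ (n / B + 1) * (2 * t + 1) := by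
  have hF : StrictMonoOn (fun x => ∫ θ in K.1..x, ω θ) (Set.Icc K.1 K.2) := by
    intro x hx y hy hxy
    simp only
    have i1 : IntervalIntegrable ω MeasureTheory.volume K.1 x :=
      integrable_sub hω (le_refl _) hx.1 hx.2
    have i2 : IntervalIntegrable ω MeasureTheory.volume x y := integrable_sub hω hx.1 hxy.le hy.2
    have h1 := intervalIntegral.integral_add_adjacent_intervals i1 i2
    have h2 : 0 < ∫ θ in x..y, ω θ := by
      apply intervalIntegral.intervalIntegral_pos_of_pos_on i2 _ hxy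
      intro z hz
      exact hpos z ⟨by linarith [hx.1, hz.1], by linarith [hy.2, hz.2]⟩
    linarith
  refine le_trans ?_ (card_dom ht hB hF hn)
  have : (kids C K).filter (fun J => Dom C B t ω K J) ⊆
      (kids C K).filter (fun J => DomF C B t (fun x => ∫ θ in K.1..x, ω θ) K J) := by
    intro J hJ
    rw [Finset.mem_filter] at hJ ⊢
    exact ⟨hJ.1, domF_of_dom hB hω hJ.1 hJ.2⟩
  exact_mod_cast Finset.card_le_card this

/-- **7.1, flagged children** -/
theorem card_flag {C : Finset ℝ} {B : ℕ} {t : ℝ} {K : ℝ × ℝ} (ht : 0 ≤ t)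
    (hB : 1 ≤ B) {n : ℝ} (hn : ((kids C K).card : ℝ) ≤ n) :
    (((kids C K).filter (fun J => Flag C B t K J)).card : ℝ) ≤
      2 * B + (n / B + 1) * (2 * t + 1) := by
  have h1 : (kids C K).filter (fun J => Flag C B t K J) ⊆
      (kids C K).filter (fun J => ¬ Interior C B K J) ∪
      (kids C K).filter (fun J => Dom C B t (fun _ => 1) K J) := by
    intro J hJ
    rw [Finset.mem_filter] at hJ
    rw [Finset.mem_union, Finset.mem_filter, Finset.mem_filter]
    rcases hJ.2 with h | h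
    · exact Or.inl ⟨hJ.1, h⟩
    · exact Or.inr ⟨hJ.1, h⟩
  have h2 := (Finset.card_le_card h1).trans (Finset.card_union_le _ _)
  have h3 := card_not_interior (C := C) B K
  have h4 : (((kids C K).filter (fun J => Dom C B t (fun _ => 1) K J)).card : ℝ) ≤
      (n / B + 1) * (2 * t + 1) :=
    card_dom_wt ht hB continuousOn_const (fun _ _ => one_pos) hn
  have h5 : (((kids C K).filter (fun J => Flag C B t K J)).card : ℝ) ≤
      ((kids C K).filter (fun J => ¬ Interior C B K J)).card +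
      ((kids C K).filter (fun J => Dom C B t (fun _ => 1) K J)).card := by exact_mod_cast h2
  have h6 : (((kids C K).filter (fun J => ¬ Interior C B K J)).card : ℝ) ≤ 2 * B := by
    exact_mod_cast h3
  linarith

lemma card_wins_le (C : Finset ℝ) : (wins C).card ≤ C.card := by
  apply Finset.card_le_card_of_injOn (fun J => J.1)
  · intro J hJ
    exact Finset.mem_coe.2 (mem_wins.1 (Finset.mem_coe.1 hJ)).1
  · intro J hJ J' hJ' h
    have h1 := mem_wins.1 (Finset.mem_coe.1 hJ)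
    have h2 := mem_wins.1 (Finset.mem_coe.1 hJ')
    by_contra hne
    simp only at h
    have := h1.2.2.1
    have := h2.2.2.1
    rcases win_disj h1 h2 hne with h' | h' <;> linarith

lemma eq_of_subwin {C : Finset ℝ} {J J' : ℝ × ℝ} (h : IsWin C J) (h' : IsWin C J')
    (h1 : J'.1 ≤ J.1) (h2 : J.2 ≤ J'.2) : J = J' := by
  by_contra hne
  have := h.2.2.1
  have := h'.2.2.1
  rcases win_disj h h' hne with h3 | h3 <;> linarith

/-- number of flagged windows of level `j ≥ 1`, general form -/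
theorem flag_count_gen {cuts : ℕ → Finset ℝ} {B : ℕ} {t : ℝ} {j : ℕ} (ht : 0 ≤ t)
    (hB : 1 ≤ B) {n : ℝ} (hn0 : 0 ≤ n)
    (hn : ∀ K ∈ wins (cuts (j - 1)), ((kids (cuts j) K).card : ℝ) ≤ n) :
    (((wins (cuts j)).filter (fun J => FlagAt cuts B t j J)).card : ℝ) ≤
      ((cuts (j - 1)).card : ℝ) * (2 * B + (n / B + 1) * (2 * t + 1)) := by
  have hsub : (wins (cuts j)).filter (fun J => FlagAt cuts B t j J) ⊆
      (wins (cuts (j - 1))).biUnion
        (fun K => (kids (cuts j) K).filter (fun J => Flag (cuts j) B t K J)) := by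
    intro J hJ
    rw [Finset.mem_filter] at hJ
    obtain ⟨hJw, K, hK, J', hJ', h1, h2, h3⟩ := hJ
    rw [Finset.mem_biUnion]
    refine ⟨K, hK, ?_⟩
    have hJJ : J = J' := eq_of_subwin (mem_wins.1 hJw) (mem_kids.1 hJ').1 h1 h2
    rw [hJJ, Finset.mem_filter]
    exact ⟨hJ', h3⟩
  have h1 := (Finset.card_le_card hsub).trans Finset.card_biUnion_le
  have h2 : (((wins (cuts j)).filter (fun J => FlagAt cuts B t j J)).card : ℝ) ≤
      ∑ K ∈ wins (cuts (j - 1)),
        (((kids (cuts j) K).filter (fun J => Flag (cuts j) B t K J)).card : ℝ) := by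
    exact_mod_cast h1
  have h3 : ∑ K ∈ wins (cuts (j - 1)),
        (((kids (cuts j) K).filter (fun J => Flag (cuts j) B t K J)).card : ℝ) ≤
      ∑ _K ∈ wins (cuts (j - 1)), (2 * B + (n / B + 1) * (2 * t + 1)) :=
    Finset.sum_le_sum (fun K hK => card_flag ht hB (hn K hK))
  rw [Finset.sum_const, nsmul_eq_mul] at h3
  refine h2.trans (h3.trans ?_)
  apply mul_le_mul_of_nonneg_right
  · exact_mod_cast card_wins_le _
  · positivity

/-- **number of flagged windows of level `j ≥ 1`** with the constants of the paper: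
`M = μ^10, Λ = μ^11, B = μ^39` -/
theorem flag_count {cuts : ℕ → Finset ℝ} {Cw : ℝ} {μ j : ℕ} (hCw : 1 ≤ Cw) (hμ : 1 ≤ μ)
    (hj : 1 ≤ j) (hn : ∀ K ∈ wins (cuts (j - 1)), ((kids (cuts j) K).card : ℝ) ≤ Cw * μ ^ 40)
    (hc : ((cuts (j - 1)).card : ℝ) ≤ Cw * μ ^ (40 * (j - 1))) :
    (((wins (cuts j)).filter (fun J => FlagAt cuts (μ ^ 39) (16 * μ ^ 11) j J)).card : ℝ) * μ ≤
      68 * Cw ^ 2 * μ ^ (40 * j) := by
  have hμ' : (1 : ℝ) ≤ μ := by exact_mod_cast hμ
  have hμ0 : (0 : ℝ) < μ := by linarith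
  have hB : 1 ≤ μ ^ 39 := Nat.one_le_pow _ _ hμ
  have h1 := flag_count_gen (cuts := cuts) (B := μ ^ 39) (t := 16 * (μ : ℝ) ^ 11) (j := j)
    (by positivity) hB (n := Cw * (μ : ℝ) ^ 40) (by positivity) hn
  have h2 : (2 * ((μ ^ 39 : ℕ) : ℝ) + (Cw * (μ : ℝ) ^ 40 / ((μ ^ 39 : ℕ) : ℝ) + 1) *
      (2 * (16 * (μ : ℝ) ^ 11) + 1)) ≤ 68 * Cw * (μ : ℝ) ^ 39 := by
    push_cast
    have e1 : Cw * (μ : ℝ) ^ 40 / (μ : ℝ) ^ 39 = Cw * μ := by
      field_simp
    rw [e1]
    have e2 : (1 : ℝ) ≤ (μ : ℝ) ^ 11 := one_le_pow₀ hμ'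
    have e3 : Cw * (μ : ℝ) + 1 ≤ 2 * (Cw * μ) := by nlinarith
    have e4 : 2 * (16 * (μ : ℝ) ^ 11) + 1 ≤ 33 * (μ : ℝ) ^ 11 := by linarith
    have e5 : (Cw * (μ : ℝ) + 1) * (2 * (16 * (μ : ℝ) ^ 11) + 1) ≤
        2 * (Cw * μ) * (33 * (μ : ℝ) ^ 11) := by
      apply mul_le_mul e3 e4 (by positivity) (by positivity)
    have e6 : 2 * (Cw * μ) * (33 * (μ : ℝ) ^ 11) = 66 * Cw * (μ : ℝ) ^ 12 := by ring
    have e7 : (μ : ℝ) ^ 12 ≤ (μ : ℝ) ^ 39 := pow_le_pow_right₀ hμ' (by norm_num)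
    have e8 : (μ : ℝ) ^ 39 ≤ Cw * (μ : ℝ) ^ 39 := by
      have : 0 < (μ : ℝ) ^ 39 := by positivity
      nlinarith
    have e9 : 66 * Cw * (μ : ℝ) ^ 12 ≤ 66 * Cw * (μ : ℝ) ^ 39 :=
      mul_le_mul_of_nonneg_left e7 (by positivity)
    linarith
  have h3 : (((wins (cuts j)).filter (fun J => FlagAt cuts (μ ^ 39) (16 * μ ^ 11) j J)).card : ℝ) ≤
      (Cw * μ ^ (40 * (j - 1))) * (68 * Cw * (μ : ℝ) ^ 39) := by
    refine h1.trans (mul_le_mul hc h2 ?_ (by positivity))
    positivity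
  calc (((wins (cuts j)).filter (fun J => FlagAt cuts (μ ^ 39) (16 * μ ^ 11) j J)).card : ℝ) * μ
      ≤ ((Cw * μ ^ (40 * (j - 1))) * (68 * Cw * (μ : ℝ) ^ 39)) * μ :=
        mul_le_mul_of_nonneg_right h3 hμ0.le
    _ = 68 * Cw ^ 2 * (μ : ℝ) ^ (40 * (j - 1) + 40) := by ring
    _ = 68 * Cw ^ 2 * μ ^ (40 * j) := by
        congr 2
        omega

/-! ### the weights `|θ-c|^(-τ)` -/

lemma omg_pos {c θ : ℝ} (τ : ℕ) (h : θ ≠ c) : 0 < omg c τ θ := by
  unfold omg
  have : 0 < |θ - c| := abs_pos.2 (sub_ne_zero.2 h)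
  positivity

lemma omg_nonneg (c θ : ℝ) (τ : ℕ) : 0 ≤ omg c τ θ := by
  unfold omg
  positivity

lemma omg_cont {c u v : ℝ} (τ : ℕ) (h : c < u ∨ v < c) :
    ContinuousOn (omg c τ) (Set.Icc u v) := by
  unfold omg
  apply ContinuousOn.inv₀
  · fun_prop
  · intro x hx
    have : x ≠ c := by
      rintro rfl
      rcases h with h | h
      · linarith [hx.1]
      · linarith [hx.2]
    have : 0 < |x - c| := abs_pos.2 (sub_ne_zero.2 this)
    positivity

lemma omg_le {c θ d : ℝ} {τ : ℕ} (hd : 0 < d) (h : d ≤ |θ - c|) : omg c τ θ ≤ (d ^ τ)⁻¹ := by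
  unfold omg
  apply inv_anti₀ (by positivity)
  exact pow_le_pow_left₀ hd.le h τ

lemma le_omg {c θ d : ℝ} {τ : ℕ} (hθ : θ ≠ c) (h : |θ - c| ≤ d) : (d ^ τ)⁻¹ ≤ omg c τ θ := by
  unfold omg
  have : 0 < |θ - c| := abs_pos.2 (sub_ne_zero.2 hθ)
  apply inv_anti₀ (by positivity)
  exact pow_le_pow_left₀ (abs_nonneg _) h τ

lemma integral_le_const {ω : ℝ → ℝ} {u v a : ℝ} (huv : u ≤ v)
    (hω : ContinuousOn ω (Set.Icc u v)) (h : ∀ θ ∈ Set.Icc u v, ω θ ≤ a) :
    ∫ θ in u..v, ω θ ≤ (v - u) * a := by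
  have h1 : ∫ θ in u..v, ω θ ≤ ∫ _θ in u..v, a := by
    apply intervalIntegral.integral_mono_on huv (integrable_sub hω (le_refl _) huv (le_refl _))
      intervalIntegrable_const h
  rwa [intervalIntegral.integral_const, smul_eq_mul] at h1

lemma const_le_integral {ω : ℝ → ℝ} {u v a : ℝ} (huv : u ≤ v)
    (hω : ContinuousOn ω (Set.Icc u v)) (h : ∀ θ ∈ Set.Icc u v, a ≤ ω θ) :
    (v - u) * a ≤ ∫ θ in u..v, ω θ := by
  have h1 : ∫ _θ in u..v, a ≤ ∫ θ in u..v, ω θ := by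
    apply intervalIntegral.integral_mono_on huv intervalIntegrable_const
      (integrable_sub hω (le_refl _) huv (le_refl _)) h
  rwa [intervalIntegral.integral_const, smul_eq_mul] at h1

/-- enlarging the interval increases the integral of a nonnegative function -/
lemma integral_mono_interval {ω : ℝ → ℝ} {u v a b : ℝ} (hω : ContinuousOn ω (Set.Icc u v))
    (hpos : ∀ θ ∈ Set.Icc u v, 0 ≤ ω θ) (h1 : u ≤ a) (h2 : a ≤ b) (h3 : b ≤ v) :
    ∫ θ in a..b, ω θ ≤ ∫ θ in u..v, ω θ := by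
  have i1 := integrable_sub hω (le_refl u) h1 (h2.trans h3)
  have i2 := integrable_sub hω h1 h2 h3
  have i3 := integrable_sub hω (h1.trans h2) h3 (le_refl v)
  have e1 := intervalIntegral.integral_add_adjacent_intervals i1 i2
  have e2 := intervalIntegral.integral_add_adjacent_intervals (i1.trans i2) i3
  have p1 : 0 ≤ ∫ θ in u..a, ω θ := by
    apply intervalIntegral.integral_nonneg h1
    intro θ hθ
    exact hpos θ ⟨hθ.1, by linarith [hθ.2]⟩
  have p2 : 0 ≤ ∫ θ in b..v, ω θ := by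
    apply intervalIntegral.integral_nonneg h3
    intro θ hθ
    exact hpos θ ⟨by linarith [hθ.1], hθ.2⟩
  linarith

/-- core inequality of 7.2 -/
lemma block_ineq {c Λ d u w x y : ℝ} {τ : ℕ} (hτ : τ ≤ 2) (hΛ : 1 ≤ Λ) (hd : 0 < d)
    (hxy : x < y) (huw : 16 * Λ * (y - x) ≤ w - u) (hc1 : c < u ∨ w < c) (hc2 : c < x ∨ y < c)
    (hu : ∀ θ ∈ Set.Icc u w, |θ - c| ≤ 2 * d) (hx : ∀ θ ∈ Set.Icc x y, d ≤ |θ - c|) :
    4 * Λ * ∫ θ in x..y, omg c τ θ ≤ ∫ θ in u..w, omg c τ θ := by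
  have hu' : u ≤ w := by nlinarith
  have h1 := integral_le_const hxy.le (omg_cont τ hc2) (fun θ hθ => omg_le (τ := τ) hd (hx θ hθ))
  have h2 := const_le_integral hu' (omg_cont τ hc1) (fun θ hθ => le_omg (τ := τ) (by
    rintro rfl
    rcases hc1 with h | h
    · linarith [hθ.1]
    · linarith [hθ.2]) (hu θ hθ))
  have h3 : (4 : ℝ)⁻¹ * (d ^ τ)⁻¹ ≤ ((2 * d) ^ τ)⁻¹ := by
    rw [mul_pow, mul_inv]
    apply mul_le_mul_of_nonneg_right _ (by positivity)
    apply inv_anti₀ (by positivity)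
    calc (2 : ℝ) ^ τ ≤ 2 ^ 2 := pow_le_pow_right₀ (by norm_num) hτ
      _ = 4 := by norm_num
  have h4 : 0 < (d ^ τ)⁻¹ := by positivity
  calc 4 * Λ * ∫ θ in x..y, omg c τ θ ≤ 4 * Λ * ((y - x) * (d ^ τ)⁻¹) :=
        mul_le_mul_of_nonneg_left h1 (by linarith)
    _ = 16 * Λ * (y - x) * (4⁻¹ * (d ^ τ)⁻¹) := by ring
    _ ≤ (w - u) * (4⁻¹ * (d ^ τ)⁻¹) := mul_le_mul_of_nonneg_right huw (by positivity)
    _ ≤ (w - u) * ((2 * d) ^ τ)⁻¹ := mul_le_mul_of_nonneg_left h3 (by linarith)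
    _ ≤ _ := h2

/-- **7.2** -/
theorem dist_le_of_dom {C : Finset ℝ} {B : ℕ} {Λ c : ℝ} {K J : ℝ × ℝ} {τ : ℕ} (hB : 1 ≤ B)
    (hΛ : 1 ≤ Λ) (hJ : J ∈ kids C K) (hc : c < K.1 ∨ K.2 < c) (hτ : τ ≤ 2)
    (hD : Dom C B (4 * Λ) (omg c τ) K J) (hF : ¬ Flag C B (16 * Λ) K J) :
    J.1 - 17 * Λ * (J.2 - J.1) ≤ c ∧ c ≤ J.2 + 17 * Λ * (J.2 - J.1) := by
  have hJ' := mem_kids.1 hJ
  have hlt := hJ'.1.2.2.1
  unfold Flag at hF
  push Not at hF
  have hblock := exists_block_of_not_dom hB hF.1 hF.2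
  have hone : ∀ a b : ℝ, ∫ _θ in a..b, (1 : ℝ) = b - a := by intro a b; simp
  rw [hone] at hblock
  have hℓ : 0 < Λ * (J.2 - J.1) := by
    apply mul_pos (by linarith) (by linarith)
  have hℓ1 : J.2 - J.1 ≤ Λ * (J.2 - J.1) := by nlinarith
  by_contra hcon
  have hcon' : c < J.1 - 17 * Λ * (J.2 - J.1) ∨ J.2 + 17 * Λ * (J.2 - J.1) < c := by
    by_contra h
    push Not at h
    exact hcon ⟨h.1, h.2⟩
  have hcJ : c < J.1 ∨ J.2 < c := by
    rcases hcon' with h | h
    · left; nlinarith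
    · right; nlinarith
  rcases hblock with ⟨l, hl, h1, h2, h3, h4⟩ | ⟨r, hr, h1, h2, h3, h4⟩
  · rw [hone] at h4
    have hdl := hD.2.1 l hl h3
    have hcl : c < l ∨ J.1 < c := by
      rcases hc with h | h
      · left; linarith
      · right; linarith [hJ'.2.2]
    have hmono : ∫ θ in (J.1 - 16 * Λ * (J.2 - J.1))..J.1, omg c τ θ ≤
        ∫ θ in l..J.1, omg c τ θ := by
      apply integral_mono_interval (omg_cont τ hcl) (fun θ _ => omg_nonneg c θ τ)
      · linarith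
      · nlinarith
      · exact le_refl _
    have hb : 4 * Λ * ∫ θ in J.1..J.2, omg c τ θ ≤
        ∫ θ in (J.1 - 16 * Λ * (J.2 - J.1))..J.1, omg c τ θ := by
      rcases hcon' with h | h
      · have hcl' : c < l := by
          rcases hcl with h' | h'
          · exact h'
          · nlinarith
        apply block_ineq (d := J.1 - c) hτ hΛ (by nlinarith) hlt (by linarith)
          (Or.inl (by linarith)) (Or.inl (by nlinarith))
        · intro θ hθ
          rw [abs_of_nonneg (by linarith [hθ.1])]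
          nlinarith [hθ.2]
        · intro θ hθ
          rw [abs_of_nonneg (by nlinarith [hθ.1])]
          linarith [hθ.1]
      · apply block_ineq (d := c - J.2) hτ hΛ (by nlinarith) hlt (by linarith)
          (Or.inr (by nlinarith)) (Or.inr (by nlinarith))
        · intro θ hθ
          rw [abs_of_nonpos (by nlinarith [hθ.2])]
          nlinarith [hθ.1]
        · intro θ hθ
          rw [abs_of_nonpos (by nlinarith [hθ.2])]
          linarith [hθ.2]
    linarith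
  · rw [hone] at h4
    have hdl := hD.2.2 r hr h3
    have hcl : c < J.2 ∨ r < c := by
      rcases hc with h | h
      · left; linarith [hJ'.2.1]
      · right; linarith
    have hmono : ∫ θ in J.2..(J.2 + 16 * Λ * (J.2 - J.1)), omg c τ θ ≤
        ∫ θ in J.2..r, omg c τ θ := by
      apply integral_mono_interval (omg_cont τ hcl) (fun θ _ => omg_nonneg c θ τ)
      · exact le_refl _
      · nlinarith
      · linarith
    have hb : 4 * Λ * ∫ θ in J.1..J.2, omg c τ θ ≤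
        ∫ θ in J.2..(J.2 + 16 * Λ * (J.2 - J.1)), omg c τ θ := by
      rcases hcon' with h | h
      · apply block_ineq (d := J.1 - c) hτ hΛ (by nlinarith) hlt (by linarith)
          (Or.inl (by nlinarith)) (Or.inl (by nlinarith))
        · intro θ hθ
          rw [abs_of_nonneg (by nlinarith [hθ.1])]
          nlinarith [hθ.2]
        · intro θ hθ
          rw [abs_of_nonneg (by nlinarith [hθ.1])]
          linarith [hθ.1]
      · have hcr : r < c := by
          rcases hcl with h' | h'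
          · nlinarith
          · exact h'
        apply block_ineq (d := c - J.2) hτ hΛ (by nlinarith) hlt (by linarith)
          (Or.inr (by linarith)) (Or.inr (by nlinarith))
        · intro θ hθ
          rw [abs_of_nonpos (by linarith [hθ.2])]
          nlinarith [hθ.1]
        · intro θ hθ
          rw [abs_of_nonpos (by nlinarith [hθ.2])]
          linarith [hθ.2]
    linarith

/-- transfer of domination between comparable weights (factor 2 up and down) -/
theorem dom_transfer {C : Finset ℝ} {B : ℕ} {t : ℝ} {ω ω' : ℝ → ℝ} {K J : ℝ × ℝ} (hB : 1 ≤ B)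
    (ht : 0 ≤ t) (hJ : J ∈ kids C K) (hω : ContinuousOn ω (Set.Icc K.1 K.2))
    (hω' : ContinuousOn ω' (Set.Icc K.1 K.2)) (h1 : ∀ θ ∈ Set.Icc K.1 K.2, ω' θ ≤ 2 * ω θ)
    (h2 : ∀ θ ∈ Set.Icc K.1 K.2, ω θ ≤ 2 * ω' θ) (h : Dom C B t ω K J) :
    Dom C B (4 * t) ω' K J := by
  have hJ' := mem_kids.1 hJ
  have hlt := hJ'.1.2.2.1
  have cmp : ∀ (f g : ℝ → ℝ) (a b : ℝ), ContinuousOn f (Set.Icc K.1 K.2) →
      ContinuousOn g (Set.Icc K.1 K.2) → (∀ θ ∈ Set.Icc K.1 K.2, f θ ≤ 2 * g θ) →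
      K.1 ≤ a → a ≤ b → b ≤ K.2 → ∫ θ in a..b, f θ ≤ 2 * ∫ θ in a..b, g θ := by
    intro f g a b hf hg hfg ha hab hb
    rw [← intervalIntegral.integral_const_mul]
    apply intervalIntegral.integral_mono_on hab (integrable_sub hf ha hab hb)
      ((integrable_sub hg ha hab hb).const_mul 2)
    intro x hx
    exact hfg x ⟨by linarith [hx.1], by linarith [hx.2]⟩
  have hJint := cmp ω ω' J.1 J.2 hω hω' h2 hJ'.2.1 hlt.le hJ'.2.2
  have h4 : 2 * (t * ∫ θ in J.1..J.2, ω θ) ≤ 4 * t * ∫ θ in J.1..J.2, ω' θ := by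
    have := mul_le_mul_of_nonneg_left hJint ht
    linarith
  refine ⟨h.1, ?_, ?_⟩
  · intro l hl hc
    obtain ⟨e1, e2⟩ := left_bound hB h.1.1 hl hc
    have := h.2.1 l hl hc
    have := cmp ω' ω l J.1 hω' hω h1 e1 e2.le (by linarith [hJ'.2.2])
    linarith
  · intro r hr hc
    obtain ⟨e1, e2⟩ := right_bound hB h.1.2 hr hc
    have := h.2.2 r hr hc
    have := cmp ω' ω J.2 r hω' hω h1 (by linarith [hJ'.2.1]) e1.le e2
    linarith

/-- scaling a weight by a positive constant does not change domination -/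
theorem dom_const_mul {C : Finset ℝ} {B : ℕ} {t a : ℝ} {ω : ℝ → ℝ} {K J : ℝ × ℝ}
    (ha : 0 < a) (h : Dom C B t ω K J) : Dom C B t (fun θ => a * ω θ) K J := by
  refine ⟨h.1, ?_, ?_⟩
  · intro l hl hc
    rw [intervalIntegral.integral_const_mul, intervalIntegral.integral_const_mul]
    have := mul_lt_mul_of_pos_left (h.2.1 l hl hc) ha
    linarith
  · intro r hr hc
    rw [intervalIntegral.integral_const_mul, intervalIntegral.integral_const_mul]
    have := mul_lt_mul_of_pos_left (h.2.2 r hr hc) ha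
    linarith

/-- far parents: the centre may be moved by a quarter of the distance -/
theorem dom_far {C : Finset ℝ} {B : ℕ} {t c x R : ℝ} {K J : ℝ × ℝ} {τ : ℕ} (hB : 1 ≤ B)
    (ht : 0 ≤ t) (hJ : J ∈ kids C K) (hτ : τ ≤ 2) (hR : 0 < R) (hc : |c - x| ≤ R / 4)
    (hfar : K.2 ≤ x - R ∨ x + R ≤ K.1) (h : Dom C B t (omg c τ) K J) :
    Dom C B (4 * t) (omg x τ) K J := by
  rw [abs_le] at hc
  have hdist : ∀ θ ∈ Set.Icc K.1 K.2, R ≤ |θ - x| := by
    intro θ hθ
    rcases hfar with h | h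
    · rw [abs_of_nonpos (by linarith [hθ.2])]; linarith [hθ.2]
    · rw [abs_of_nonneg (by linarith [hθ.1])]; linarith [hθ.1]
  have hcx : |x - c| ≤ R / 4 := by rw [abs_le]; constructor <;> linarith
  have hup : ∀ θ ∈ Set.Icc K.1 K.2, |θ - c| ≤ 5 / 4 * |θ - x| := by
    intro θ hθ
    have h1 := hdist θ hθ
    have h2 : |θ - c| ≤ |θ - x| + |x - c| := abs_sub_le _ _ _
    linarith
  have hlow : ∀ θ ∈ Set.Icc K.1 K.2, 3 / 4 * |θ - x| ≤ |θ - c| := by
    intro θ hθ
    have h1 := hdist θ hθ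
    have h2 : |θ - x| ≤ |θ - c| + |c - x| := abs_sub_le _ _ _
    have h3 : |c - x| ≤ R / 4 := by rw [abs_le]; constructor <;> linarith
    linarith
  have hK1 : c < K.1 ∨ K.2 < c := by
    rcases hfar with h | h
    · right; linarith
    · left; linarith
  have hK2 : x < K.1 ∨ K.2 < x := by
    rcases hfar with h | h
    · right; linarith
    · left; linarith
  apply dom_transfer hB ht hJ (omg_cont τ hK1) (omg_cont τ hK2) _ _ h
  · intro θ hθ
    unfold omg
    have p1 : 0 < |θ - x| := lt_of_lt_of_le hR (hdist θ hθ)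
    have p2 : 0 < |θ - c| := by linarith [hlow θ hθ]
    have h1 : |θ - c| ^ τ ≤ (5 / 4) ^ τ * |θ - x| ^ τ := by
      rw [← mul_pow]
      exact pow_le_pow_left₀ p2.le (hup θ hθ) τ
    have h2 : ((5 : ℝ) / 4) ^ τ ≤ 2 := by
      calc ((5 : ℝ) / 4) ^ τ ≤ (5 / 4) ^ 2 := pow_le_pow_right₀ (by norm_num) hτ
        _ ≤ 2 := by norm_num
    have h3 : |θ - c| ^ τ ≤ 2 * |θ - x| ^ τ :=
      h1.trans (mul_le_mul_of_nonneg_right h2 (by positivity))
    rw [← one_div, ← one_div, mul_one_div, div_le_div_iff₀ (by positivity) (by positivity)]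
    linarith
  · intro θ hθ
    unfold omg
    have p1 : 0 < |θ - x| := lt_of_lt_of_le hR (hdist θ hθ)
    have p2 : 0 < |θ - c| := by linarith [hlow θ hθ]
    have h1 : |θ - x| ^ τ ≤ (4 / 3) ^ τ * |θ - c| ^ τ := by
      rw [← mul_pow]
      exact pow_le_pow_left₀ p1.le (by linarith [hlow θ hθ]) τ
    have h2 : ((4 : ℝ) / 3) ^ τ ≤ 2 := by
      calc ((4 : ℝ) / 3) ^ τ ≤ (4 / 3) ^ 2 := pow_le_pow_right₀ (by norm_num) hτ
        _ ≤ 2 := by norm_num
    have h3 : |θ - x| ^ τ ≤ 2 * |θ - c| ^ τ :=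
      h1.trans (mul_le_mul_of_nonneg_right h2 (by positivity))
    rw [← one_div, ← one_div, mul_one_div, div_le_div_iff₀ (by positivity) (by positivity)]
    linarith

end Crest.Agent.R51.Lac
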