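import Crest.Agent.R51.WinIrr
import Crest.Agent.R51.Dey
import Crest.Agent.R51.CrossStr

/-!
# Row 51, section B3: W0, W2, W3 (Dey's bound, local form, unbalanced form)
-/

set_option autoImplicit false

noncomputable section

open Classical

namespace Crest.Agent.R51

namespace WinD

lemma subset_pairs_ends {P : Finset Pt} {E : Finset Edge} {A : Finset Pt} (hE : E ⊆ pairs P)
    (h : ends E ⊆ A) : E ⊆ pairs A := by
  intro e he
  exact mem_pairs.2 ⟨h (mem_ends.2 ⟨e, he, Or.inl rfl⟩), h (mem_ends.2 ⟨e, he, Or.inr rfl⟩),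
    (mem_pairs.1 (hE he)).2.2⟩

lemma nearE_subset_pairs {P : Finset Pt} {k b : ℕ} {s t : ℝ} : nearE P k b s t ⊆ pairs P :=
  fun _ he => (mem_nearE.1 he).1

lemma nearAll_subset_pairs {P : Finset Pt} {k b : ℕ} : nearAll P k b ⊆ pairs P :=
  fun _ he => (mem_nearAll.1 he).1

lemma crs_mono' {E E' F F' : Finset Edge} (h : E ⊆ E') (h' : F ⊆ F') : crs E F ≤ crs E' F' := by
  unfold crs
  exact Finset.card_le_card (Finset.filter_subset_filter _ (Finset.product_subset_product h h'))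

/-- **W0**, cubed form. -/
theorem W0_cube {P : Finset Pt} (hP : Generic P) (k b : ℕ) (hb : 1 ≤ b) :
    ((nearAll P k b).card : ℝ) ≤ 18 * P.card ∨
    ((nearAll P k b).card : ℝ) ^ 3 ≤ 11664 * (P.card : ℝ) ^ 4 * (b : ℝ) ^ 2 := by
  refine (crossing_lemma hP (Finset.Subset.refl P) nearAll_subset_pairs).imp id (fun h => ?_)
  have h1 : (crs (nearAll P k b) (nearAll P k b) : ℝ) ≤ 18 * b * b * P.card * P.card := by
    exact_mod_cast dey_all hP k b k b hb hb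
  calc _ ≤ 648 * (P.card : ℝ) ^ 2 * (crs (nearAll P k b) (nearAll P k b) : ℝ) := h
    _ ≤ 648 * (P.card : ℝ) ^ 2 * (18 * b * b * P.card * P.card) :=
        mul_le_mul_of_nonneg_left h1 (by positivity)
    _ = _ := by ring

/-- **W2**, cubed form. -/
theorem W2_cube {P : Finset Pt} (hP : Generic P) (k b : ℕ) (hb : 1 ≤ b) (s t : ℝ) {A : Finset Pt}
    (hA : A ⊆ P) (hAe : ActN P k b s t ⊆ A) :
    ((nearE P k b s t).card : ℝ) ≤ 18 * A.card ∨
    ((nearE P k b s t).card : ℝ) ^ 3 ≤ 11664 * (A.card : ℝ) ^ 4 * (b : ℝ) ^ 2 := by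
  refine (crossing_lemma hP hA (subset_pairs_ends nearE_subset_pairs hAe)).imp id (fun h => ?_)
  have h0 : ((ActN P k b s t).card : ℝ) ≤ A.card := by exact_mod_cast Finset.card_le_card hAe
  have h1 : (crs (nearE P k b s t) (nearE P k b s t) : ℝ) ≤
      18 * b * b * (ActN P k b s t).card * (ActN P k b s t).card := by
    exact_mod_cast dey_near' hP k b k b hb hb s t s t
  have h2 : (18 * b * b * (ActN P k b s t).card * (ActN P k b s t).card : ℝ) ≤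
      18 * b * b * A.card * A.card := by gcongr
  calc _ ≤ 648 * (A.card : ℝ) ^ 2 * (crs (nearE P k b s t) (nearE P k b s t) : ℝ) := h
    _ ≤ 648 * (A.card : ℝ) ^ 2 * (18 * b * b * A.card * A.card) :=
        mul_le_mul_of_nonneg_left (h1.trans h2) (by positivity)
    _ = _ := by ring

/-- **W3**, cubed form. -/
theorem W3_cube {P : Finset Pt} (hP : Generic P) (k b : ℕ) (hb : 1 ≤ b) (s t : ℝ) {A : Finset Pt}
    (hA : A ⊆ P) (hAe : ActN P k b s t ⊆ A) (Z : Finset Pt) :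
    (((nearE P k b s t).filter (fun e => e.1 ∈ Z ∨ e.2 ∈ Z)).card : ℝ) ≤ 72 * A.card ∨
    (((nearE P k b s t).filter (fun e => e.1 ∈ Z ∨ e.2 ∈ Z)).card : ℝ) ^ 3 ≤
      373248 * (A.card : ℝ) ^ 3 * ((Z ∩ A).card : ℝ) * (b : ℝ) ^ 2 := by
  set E := (nearE P k b s t).filter (fun e => e.1 ∈ Z ∨ e.2 ∈ Z) with hE
  have hsub : E ⊆ nearE P k b s t := Finset.filter_subset _ _
  have hEA : E ⊆ pairs A := hsub.trans (subset_pairs_ends nearE_subset_pairs hAe)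
  have hone : ∀ e ∈ E, e.1 ∈ Z ∩ A ∨ e.2 ∈ Z ∩ A := by
    intro e he
    have h1 := mem_pairs.1 (hEA he)
    rcases (Finset.mem_filter.1 he).2 with h | h
    · exact Or.inl (Finset.mem_inter.2 ⟨h, h1.1⟩)
    · exact Or.inr (Finset.mem_inter.2 ⟨h, h1.2.1⟩)
  refine (crossing_lemma_unbalanced hP hA Finset.inter_subset_right hEA hone).imp id (fun h => ?_)
  have h0 : ((ActN P k b s t).card : ℝ) ≤ A.card := by exact_mod_cast Finset.card_le_card hAe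
  have h1 : (crs E E : ℝ) ≤
      18 * b * b * (ActN P k b s t).card * (ActN P k b s t).card := by
    exact_mod_cast (crs_mono' hsub hsub).trans (dey_near' hP k b k b hb hb s t s t)
  have h2 : (18 * b * b * (ActN P k b s t).card * (ActN P k b s t).card : ℝ) ≤
      18 * b * b * A.card * A.card := by gcongr
  calc _ ≤ 20736 * (A.card : ℝ) * ((Z ∩ A).card : ℝ) * (crs E E : ℝ) := h
    _ ≤ 20736 * (A.card : ℝ) * ((Z ∩ A).card : ℝ) * (18 * b * b * A.card * A.card) :=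
        mul_le_mul_of_nonneg_left (h1.trans h2) (by positivity)
    _ = _ := by ring

/-! ### arithmetic of `bb` -/

lemma bb_le_div' {N V : ℕ} : (bb N V : ℝ) ≤ (N : ℝ) / (V : ℝ) ^ 3 := by
  unfold bb
  have := @Nat.cast_div_le ℝ _ _ _ N (V ^ 3)
  simpa using this

lemma one_le_bb {N V : ℕ} (hV : 1 ≤ V) (h : V ^ 3 ≤ N) : 1 ≤ bb N V :=
  (Nat.one_le_div_iff (by positivity)).2 h

/-- `b_{V'} + 1 ≤ b_V` when `2 V ≤ V'` and `V'^3 ≤ N`. -/
lemma bb_succ_le' {N V V' : ℕ} (hV : 1 ≤ V) (h2 : 2 * V ≤ V') (hN : V' ^ 3 ≤ N) :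
    bb N V' + 1 ≤ bb N V := by
  have hV' : 1 ≤ V' := by omega
  have h1 := one_le_bb hV' hN
  have h3 : 8 * V ^ 3 ≤ V' ^ 3 := by
    calc 8 * V ^ 3 = (2 * V) ^ 3 := by ring
      _ ≤ V' ^ 3 := Nat.pow_le_pow_left h2 3
  have h4 : 8 * bb N V' ≤ bb N V := by
    unfold bb
    rw [Nat.le_div_iff_mul_le (by positivity)]
    calc 8 * (N / V' ^ 3) * V ^ 3 = (N / V' ^ 3) * (8 * V ^ 3) := by ring
      _ ≤ (N / V' ^ 3) * V' ^ 3 := Nat.mul_le_mul_left _ h3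
      _ ≤ N := Nat.div_mul_le_self N _
  omega

lemma cube_le {x y c C : ℝ} (hC : 0 ≤ C) (hy : 0 ≤ y) (hc : c ≤ C ^ 3) (h : x ^ 3 ≤ c * y ^ 3) :
    x ≤ C * y := by
  by_contra hn
  rw [not_le] at hn
  have h1 : (C * y) ^ 3 < x ^ 3 := pow_lt_pow_left₀ hn (by positivity) (by norm_num)
  have h2 : c * y ^ 3 ≤ (C * y) ^ 3 := by
    rw [mul_pow]; exact mul_le_mul_of_nonneg_right hc (by positivity)
  linarith

end WinD

open WinD

/-- **W0** in `V`-form. -/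
theorem w0V : ∀ P : Finset Pt, Generic P → ∀ k V : ℕ, 1 ≤ V → V ^ 3 ≤ P.card →
    ((nearAll P k (bb P.card V)).card : ℝ) ≤ 23 * (P.card * ((P.card : ℝ) / (V : ℝ) ^ 2)) := by
  intro P hP k V hV hN
  have hV0 : (1 : ℝ) ≤ (V : ℝ) := by exact_mod_cast hV
  have hN' : (V : ℝ) ^ 3 ≤ (P.card : ℝ) := by exact_mod_cast hN
  have hb := one_le_bb hV hN
  rcases W0_cube hP k (bb P.card V) hb with h | h
  · refine h.trans ?_
    have h3 : (1 : ℝ) ≤ (P.card : ℝ) / (V : ℝ) ^ 2 := by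
      rw [le_div_iff₀ (by positivity), one_mul]
      exact le_trans (pow_le_pow_right₀ hV0 (by norm_num)) hN'
    nlinarith [Nat.cast_nonneg (α := ℝ) P.card,
      mul_le_mul_of_nonneg_left h3 (Nat.cast_nonneg (α := ℝ) P.card)]
  · refine cube_le (c := 11664) (by norm_num) (by positivity) (by norm_num) (h.trans ?_)
    have h1 := @bb_le_div' P.card V
    calc 11664 * (P.card : ℝ) ^ 4 * (bb P.card V : ℝ) ^ 2
        ≤ 11664 * (P.card : ℝ) ^ 4 * ((P.card : ℝ) / (V : ℝ) ^ 3) ^ 2 := by gcongr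
      _ = 11664 * (P.card * ((P.card : ℝ) / (V : ℝ) ^ 2)) ^ 3 := by
        field_simp

theorem w0_b {P : Finset Pt} (hP : Generic P) (k b : ℕ) (hb : 1 ≤ b) :
    ((nearAll P k b).card : ℝ) ≤ 23 * ((P.card : ℝ) ^ ((4 : ℝ) / 3) * (b : ℝ) ^ ((2 : ℝ) / 3)) := by
  have hb' : (1 : ℝ) ≤ (b : ℝ) := by exact_mod_cast hb
  have e1 : ((P.card : ℝ) ^ ((4 : ℝ) / 3) * (b : ℝ) ^ ((2 : ℝ) / 3)) ^ 3 =
      (P.card : ℝ) ^ 4 * (b : ℝ) ^ 2 := by
    rw [mul_pow, ← Real.rpow_natCast, ← Real.rpow_mul (Nat.cast_nonneg _),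
      ← Real.rpow_natCast ((b : ℝ) ^ _), ← Real.rpow_mul (Nat.cast_nonneg _)]
    norm_num
  rcases W0_cube hP k b hb with h | h
  · refine cube_le (c := 5832) (by norm_num) (by positivity) (by norm_num) ?_
    rw [e1]
    have h1 : ((nearAll P k b).card : ℝ) ^ 3 ≤ (18 * P.card) ^ 3 := by gcongr
    refine h1.trans ?_
    rcases Nat.eq_zero_or_pos P.card with h0 | h0
    · rw [h0]; simp
    · have h2 : (1 : ℝ) ≤ P.card := by exact_mod_cast h0
      have h3 : (P.card : ℝ) ^ 3 ≤ (P.card : ℝ) ^ 4 := pow_le_pow_right₀ h2 (by norm_num)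
      have h4 : (1 : ℝ) ≤ (b : ℝ) ^ 2 := one_le_pow₀ hb'
      calc (18 * (P.card : ℝ)) ^ 3 = 5832 * ((P.card : ℝ) ^ 3 * 1) := by ring
        _ ≤ 5832 * ((P.card : ℝ) ^ 4 * (b : ℝ) ^ 2) := by gcongr
  · refine cube_le (c := 11664) (by norm_num) (by positivity) (by norm_num) ?_
    rw [e1]
    linarith

theorem w2V : W2V 304 := by
  intro P hP k V V' hV h2 hN s t hc
  have hV' : 1 ≤ V' := by omega
  have hV0 : (1 : ℝ) ≤ (V : ℝ) := by exact_mod_cast hV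
  have hV0' : (1 : ℝ) ≤ (V' : ℝ) := by exact_mod_cast hV'
  have hVV : (V : ℝ) ≤ (V' : ℝ) := by exact_mod_cast (by omega : V ≤ V')
  have hN' : (V' : ℝ) ^ 3 ≤ (P.card : ℝ) := by exact_mod_cast hN
  have hb := one_le_bb hV' hN
  have hbb := bb_succ_le' hV h2 hN
  have hAe : ActN P k (bb P.card V') s t ⊆ cen P k (bb P.card V) s t :=
    ends_nearE_subset.trans (cen_mono hbb _root_.le_rfl _root_.le_rfl)
  have hc' : ((cen P k (bb P.card V) s t).card : ℝ) ≤ 7 * (P.card : ℝ) / (V : ℝ) ^ 3 := by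
    have : ((cen P k (bb P.card V) s t).card : ℝ) ≤ 7 * (bb P.card V : ℝ) := by exact_mod_cast hc
    have h1 := @bb_le_div' P.card V
    calc _ ≤ 7 * (bb P.card V : ℝ) := this
      _ ≤ 7 * ((P.card : ℝ) / (V : ℝ) ^ 3) := by gcongr
      _ = _ := by ring
  rcases W2_cube hP k (bb P.card V') hb s t (A := cen P k (bb P.card V) s t)
    (Finset.filter_subset _ _) hAe with h | h
  · refine h.trans ?_
    calc 18 * ((cen P k (bb P.card V) s t).card : ℝ)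
        ≤ 18 * (7 * (P.card : ℝ) / (V : ℝ) ^ 3) := by gcongr
      _ ≤ 304 * ((P.card : ℝ) ^ 2 / ((V : ℝ) ^ 4 * (V' : ℝ) ^ 2)) := by
        rw [mul_div_assoc', mul_div_assoc', div_le_div_iff₀ (by positivity) (by positivity)]
        have h3 : (V : ℝ) * (V' : ℝ) ^ 2 ≤ P.card := by
          calc (V : ℝ) * (V' : ℝ) ^ 2 ≤ V' * (V' : ℝ) ^ 2 := by gcongr
            _ = (V' : ℝ) ^ 3 := by ring
            _ ≤ P.card := hN'
        calc 18 * (7 * (P.card : ℝ)) * ((V : ℝ) ^ 4 * (V' : ℝ) ^ 2)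
            = 126 * ((P.card : ℝ) * (V : ℝ) ^ 3) * ((V : ℝ) * (V' : ℝ) ^ 2) := by ring
          _ ≤ 126 * ((P.card : ℝ) * (V : ℝ) ^ 3) * P.card := by gcongr
          _ ≤ 304 * ((P.card : ℝ) * (V : ℝ) ^ 3) * P.card := by gcongr; norm_num
          _ = 304 * (P.card : ℝ) ^ 2 * (V : ℝ) ^ 3 := by ring
  · refine cube_le (c := 28005264) (by norm_num) (by positivity) (by norm_num) (h.trans ?_)
    have h1 := @bb_le_div' P.card V'
    calc 11664 * ((cen P k (bb P.card V) s t).card : ℝ) ^ 4 * (bb P.card V' : ℝ) ^ 2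
        ≤ 11664 * (7 * (P.card : ℝ) / (V : ℝ) ^ 3) ^ 4 * ((P.card : ℝ) / (V' : ℝ) ^ 3) ^ 2 := by
          gcongr
      _ = 28005264 * ((P.card : ℝ) ^ 2 / ((V : ℝ) ^ 4 * (V' : ℝ) ^ 2)) ^ 3 := by
        field_simp
        ring

theorem w3V : W3V 504 := by
  intro P hP k V V' hV h2 hN s t hc Z
  have hV' : 1 ≤ V' := by omega
  have hV0 : (1 : ℝ) ≤ (V : ℝ) := by exact_mod_cast hV
  have hV0' : (1 : ℝ) ≤ (V' : ℝ) := by exact_mod_cast hV'
  have hN' : (V' : ℝ) ^ 3 ≤ (P.card : ℝ) := by exact_mod_cast hN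
  have hNpos : (0 : ℝ) < P.card := by
    have : (1 : ℝ) ≤ (V' : ℝ) ^ 3 := one_le_pow₀ hV0'
    linarith
  have hb := one_le_bb hV' hN
  have hbb := bb_succ_le' hV h2 hN
  have hAe : ActN P k (bb P.card V') s t ⊆ cen P k (bb P.card V) s t :=
    ends_nearE_subset.trans (cen_mono hbb _root_.le_rfl _root_.le_rfl)
  have hc' : ((cen P k (bb P.card V) s t).card : ℝ) ≤ 7 * (P.card : ℝ) / (V : ℝ) ^ 3 := by
    have : ((cen P k (bb P.card V) s t).card : ℝ) ≤ 7 * (bb P.card V : ℝ) := by exact_mod_cast hc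
    have h1 := @bb_le_div' P.card V
    calc _ ≤ 7 * (bb P.card V : ℝ) := this
      _ ≤ 7 * ((P.card : ℝ) / (V : ℝ) ^ 3) := by gcongr
      _ = _ := by ring
  set A := cen P k (bb P.card V) s t with hA
  have hr : (0 : ℝ) ≤ ((Z ∩ A).card : ℝ) / ((P.card : ℝ) / (V : ℝ) ^ 3) := by positivity
  rcases W3_cube hP k (bb P.card V') hb s t (A := A)
    (Finset.filter_subset _ _) hAe Z with h | h
  · have h1 : (0 : ℝ) ≤ 504 * (((Z ∩ A).card : ℝ) / ((P.card : ℝ) / (V : ℝ) ^ 3)) ^ ((1 : ℝ) / 3)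
        * ((P.card : ℝ) ^ 2 / ((V : ℝ) ^ 4 * (V' : ℝ) ^ 2)) := by positivity
    have h3 : 72 * (A.card : ℝ) ≤ 504 * ((P.card : ℝ) / (V : ℝ) ^ 3) := by
      calc 72 * (A.card : ℝ) ≤ 72 * (7 * (P.card : ℝ) / (V : ℝ) ^ 3) := by gcongr
        _ = _ := by ring
    linarith
  · have h3 : (0 : ℝ) ≤ 504 * ((P.card : ℝ) / (V : ℝ) ^ 3) := by positivity
    have h4 : (((nearE P k (bb P.card V') s t).filter (fun e => e.1 ∈ Z ∨ e.2 ∈ Z)).card : ℝ) ≤
        504 * ((((Z ∩ A).card : ℝ) / ((P.card : ℝ) / (V : ℝ) ^ 3)) ^ ((1 : ℝ) / 3)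
        * ((P.card : ℝ) ^ 2 / ((V : ℝ) ^ 4 * (V' : ℝ) ^ 2))) := by
      refine cube_le (c := 128024064) (by norm_num) (by positivity) (by norm_num) (h.trans ?_)
      have h1 := @bb_le_div' P.card V'
      have e1 : ((((Z ∩ A).card : ℝ) / ((P.card : ℝ) / (V : ℝ) ^ 3)) ^ ((1 : ℝ) / 3)) ^ 3 =
          ((Z ∩ A).card : ℝ) / ((P.card : ℝ) / (V : ℝ) ^ 3) := by
        rw [← Real.rpow_natCast, ← Real.rpow_mul hr]
        norm_num
      rw [mul_pow, e1]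
      calc 373248 * (A.card : ℝ) ^ 3 * ((Z ∩ A).card : ℝ) * (bb P.card V' : ℝ) ^ 2
          ≤ 373248 * (7 * (P.card : ℝ) / (V : ℝ) ^ 3) ^ 3 * ((Z ∩ A).card : ℝ)
            * ((P.card : ℝ) / (V' : ℝ) ^ 3) ^ 2 := by gcongr
        _ = 128024064 * (((Z ∩ A).card : ℝ) / ((P.card : ℝ) / (V : ℝ) ^ 3)
            * ((P.card : ℝ) ^ 2 / ((V : ℝ) ^ 4 * (V' : ℝ) ^ 2)) ^ 3) := by
          field_simp
          ring
    linarith [mul_assoc (504 : ℝ) ((((Z ∩ A).card : ℝ) / ((P.card : ℝ) / (V : ℝ) ^ 3))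
      ^ ((1 : ℝ) / 3)) ((P.card : ℝ) ^ 2 / ((V : ℝ) ^ 4 * (V' : ℝ) ^ 2))]

end Crest.Agent.R51
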