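import Crest.Agent.R51.WalkH
import Crest.Agent.R51.WalkDis
import Crest.Agent.R51.LacWt
import Crest.Agent.R51.WinDey

/-!
# Row 51, section B5: the interface statements `I3` (`(t3)_l`) and `I8` (`(t8)`, one level)
(helper834)
-/

set_option autoImplicit false

noncomputable section

open Classical

namespace Crest.Agent.R51

/-- `I3` from W2 and W3 -/
theorem i3_of {C : ℝ} (hC : 0 ≤ C) (h2 : W2V C) (h3 : W3V C) : I3 := by
  intro Cw lam1 ε hCw hlam1 hε
  obtain ⟨lam0, hlam0, H⟩ := t3_eps (Cw := Cw) (lam1 := lam1) (ε := ε) hC h2 h3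
    (by linarith) (by linarith) hε
  refine ⟨lam0, hlam0, fun v hv => ⟨2 * v, fun Vp hVp => ?_⟩⟩
  obtain ⟨N0, hN0⟩ := H lam0 le_rfl v Vp (by omega)
  refine ⟨N0, fun P hG hN k V L W l hl hV1 hVv => ?_⟩
  have h := hN0 P hG hN k V L W l hl hV1 hVv (by omega)
  have e1 : (TT P k Vp lam1).filter (fun z => ¬ G3 W Vp lam0 l z)
      = (T0 P k (bb P.card Vp) (lam1 * ((P.card : ℝ) / (Vp : ℝ) ^ 2))).filter (fun z =>
        lam0 * ((P.card : ℝ) / (Vp : ℝ) ^ 2) / (V l : ℝ)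
          < (wdeg P k (bb P.card Vp) (W.cuts l) z : ℝ)) := by
    unfold TT DD G3 wdeg WSys.J DD
    refine Finset.filter_congr (fun z _ => ?_)
    exact not_le
  rw [e1]
  refine h.trans (le_of_eq ?_)
  unfold DD
  ring

/-! ### flagged windows -/

namespace WalkI

lemma cntL_unique {C : Finset ℝ} {B : ℕ} (hB : 1 ≤ B) {l l' v : ℝ} (hl : l ∈ C) (hl' : l' ∈ C)
    (h : Lac.cntL C l v = B) (h' : Lac.cntL C l' v = B) : l' = l := by
  by_contra hne
  have key : ∀ a b : ℝ, a ∈ C → a < b → Lac.cntL C a v = B → Lac.cntL C b v = B → False := by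
    intro a b ha hab h1 h2
    have h3 : 0 < Lac.cntL C b v := by omega
    unfold Lac.cntL at h3
    obtain ⟨x, hx⟩ := Finset.card_pos.1 h3
    rw [Finset.mem_filter] at hx
    have h4 : C.filter (fun x => b ≤ x ∧ x < v) ⊂ C.filter (fun x => a ≤ x ∧ x < v) := by
      rw [Finset.ssubset_iff_of_subset]
      · refine ⟨a, Finset.mem_filter.2 ⟨ha, le_rfl, by linarith [hx.2.1, hx.2.2]⟩, ?_⟩
        intro h5
        exact absurd (Finset.mem_filter.1 h5).2.1 (not_le.2 hab)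
      · intro y hy
        rw [Finset.mem_filter] at hy ⊢
        exact ⟨hy.1, hab.le.trans hy.2.1, hy.2.2⟩
    have h5 := Finset.card_lt_card h4
    have h6 : (C.filter (fun x => b ≤ x ∧ x < v)).card = B := h2
    have h7 : (C.filter (fun x => a ≤ x ∧ x < v)).card = B := h1
    omega
  rcases lt_or_gt_of_ne hne with h1 | h1
  · exact key l' l hl' h1 h' h
  · exact key l l' hl h1 h h'

lemma cntR_unique {C : Finset ℝ} {B : ℕ} (hB : 1 ≤ B) {r r' v : ℝ} (hr : r ∈ C) (hr' : r' ∈ C)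
    (h : Lac.cntR C v r = B) (h' : Lac.cntR C v r' = B) : r' = r := by
  have h1 : -r' = -r := by
    refine cntL_unique (C := Lac.neg C) hB (v := -v) (Lac.mem_neg.2 (by simpa using hr))
      (Lac.mem_neg.2 (by simpa using hr')) ?_ ?_
    · rw [Lac.cntL_neg]; exact h
    · rw [Lac.cntL_neg]; exact h'
  linarith

/-- flagged in the sense of `HSys` implies flagged in the sense of `LacDefs` -/
lemma flag_of_flagged {C : Finset ℝ} {B : ℕ} {Lam : ℝ} {I J : ℝ × ℝ} (hB : 1 ≤ B)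
    (h : Flagged C B Lam I J) : Lac.Flag C B (16 * Lam) I J := by
  rcases h with h | h
  · left
    intro hI
    obtain ⟨l, hl, h1, h2, h3⟩ := Lac.exists_left hB hI.1
    obtain ⟨r, hr, h4, h5, h6⟩ := Lac.exists_right hB hI.2
    exact h ⟨l, r, hl, hr, h2, h4, h1, h5, h3, h6⟩
  · right
    obtain ⟨l, r, ⟨hl, hr, h1, h2, h3, h4, h5, h6⟩, h7, h8⟩ := h
    have h5' : Lac.cntL C l J.1 = B := h5
    have h6' : Lac.cntR C J.2 r = B := h6
    refine ⟨⟨?_, ?_⟩, ?_, ?_⟩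
    · rw [← h5']
      refine Finset.card_le_card (fun x hx => ?_)
      rw [Finset.mem_filter] at hx ⊢
      exact ⟨hx.1, h3.trans hx.2.1, hx.2.2⟩
    · rw [← h6']
      refine Finset.card_le_card (fun x hx => ?_)
      rw [Finset.mem_filter] at hx ⊢
      exact ⟨hx.1, hx.2.1, hx.2.2.trans h4⟩
    · intro l' hl' hc
      have e : l' = l := cntL_unique hB hl hl' h5' hc
      subst e
      simpa using h7
    · intro r' hr' hc
      have e : r' = r := cntR_unique hB hr hr' h6' hc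
      subst e
      simpa using h8

end WalkI

/-- number of flagged windows of level `l` -/
theorem card_flagW_le {P : Finset Pt} {k mu n0 be : ℕ} {Cw : ℝ} (hCw : 1 ≤ Cw) (hmu : 1 ≤ mu)
    (W : WSys P k (lev mu n0 be) (n0 + 1) Cw) {l : ℕ} (hl1 : 1 ≤ l) (hl : l ≤ n0) :
    ((flagW W mu l).card : ℝ) ≤ 68 * Cw ^ 2 / mu * (lev mu n0 be l : ℝ) ^ 4 := by
  have hmu0 : (0 : ℝ) < (mu : ℝ) := by exact_mod_cast hmu
  have hlev : ∀ j, j ≤ n0 → ((lev mu n0 be j : ℕ) : ℝ) = (mu : ℝ) ^ (10 * j) := by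
    intro j hj
    unfold lev
    rw [if_pos hj]
    push_cast
    rfl
  have hsub : flagW W mu l ⊆ (wins (W.cuts l)).filter
      (fun J => Lac.FlagAt W.cuts (mu ^ 39) (16 * (mu : ℝ) ^ 11) l J) := by
    intro J hJ
    unfold flagW at hJ
    rw [Finset.mem_filter] at hJ ⊢
    obtain ⟨h1, I, hI, h2, h3, h4⟩ := hJ
    exact ⟨h1, I, hI, J, Lac.mem_kids.2 ⟨mem_wins.1 h1, h2, h3⟩, le_rfl, le_rfl,
      WalkI.flag_of_flagged (Nat.one_le_pow _ _ hmu) h4⟩
  have h := Lac.flag_count (cuts := W.cuts) (Cw := Cw) (μ := mu) (j := l) hCw hmu hl1 ?_ ?_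
  · have h1 : ((flagW W mu l).card : ℝ) ≤ (((wins (W.cuts l)).filter
      (fun J => Lac.FlagAt W.cuts (mu ^ 39) (16 * (mu : ℝ) ^ 11) l J)).card : ℝ) := by
      exact_mod_cast Finset.card_le_card hsub
    have h2 : ((flagW W mu l).card : ℝ) * mu ≤ 68 * Cw ^ 2 * (mu : ℝ) ^ (40 * l) :=
      (mul_le_mul_of_nonneg_right h1 hmu0.le).trans h
    rw [hlev l hl, div_mul_eq_mul_div, le_div_iff₀ hmu0]
    refine h2.trans (le_of_eq ?_)
    rw [← pow_mul]
    congr 2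
    ring
  · intro K hK
    have h3 := W.count_in (l - 1) l (by omega) (by omega) K hK
    rw [hlev l hl, hlev (l - 1) (by omega)] at h3
    have e : Lac.kids (W.cuts l) K
        = (wins (W.cuts l)).filter (fun J' => K.1 ≤ J'.1 ∧ J'.2 ≤ K.2) := rfl
    rw [e]
    refine h3.trans (le_of_eq ?_)
    congr 1
    have e2 : (mu : ℝ) ^ (10 * l) = (mu : ℝ) ^ (10 * (l - 1)) * (mu : ℝ) ^ 10 := by
      rw [← pow_add]
      congr 1
      omega
    rw [e2, mul_div_cancel_left₀ _ (by positivity), ← pow_mul]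
  · have h3 := W.count_all (l - 1) (by omega)
    rw [hlev (l - 1) (by omega)] at h3
    refine h3.trans (le_of_eq ?_)
    rw [← pow_mul]
    congr 2
    ring

/-- `I8` from W2 -/
theorem i8_of {C : ℝ} (hC : 0 ≤ C) (h2 : W2V C) : I8 := by
  intro Cw lam1 ε hCw hlam1 hε
  obtain ⟨mu1, hmu1⟩ := exists_nat_ge (lam1 * (68 * Cw ^ 2) * C / ε)
  refine ⟨max 1 mu1, fun mu hmu n0 be _ => ⟨2 * mu ^ (10 * n0), fun Vp hVp =>
    ⟨Vp ^ 3, fun P hG hN k W l hl1 hl => ?_⟩⟩⟩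
  have hmu2 : 1 ≤ mu := (le_max_left _ _).trans hmu
  have hmu0 : (0 : ℝ) < (mu : ℝ) := by exact_mod_cast hmu2
  have hmu3 : (mu1 : ℝ) ≤ (mu : ℝ) := by exact_mod_cast (le_max_right _ _).trans hmu
  have hlL : l ≤ n0 + 1 := by omega
  have hlev : lev mu n0 be l = mu ^ (10 * l) := by
    unfold lev; rw [if_pos hl]
  have hV1 : 1 ≤ lev mu n0 be l := by rw [hlev]; exact Nat.one_le_pow _ _ hmu2
  have hV' : 2 * lev mu n0 be l ≤ Vp := by
    rw [hlev]
    refine le_trans ?_ hVp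
    exact Nat.mul_le_mul_left _ (Nat.pow_le_pow_right hmu2 (by omega))
  have hVpos : (0 : ℝ) < (lev mu n0 be l : ℝ) := by exact_mod_cast hV1
  have hVp0 : (0 : ℝ) < (Vp : ℝ) := by
    have : 0 < Vp := by omega
    exact_mod_cast this
  set N : ℝ := (P.card : ℝ) with hNd
  have hN0 : 0 ≤ N := Nat.cast_nonneg _
  have e1 : (((TT P k Vp lam1).filter (fun z => F8 W mu l z)).card : ℝ)
      ≤ (((T0 P k (bb P.card Vp) (lam1 * (N / (Vp : ℝ) ^ 2))).filter
        (fun z => winOf (W.cuts l) (esl (lastE z)) ∈ flagW W mu l)).card : ℝ) := by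
    refine Nat.cast_le.2 (Finset.card_le_card ?_)
    intro z hz
    rw [Finset.mem_filter] at hz ⊢
    refine ⟨hz.1, ?_⟩
    have h4 : lastE z ∈ pairs P :=
      nearAll_subset (lowG_subset _ _ (mem_T0.1 hz.1).2)
    have h5 := W.winOf_pair hlL h4
    have h6 := W.winOf_pair (l := l - 1) (by omega) h4
    have h7 := W.winOf_nested (l := l - 1) (l' := l) (by omega) hlL h4
    exact Finset.mem_filter.2 ⟨h5.1, _, h6.1, h7.1, h7.2, hz.2⟩
  refine e1.trans ?_
  have e2 := t8_level (b' := bb P.card Vp) W hlL (Λ := lam1 * (N / (Vp : ℝ) ^ 2))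
    (by positivity) (flagW W mu l)
    (y := C * (N ^ 2 / ((lev mu n0 be l : ℝ) ^ 4 * (Vp : ℝ) ^ 2)))
    (fun J hJ => h2 P hG k _ Vp hV1 hV' hN J.1 J.2
      (W.cen_le l hlL J (Finset.mem_filter.1 hJ).1))
  refine e2.trans ?_
  have e3 := card_flagW_le hCw hmu2 W hl1 hl
  have e4 : lam1 * (N / (Vp : ℝ) ^ 2) * (((flagW W mu l).card : ℝ)
      * (C * (N ^ 2 / ((lev mu n0 be l : ℝ) ^ 4 * (Vp : ℝ) ^ 2))))
      ≤ lam1 * (N / (Vp : ℝ) ^ 2) * ((68 * Cw ^ 2 / mu * (lev mu n0 be l : ℝ) ^ 4)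
        * (C * (N ^ 2 / ((lev mu n0 be l : ℝ) ^ 4 * (Vp : ℝ) ^ 2)))) := by
    gcongr
  refine e4.trans ?_
  have e5 : lam1 * (N / (Vp : ℝ) ^ 2) * ((68 * Cw ^ 2 / mu * (lev mu n0 be l : ℝ) ^ 4)
        * (C * (N ^ 2 / ((lev mu n0 be l : ℝ) ^ 4 * (Vp : ℝ) ^ 2))))
      = (lam1 * (68 * Cw ^ 2) * C / mu) * (N * DD P Vp ^ 2) := by
    unfold DD
    rw [← hNd]
    field_simp
  have e6 : ε * N * DD P Vp ^ 2 = ε * (N * DD P Vp ^ 2) := by ring
  have e7 : 0 ≤ N * DD P Vp ^ 2 := by positivity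
  rw [e5, e6]
  refine mul_le_mul_of_nonneg_right ?_ e7
  rw [div_le_iff₀ hmu0]
  have h6 := hmu1.trans hmu3
  rw [div_le_iff₀ hε] at h6
  linarith

lemma W2V.mono {C C' : ℝ} (h : W2V C) (hC : C ≤ C') : W2V C' := by
  intro P hG k V V' hV hV' hN s t hc
  exact (h P hG k V V' hV hV' hN s t hc).trans (mul_le_mul_of_nonneg_right hC (by positivity))

/-- `(t3)_l` -/
theorem i3 : I3 := i3_of (C := 504) (by norm_num) (w2V.mono (by norm_num)) w3V

/-- `(t8)`, one level -/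
theorem i8 : I8 := i8_of (C := 304) (by norm_num) w2V

end Crest.Agent.R51
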