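import Crest.Agent.R51.HSys
import Crest.Agent.R51.Dey
import Crest.Agent.R51.CrossStr

/-!
# Row 51, sections 5.3 and 5.4: non-concentration and robust points (helper238)

Auxiliary notions, in the namespace `Rob`:
`light P k b C m` : points lying in at most `m` of the sets `A(J) = cen P k b J`, `J ∈ wins C`.
`comm P k b C m I J` : number of light points in `A(I) ∩ A(J)`.
`NK P k b C m T I J` : `I ≠ J` and `comm ≤ T` (`= W.NK` for `T = K N / V^4`, `m = λ₃ V`, `NK_iff`).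
`badX … F` : crossing pairs of `F` whose pair of windows is not in `NK`.

Main results: `WSys.Robust`, `WSys.Robust.out`, `WSys.rob_trim`, `card_not_robust`,
`card_walks_not_robust`.
-/

set_option autoImplicit false

noncomputable section

open Classical

namespace Crest.Agent.R51

namespace Rob

/-- points lying in at most `m` sets `cen P k b J`, `J ∈ wins C`. -/
def light (P : Finset Pt) (k b : ℕ) (C : Finset ℝ) (m : ℝ) : Finset Pt :=
  P.filter (fun p => (((wins C).filter (fun J => p ∈ cen P k b J.1 J.2)).card : ℝ) ≤ m)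

/-- number of common light points of two windows. -/
def comm (P : Finset Pt) (k b : ℕ) (C : Finset ℝ) (m : ℝ) (I J : ℝ × ℝ) : ℕ :=
  ((light P k b C m).filter (fun p => p ∈ cen P k b I.1 I.2 ∧ p ∈ cen P k b J.1 J.2)).card

/-- the relation `N_l(K)`. -/
def NK (P : Finset Pt) (k b : ℕ) (C : Finset ℝ) (m T : ℝ) (I J : ℝ × ℝ) : Prop :=
  I ≠ J ∧ (comm P k b C m I J : ℝ) ≤ T

lemma mem_light {P : Finset Pt} {k b : ℕ} {C : Finset ℝ} {m : ℝ} {p : Pt} :
    p ∈ light P k b C m ↔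
      p ∈ P ∧ (((wins C).filter (fun J => p ∈ cen P k b J.1 J.2)).card : ℝ) ≤ m := by
  simp [light]

lemma comm_symm (P : Finset Pt) (k b : ℕ) (C : Finset ℝ) (m : ℝ) (I J : ℝ × ℝ) :
    comm P k b C m I J = comm P k b C m J I := by
  unfold comm
  congr 1
  ext p
  simp only [Finset.mem_filter]
  tauto

lemma NK.symm {P : Finset Pt} {k b : ℕ} {C : Finset ℝ} {m T : ℝ} {I J : ℝ × ℝ}
    (h : NK P k b C m T I J) : NK P k b C m T J I :=
  ⟨h.1.symm, by rw [comm_symm]; exact h.2⟩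

lemma NK.ne {P : Finset Pt} {k b : ℕ} {C : Finset ℝ} {m T : ℝ} {I J : ℝ × ℝ}
    (h : NK P k b C m T I J) : I ≠ J := h.1

/-- number of windows `≤` number of cuts. -/
lemma card_wins_le (C : Finset ℝ) : (wins C).card ≤ C.card := by
  refine Finset.card_le_card_of_injOn (fun J => J.1) ?_ ?_
  · intro J hJ
    exact Finset.mem_coe.2 (mem_wins.1 (Finset.mem_coe.1 hJ)).1
  · intro J hJ J' hJ' h
    have h0 : J.1 = J'.1 := h
    obtain ⟨a1, a2, a3, a4⟩ := mem_wins.1 (Finset.mem_coe.1 hJ)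
    obtain ⟨c1, c2, c3, c4⟩ := mem_wins.1 (Finset.mem_coe.1 hJ')
    refine Prod.ext h0 ?_
    rcases lt_trichotomy J.2 J'.2 with h | h | h
    · exact absurd ⟨h0 ▸ a3, h⟩ (c4 _ a2)
    · exact h
    · exact absurd ⟨h0 ▸ c3, h⟩ (a4 _ c2)

/-- `Σ_{I,J} comm ≤ N m²`. -/
lemma sum_comm_le (P : Finset Pt) (k b : ℕ) (C : Finset ℝ) (m : ℝ) :
    ∑ x ∈ wins C ×ˢ wins C, (comm P k b C m x.1 x.2 : ℝ) ≤ P.card * m ^ 2 := by
  have h1 : ∑ x ∈ wins C ×ˢ wins C, (comm P k b C m x.1 x.2 : ℝ) =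
      ∑ p ∈ light P k b C m,
        (((wins C).filter (fun J => p ∈ cen P k b J.1 J.2)).card : ℝ) ^ 2 := by
    have h2 : ∀ x : (ℝ × ℝ) × (ℝ × ℝ), (comm P k b C m x.1 x.2 : ℝ) =
        ∑ p ∈ light P k b C m,
          (if p ∈ cen P k b x.1.1 x.1.2 ∧ p ∈ cen P k b x.2.1 x.2.2 then (1 : ℝ) else 0) := by
      intro x
      unfold comm
      rw [Finset.card_filter]
      push_cast
      rfl
    simp only [h2]
    rw [Finset.sum_comm]
    refine Finset.sum_congr rfl (fun p _ => ?_)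
    rw [pow_two, Finset.card_filter]
    push_cast
    rw [Finset.sum_product, Finset.sum_mul_sum]
    refine Finset.sum_congr rfl (fun I _ => Finset.sum_congr rfl (fun J _ => ?_))
    by_cases hI : p ∈ cen P k b I.1 I.2 <;> by_cases hJ : p ∈ cen P k b J.1 J.2 <;>
      simp [hI, hJ]
  rw [h1]
  calc ∑ p ∈ light P k b C m,
        (((wins C).filter (fun J => p ∈ cen P k b J.1 J.2)).card : ℝ) ^ 2
      ≤ ∑ _p ∈ light P k b C m, m ^ 2 := by
        refine Finset.sum_le_sum (fun p hp => ?_)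
        exact pow_le_pow_left₀ (by positivity) (mem_light.1 hp).2 2
    _ = (light P k b C m).card * m ^ 2 := by rw [Finset.sum_const, nsmul_eq_mul]
    _ ≤ P.card * m ^ 2 := by
        refine mul_le_mul_of_nonneg_right ?_ (by positivity)
        exact_mod_cast Finset.card_le_card (Finset.filter_subset _ _)

/-- the number of window pairs outside `NK`. -/
lemma card_notNK_le (P : Finset Pt) (k b : ℕ) (C : Finset ℝ) {m T : ℝ} (hT : 0 < T) :
    ((((wins C ×ˢ wins C).filter (fun x => ¬ NK P k b C m T x.1 x.2)).card : ℕ) : ℝ) ≤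
      P.card * m ^ 2 / T + C.card := by
  have hsub : (wins C ×ˢ wins C).filter (fun x => ¬ NK P k b C m T x.1 x.2) ⊆
      (wins C ×ˢ wins C).filter (fun x => T < comm P k b C m x.1 x.2) ∪
        (wins C).image (fun J => (J, J)) := by
    intro x hx
    rw [Finset.mem_filter] at hx
    rw [Finset.mem_union]
    by_cases h : x.1 = x.2
    · right
      exact Finset.mem_image.2 ⟨x.1, (Finset.mem_product.1 hx.1).1, Prod.ext rfl h⟩
    · left
      refine Finset.mem_filter.2 ⟨hx.1, ?_⟩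
      by_contra hn
      exact hx.2 ⟨h, not_lt.1 hn⟩
  have h1 : ((((wins C ×ˢ wins C).filter (fun x => T < comm P k b C m x.1 x.2)).card : ℕ) : ℝ) ≤
      P.card * m ^ 2 / T := by
    rw [le_div_iff₀ hT]
    calc ((((wins C ×ˢ wins C).filter (fun x => T < comm P k b C m x.1 x.2)).card : ℕ) : ℝ) * T
        = ∑ _x ∈ (wins C ×ˢ wins C).filter (fun x => T < comm P k b C m x.1 x.2), T := by
          rw [Finset.sum_const, nsmul_eq_mul]
      _ ≤ ∑ x ∈ (wins C ×ˢ wins C).filter (fun x => T < comm P k b C m x.1 x.2),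
            (comm P k b C m x.1 x.2 : ℝ) :=
          Finset.sum_le_sum (fun x hx => (Finset.mem_filter.1 hx).2.le)
      _ ≤ ∑ x ∈ wins C ×ˢ wins C, (comm P k b C m x.1 x.2 : ℝ) :=
          Finset.sum_le_sum_of_subset_of_nonneg (Finset.filter_subset _ _)
            (fun _ _ _ => by positivity)
      _ ≤ P.card * m ^ 2 := sum_comm_le P k b C m
  have h2 : (((wins C).image (fun J => (J, J))).card : ℝ) ≤ C.card := by
    exact_mod_cast Finset.card_image_le.trans (card_wins_le C)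
  have h3 := (Finset.card_le_card hsub).trans (Finset.card_union_le _ _)
  have h4 : ((((wins C ×ˢ wins C).filter (fun x => ¬ NK P k b C m T x.1 x.2)).card : ℕ) : ℝ) ≤
      (((wins C ×ˢ wins C).filter (fun x => T < comm P k b C m x.1 x.2)).card : ℕ) +
        (((wins C).image (fun J => (J, J))).card : ℕ) := by exact_mod_cast h3
  linarith

/-- the crossing pairs of `F` whose windows are not in `NK`. -/
def badX (P : Finset Pt) (k b : ℕ) (C : Finset ℝ) (m T : ℝ) (F : Finset Edge) :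
    Finset (Edge × Edge) :=
  (F ×ˢ F).filter (fun x => Cross x.1 x.2 ∧
    ¬ NK P k b C m T (winOf C (esl x.1)) (winOf C (esl x.2)))

/-- the pairs of `F` whose windows are in `NK`. -/
def goodX (P : Finset Pt) (k b : ℕ) (C : Finset ℝ) (m T : ℝ) (F : Finset Edge) :
    Finset (Edge × Edge) :=
  (F ×ˢ F).filter (fun x => NK P k b C m T (winOf C (esl x.1)) (winOf C (esl x.2)))

/-- 5.3, abstract form. -/
theorem sum_badX_le {P : Finset Pt} {k b b' : ℕ} {C : Finset ℝ} {m T X : ℝ} {Λ : ℝ}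
    (hT : 0 < T) (hX0 : 0 ≤ X) (hΛ : 0 ≤ Λ) {F : Pt → Finset Edge}
    (hF : ∀ v ∈ P, ∀ e ∈ F v, winOf C (esl e) ∈ wins C ∧
      e ∈ nearE P k b' (winOf C (esl e)).1 (winOf C (esl e)).2)
    (hdeg : ∀ e, ((P.filter (fun v => e ∈ F v)).card : ℝ) ≤ Λ)
    (hX : ∀ I ∈ wins C, ∀ J ∈ wins C,
      (crs (nearE P k b' I.1 I.2) (nearE P k b' J.1 J.2) : ℝ) ≤ X) :
    ∑ v ∈ P, ((badX P k b C m T (F v)).card : ℝ) ≤
      (P.card * m ^ 2 / T + C.card) * X * Λ := by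
  set W := (wins C ×ˢ wins C).filter (fun x => ¬ NK P k b C m T x.1 x.2) with hW
  set B : Finset (Edge × Edge) := W.biUnion (fun x =>
    ((nearE P k b' x.1.1 x.1.2) ×ˢ (nearE P k b' x.2.1 x.2.2)).filter
      (fun y => Cross y.1 y.2)) with hB
  have hBcard : (B.card : ℝ) ≤ (P.card * m ^ 2 / T + C.card) * X := by
    have h1 : B.card ≤ ∑ x ∈ W, crs (nearE P k b' x.1.1 x.1.2) (nearE P k b' x.2.1 x.2.2) :=
      Finset.card_biUnion_le
    have h2 : (B.card : ℝ) ≤ ∑ x ∈ W,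
        (crs (nearE P k b' x.1.1 x.1.2) (nearE P k b' x.2.1 x.2.2) : ℝ) := by
      exact_mod_cast h1
    refine h2.trans ?_
    calc ∑ x ∈ W, (crs (nearE P k b' x.1.1 x.1.2) (nearE P k b' x.2.1 x.2.2) : ℝ)
        ≤ ∑ _x ∈ W, X := by
          refine Finset.sum_le_sum (fun x hx => ?_)
          have h3 := Finset.mem_product.1 (Finset.mem_filter.1 hx).1
          exact hX _ h3.1 _ h3.2
      _ = W.card * X := by rw [Finset.sum_const, nsmul_eq_mul]
      _ ≤ _ := mul_le_mul_of_nonneg_right (card_notNK_le P k b C hT) hX0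
  have hsub : ∀ v ∈ P, badX P k b C m T (F v) ⊆
      B.filter (fun y => y.1 ∈ F v) := by
    intro v hv y hy
    unfold badX at hy
    rw [Finset.mem_filter, Finset.mem_product] at hy
    obtain ⟨⟨h1, h2⟩, h3, h4⟩ := hy
    obtain ⟨a1, a2⟩ := hF v hv _ h1
    obtain ⟨c1, c2⟩ := hF v hv _ h2
    refine Finset.mem_filter.2 ⟨Finset.mem_biUnion.2
      ⟨(winOf C (esl y.1), winOf C (esl y.2)), ?_, ?_⟩, h1⟩
    · exact Finset.mem_filter.2 ⟨Finset.mem_product.2 ⟨a1, c1⟩, h4⟩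
    · exact Finset.mem_filter.2 ⟨Finset.mem_product.2 ⟨a2, c2⟩, h3⟩
  calc ∑ v ∈ P, ((badX P k b C m T (F v)).card : ℝ)
      ≤ ∑ v ∈ P, ((B.filter (fun y => y.1 ∈ F v)).card : ℝ) := by
        refine Finset.sum_le_sum (fun v hv => ?_)
        exact_mod_cast Finset.card_le_card (hsub v hv)
    _ = ∑ y ∈ B, ((P.filter (fun v => y.1 ∈ F v)).card : ℝ) := by
        simp only [Finset.card_filter]
        push_cast
        exact Finset.sum_comm
    _ ≤ ∑ _y ∈ B, Λ := Finset.sum_le_sum (fun y _ => hdeg y.1)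
    _ = B.card * Λ := by rw [Finset.sum_const, nsmul_eq_mul]
    _ ≤ _ := mul_le_mul_of_nonneg_right hBcard hΛ

/-- 5.4: crossing pairs of a dense subset of `H_v`. -/
theorem crs_ge {P : Finset Pt} (hP : Generic P) {S : Finset Edge} (hS : S ⊆ pairs P) {D C6 δ : ℝ}
    (hD : 0 < D) (hC6 : 0 < C6) (hA : ((ends S).card : ℝ) ≤ C6 * D)
    (hδD : 18 * C6 < δ * D) (hSc : δ * D ^ 2 ≤ S.card) :
    (S.card : ℝ) ^ 3 / (648 * C6 ^ 2 * D ^ 2) ≤ (crs S S : ℝ) := by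
  have hE : S ⊆ pairs (ends S) := by
    intro e he
    have := mem_pairs.1 (hS he)
    exact mem_pairs.2 ⟨mem_ends.2 ⟨e, he, Or.inl rfl⟩, mem_ends.2 ⟨e, he, Or.inr rfl⟩, this.2.2⟩
  have hAP : ends S ⊆ P := by
    intro p hp
    obtain ⟨e, he, h⟩ := mem_ends.1 hp
    have := mem_pairs.1 (hS he)
    rcases h with rfl | rfl
    · exact this.1
    · exact this.2.1
  rcases crossing_lemma hP hAP hE with h | h
  · exfalso
    have h1 : δ * D ^ 2 ≤ 18 * (C6 * D) := hSc.trans (h.trans (by linarith))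
    have h2 : 18 * C6 * D < δ * D * D := mul_lt_mul_of_pos_right hδD hD
    nlinarith
  · rw [div_le_iff₀ (by positivity)]
    refine h.trans ?_
    have h3 : ((ends S).card : ℝ) ^ 2 ≤ (C6 * D) ^ 2 := pow_le_pow_left₀ (by positivity) hA 2
    have h4 : (0 : ℝ) ≤ crs S S := by positivity
    calc 648 * ((ends S).card : ℝ) ^ 2 * (crs S S : ℝ)
        ≤ 648 * (C6 * D) ^ 2 * (crs S S : ℝ) := by gcongr
      _ = (crs S S : ℝ) * (648 * C6 ^ 2 * D ^ 2) := by ring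

/-- 5.4: robust points.  If `F` has at most `δ³D⁴/(1296 C6²)` bad crossing pairs, every
`S ⊆ F` with `#S ≥ δ D²` has at least `#S³/(1296 C6² D²)` pairs whose windows are in `NK`. -/
theorem goodX_ge {P : Finset Pt} (hP : Generic P) {k b : ℕ} {C : Finset ℝ} {m T : ℝ}
    {F S : Finset Edge} (hF : F ⊆ pairs P) (hSF : S ⊆ F) {D C6 δ : ℝ}
    (hD : 0 < D) (hC6 : 0 < C6) (hδ : 0 < δ) (hA : ((ends F).card : ℝ) ≤ C6 * D)
    (hδD : 18 * C6 < δ * D) (hSc : δ * D ^ 2 ≤ S.card)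
    (hrob : ((badX P k b C m T F).card : ℝ) ≤ δ ^ 3 * D ^ 4 / (1296 * C6 ^ 2)) :
    (S.card : ℝ) ^ 3 / (1296 * C6 ^ 2 * D ^ 2) ≤ ((goodX P k b C m T S).card : ℝ) := by
  have hends : ends S ⊆ ends F := ends_mono hSF
  have h1 := crs_ge hP (hSF.trans hF) hD hC6
    ((Nat.cast_le.2 (Finset.card_le_card hends)).trans hA) hδD hSc
  have hsub : (S ×ˢ S).filter (fun x => Cross x.1 x.2) ⊆
      goodX P k b C m T S ∪ badX P k b C m T F := by
    intro x hx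
    rw [Finset.mem_filter, Finset.mem_product] at hx
    rw [Finset.mem_union]
    by_cases h : NK P k b C m T (winOf C (esl x.1)) (winOf C (esl x.2))
    · exact Or.inl (Finset.mem_filter.2 ⟨Finset.mem_product.2 hx.1, h⟩)
    · exact Or.inr (Finset.mem_filter.2 ⟨Finset.mem_product.2 ⟨hSF hx.1.1, hSF hx.1.2⟩, hx.2, h⟩)
  have h2 : (crs S S : ℝ) ≤ (goodX P k b C m T S).card + (badX P k b C m T F).card := by
    have := (Finset.card_le_card hsub).trans (Finset.card_union_le _ _)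
    exact_mod_cast this
  have h3 : δ ^ 3 * D ^ 4 / (1296 * C6 ^ 2) ≤ (S.card : ℝ) ^ 3 / (1296 * C6 ^ 2 * D ^ 2) := by
    rw [div_le_div_iff₀ (by positivity) (by positivity)]
    have h4 : (δ * D ^ 2) ^ 3 ≤ (S.card : ℝ) ^ 3 := pow_le_pow_left₀ (by positivity) hSc 3
    calc δ ^ 3 * D ^ 4 * (1296 * C6 ^ 2 * D ^ 2) = (δ * D ^ 2) ^ 3 * (1296 * C6 ^ 2) := by ring
      _ ≤ (S.card : ℝ) ^ 3 * (1296 * C6 ^ 2) := by gcongr
  have h5 : (S.card : ℝ) ^ 3 / (648 * C6 ^ 2 * D ^ 2) =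
      2 * ((S.card : ℝ) ^ 3 / (1296 * C6 ^ 2 * D ^ 2)) := by
    field_simp
    ring
  rw [h5] at h1
  linarith


/-- the window of a slope, in a window system -/
lemma WSys_winOf_spec {P : Finset Pt} {k : ℕ} {V : ℕ → ℕ} {L : ℕ} {Cw : ℝ}
    (S : WSys P k V L Cw) {l : ℕ} (hl : l ≤ L) {e : Edge} (he : e ∈ pairs P) :
    winOf (S.cuts l) (esl e) ∈ wins (S.cuts l) ∧ (winOf (S.cuts l) (esl e)).1 < esl e ∧
      esl e < (winOf (S.cuts l) (esl e)).2 :=
  Crest.Agent.R51.winOf_spec (exists_win (S.sub 0 l (Nat.zero_le _) hl S.lo_mem)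
    (S.sub 0 l (Nat.zero_le _) hl S.hi_mem) (S.lo_lt_slope e he) (S.slope_lt_hi e he)
    (fun h => S.nons l hl _ h e he rfl))

/-- the walks of `H ⊆ T₀` through a given last edge -/
lemma card_start_le {P : Finset Pt} {k b' : ℕ} {Λ : ℝ} (hΛ : 0 ≤ Λ) {H : Finset Walk}
    (hH : H ⊆ T0 P k b' Λ) (e : Edge) : ((P.filter (fun v => e ∈ fib H v)).card : ℝ) ≤ Λ := by
  rcases (P.filter (fun v => e ∈ fib H v)).eq_empty_or_nonempty with h | ⟨v0, h0⟩
  · rw [h]; simpa using hΛ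
  · have hz0 := hH (mem_fib.1 (Finset.mem_filter.1 h0).2)
    have hdeg : (dg (nearAll P k b') e.1 : ℝ) ≤ Λ := (mem_T0' hz0).2.2.2.2.2.2.2.2.1
    refine le_trans ?_ hdeg
    have hsub : P.filter (fun v => e ∈ fib H v) ⊆ nbrs (nearAll P k b') e.1 := by
      intro v hv
      have hz := hH (mem_fib.1 (Finset.mem_filter.1 hv).2)
      have := (mem_T0.1 hz).1
      exact mem_nbrs.2 (Or.inr (lowG_subset _ _ this))
    exact_mod_cast (Finset.card_le_card hsub).trans (card_nbrs_le _ _)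

/-- crossings of near-`b'` pairs in two windows of a window system -/
lemma crs_win_le {P : Finset Pt} (hP : Generic P) {k : ℕ} {V : ℕ → ℕ} {L : ℕ} {Cw : ℝ}
    (S : WSys P k V L Cw) {l : ℕ} (hl : l ≤ L) {b' : ℕ} (hb' : 1 ≤ b')
    (hbb : b' + 1 ≤ bb P.card (V l)) {I J : ℝ × ℝ} (hI : I ∈ wins (S.cuts l))
    (hJ : J ∈ wins (S.cuts l)) :
    (crs (nearE P k b' I.1 I.2) (nearE P k b' J.1 J.2) : ℝ) ≤
      882 * (b' : ℝ) ^ 2 * (bb P.card (V l) : ℝ) ^ 2 := by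
  have h1 := dey_near' hP k b' k b' hb' hb' I.1 I.2 J.1 J.2
  have hA : ∀ J ∈ wins (S.cuts l), (ActN P k b' J.1 J.2).card ≤ 7 * bb P.card (V l) := by
    intro J hJ
    refine le_trans (Finset.card_le_card ?_) (S.cen_le l hl J hJ)
    exact ends_nearE_subset.trans (cen_mono hbb le_rfl le_rfl)
  have h2 : crs (nearE P k b' I.1 I.2) (nearE P k b' J.1 J.2) ≤
      18 * b' * b' * (7 * bb P.card (V l)) * (7 * bb P.card (V l)) :=
    h1.trans (Nat.mul_le_mul (Nat.mul_le_mul_left _ (hA I hI)) (hA J hJ))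
  have h3 : (crs (nearE P k b' I.1 I.2) (nearE P k b' J.1 J.2) : ℝ) ≤
      18 * b' * b' * (7 * bb P.card (V l)) * (7 * bb P.card (V l)) := by exact_mod_cast h2
  refine h3.trans (le_of_eq ?_)
  ring

lemma bb_le_div (N V : ℕ) : (bb N V : ℝ) ≤ N / (V : ℝ) ^ 3 := by
  unfold bb
  refine Nat.cast_div_le.trans (le_of_eq ?_)
  push_cast
  rfl

lemma bb_succ_le {N V V' : ℕ} (hV : 1 ≤ V) (hVV : 2 * V ≤ V') (hN : V' ^ 3 ≤ N) :
    1 ≤ bb N V' ∧ bb N V' + 1 ≤ bb N V := by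
  have hV3 : 0 < V ^ 3 := by positivity
  have hV3' : 0 < V' ^ 3 := by
    have : 0 < V' := by omega
    positivity
  have h1 : 1 ≤ bb N V' := by
    unfold bb
    exact (Nat.one_le_div_iff hV3').2 hN
  refine ⟨h1, ?_⟩
  unfold bb at h1 ⊢
  rw [Nat.le_div_iff_mul_le hV3]
  have h2 : (2 * V) ^ 3 ≤ V' ^ 3 := Nat.pow_le_pow_left hVV 3
  have h3 : N / V' ^ 3 * V' ^ 3 ≤ N := Nat.div_mul_le_self _ _
  have h4 : (N / V' ^ 3 + 1) * V ^ 3 ≤ N / V' ^ 3 * (2 * V) ^ 3 := by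
    have : (2 * V) ^ 3 = 8 * V ^ 3 := by ring
    rw [this]
    nlinarith
  exact h4.trans ((Nat.mul_le_mul_left _ h2).trans h3)

/-- 5.3 for a window system: total number of bad crossing pairs. -/
theorem sum_badX_WSys {P : Finset Pt} (hP : Generic P) {k : ℕ} {Vs : ℕ → ℕ} {L : ℕ} {Cw : ℝ}
    (hCw : 0 ≤ Cw) (W : WSys P k Vs L Cw) {l : ℕ} (hl : l ≤ L) {V V' : ℕ} (hVl : Vs l = V)
    (hV : 1 ≤ V) (hVV : 2 * V ≤ V') (hN : V' ^ 3 ≤ P.card) {lam1 lam3 K : ℝ} (h1 : 0 ≤ lam1)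
    (hK : 0 < K) {H : Finset Walk}
    (hH : H ⊆ T0 P k (bb P.card V') (lam1 * (P.card / (V' : ℝ) ^ 2))) :
    ∑ v ∈ P, ((badX P k (bb P.card V) (W.cuts l) (lam3 * V) (K * P.card / (V : ℝ) ^ 4)
      (fib H v)).card : ℝ) ≤
      882 * lam1 * (lam3 ^ 2 / K + Cw / (V : ℝ) ^ 2) * P.card * (P.card / (V' : ℝ) ^ 2) ^ 4 := by
  obtain ⟨hb1, hb2⟩ := bb_succ_le hV hVV hN
  have hVR : (1 : ℝ) ≤ V := by exact_mod_cast hV
  have hVR' : (1 : ℝ) ≤ V' := by exact_mod_cast (by omega : 1 ≤ V')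
  have hNR : (1 : ℝ) ≤ P.card := by
    have : 1 ≤ V' ^ 3 := Nat.one_le_pow _ _ (by omega)
    exact_mod_cast this.trans hN
  have hN0 : (0 : ℝ) < P.card := by linarith
  set N : ℝ := (P.card : ℝ) with hNdef
  have hT : 0 < K * N / (V : ℝ) ^ 4 := by positivity
  have hΛ : 0 ≤ lam1 * (N / (V' : ℝ) ^ 2) := by positivity
  have hmain := sum_badX_le (P := P) (k := k) (b := bb P.card V) (b' := bb P.card V')
    (C := W.cuts l) (m := lam3 * V) (T := K * N / (V : ℝ) ^ 4)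
    (X := 882 * (bb P.card V' : ℝ) ^ 2 * (bb P.card V : ℝ) ^ 2)
    (Λ := lam1 * (N / (V' : ℝ) ^ 2)) hT (by positivity) hΛ (F := fib H) ?_
    (card_start_le hΛ hH) ?_
  · refine hmain.trans ?_
    have hc : ((W.cuts l).card : ℝ) ≤ Cw * (V : ℝ) ^ 4 := by
      have := W.count_all l hl
      rwa [hVl] at this
    have e1 : N * (lam3 * V) ^ 2 / (K * N / (V : ℝ) ^ 4) = lam3 ^ 2 / K * (V : ℝ) ^ 6 := by
      field_simp
    have hb1' := bb_le_div P.card V'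
    have hb2' := bb_le_div P.card V
    have h5 : (bb P.card V' : ℝ) ^ 2 ≤ (N / (V' : ℝ) ^ 3) ^ 2 :=
      pow_le_pow_left₀ (by positivity) hb1' 2
    have h6 : (bb P.card V : ℝ) ^ 2 ≤ (N / (V : ℝ) ^ 3) ^ 2 :=
      pow_le_pow_left₀ (by positivity) hb2' 2
    have h7 : N * (lam3 * V) ^ 2 / (K * N / (V : ℝ) ^ 4) + ((W.cuts l).card : ℝ) ≤
        lam3 ^ 2 / K * (V : ℝ) ^ 6 + Cw * (V : ℝ) ^ 4 := by
      rw [e1]; linarith
    calc (N * (lam3 * V) ^ 2 / (K * N / (V : ℝ) ^ 4) + ((W.cuts l).card : ℝ)) *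
          (882 * (bb P.card V' : ℝ) ^ 2 * (bb P.card V : ℝ) ^ 2) * (lam1 * (N / (V' : ℝ) ^ 2))
        ≤ (lam3 ^ 2 / K * (V : ℝ) ^ 6 + Cw * (V : ℝ) ^ 4) *
          (882 * (N / (V' : ℝ) ^ 3) ^ 2 * (N / (V : ℝ) ^ 3) ^ 2) *
            (lam1 * (N / (V' : ℝ) ^ 2)) := by
          refine mul_le_mul_of_nonneg_right ?_ hΛ
          refine mul_le_mul h7 ?_ (by positivity) (by positivity)
          gcongr
      _ = 882 * lam1 * (lam3 ^ 2 / K + Cw / (V : ℝ) ^ 2) * N * (N / (V' : ℝ) ^ 2) ^ 4 := by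
          field_simp
  · intro v _ e he
    have hz := hH (mem_fib.1 he)
    have hlast : e ∈ lowG (nearAll P k (bb P.card V')) (lam1 * (N / (V' : ℝ) ^ 2)) :=
      (mem_T0.1 hz).2
    obtain ⟨he1, he2⟩ := mem_nearAll.1 (lowG_subset _ _ hlast)
    obtain ⟨w1, w2, w3⟩ := WSys_winOf_spec W hl he1
    exact ⟨w1, mem_nearE.2 ⟨he1, w2, w3, he2⟩⟩
  · intro I hI J hJ
    have := crs_win_le hP W hl hb1 (by rw [hVl]; exact hb2) hI hJ
    rwa [hVl] at this



/-- the relation `N_l(K)` of the central interface. -/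
lemma NK_iff {P : Finset Pt} {k : ℕ} {Vs : ℕ → ℕ} {L : ℕ} {Cw : ℝ} (W : WSys P k Vs L Cw)
    (lam3 K : ℝ) (l : ℕ) (I J : ℝ × ℝ) :
    W.NK lam3 K l I J ↔ NK P k (bb P.card (Vs l)) (W.cuts l) (lam3 * Vs l)
      (K * P.card / (Vs l : ℝ) ^ 4) I J := by
  unfold WSys.NK NK
  have h : (W.cc lam3 l I J) = ((light P k (bb P.card (Vs l)) (W.cuts l) (lam3 * Vs l)).filter
      (fun p => p ∈ cen P k (bb P.card (Vs l)) I.1 I.2 ∧
        p ∈ cen P k (bb P.card (Vs l)) J.1 J.2)) := by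
    ext p
    unfold WSys.cc WSys.T6 WSys.act WSys.A light
    simp only [Finset.mem_filter, not_lt]
    tauto
  rw [h]
  rfl

end Rob

namespace WSys

/-- a robust point of level `l`: `F = H_v` has at most `δ³D⁴/(1296 C6²)` crossing pairs whose
windows are not in `N_l(K)`. -/
def Robust {P : Finset Pt} {k : ℕ} {Vs : ℕ → ℕ} {L : ℕ} {Cw : ℝ} (W : WSys P k Vs L Cw)
    (lam3 K : ℝ) (l : ℕ) (C6 δ D : ℝ) (F : Finset Edge) : Prop :=
  (((F ×ˢ F).filter (fun x : Edge × Edge => Cross x.1 x.2 ∧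
    ¬ W.NK lam3 K l (W.J l (esl x.1)) (W.J l (esl x.2)))).card : ℝ) ≤
      δ ^ 3 * D ^ 4 / (1296 * C6 ^ 2)

lemma badX_eq {P : Finset Pt} {k : ℕ} {Vs : ℕ → ℕ} {L : ℕ} {Cw : ℝ} (W : WSys P k Vs L Cw)
    (lam3 K : ℝ) (l : ℕ) (F : Finset Edge) :
    (F ×ˢ F).filter (fun x : Edge × Edge => Cross x.1 x.2 ∧
      ¬ W.NK lam3 K l (W.J l (esl x.1)) (W.J l (esl x.2))) =
    Rob.badX P k (bb P.card (Vs l)) (W.cuts l) (lam3 * Vs l) (K * P.card / (Vs l : ℝ) ^ 4) F := by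
  unfold Rob.badX
  refine Finset.filter_congr (fun x _ => ?_)
  rw [Rob.NK_iff]
  rfl

lemma goodX_eq {P : Finset Pt} {k : ℕ} {Vs : ℕ → ℕ} {L : ℕ} {Cw : ℝ} (W : WSys P k Vs L Cw)
    (lam3 K : ℝ) (l : ℕ) (F : Finset Edge) :
    (F ×ˢ F).filter (fun x : Edge × Edge => W.NK lam3 K l (W.J l (esl x.1)) (W.J l (esl x.2))) =
    Rob.goodX P k (bb P.card (Vs l)) (W.cuts l) (lam3 * Vs l) (K * P.card / (Vs l : ℝ) ^ 4) F := by
  unfold Rob.goodX
  refine Finset.filter_congr (fun x _ => ?_)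
  rw [Rob.NK_iff]
  rfl

lemma NK.symm {P : Finset Pt} {k : ℕ} {Vs : ℕ → ℕ} {L : ℕ} {Cw : ℝ} {W : WSys P k Vs L Cw}
    {lam3 K : ℝ} {l : ℕ} {I J : ℝ × ℝ} (h : W.NK lam3 K l I J) : W.NK lam3 K l J I := by
  rw [Rob.NK_iff] at h ⊢
  exact Rob.NK.symm h

/-- 5.4 in the form consumed by B6 and 7.4 (`c₈ = 1/(1296 C6²)`). -/
theorem Robust.out {P : Finset Pt} (hP : Generic P) {k : ℕ} {Vs : ℕ → ℕ} {L : ℕ} {Cw : ℝ}
    {W : WSys P k Vs L Cw} {lam3 K : ℝ} {l : ℕ} {F S : Finset Edge} {D C6 δ : ℝ}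
    (h : W.Robust lam3 K l C6 δ D F) (hF : F ⊆ pairs P)
    (hSF : S ⊆ F) (hD : 0 < D) (hC6 : 0 < C6) (hδ : 0 < δ)
    (hA : ((ends F).card : ℝ) ≤ C6 * D) (hδD : 18 * C6 < δ * D) (hSc : δ * D ^ 2 ≤ S.card) :
    1 / (1296 * C6 ^ 2) * (S.card : ℝ) ^ 3 / D ^ 2 ≤
      (((S ×ˢ S).filter (fun x : Edge × Edge =>
        W.NK lam3 K l (W.J l (esl x.1)) (W.J l (esl x.2)))).card : ℝ) := by
  unfold Robust at h
  rw [badX_eq] at h
  have := Rob.goodX_ge hP hF hSF hD hC6 hδ hA hδD hSc h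
  rw [goodX_eq]
  refine le_trans (le_of_eq ?_) this
  field_simp

lemma T0_fib_subset {P : Finset Pt} {k b' : ℕ} {Λ : ℝ} {H : Finset Walk} (hH : H ⊆ T0 P k b' Λ)
    (v : Pt) : fib H v ⊆ pairs P := by
  intro e he
  exact nearAll_subset (lowG_subset _ _ (mem_T0.1 (hH (mem_fib.1 he))).2)

/-- the field `rob` of `HSystem` for a set `H ⊆ H0` of walks all of whose starting points are
robust with respect to `H0`. -/
theorem rob_trim {P : Finset Pt} (hP : Generic P) {k : ℕ} {Vs : ℕ → ℕ} {L : ℕ} {Cw : ℝ}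
    {W : WSys P k Vs L Cw} {lam3 K : ℝ} {l b' : ℕ} {Λ : ℝ} {H0 H : Finset Walk} {D C6 δ : ℝ}
    (hH0 : H0 ⊆ T0 P k b' Λ) (hH : H ⊆ H0)
    (hrob : ∀ z ∈ H, W.Robust lam3 K l C6 δ D (fib H0 z.1))
    (hD : 0 < D) (hC6 : 0 < C6) (hδ : 0 < δ)
    (hA : ∀ v, ((ends (fib H0 v)).card : ℝ) ≤ C6 * D) (hδD : 18 * C6 < δ * D) :
    ∀ v, ∀ S ⊆ fib H v, δ * D ^ 2 ≤ (S.card : ℝ) →
      1 / (1296 * C6 ^ 2) * (S.card : ℝ) ^ 3 / D ^ 2 ≤
      (((S ×ˢ S).filter (fun x : Edge × Edge =>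
        W.NK lam3 K l (W.J l (esl x.1)) (W.J l (esl x.2)))).card : ℝ) := by
  intro v S hS hSc
  have hne : S.Nonempty := by
    rw [Finset.nonempty_iff_ne_empty]
    rintro rfl
    simp only [Finset.card_empty, Nat.cast_zero] at hSc
    have : 0 < δ * D ^ 2 := by positivity
    linarith
  obtain ⟨e, he⟩ := hne
  have hz := mem_fib.1 (hS he)
  have hsub : fib H v ⊆ fib H0 v := fun f hf => mem_fib.2 (hH (mem_fib.1 hf))
  exact Robust.out hP (hrob _ hz) (T0_fib_subset hH0 v) (hS.trans hsub) hD hC6 hδ (hA v) hδD hSc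

end WSys

/-- walks of `H ⊆ T₀` starting at `v`: at most `Λ²`. -/
lemma card_fib_T0_le {P : Finset Pt} {k b' : ℕ} {Λ : ℝ} (hΛ : 0 ≤ Λ) {H : Finset Walk}
    (hH : H ⊆ T0 P k b' Λ) (v : Pt) : ((fib H v).card : ℝ) ≤ Λ ^ 2 := by
  set E := nearAll P k b' with hE
  rcases (fib H v).eq_empty_or_nonempty with h | ⟨e0, he0⟩
  · rw [h]; simp; positivity
  · have hv : (dg E v : ℝ) ≤ Λ := (mem_T0' (hH (mem_fib.1 he0))).2.2.2.2.2.2.2.1
    have hw : ∀ w ∈ (fib H v).image Prod.fst, (((fib H v).filter (fun e => e.1 = w)).card : ℝ) ≤ Λ := by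
      intro w hw
      obtain ⟨e, he, rfl⟩ := Finset.mem_image.1 hw
      have hd : (dg E e.1 : ℝ) ≤ Λ := (mem_T0' (hH (mem_fib.1 he))).2.2.2.2.2.2.2.2.1
      refine le_trans ?_ hd
      have : ((fib H v).filter (fun f => f.1 = e.1)).card ≤ dg E e.1 := by
        unfold dg
        refine Finset.card_le_card (fun f hf => ?_)
        rw [Finset.mem_filter] at hf ⊢
        exact ⟨lowG_subset _ _ (mem_T0.1 (hH (mem_fib.1 hf.1))).2, Or.inl hf.2⟩
      exact_mod_cast this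
    have himg : (((fib H v).image Prod.fst).card : ℝ) ≤ Λ := by
      refine le_trans ?_ hv
      have hsub : (fib H v).image Prod.fst ⊆ nbrs E v := by
        intro w hw
        obtain ⟨e, he, rfl⟩ := Finset.mem_image.1 hw
        exact mem_nbrs.2 (Or.inl (lowG_subset _ _ (mem_T0.1 (hH (mem_fib.1 he))).1))
      exact_mod_cast (Finset.card_le_card hsub).trans (card_nbrs_le E v)
    have hsum : ((fib H v).card : ℝ) =
        ∑ w ∈ (fib H v).image Prod.fst, (((fib H v).filter (fun e => e.1 = w)).card : ℝ) := by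
      have := Finset.card_eq_sum_card_image (Prod.fst : Edge → Pt) (fib H v)
      exact_mod_cast this
    rw [hsum]
    calc ∑ w ∈ (fib H v).image Prod.fst, (((fib H v).filter (fun e => e.1 = w)).card : ℝ)
        ≤ ∑ _w ∈ (fib H v).image Prod.fst, Λ := Finset.sum_le_sum hw
      _ = ((fib H v).image Prod.fst).card * Λ := by rw [Finset.sum_const, nsmul_eq_mul]
      _ ≤ Λ * Λ := mul_le_mul_of_nonneg_right himg hΛ
      _ = Λ ^ 2 := by ring

/-- 5.4: most points are robust. -/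
theorem card_not_robust (lam1 lam3 Cw C6 δ ε : ℝ) (h1 : 0 ≤ lam1) (hCw : 0 ≤ Cw) (hC6 : 0 < C6)
    (hδ : 0 < δ) (hε : 0 < ε) : ∃ K0 : ℝ, 0 < K0 ∧ ∃ V0 : ℕ, ∀ K : ℝ, K0 ≤ K →
    ∀ V : ℕ, V0 ≤ V → 1 ≤ V → ∀ V' : ℕ, 2 * V ≤ V' → ∀ P : Finset Pt, Generic P →
    V' ^ 3 ≤ P.card → ∀ (k : ℕ) (Vs : ℕ → ℕ) (L : ℕ) (W : WSys P k Vs L Cw) (l : ℕ), l ≤ L →
    Vs l = V → ∀ H ⊆ T0 P k (bb P.card V') (lam1 * (P.card / (V' : ℝ) ^ 2)),
    ((P.filter (fun v => ¬ W.Robust lam3 K l C6 δ (P.card / (V' : ℝ) ^ 2) (fib H v))).card : ℝ) ≤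
      ε * P.card := by
  set c : ℝ := δ ^ 3 / (1296 * C6 ^ 2) with hc
  have hc0 : 0 < c := by positivity
  set A : ℝ := 882 * lam1 / (c * ε) with hA
  have hA0 : 0 ≤ A := by positivity
  set K0 : ℝ := 2 * A * lam3 ^ 2 + 1 with hK0
  have hK00 : 0 < K0 := by positivity
  obtain ⟨V0, hV0⟩ := exists_nat_ge (2 * A * Cw)
  refine ⟨K0, hK00, V0, fun K hK V hV hV1 V' hVV P hP hN k Vs L W l hl hVl H hH => ?_⟩
  have hKp : 0 < K := hK00.trans_le hK
  have hsum := Rob.sum_badX_WSys hP hCw W hl hVl hV1 hVV hN h1 hKp (lam3 := lam3) hH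
  have hVR : (1 : ℝ) ≤ V := by exact_mod_cast hV1
  have hVR' : (1 : ℝ) ≤ V' := by exact_mod_cast (by omega : 1 ≤ V')
  have hNR : (1 : ℝ) ≤ P.card := by
    have : 1 ≤ V' ^ 3 := Nat.one_le_pow _ _ (by omega)
    exact_mod_cast this.trans hN
  set N : ℝ := (P.card : ℝ) with hNdef
  set D : ℝ := N / (V' : ℝ) ^ 2 with hD
  have hD0 : 0 < D := by positivity
  -- Markov
  set B := P.filter (fun v => ¬ W.Robust lam3 K l C6 δ D (fib H v)) with hB
  have hm : (B.card : ℝ) * (c * D ^ 4) ≤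
      882 * lam1 * (lam3 ^ 2 / K + Cw / (V : ℝ) ^ 2) * N * D ^ 4 := by
    calc (B.card : ℝ) * (c * D ^ 4) = ∑ _v ∈ B, c * D ^ 4 := by
          rw [Finset.sum_const, nsmul_eq_mul]
      _ ≤ ∑ v ∈ B, ((Rob.badX P k (bb P.card V) (W.cuts l) (lam3 * V) (K * N / (V : ℝ) ^ 4)
            (fib H v)).card : ℝ) := by
          refine Finset.sum_le_sum (fun v hv => ?_)
          have h2 := (Finset.mem_filter.1 hv).2
          unfold WSys.Robust at h2
          rw [not_le, WSys.badX_eq, hVl] at h2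
          refine le_trans (le_of_eq ?_) h2.le
          rw [hc]; ring
      _ ≤ ∑ v ∈ P, ((Rob.badX P k (bb P.card V) (W.cuts l) (lam3 * V) (K * N / (V : ℝ) ^ 4)
            (fib H v)).card : ℝ) :=
          Finset.sum_le_sum_of_subset_of_nonneg (Finset.filter_subset _ _)
            (fun _ _ _ => by positivity)
      _ ≤ _ := hsum
  have h3 : 882 * lam1 * (lam3 ^ 2 / K) ≤ c * ε / 2 := by
    have : 2 * A * lam3 ^ 2 ≤ K := by linarith
    have e1 : 882 * lam1 * (lam3 ^ 2 / K) = (c * ε / 2) * ((2 * A * lam3 ^ 2) / K) := by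
      rw [hA]; field_simp
    rw [e1]
    have h4 : (2 * A * lam3 ^ 2) / K ≤ 1 := (div_le_one hKp).2 this
    calc c * ε / 2 * (2 * A * lam3 ^ 2 / K) ≤ c * ε / 2 * 1 :=
          mul_le_mul_of_nonneg_left h4 (by positivity)
      _ = _ := by ring
  have h5 : 882 * lam1 * (Cw / (V : ℝ) ^ 2) ≤ c * ε / 2 := by
    have hVV0 : 2 * A * Cw ≤ (V : ℝ) ^ 2 := by
      have : (V0 : ℝ) ≤ V := by exact_mod_cast hV
      nlinarith
    have e1 : 882 * lam1 * (Cw / (V : ℝ) ^ 2) = (c * ε / 2) * ((2 * A * Cw) / (V : ℝ) ^ 2) := by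
      rw [hA]; field_simp
    rw [e1]
    have h4 : (2 * A * Cw) / (V : ℝ) ^ 2 ≤ 1 := (div_le_one (by positivity)).2 hVV0
    calc c * ε / 2 * (2 * A * Cw / (V : ℝ) ^ 2) ≤ c * ε / 2 * 1 :=
          mul_le_mul_of_nonneg_left h4 (by positivity)
      _ = _ := by ring
  have h6 : 882 * lam1 * (lam3 ^ 2 / K + Cw / (V : ℝ) ^ 2) ≤ c * ε := by
    have e : 882 * lam1 * (lam3 ^ 2 / K + Cw / (V : ℝ) ^ 2) =
      882 * lam1 * (lam3 ^ 2 / K) + 882 * lam1 * (Cw / (V : ℝ) ^ 2) := by ring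
    rw [e]; linarith
  have h7 : (B.card : ℝ) * (c * D ^ 4) ≤ (ε * N) * (c * D ^ 4) := by
    refine hm.trans ?_
    calc 882 * lam1 * (lam3 ^ 2 / K + Cw / (V : ℝ) ^ 2) * N * D ^ 4 ≤ c * ε * N * D ^ 4 := by
          gcongr
      _ = _ := by ring
  exact le_of_mul_le_mul_right h7 (by positivity)

/-- 5.4: the walks starting at non-robust points. -/
theorem card_walks_not_robust (lam1 lam3 Cw C6 δ ε : ℝ) (h1 : 0 ≤ lam1) (hCw : 0 ≤ Cw)
    (hC6 : 0 < C6) (hδ : 0 < δ) (hε : 0 < ε) : ∃ K0 : ℝ, 0 < K0 ∧ ∃ V0 : ℕ, ∀ K : ℝ, K0 ≤ K →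
    ∀ V : ℕ, V0 ≤ V → 1 ≤ V → ∀ V' : ℕ, 2 * V ≤ V' → ∀ P : Finset Pt, Generic P →
    V' ^ 3 ≤ P.card → ∀ (k : ℕ) (Vs : ℕ → ℕ) (L : ℕ) (W : WSys P k Vs L Cw) (l : ℕ), l ≤ L →
    Vs l = V → ∀ H ⊆ T0 P k (bb P.card V') (lam1 * (P.card / (V' : ℝ) ^ 2)),
    ((H.filter (fun z => ¬ W.Robust lam3 K l C6 δ (P.card / (V' : ℝ) ^ 2)
      (fib H z.1))).card : ℝ) ≤
      ε * P.card * (P.card / (V' : ℝ) ^ 2) ^ 2 := by
  have hε' : 0 < ε / (lam1 ^ 2 + 1) := by positivity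
  obtain ⟨K0, hK0, V0, h⟩ := card_not_robust lam1 lam3 Cw C6 δ (ε / (lam1 ^ 2 + 1)) h1 hCw hC6 hδ hε'
  refine ⟨K0, hK0, V0, fun K hK V hV hV1 V' hVV P hP hN k Vs L W l hl hVl H hH => ?_⟩
  have hB := h K hK V hV hV1 V' hVV P hP hN k Vs L W l hl hVl H hH
  set N : ℝ := (P.card : ℝ) with hNdef
  set D : ℝ := N / (V' : ℝ) ^ 2 with hD
  have hD0 : 0 ≤ D := by positivity
  have hΛ : 0 ≤ lam1 * D := by positivity
  set R : Pt → Prop := fun v => W.Robust lam3 K l C6 δ D (fib H v) with hR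
  have hsub : ∀ z ∈ H.filter (fun z => ¬ R z.1), z.1 ∈ P := fun z hz =>
    (mem_T0' (hH (Finset.mem_filter.1 hz).1)).1
  have h2 := card_eq_sum_fib hsub
  have h3 : ∀ v ∈ P, ((fib (H.filter (fun z => ¬ R z.1)) v).card : ℝ) ≤
      if ¬ R v then (lam1 * D) ^ 2 else 0 := by
    intro v _
    by_cases hv : R v
    · have : fib (H.filter (fun z => ¬ R z.1)) v = ∅ := by
        rw [Finset.eq_empty_iff_forall_notMem]
        intro e he
        exact (Finset.mem_filter.1 (mem_fib.1 he)).2 hv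
      rw [this]; simp [hv]
    · rw [if_pos hv]
      refine le_trans ?_ (card_fib_T0_le hΛ hH v)
      have : fib (H.filter (fun z => ¬ R z.1)) v ⊆ fib H v := by
        intro e he
        exact mem_fib.2 (Finset.mem_filter.1 (mem_fib.1 he)).1
      exact_mod_cast Finset.card_le_card this
  have h4 : ((H.filter (fun z => ¬ R z.1)).card : ℝ) ≤ (P.filter (fun v => ¬ R v)).card * (lam1 * D) ^ 2 := by
    rw [h2]
    push_cast
    refine (Finset.sum_le_sum h3).trans (le_of_eq ?_)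
    rw [← Finset.sum_filter, Finset.sum_const, nsmul_eq_mul]
  refine h4.trans ?_
  calc ((P.filter (fun v => ¬ R v)).card : ℝ) * (lam1 * D) ^ 2
      ≤ (ε / (lam1 ^ 2 + 1) * N) * (lam1 * D) ^ 2 := mul_le_mul_of_nonneg_right hB (by positivity)
    _ = ε * N * D ^ 2 * (lam1 ^ 2 / (lam1 ^ 2 + 1)) := by
        field_simp
    _ ≤ ε * N * D ^ 2 * 1 := by
        refine mul_le_mul_of_nonneg_left ?_ (by positivity)
        rw [div_le_one (by positivity)]
        linarith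
    _ = _ := by ring

end Crest.Agent.R51
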