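import Mathlib
import Crest.Agent.R51.WalkA
import Crest.Agent.R51.Dey
import Crest.Agent.R51.CrossTwo

/-!
# Row 51, B5.2 (t1): walks with few middle points; `|W_v| ≤ C₆ D'`
-/

set_option autoImplicit false

noncomputable section

open Classical Finset

namespace Crest.Agent.R51

lemma crs_le_crs {E F E' F' : Finset Edge} (h : E ⊆ E') (h' : F ⊆ F') : crs E F ≤ crs E' F' := by
  unfold crs
  exact Finset.card_le_card (Finset.filter_subset_filter _ (Finset.product_subset_product h h'))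

/-- the walks of `H` from `x` to `y` are counted by their middle points. -/
lemma card_walks_between {H : Finset Walk} (x y : Pt) :
    (H.filter (fun h => h.1 = x ∧ h.2.2 = y)).card = (mids H x y).card := by
  unfold mids
  rw [Finset.card_image_of_injOn]
  intro z hz z' hz' he
  have a := (Finset.mem_filter.1 (Finset.mem_coe.1 hz)).2
  have b := (Finset.mem_filter.1 (Finset.mem_coe.1 hz')).2
  exact Prod.ext (a.1.trans b.1.symm) (Prod.ext he (a.2.trans b.2.symm))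

/-- walks with at most `m` middle points: application of Lemma H (C4). -/
theorem few_mids_aux {P : Finset Pt} (hP : Generic P) {k b : ℕ} (hb : 1 ≤ b) {Λ : ℝ}
    (hΛ : 0 ≤ Λ) {m : ℕ} (hm : 1 ≤ m) :
    let H1 := (T0 P k b Λ).filter (fun z => (mids (T0 P k b Λ) z.1 z.2.2).card ≤ m)
    (H1.card : ℝ) ≤ 288 * m * P.card ∨
      (H1.card : ℝ) ^ 3 ≤ 331776 * m * (P.card : ℝ) ^ 2 *
        (Λ ^ 2 * (18 * (b : ℝ) ^ 2 * (P.card : ℝ) ^ 2) + P.card * Λ ^ 4) := by
  intro H1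
  set E := nearAll P k b with hE
  set G := lowG E Λ with hG
  have hGE : G ⊆ E := lowG_subset _ _
  have hEp : E ⊆ pairs P := Finset.filter_subset _ _
  have hdeg : ∀ p ∈ P, (G.filter (fun e => e.1 = p ∨ e.2 = p)).card ≤ ⌊Λ⌋₊ := by
    intro p _
    by_cases hne : (G.filter (fun e => e.1 = p ∨ e.2 = p)).Nonempty
    · obtain ⟨e, he⟩ := hne
      rw [Finset.mem_filter] at he
      have h1 := mem_lowG.1 he.1
      have h2 : (dg E p : ℝ) ≤ Λ := by
        rcases he.2 with h | h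
        · rw [← h]; exact h1.2.1
        · rw [← h]; exact h1.2.2
      have h3 : dg G p ≤ dg E p := dg_mono hGE p
      refine Nat.le_floor ?_
      have h4 : (((G.filter (fun e => e.1 = p ∨ e.2 = p)).card : ℕ) : ℝ) ≤ (dg E p : ℝ) := by
        exact_mod_cast h3
      exact h4.trans h2
    · rw [Finset.not_nonempty_iff_eq_empty] at hne
      rw [hne]; simp
  have hend : ∀ x y : Pt, (H1.filter (fun h => h.1 = x ∧ h.2.2 = y)).card ≤ m := by
    intro x y
    by_cases hne : (H1.filter (fun h => h.1 = x ∧ h.2.2 = y)).Nonempty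
    · obtain ⟨z, hz⟩ := hne
      rw [Finset.mem_filter] at hz
      obtain ⟨hz1, hz2, hz3⟩ := hz
      have hz4 := (Finset.mem_filter.1 hz1).2
      rw [hz2, hz3] at hz4
      refine le_trans ?_ hz4
      rw [← card_walks_between]
      exact Finset.card_le_card (Finset.filter_subset_filter _ (Finset.filter_subset _ _))
    · rw [Finset.not_nonempty_iff_eq_empty] at hne
      rw [hne]; simp
  have hH : ∀ h ∈ H1, (h.1, h.2.1) ∈ G ∧ (h.2.1, h.2.2) ∈ G := by
    intro h hh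
    have := mem_T0.1 (Finset.mem_filter.1 hh).1
    exact this
  have hfl : ((⌊Λ⌋₊ : ℕ) : ℝ) ≤ Λ := Nat.floor_le hΛ
  have hfl0 : (0 : ℝ) ≤ ((⌊Λ⌋₊ : ℕ) : ℝ) := Nat.cast_nonneg _
  have hcrs : (crs G G : ℝ) ≤ 18 * (b : ℝ) ^ 2 * (P.card : ℝ) ^ 2 := by
    have h1 : crs G G ≤ crs E E := crs_le_crs hGE hGE
    have h2 := dey_all hP k b k b hb hb
    have h3 : (crs G G : ℝ) ≤ ((18 * b * b * P.card * P.card : ℕ) : ℝ) := by
      exact_mod_cast h1.trans h2
    refine h3.trans (le_of_eq ?_)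
    push_cast
    ring
  rcases lemmaH hP (hGE.trans hEp) hdeg hH hm hend with h | h
  · exact Or.inl h
  · right
    refine h.trans ?_
    have h5 : ((⌊Λ⌋₊ : ℕ) : ℝ) ^ 2 ≤ Λ ^ 2 := pow_le_pow_left₀ hfl0 hfl 2
    have h6 : ((⌊Λ⌋₊ : ℕ) : ℝ) ^ 4 ≤ Λ ^ 4 := pow_le_pow_left₀ hfl0 hfl 4
    have h7 : (0 : ℝ) ≤ (crs G G : ℝ) := Nat.cast_nonneg _
    gcongr

/-- **(t1)**: few walks of `T₀` have few middle points. -/
theorem few_mids {ε lam : ℝ} (hε : 0 < ε) (hlam : 1 ≤ lam) :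
    ∃ c3 : ℝ, 0 < c3 ∧ ∀ V : ℕ, 1 ≤ V → ∃ N0 : ℕ, ∀ P : Finset Pt, Generic P → N0 ≤ P.card →
      ∀ k : ℕ,
      (((T0 P k (P.card / V ^ 3) (lam * ((P.card : ℝ) / V ^ 2))).filter (fun z =>
        ((mids (T0 P k (P.card / V ^ 3) (lam * ((P.card : ℝ) / V ^ 2))) z.1 z.2.2).card : ℝ)
          < c3 * ((P.card : ℝ) / V ^ 2))).card : ℝ)
        ≤ ε * P.card * ((P.card : ℝ) / V ^ 2) ^ 2 := by
  refine ⟨ε ^ 3 / (331776 * 19 * lam ^ 2), by positivity, ?_⟩
  set c3 : ℝ := ε ^ 3 / (331776 * 19 * lam ^ 2) with hc3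
  have hc3p : 0 < c3 := by positivity
  intro V hV
  have hVr : (1 : ℝ) ≤ V := by exact_mod_cast hV
  -- all that is needed of `D = N / V ^ 2`
  set K : ℝ := (1 / c3 + 288 * c3 / ε + lam ^ 2) * (V : ℝ) ^ 2 with hK
  refine ⟨⌈K⌉₊ + V ^ 3, ?_⟩
  intro P hP hN k
  set N : ℝ := (P.card : ℝ) with hNdef
  set D : ℝ := N / (V : ℝ) ^ 2 with hD
  set b : ℕ := P.card / V ^ 3 with hb
  have hV3 : 1 ≤ V ^ 3 := Nat.one_le_pow _ _ hV
  have hb1 : 1 ≤ b := by
    rw [hb]
    exact (Nat.one_le_div_iff (by omega)).2 (by omega)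
  have hNK : K ≤ N := by
    have h1 : (⌈K⌉₊ : ℝ) ≤ N := by
      rw [hNdef]
      exact_mod_cast (by omega : ⌈K⌉₊ ≤ P.card)
    exact (Nat.le_ceil K).trans h1
  have hV2 : (0 : ℝ) < (V : ℝ) ^ 2 := by positivity
  have hD0 : 1 / c3 + 288 * c3 / ε + lam ^ 2 ≤ D := by
    rw [hD, le_div_iff₀ hV2]
    exact hNK
  have t1 : 0 < 1 / c3 := by positivity
  have t2 : 0 < 288 * c3 / ε := by positivity
  have t3 : 0 < lam ^ 2 := by positivity
  have hD1 : 1 / c3 ≤ D := by linarith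
  have hD2 : 288 * c3 / ε ≤ D := by linarith
  have hD3 : lam ^ 2 ≤ D := by linarith
  have hDpos : 0 < D := by linarith
  have hNpos : 0 < N := by
    have : 0 < D * (V : ℝ) ^ 2 := by positivity
    rw [hD, div_mul_cancel₀ _ hV2.ne'] at this
    exact this
  -- the threshold
  set m : ℕ := ⌊c3 * D⌋₊ with hm
  have hcD : 1 ≤ c3 * D := by
    rw [div_le_iff₀ hc3p] at hD1
    linarith
  have hm1 : 1 ≤ m := by
    rw [hm]
    exact Nat.le_floor (by simpa using hcD)
  have hmle : (m : ℝ) ≤ c3 * D := Nat.floor_le (by positivity)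
  have hΛ : (0 : ℝ) ≤ lam * D := by positivity
  -- the set in question
  have hsub : ((T0 P k b (lam * D)).filter (fun z =>
        ((mids (T0 P k b (lam * D)) z.1 z.2.2).card : ℝ) < c3 * D)) ⊆
      (T0 P k b (lam * D)).filter (fun z => (mids (T0 P k b (lam * D)) z.1 z.2.2).card ≤ m) := by
    intro z hz
    rw [Finset.mem_filter] at hz ⊢
    exact ⟨hz.1, Nat.le_floor hz.2.le⟩
  have hle : (((T0 P k b (lam * D)).filter (fun z =>
        ((mids (T0 P k b (lam * D)) z.1 z.2.2).card : ℝ) < c3 * D)).card : ℝ) ≤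
      (((T0 P k b (lam * D)).filter
        (fun z => (mids (T0 P k b (lam * D)) z.1 z.2.2).card ≤ m)).card : ℝ) := by
    exact_mod_cast Finset.card_le_card hsub
  refine hle.trans ?_
  have hbN : (b : ℝ) ^ 2 * N ^ 2 ≤ N * D ^ 3 := by
    have h1 : (b : ℝ) ≤ N / (V : ℝ) ^ 3 := by
      rw [hb, hNdef]
      exact_mod_cast Nat.cast_div_le (α := ℝ) (m := P.card) (n := V ^ 3)
    have h2 : (b : ℝ) ^ 2 ≤ (N / (V : ℝ) ^ 3) ^ 2 := pow_le_pow_left₀ (Nat.cast_nonneg _) h1 2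
    calc (b : ℝ) ^ 2 * N ^ 2 ≤ (N / (V : ℝ) ^ 3) ^ 2 * N ^ 2 := by gcongr
      _ = N * D ^ 3 := by rw [hD]; field_simp
  rcases few_mids_aux hP (k := k) hb1 hΛ hm1 with h | h
  · refine h.trans ?_
    rw [div_le_iff₀ hε] at hD2
    calc 288 * (m : ℝ) * P.card ≤ 288 * (c3 * D) * N := by rw [hNdef]; gcongr
      _ = (288 * c3) * (D * N) := by ring
      _ ≤ (D * ε) * (D * N) := by gcongr
      _ = ε * N * D ^ 2 := by ring
  · have h3 : ((((T0 P k b (lam * D)).filter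
        (fun z => (mids (T0 P k b (lam * D)) z.1 z.2.2).card ≤ m)).card : ℝ)) ^ 3 ≤
        (ε * N * D ^ 2) ^ 3 := by
      refine h.trans ?_
      calc 331776 * (m : ℝ) * (P.card : ℝ) ^ 2 *
            ((lam * D) ^ 2 * (18 * (b : ℝ) ^ 2 * (P.card : ℝ) ^ 2) + P.card * (lam * D) ^ 4)
          = 331776 * (m : ℝ) * N ^ 2 *
            (18 * (lam * D) ^ 2 * ((b : ℝ) ^ 2 * N ^ 2) + N * (lam * D) ^ 4) := by
            rw [hNdef]; ring
        _ ≤ 331776 * (c3 * D) * N ^ 2 *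
            (18 * (lam * D) ^ 2 * (N * D ^ 3) + N * (lam * D) ^ 4) := by gcongr
        _ = 331776 * c3 * N ^ 3 * D ^ 5 * (18 * lam ^ 2 * D + lam ^ 2 * lam ^ 2) := by ring
        _ ≤ 331776 * c3 * N ^ 3 * D ^ 5 * (18 * lam ^ 2 * D + lam ^ 2 * D) := by gcongr
        _ = (331776 * 19 * lam ^ 2 * c3) * N ^ 3 * D ^ 6 := by ring
        _ = ε ^ 3 * N ^ 3 * D ^ 6 := by
            rw [hc3]
            congr 2
            field_simp
        _ = (ε * N * D ^ 2) ^ 3 := by ring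
    exact le_of_pow_le_pow_left₀ (by norm_num) (by positivity) h3

/-! ### fibres and the points `W_v` -/

/-- the points `w` and `x` occurring in the walks of `H` starting at `v`. -/
def Wpts (H : Finset Walk) (v : Pt) : Finset Pt := ends (fib H v)

lemma fib_mono {H H' : Finset Walk} (h : H ⊆ H') (v : Pt) : fib H v ⊆ fib H' v := by
  intro e he
  rw [mem_fib] at he ⊢
  exact h he

lemma card_image_fst_fib_le {P : Finset Pt} {k b : ℕ} {Λ : ℝ} (hΛ : 0 ≤ Λ) (v : Pt) :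
    ((((fib (T0 P k b Λ) v).image Prod.fst).card : ℕ) : ℝ) ≤ Λ := by
  by_cases hne : (fib (T0 P k b Λ) v).Nonempty
  · obtain ⟨e, he⟩ := hne
    rw [mem_fib] at he
    have h1 := (mem_T0' he).2.2.2.2.2.2.2.1
    refine le_trans ?_ h1
    have : ((fib (T0 P k b Λ) v).image Prod.fst).card ≤ dg (nearAll P k b) v := by
      unfold dg
      refine Finset.card_le_card_of_injOn (fun w => ((v, w) : Edge)) ?_ ?_
      · intro w hw
        obtain ⟨f, hf, rfl⟩ := Finset.mem_image.1 (Finset.mem_coe.1 hw)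
        rw [mem_fib] at hf
        have h2 := (mem_T0.1 hf).1
        refine Finset.mem_coe.2 (Finset.mem_filter.2 ⟨(mem_lowG.1 h2).1, Or.inl rfl⟩)
      · intro w _ w' _ h
        exact congrArg Prod.snd h
    exact_mod_cast this
  · rw [Finset.not_nonempty_iff_eq_empty] at hne
    rw [hne]; simpa using hΛ

lemma card_fib_filter_le {P : Finset Pt} {k b : ℕ} {Λ : ℝ} (hΛ : 0 ≤ Λ) (v w : Pt) :
    ((((fib (T0 P k b Λ) v).filter (fun e => e.1 = w)).card : ℕ) : ℝ) ≤ Λ := by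
  by_cases hne : ((fib (T0 P k b Λ) v).filter (fun e => e.1 = w)).Nonempty
  · obtain ⟨e, he⟩ := hne
    rw [Finset.mem_filter, mem_fib] at he
    have h1 := (mem_T0' he.1).2.2.2.2.2.2.2.2.1
    simp only [he.2] at h1
    refine le_trans ?_ h1
    have : ((fib (T0 P k b Λ) v).filter (fun e => e.1 = w)).card ≤ dg (nearAll P k b) w := by
      unfold dg
      refine Finset.card_le_card ?_
      intro f hf
      rw [Finset.mem_filter, mem_fib] at hf
      have h2 := (mem_T0.1 hf.1).2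
      exact Finset.mem_filter.2 ⟨(mem_lowG.1 h2).1, Or.inl hf.2⟩
    exact_mod_cast this
  · rw [Finset.not_nonempty_iff_eq_empty] at hne
    rw [hne]; simpa using hΛ

/-- `|H_v| ≤ Λ²`. -/
theorem card_fib_le {P : Finset Pt} {k b : ℕ} {Λ : ℝ} (hΛ : 0 ≤ Λ) (v : Pt) :
    (((fib (T0 P k b Λ) v).card : ℕ) : ℝ) ≤ Λ ^ 2 := by
  have h1 : (fib (T0 P k b Λ) v).card =
      ∑ w ∈ (fib (T0 P k b Λ) v).image Prod.fst,
        ((fib (T0 P k b Λ) v).filter (fun e => e.1 = w)).card :=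
    Finset.card_eq_sum_card_fiberwise (fun e he => Finset.mem_coe.2
      (Finset.mem_image_of_mem _ (Finset.mem_coe.1 he)))
  rw [h1]
  push_cast
  calc ∑ w ∈ (fib (T0 P k b Λ) v).image Prod.fst,
        ((((fib (T0 P k b Λ) v).filter (fun e => e.1 = w)).card : ℕ) : ℝ)
      ≤ ∑ _w ∈ (fib (T0 P k b Λ) v).image Prod.fst, Λ :=
        Finset.sum_le_sum (fun w _ => card_fib_filter_le hΛ v w)
    _ = (((fib (T0 P k b Λ) v).image Prod.fst).card : ℝ) * Λ := by
        rw [Finset.sum_const, nsmul_eq_mul]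
    _ ≤ Λ * Λ := mul_le_mul_of_nonneg_right (card_image_fst_fib_le hΛ v) hΛ
    _ = Λ ^ 2 := by ring

lemma sum_mids_le (H : Finset Walk) (v : Pt) (X : Finset Pt) :
    ∑ x ∈ X, (mids H v x).card ≤ (fib H v).card := by
  have h1 : ((fib H v).filter (fun e => e.2 ∈ X)).card =
      ∑ x ∈ X, (((fib H v).filter (fun e => e.2 ∈ X)).filter (fun e => e.2 = x)).card :=
    Finset.card_eq_sum_card_fiberwise (fun e he =>
      Finset.mem_coe.2 (Finset.mem_filter.1 (Finset.mem_coe.1 he)).2)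
  have h2 : ((fib H v).filter (fun e => e.2 ∈ X)).card ≤ (fib H v).card :=
    Finset.card_le_card (Finset.filter_subset _ _)
  refine le_trans ?_ h2
  rw [h1]
  refine Finset.sum_le_sum (fun x hx => ?_)
  refine Finset.card_le_card_of_injOn (fun w => ((w, x) : Edge)) ?_ ?_
  · intro w hw
    have hw' := mem_mids.1 (Finset.mem_coe.1 hw)
    refine Finset.mem_coe.2 (Finset.mem_filter.2 ⟨Finset.mem_filter.2 ⟨mem_fib.2 hw', hx⟩, rfl⟩)
  · intro w _ w' _ h
    exact congrArg Prod.fst h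

/-- **`|W_v| ≤ C₆ D'`**: if every walk of `H ⊆ T₀` has at least `c` middle points in `T₀`, then the
walks of `H` starting at `v` visit at most `Λ + Λ² / c` points. -/
theorem card_Wpts_le {P : Finset Pt} {k b : ℕ} {Λ : ℝ} (hΛ : 0 ≤ Λ) {c : ℝ} (hc : 0 < c)
    {H : Finset Walk} (hH : H ⊆ T0 P k b Λ)
    (hm : ∀ z ∈ H, c ≤ ((mids (T0 P k b Λ) z.1 z.2.2).card : ℝ)) (v : Pt) :
    ((Wpts H v).card : ℝ) ≤ Λ + Λ ^ 2 / c := by
  set X := (fib H v).image Prod.snd with hX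
  have h1 : ((Wpts H v).card : ℝ) ≤ (((fib H v).image Prod.fst).card : ℝ) + (X.card : ℝ) := by
    unfold Wpts ends
    exact_mod_cast Finset.card_union_le _ _
  have h2 : (((fib H v).image Prod.fst).card : ℝ) ≤ Λ := by
    refine le_trans ?_ (card_image_fst_fib_le (P := P) (k := k) (b := b) hΛ v)
    exact_mod_cast Finset.card_le_card (Finset.image_subset_image (fib_mono hH v))
  have h3 : c * (X.card : ℝ) ≤ Λ ^ 2 := by
    have h4 : c * (X.card : ℝ) ≤ ∑ x ∈ X, ((mids (T0 P k b Λ) v x).card : ℝ) := by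
      have h41 : ∀ x ∈ X, c ≤ ((mids (T0 P k b Λ) v x).card : ℝ) := by
        intro x hx
        obtain ⟨e, he, hex⟩ := Finset.mem_image.1 hx
        rw [mem_fib, hex] at he
        exact hm (v, e.1, x) he
      have h42 := Finset.card_nsmul_le_sum X _ c h41
      rw [nsmul_eq_mul] at h42
      linarith
    have h5 : ∑ x ∈ X, (mids (T0 P k b Λ) v x).card ≤ (fib (T0 P k b Λ) v).card :=
      sum_mids_le _ v X
    have h6 : (∑ x ∈ X, ((mids (T0 P k b Λ) v x).card : ℝ)) ≤ ((fib (T0 P k b Λ) v).card : ℝ) := by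
      exact_mod_cast h5
    exact h4.trans (h6.trans (card_fib_le hΛ v))
  have h7 : (X.card : ℝ) ≤ Λ ^ 2 / c := by
    rw [le_div_iff₀ hc]; linarith
  linarith

end Crest.Agent.R51
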