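import Crest.Agent.R51.WalkH
import Crest.Agent.R51.WalkMid
import Crest.Agent.R51.Robust

/-!
# Row 51, B5: `I53` (non-concentration) and `I54` (robustness), helper238
-/

set_option autoImplicit false

noncomputable section

open Classical

namespace Crest.Agent.R51

/-- **5.3** -/
theorem i53 : I53 := by
  intro Cw lam1 lam3 K hCw h1 _ hK Vp hVp
  refine ⟨Vp ^ 3, ?_⟩
  intro P hP hN k V L W l hl hV hVV H hH
  have hCw0 : 0 ≤ Cw := by linarith
  have h10 : 0 ≤ lam1 := by linarith
  have h := Rob.sum_badX_WSys hP hCw0 W hl rfl hV hVV hN h10 hK (lam3 := lam3) (H := H) hH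
  have he : ∀ v, badX W lam3 K l H v =
      Rob.badX P k (bb P.card (V l)) (W.cuts l) (lam3 * V l) (K * P.card / (V l : ℝ) ^ 4)
        (fib H v) := fun v => WSys.badX_eq W lam3 K l (fib H v)
  simp only [he]
  refine h.trans (le_of_eq ?_)
  unfold DD
  ring

/-- **5.4** -/
theorem i54 : I54 := by
  intro lam1 c3 h1 hc3
  set C6 : ℝ := lam1 + lam1 ^ 2 / c3 with hC6
  have h2 : 0 < lam1 ^ 2 / c3 := by positivity
  have hC61 : 1 ≤ C6 := by linarith
  have hC60 : 0 < C6 := by linarith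
  refine ⟨1 / (1296 * C6 ^ 2), by positivity, ?_, ?_⟩
  · rw [div_le_one (by positivity)]
    nlinarith
  intro d hd Vp hVp
  obtain ⟨N1, hN1⟩ := exists_nat_gt (18 * C6 / d * (Vp : ℝ) ^ 2)
  refine ⟨N1, ?_⟩
  intro P hP hN k H hH hm V L Cw W lam3 K l v hbad S hS hSc
  have hVR : (1 : ℝ) ≤ Vp := by exact_mod_cast hVp
  have hV2 : (0 : ℝ) < (Vp : ℝ) ^ 2 := by positivity
  have hNR : (N1 : ℝ) ≤ P.card := by exact_mod_cast hN
  have hDbig : 18 * C6 / d < DD P Vp := by
    unfold DD
    rw [lt_div_iff₀ hV2]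
    linarith
  have hD : 0 < DD P Vp := lt_of_le_of_lt (by positivity) hDbig
  have hA : ∀ v, ((ends (fib H v)).card : ℝ) ≤ C6 * DD P Vp := by
    intro v
    have h3 := card_Wpts_le (P := P) (k := k) (b := bb P.card Vp) (Λ := lam1 * DD P Vp)
      (by positivity) (c := c3 * DD P Vp) (by positivity) (H := H) hH hm v
    refine h3.trans (le_of_eq ?_)
    rw [hC6]
    field_simp
  have hrob : W.Robust lam3 K l C6 d (DD P Vp) (fib H v) := by
    unfold WSys.Robust
    unfold badX at hbad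
    refine hbad.trans (le_of_eq ?_)
    ring
  have hδD : 18 * C6 < d * DD P Vp := by
    rw [div_lt_iff₀ hd] at hDbig
    linarith
  have h5 := WSys.Robust.out hP hrob (WSys.T0_fib_subset hH v) hS hD hC60 hd (hA v) hδD hSc
  exact h5

end Crest.Agent.R51
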