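import Crest.Agent.R51.CutL
import Crest.Agent.R51.CrossStr
import Crest.Agent.R51.Dey
import Crest.Agent.R51.Active
import Crest.Agent.R51.WalkH

/-!
# Row 51, W1: existence of window systems (`IW1 2433`)

Unconditional: uses the crossing lemma (C2), Dey (G2) and ACTIVE (G9) directly.
-/

set_option autoImplicit false

noncomputable section

open Classical

namespace Crest.Agent.R51

namespace WinExist

/-- cubic form of the coarse Dey bound in a window -/
lemma near_window {P : Finset Pt} (hG : Generic P) {k b b' : ℕ} (hb' : 1 ≤ b') (hbb : b' + 1 ≤ b)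
    {s t : ℝ} (hc : (cen P k b s t).card ≤ 7 * b) :
    ((nearE P k b' s t).card : ℝ) ≤ 126 * (b : ℝ) ∨
      ((nearE P k b' s t).card : ℝ) ^ 3 ≤ 28005264 * (b' : ℝ) ^ 2 * (b : ℝ) ^ 4 := by
  set A := cen P k b s t with hA
  have hAP : A ⊆ P := Finset.filter_subset _ _
  have hsub : cen P k (b' + 1) s t ⊆ A := cen_mono hbb le_rfl le_rfl
  have hE : nearE P k b' s t ⊆ pairs A := by
    intro e he
    refine mem_pairs.2 ⟨hsub (left_mem_cen he), hsub (right_mem_cen he), ?_⟩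
    exact (mem_pairs.1 (mem_nearE.1 he).1).2.2
  have hact : (ActN P k b' s t).card ≤ A.card :=
    Finset.card_le_card (ends_nearE_subset.trans hsub)
  have hcr : crs (nearE P k b' s t) (nearE P k b' s t) ≤ 18 * b' * b' * A.card * A.card := by
    refine (dey_near' hG k b' k b' hb' hb' s t s t).trans ?_
    exact Nat.mul_le_mul (Nat.mul_le_mul_left _ hact) hact
  have hcr' : (crs (nearE P k b' s t) (nearE P k b' s t) : ℝ) ≤
      18 * (b' : ℝ) * b' * (A.card : ℝ) * (A.card : ℝ) := by exact_mod_cast hcr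
  have hA7 : (A.card : ℝ) ≤ 7 * (b : ℝ) := by exact_mod_cast hc
  rcases crossing_lemma hG hAP hE with h | h
  · left
    linarith
  · right
    refine h.trans ?_
    calc 648 * (A.card : ℝ) ^ 2 * (crs (nearE P k b' s t) (nearE P k b' s t) : ℝ)
        ≤ 648 * (A.card : ℝ) ^ 2 * (18 * (b' : ℝ) * b' * (A.card : ℝ) * (A.card : ℝ)) :=
          mul_le_mul_of_nonneg_left hcr' (by positivity)
      _ = 11664 * (b' : ℝ) ^ 2 * (A.card : ℝ) ^ 4 := by ring
      _ ≤ 11664 * (b' : ℝ) ^ 2 * (7 * (b : ℝ)) ^ 4 := by gcongr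
      _ = 28005264 * (b' : ℝ) ^ 2 * (b : ℝ) ^ 4 := by ring

lemma near_global {P : Finset Pt} (hG : Generic P) {k b : ℕ} (hb : 1 ≤ b) :
    ((nearAll P k b).card : ℝ) ≤ 18 * (P.card : ℝ) ∨
      ((nearAll P k b).card : ℝ) ^ 3 ≤ 11664 * (b : ℝ) ^ 2 * (P.card : ℝ) ^ 4 := by
  have hE : nearAll P k b ⊆ pairs P := nearAll_subset
  have hcr := dey_all hG k b k b hb hb
  have hcr' : (crs (nearAll P k b) (nearAll P k b) : ℝ) ≤
      18 * (b : ℝ) * b * (P.card : ℝ) * (P.card : ℝ) := by exact_mod_cast hcr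
  rcases crossing_lemma hG (Finset.Subset.refl P) hE with h | h
  · exact Or.inl h
  · right
    refine h.trans ?_
    calc 648 * (P.card : ℝ) ^ 2 * (crs (nearAll P k b) (nearAll P k b) : ℝ)
        ≤ 648 * (P.card : ℝ) ^ 2 * (18 * (b : ℝ) * b * (P.card : ℝ) * (P.card : ℝ)) :=
          mul_le_mul_of_nonneg_left hcr' (by positivity)
      _ = 11664 * (b : ℝ) ^ 2 * (P.card : ℝ) ^ 4 := by ring

lemma cube_le {X d : ℝ} (hX : 0 ≤ X) (hd : 0 ≤ d) (h : X ^ 3 ≤ d ^ 3) : X ≤ d :=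
  (pow_le_pow_iff_left₀ hX hd (by norm_num)).1 h

lemma bb_up (N V : ℕ) : ((bb N V : ℕ) : ℝ) ≤ (N : ℝ) / (V : ℝ) ^ 3 := by
  unfold bb
  refine Nat.cast_div_le.trans (le_of_eq ?_)
  push_cast
  ring

lemma bb_pos {N V : ℕ} (hV : 1 ≤ V) (hN : V ^ 3 ≤ N) : 1 ≤ bb N V :=
  Nat.div_pos hN (by positivity)

lemma bb_lo {N V : ℕ} (hV : 1 ≤ V) (hN : V ^ 3 ≤ N) :
    (N : ℝ) / (V : ℝ) ^ 3 ≤ 2 * ((bb N V : ℕ) : ℝ) := by
  have h1 : 1 ≤ bb N V := bb_pos hV hN
  have hV' : (0 : ℝ) < (V : ℝ) := by exact_mod_cast hV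
  rw [div_le_iff₀ (by positivity)]
  have h2 : N < V ^ 3 * (N / V ^ 3 + 1) := by
    have := Nat.div_add_mod N (V ^ 3)
    have h3 := Nat.mod_lt N (show 0 < V ^ 3 by positivity)
    rw [Nat.mul_add, mul_one]
    omega
  have h3 : V ^ 3 * (N / V ^ 3 + 1) ≤ V ^ 3 * (2 * bb N V) := by
    refine Nat.mul_le_mul_left _ ?_
    have : bb N V = N / V ^ 3 := rfl
    omega
  have h4 : N ≤ V ^ 3 * (2 * bb N V) := h2.le.trans h3
  have h5 : (N : ℝ) ≤ (V : ℝ) ^ 3 * (2 * ((bb N V : ℕ) : ℝ)) := by exact_mod_cast h4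
  linarith

/-- numerical core, in a window -/
lemma num_window {N vl vm : ℕ} (hvl : 1 ≤ vl) (h2 : 2 * vl ≤ vm) (hN : vm ^ 3 ≤ N) {X : ℝ}
    (hX : 0 ≤ X) (h : X ≤ 126 * ((bb N vl : ℕ) : ℝ) ∨
      X ^ 3 ≤ 28005264 * ((2 * bb N vm : ℕ) : ℝ) ^ 2 * ((bb N vl : ℕ) : ℝ) ^ 4) :
    X ≤ 1215 * ((vm : ℝ) / (vl : ℝ)) ^ 4 * ((bb N vm : ℕ) : ℝ) ^ 2 := by
  have hvm : 1 ≤ vm := by omega
  have hvl' : (0 : ℝ) < (vl : ℝ) := by exact_mod_cast hvl
  have hvm' : (0 : ℝ) < (vm : ℝ) := by exact_mod_cast hvm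
  have hβ1 : (1 : ℝ) ≤ ((bb N vm : ℕ) : ℝ) := by exact_mod_cast bb_pos hvm hN
  set β : ℝ := ((bb N vm : ℕ) : ℝ) with hβ
  set B : ℝ := ((bb N vl : ℕ) : ℝ) with hB
  set r : ℝ := (vm : ℝ) / (vl : ℝ) with hr
  have hr1 : 1 ≤ r := by
    rw [hr, one_le_div hvl']
    exact_mod_cast (by omega : vl ≤ vm)
  have hBr : B ≤ 2 * r ^ 3 * β := by
    have e1 : B ≤ (N : ℝ) / (vl : ℝ) ^ 3 := bb_up N vl
    have e2 : (N : ℝ) / (vm : ℝ) ^ 3 ≤ 2 * β := bb_lo hvm hN
    have e3 : (N : ℝ) / (vl : ℝ) ^ 3 = ((N : ℝ) / (vm : ℝ) ^ 3) * r ^ 3 := by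
      rw [hr]
      field_simp
    rw [e3] at e1
    have e4 : ((N : ℝ) / (vm : ℝ) ^ 3) * r ^ 3 ≤ (2 * β) * r ^ 3 :=
      mul_le_mul_of_nonneg_right e2 (by positivity)
    linarith
  have hB0 : 0 ≤ B := Nat.cast_nonneg _
  have hr4 : r ^ 3 ≤ r ^ 4 := pow_le_pow_right₀ hr1 (by norm_num)
  have hβ2 : β ≤ β ^ 2 := by nlinarith
  rcases h with h | h
  · calc X ≤ 126 * B := h
      _ ≤ 126 * (2 * r ^ 3 * β) := by linarith
      _ = 252 * (r ^ 3 * β) := by ring
      _ ≤ 252 * (r ^ 4 * β ^ 2) := by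
          refine mul_le_mul_of_nonneg_left ?_ (by norm_num)
          exact mul_le_mul hr4 hβ2 (by positivity) (by positivity)
      _ ≤ 1215 * r ^ 4 * β ^ 2 := by
          have : 0 ≤ r ^ 4 * β ^ 2 := by positivity
          linarith
  · refine cube_le hX (by positivity) (h.trans ?_)
    have e5 : ((2 * bb N vm : ℕ) : ℝ) = 2 * β := by push_cast; rfl
    rw [e5]
    calc 28005264 * (2 * β) ^ 2 * B ^ 4
        ≤ 28005264 * (2 * β) ^ 2 * (2 * r ^ 3 * β) ^ 4 := by gcongr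
      _ = 1792336896 * (r ^ 12 * β ^ 6) := by ring
      _ ≤ 1793613375 * (r ^ 12 * β ^ 6) := by
          refine mul_le_mul_of_nonneg_right (by norm_num) (by positivity)
      _ = (1215 * r ^ 4 * β ^ 2) ^ 3 := by ring

/-- numerical core, global -/
lemma num_global {N vm : ℕ} (hvm : 1 ≤ vm) (hN : vm ^ 3 ≤ N) {X : ℝ}
    (hX : 0 ≤ X) (h : X ≤ 18 * (N : ℝ) ∨
      X ^ 3 ≤ 11664 * ((2 * bb N vm : ℕ) : ℝ) ^ 2 * (N : ℝ) ^ 4) :
    X ≤ 91 * (vm : ℝ) ^ 4 * ((bb N vm : ℕ) : ℝ) ^ 2 := by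
  have hvm' : (0 : ℝ) < (vm : ℝ) := by exact_mod_cast hvm
  have hvm1 : (1 : ℝ) ≤ (vm : ℝ) := by exact_mod_cast hvm
  have hβ1 : (1 : ℝ) ≤ ((bb N vm : ℕ) : ℝ) := by exact_mod_cast bb_pos hvm hN
  set β : ℝ := ((bb N vm : ℕ) : ℝ) with hβ
  have hNr : (N : ℝ) ≤ 2 * (vm : ℝ) ^ 3 * β := by
    have e2 : (N : ℝ) / (vm : ℝ) ^ 3 ≤ 2 * β := bb_lo hvm hN
    rw [div_le_iff₀ (by positivity)] at e2
    linarith
  have hr4 : (vm : ℝ) ^ 3 ≤ (vm : ℝ) ^ 4 := pow_le_pow_right₀ hvm1 (by norm_num)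
  have hβ2 : β ≤ β ^ 2 := by nlinarith
  rcases h with h | h
  · calc X ≤ 18 * (N : ℝ) := h
      _ ≤ 18 * (2 * (vm : ℝ) ^ 3 * β) := by linarith
      _ = 36 * ((vm : ℝ) ^ 3 * β) := by ring
      _ ≤ 36 * ((vm : ℝ) ^ 4 * β ^ 2) := by
          refine mul_le_mul_of_nonneg_left ?_ (by norm_num)
          exact mul_le_mul hr4 hβ2 (by positivity) (by positivity)
      _ ≤ 91 * (vm : ℝ) ^ 4 * β ^ 2 := by
          have : 0 ≤ (vm : ℝ) ^ 4 * β ^ 2 := by positivity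
          linarith
  · refine cube_le hX (by positivity) (h.trans ?_)
    have e5 : ((2 * bb N vm : ℕ) : ℝ) = 2 * β := by push_cast; rfl
    rw [e5]
    have hN0 : (0 : ℝ) ≤ (N : ℝ) := Nat.cast_nonneg _
    calc 11664 * (2 * β) ^ 2 * (N : ℝ) ^ 4
        ≤ 11664 * (2 * β) ^ 2 * (2 * (vm : ℝ) ^ 3 * β) ^ 4 := by gcongr
      _ = 746496 * ((vm : ℝ) ^ 12 * β ^ 6) := by ring
      _ ≤ 753571 * ((vm : ℝ) ^ 12 * β ^ 6) := by
          refine mul_le_mul_of_nonneg_right (by norm_num) (by positivity)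
      _ = (91 * (vm : ℝ) ^ 4 * β ^ 2) ^ 3 := by ring

/-! ### growth of the levels -/

section Levels

variable {V : ℕ → ℕ} {L : ℕ}

lemma V_mono (h : ∀ l < L, 2 * V l ≤ V (l + 1)) {l l' : ℕ} (hll : l ≤ l') (hl' : l' ≤ L) :
    V l ≤ V l' := by
  induction l', hll using Nat.le_induction with
  | base => exact le_rfl
  | succ n hn ih =>
    have h1 := ih (by omega)
    have h2 := h n (by omega)
    omega

lemma V_pos (h0 : 1 ≤ V 0) (h : ∀ l < L, 2 * V l ≤ V (l + 1)) {l : ℕ} (hl : l ≤ L) :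
    1 ≤ V l := h0.trans (V_mono h (Nat.zero_le _) hl)

lemma V_two (h : ∀ l < L, 2 * V l ≤ V (l + 1)) {l l' : ℕ} (hll : l < l') (hl' : l' ≤ L) :
    2 * V l ≤ V l' :=
  (h l (by omega)).trans (V_mono h hll hl')

lemma sum_V (h : ∀ l < L, 2 * V l ≤ V (l + 1)) {l : ℕ} (hl : l ≤ L) :
    ∑ m ∈ Finset.range (l + 1), (V m : ℝ) ^ 4 ≤ 2 * (V l : ℝ) ^ 4 := by
  induction l with
  | zero =>
    rw [Finset.sum_range_one]
    have : (0 : ℝ) ≤ (V 0 : ℝ) ^ 4 := by positivity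
    linarith
  | succ n ih =>
    rw [Finset.sum_range_succ]
    have h1 := ih (by omega)
    have h2 : 2 * (V n : ℝ) ≤ (V (n + 1) : ℝ) := by exact_mod_cast h n (by omega)
    have h0 : (0 : ℝ) ≤ (V n : ℝ) := Nat.cast_nonneg _
    have h3 : (2 * (V n : ℝ)) ^ 4 ≤ (V (n + 1) : ℝ) ^ 4 := pow_le_pow_left₀ (by linarith) h2 4
    have h4 : (2 * (V n : ℝ)) ^ 4 = 16 * (V n : ℝ) ^ 4 := by ring
    rw [h4] at h3
    have h5 : (0 : ℝ) ≤ (V n : ℝ) ^ 4 := by positivity
    linarith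

end Levels

lemma bb_step {N v v' : ℕ} (hv : 1 ≤ v) (h : 2 * v ≤ v') (hN : v' ^ 3 ≤ N) :
    2 * bb N v' + 1 ≤ bb N v := by
  have h1 : 1 ≤ bb N v' := bb_pos (by omega) hN
  have h2 : 8 * bb N v' ≤ bb N v := by
    unfold bb
    rw [Nat.le_div_iff_mul_le (by positivity)]
    have e1 : N / v' ^ 3 * v' ^ 3 ≤ N := Nat.div_mul_le_self _ _
    have e2 : 8 * v ^ 3 ≤ v' ^ 3 := by
      calc 8 * v ^ 3 = (2 * v) ^ 3 := by ring
        _ ≤ v' ^ 3 := Nat.pow_le_pow_left h 3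
    calc 8 * (N / v' ^ 3) * v ^ 3 = (N / v' ^ 3) * (8 * v ^ 3) := by ring
      _ ≤ (N / v' ^ 3) * v' ^ 3 := Nat.mul_le_mul_left _ e2
      _ ≤ N := e1
  omega

/-- `cen` bound from the `few` condition -/
lemma cen_of_few {P : Finset Pt} (hG : Generic P) {k b : ℕ} (hb : 1 ≤ b) {s t : ℝ} (hst : s ≤ t)
    (hs : NonSlope P s) (ht : NonSlope P t) (h : (nearE P k (2 * b) s t).card ≤ b ^ 2) :
    (cen P k b s t).card ≤ 7 * b := by
  have h1 := Active.active_card hG hst hs ht k b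
  have h2 : (cen P k b s t).card ≤ (Active.Actv P k b s t).card := by
    refine Finset.card_le_card fun p hp => ?_
    obtain ⟨hp1, θ, hp2, hp3, hp4⟩ := mem_cen.1 hp
    exact Finset.mem_filter.2 ⟨hp1, θ, hp2.le, hp3.le, hp4⟩
  have h3 : b * (Active.Actv P k b s t).card ≤ b * (4 * b + 1) + 2 * b ^ 2 := by omega
  have h4 : b * (4 * b + 1) + 2 * b ^ 2 ≤ b * (7 * b) := by nlinarith
  exact h2.trans (Nat.le_of_mul_le_mul_left (h3.trans h4) hb)

/-- **W1**: window systems exist. -/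
theorem exists_wsys {V : ℕ → ℕ} {L : ℕ} (h0 : 1 ≤ V 0) (hV : ∀ l < L, 2 * V l ≤ V (l + 1))
    {P : Finset Pt} (hG : Generic P) (hN : V L ^ 3 ≤ P.card) (k : ℕ) :
    Nonempty (WSys P k V L 2433) := by
  set N := P.card with hNdef
  -- sizes
  have hVpos : ∀ l ≤ L, 1 ≤ V l := fun l hl => V_pos h0 hV hl
  have hVN : ∀ l ≤ L, V l ^ 3 ≤ N := fun l hl =>
    (Nat.pow_le_pow_left (V_mono hV hl le_rfl) 3).trans hN
  have hb1 : ∀ l ≤ L, 1 ≤ bb N (V l) := fun l hl => bb_pos (hVpos l hl) (hVN l hl)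
  -- outer cuts
  obtain ⟨lo, hlo⟩ : ∃ s, ∀ e ∈ pairs P, s < esl e := by
    rcases (pairs P).eq_empty_or_nonempty with h | h
    · exact ⟨0, by simp [h]⟩
    · obtain ⟨m, _, hm2⟩ := Finset.exists_min_image (pairs P) esl h
      exact ⟨esl m - 1, fun e he => by have := hm2 e he; linarith⟩
  obtain ⟨hi, hhi, hlohi⟩ : ∃ t, (∀ e ∈ pairs P, esl e < t) ∧ lo < t := by
    rcases (pairs P).eq_empty_or_nonempty with h | h
    · exact ⟨lo + 1, by simp [h], by linarith⟩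
    · obtain ⟨m, hm1, hm2⟩ := Finset.exists_max_image (pairs P) esl h
      refine ⟨esl m + 1, fun e he => by have := hm2 e he; linarith, ?_⟩
      have := hlo m hm1
      linarith
  -- the cut sets
  set F : ℕ → Finset ℝ := fun l => (nearAll P k (2 * bb N (V l))).image esl with hF
  have hex : ∀ l : ℕ, ∃ C : Finset ℝ, l ≤ L → (∀ c ∈ C, NonSlope P c) ∧ (∀ c ∈ C, c < hi) ∧
      (∀ c ∈ C, lo < c) ∧
      (∀ u v : ℝ, (∀ c ∈ C, ¬ (u < c ∧ c < v)) →
        (nearE P k (2 * bb N (V l)) u v).card ≤ bb N (V l) ^ 2) ∧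
      (∀ u v : ℝ, (C.filter (fun c => u < c ∧ c < v)).card * bb N (V l) ^ 2 ≤
        (nearE P k (2 * bb N (V l)) u v).card + bb N (V l) ^ 2) ∧
      C.card * bb N (V l) ^ 2 ≤ (nearAll P k (2 * bb N (V l))).card := by
    intro l
    by_cases hl : l ≤ L
    · obtain ⟨C, h1, h2, h3, h4, h5, h6⟩ := CutL.cuts_main (P := P) (F l)
        (fun f hf => by
          obtain ⟨e, he, rfl⟩ := Finset.mem_image.1 hf
          exact ⟨e, nearAll_subset he, rfl⟩)
        (m := bb N (V l) ^ 2) (Nat.one_le_pow _ _ (hb1 l hl)) (hi := hi)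
        (fun f hf => by
          obtain ⟨e, he, rfl⟩ := Finset.mem_image.1 hf
          exact hhi e (nearAll_subset he))
      have hcard : ∀ u v : ℝ, ((F l).filter (fun f => u < f ∧ f < v)).card =
          (nearE P k (2 * bb N (V l)) u v).card := by
        intro u v
        rw [CutL.card_slopes_filter hG nearAll_subset]
        congr 1
        ext e
        rw [Finset.mem_filter, mem_nearAll, mem_nearE]
        tauto
      refine ⟨C, fun _ => ⟨h1, h2, ?_, ?_, ?_, ?_⟩⟩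
      · intro c hc
        obtain ⟨f, hf, hfc⟩ := h3 c hc
        obtain ⟨e, he, rfl⟩ := Finset.mem_image.1 hf
        exact (hlo e (nearAll_subset he)).trans hfc
      · intro u v huv
        rw [← hcard]
        exact h4 u v huv
      · intro u v
        rw [← hcard]
        exact h5 u v
      · rw [← CutL.card_slopes hG (nearAll_subset (P := P) (k := k) (b := 2 * bb N (V l)))]
        exact h6
    · exact ⟨∅, fun h => absurd h hl⟩
  choose C hC using hex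
  set cuts : ℕ → Finset ℝ := fun l => insert lo (insert hi ((Finset.range (l + 1)).biUnion C))
    with hcuts
  have hmem : ∀ l c, c ∈ cuts l ↔ c = lo ∨ c = hi ∨ ∃ m ≤ l, c ∈ C m := by
    intro l c
    simp only [hcuts, Finset.mem_insert, Finset.mem_biUnion, Finset.mem_range, Nat.lt_succ_iff]
  have hnons : ∀ l ≤ L, ∀ c ∈ cuts l, NonSlope P c := by
    intro l hl c hc
    rcases (hmem l c).1 hc with rfl | rfl | ⟨m, hm, hcm⟩
    · exact fun e he h => absurd (hlo e he) (by rw [h]; exact lt_irrefl _)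
    · exact fun e he h => absurd (hhi e he) (by rw [h]; exact lt_irrefl _)
    · exact (hC m (hm.trans hl)).1 c hcm
  have hfew : ∀ l ≤ L, ∀ J ∈ wins (cuts l),
      (nearE P k (2 * bb P.card (V l)) J.1 J.2).card ≤ (bb P.card (V l)) ^ 2 := by
    intro l hl J hJ
    refine (hC l hl).2.2.2.1 J.1 J.2 fun c hc => ?_
    exact (mem_wins.1 hJ).2.2.2 c ((hmem l c).2 (Or.inr (Or.inr ⟨l, le_rfl, hc⟩)))
  have hcen : ∀ l ≤ L, ∀ J ∈ wins (cuts l),
      (cen P k (bb P.card (V l)) J.1 J.2).card ≤ 7 * bb P.card (V l) := by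
    intro l hl J hJ
    have hJ' := mem_wins.1 hJ
    exact cen_of_few hG (hb1 l hl) hJ'.2.2.1.le (hnons l hl _ hJ'.1) (hnons l hl _ hJ'.2.1)
      (hfew l hl J hJ)
  -- number of cuts of `C m` inside a window of level `l`
  have hin : ∀ l m, l < m → m ≤ L → ∀ J ∈ wins (cuts l),
      (((C m).filter (fun c => J.1 < c ∧ c < J.2)).card : ℝ) ≤
        1216 * ((V m : ℝ) / (V l : ℝ)) ^ 4 := by
    intro l m hlm hm J hJ
    have hl : l ≤ L := by omega
    have e1 := (hC m hm).2.2.2.2.1 J.1 J.2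
    have e2 := near_window hG (b' := 2 * bb N (V m)) (b := bb N (V l)) (s := J.1) (t := J.2)
      (k := k) (by have := hb1 m hm; omega)
      (bb_step (hVpos l hl) (V_two hV hlm hm) (hVN m hm)) (hcen l hl J hJ)
    have e3 := num_window (hVpos l hl) (V_two hV hlm hm) (hVN m hm) (Nat.cast_nonneg _) e2
    have hβ : (1 : ℝ) ≤ ((bb N (V m) : ℕ) : ℝ) := by exact_mod_cast hb1 m hm
    have e4 : (((C m).filter (fun c => J.1 < c ∧ c < J.2)).card : ℝ) * ((bb N (V m) : ℕ) : ℝ) ^ 2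
        ≤ ((nearE P k (2 * bb N (V m)) J.1 J.2).card : ℝ) + ((bb N (V m) : ℕ) : ℝ) ^ 2 := by
      exact_mod_cast e1
    have hvl' : (0 : ℝ) < (V l : ℝ) := by exact_mod_cast hVpos l hl
    have hr1 : (1 : ℝ) ≤ ((V m : ℝ) / (V l : ℝ)) ^ 4 := by
      refine one_le_pow₀ ?_
      rw [one_le_div hvl']
      exact_mod_cast V_mono hV hlm.le hm
    have hb2 : (0 : ℝ) < ((bb N (V m) : ℕ) : ℝ) ^ 2 := by positivity
    refine le_of_mul_le_mul_right ?_ hb2
    nlinarith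
  refine ⟨{
    cuts := cuts
    lo := lo
    hi := hi
    sub := ?_
    nons := hnons
    lo_mem := (hmem 0 lo).2 (Or.inl rfl)
    hi_mem := (hmem 0 hi).2 (Or.inr (Or.inl rfl))
    lo_le := ?_
    le_hi := ?_
    lo_lt_slope := hlo
    slope_lt_hi := hhi
    few := hfew
    cen_le := hcen
    count_in := ?_
    count_all := ?_ }⟩
  · intro l l' hll _ c hc
    rcases (hmem l c).1 hc with h | h | ⟨m, hm, hcm⟩
    · exact (hmem l' c).2 (Or.inl h)
    · exact (hmem l' c).2 (Or.inr (Or.inl h))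
    · exact (hmem l' c).2 (Or.inr (Or.inr ⟨m, hm.trans hll, hcm⟩))
  · intro l hl c hc
    rcases (hmem l c).1 hc with rfl | rfl | ⟨m, hm, hcm⟩
    · exact le_rfl
    · exact hlohi.le
    · exact ((hC m (hm.trans hl)).2.2.1 c hcm).le
  · intro l hl c hc
    rcases (hmem l c).1 hc with rfl | rfl | ⟨m, hm, hcm⟩
    · exact hlohi.le
    · exact le_rfl
    · exact ((hC m (hm.trans hl)).2.1 c hcm).le
  · intro l l' hll hl' J hJ
    have hl : l ≤ L := hll.trans hl'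
    have hJ' := mem_wins.1 hJ
    have hvl' : (0 : ℝ) < (V l : ℝ) := by exact_mod_cast hVpos l hl
    -- windows inject into left end points
    set S := (wins (cuts l')).filter (fun J' => J.1 ≤ J'.1 ∧ J'.2 ≤ J.2) with hS
    have hsub : S.image Prod.fst ⊆ insert J.1
        ((Finset.Ioc l l').biUnion (fun m => (C m).filter (fun c => J.1 < c ∧ c < J.2))) := by
      intro c hc
      obtain ⟨J', hJ1, rfl⟩ := Finset.mem_image.1 hc
      obtain ⟨hJ2, hJ3, hJ4⟩ := Finset.mem_filter.1 hJ1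
      have hJ5 := mem_wins.1 hJ2
      rw [Finset.mem_insert]
      rcases hJ3.eq_or_lt with h | h
      · exact Or.inl h.symm
      right
      have hlt : J'.1 < J.2 := hJ5.2.2.1.trans_le hJ4
      have hnl : J'.1 ∉ cuts l := fun hmm => hJ'.2.2.2 _ hmm ⟨h, hlt⟩
      rcases (hmem l' J'.1).1 hJ5.1 with h1 | h1 | ⟨m, hm, hcm⟩
      · exact absurd ((hmem l _).2 (Or.inl h1)) hnl
      · exact absurd ((hmem l _).2 (Or.inr (Or.inl h1))) hnl
      · have hlm : l < m := by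
          by_contra hcon
          exact hnl ((hmem l _).2 (Or.inr (Or.inr ⟨m, not_lt.1 hcon, hcm⟩)))
        exact Finset.mem_biUnion.2 ⟨m, Finset.mem_Ioc.2 ⟨hlm, hm⟩,
          Finset.mem_filter.2 ⟨hcm, h, hlt⟩⟩
    have hinj : Set.InjOn Prod.fst (S : Set (ℝ × ℝ)) := by
      intro I hI I' hI' h
      have hI1 := mem_wins.1 (Finset.mem_filter.1 (Finset.mem_coe.1 hI)).1
      have hI2 := mem_wins.1 (Finset.mem_filter.1 (Finset.mem_coe.1 hI')).1
      have h' : I.1 = I'.1 := h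
      refine Prod.ext h' ?_
      rcases lt_trichotomy I.2 I'.2 with h1 | h1 | h1
      · exact absurd ⟨by rw [← h']; exact hI1.2.2.1, h1⟩ (hI2.2.2.2 _ hI1.2.1)
      · exact h1
      · exact absurd ⟨by rw [h']; exact hI2.2.2.1, h1⟩ (hI1.2.2.2 _ hI2.2.1)
    have hcardS : S.card ≤ 1 + ∑ m ∈ Finset.Ioc l l',
        ((C m).filter (fun c => J.1 < c ∧ c < J.2)).card := by
      rw [← Finset.card_image_of_injOn hinj]
      refine (Finset.card_le_card hsub).trans ((Finset.card_insert_le _ _).trans ?_)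
      have := Finset.card_biUnion_le (s := Finset.Ioc l l')
        (t := fun m => (C m).filter (fun c => J.1 < c ∧ c < J.2))
      omega
    have hcardR : (S.card : ℝ) ≤ 1 + ∑ m ∈ Finset.Ioc l l',
        (((C m).filter (fun c => J.1 < c ∧ c < J.2)).card : ℝ) := by exact_mod_cast hcardS
    have hsum : ∑ m ∈ Finset.Ioc l l',
        (((C m).filter (fun c => J.1 < c ∧ c < J.2)).card : ℝ) ≤
        1216 * (2 * (V l' : ℝ) ^ 4) / (V l : ℝ) ^ 4 := by
      calc ∑ m ∈ Finset.Ioc l l', (((C m).filter (fun c => J.1 < c ∧ c < J.2)).card : ℝ)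
          ≤ ∑ m ∈ Finset.Ioc l l', 1216 * ((V m : ℝ) / (V l : ℝ)) ^ 4 := by
            refine Finset.sum_le_sum fun m hm => ?_
            obtain ⟨hm1, hm2⟩ := Finset.mem_Ioc.1 hm
            exact hin l m hm1 (hm2.trans hl') J hJ
        _ = 1216 / (V l : ℝ) ^ 4 * ∑ m ∈ Finset.Ioc l l', (V m : ℝ) ^ 4 := by
            rw [Finset.mul_sum]
            refine Finset.sum_congr rfl fun m _ => ?_
            field_simp
        _ ≤ 1216 / (V l : ℝ) ^ 4 * ∑ m ∈ Finset.range (l' + 1), (V m : ℝ) ^ 4 := by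
            refine mul_le_mul_of_nonneg_left ?_ (by positivity)
            refine Finset.sum_le_sum_of_subset_of_nonneg ?_ fun _ _ _ => by positivity
            intro m hm
            rw [Finset.mem_range]
            have := (Finset.mem_Ioc.1 hm).2
            omega
        _ ≤ 1216 / (V l : ℝ) ^ 4 * (2 * (V l' : ℝ) ^ 4) :=
            mul_le_mul_of_nonneg_left (sum_V hV hl') (by positivity)
        _ = _ := by ring
    have hr1 : (1 : ℝ) ≤ ((V l' : ℝ) / (V l : ℝ)) ^ 4 := by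
      refine one_le_pow₀ ?_
      rw [one_le_div hvl']
      exact_mod_cast V_mono hV hll hl'
    have he : 1216 * (2 * (V l' : ℝ) ^ 4) / (V l : ℝ) ^ 4
        = 2432 * ((V l' : ℝ) / (V l : ℝ)) ^ 4 := by
      rw [div_pow]; ring
    rw [he] at hsum
    linarith
  · intro l hl
    have hvl' : (1 : ℝ) ≤ (V l : ℝ) := by exact_mod_cast hVpos l hl
    have hcm : ∀ m ≤ L, ((C m).card : ℝ) ≤ 91 * (V m : ℝ) ^ 4 := by
      intro m hm
      have e1 := (hC m hm).2.2.2.2.2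
      have e2 := near_global hG (k := k) (b := 2 * bb N (V m)) (by have := hb1 m hm; omega)
      have e3 := num_global (hVpos m hm) (hVN m hm) (Nat.cast_nonneg _) e2
      have hβ : (1 : ℝ) ≤ ((bb N (V m) : ℕ) : ℝ) := by exact_mod_cast hb1 m hm
      have e4 : ((C m).card : ℝ) * ((bb N (V m) : ℕ) : ℝ) ^ 2
          ≤ ((nearAll P k (2 * bb N (V m))).card : ℝ) := by exact_mod_cast e1
      have hb2 : (0 : ℝ) < ((bb N (V m) : ℕ) : ℝ) ^ 2 := by positivity
      exact le_of_mul_le_mul_right (e4.trans e3) hb2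
    have hcard : (cuts l).card ≤ 2 + ∑ m ∈ Finset.range (l + 1), (C m).card := by
      have a1 := Finset.card_insert_le lo (insert hi ((Finset.range (l + 1)).biUnion C))
      have a2 := Finset.card_insert_le hi ((Finset.range (l + 1)).biUnion C)
      have a3 := Finset.card_biUnion_le (s := Finset.range (l + 1)) (t := C)
      simp only [hcuts]
      omega
    have hcardR : ((cuts l).card : ℝ) ≤ 2 + ∑ m ∈ Finset.range (l + 1), ((C m).card : ℝ) := by
      exact_mod_cast hcard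
    have hsum : ∑ m ∈ Finset.range (l + 1), ((C m).card : ℝ) ≤ 91 * (2 * (V l : ℝ) ^ 4) := by
      calc ∑ m ∈ Finset.range (l + 1), ((C m).card : ℝ)
          ≤ ∑ m ∈ Finset.range (l + 1), 91 * (V m : ℝ) ^ 4 := by
            refine Finset.sum_le_sum fun m hm => hcm m ?_
            have := Finset.mem_range.1 hm
            omega
        _ = 91 * ∑ m ∈ Finset.range (l + 1), (V m : ℝ) ^ 4 := by rw [Finset.mul_sum]
        _ ≤ 91 * (2 * (V l : ℝ) ^ 4) := mul_le_mul_of_nonneg_left (sum_V hV hl) (by norm_num)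
    have h4 : (1 : ℝ) ≤ (V l : ℝ) ^ 4 := one_le_pow₀ hvl'
    linarith

end WinExist

/-- **W1** -/
theorem iw1 : IW1 2433 := by
  intro V L h0 hV
  exact ⟨V L ^ 3, fun P hG hN k => WinExist.exists_wsys h0 hV hG hN k⟩

/-- **W1**, with an existential constant -/
theorem exists_iw1 : ∃ Cw : ℝ, 1 ≤ Cw ∧ IW1 Cw := ⟨2433, by norm_num, iw1⟩

end Crest.Agent.R51
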