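import Crest.Agent.R51.WalkAss
import Crest.Agent.R51.WinSys
import Crest.Agent.R51.Walk51
import Crest.Agent.R51.Loc7
import Crest.Agent.R51.WalkI38
import Crest.Agent.R51.WinFin
import Crest.Agent.R51.TrimI
import Crest.Agent.R51.WalkRob
import Crest.Agent.R51.LacPts2

/-!
# Row 51: block B5 + 7.4 (`HExists`), unconditional
-/

set_option autoImplicit false

noncomputable section

open Classical

namespace Crest.Agent.R51

theorem hExists : HExists :=
  hExists_of (Cw := 2433) (by norm_num) iw1 i51 i2 i3 i4 i5 i6 i7 i8 i53 i54 i74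

end Crest.Agent.R51
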