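import Crest.Agent.R51.Defs

/-!
# Row 51: the top level interface (integration: helper169)

* `CoreProp` : the core theorem (no configuration is tight at all scales `V₁ ≤ V ≤ Vmax`), B3-B9;
* `TheoremE` : `e_k(P) ≤ C |P|^(4/3-ε)`; B10/R3 proves `CoreProp → TheoremE`, B10/R1+R2 prove
  `TheoremE → S0070`.
-/

set_option autoImplicit false

noncomputable section

open Classical

namespace Crest.Agent.R51

/-- near pairs with a real width: `|lv e - k| ≤ x` -/
def nearR (P : Finset Pt) (k : ℕ) (x : ℝ) : Finset Edge :=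
  (pairs P).filter (fun e => |(lv P e : ℝ) - (k : ℝ)| ≤ x)

/-- the configuration `(P, k)` is tight at scale `V` with constant `c₀`: there are at least
`c₀ N² / V²` pairs with `|lv - k| ≤ N / V³` -/
def Tight (P : Finset Pt) (k : ℕ) (c₀ : ℝ) (V : ℕ) : Prop :=
  c₀ * (P.card : ℝ) ^ 2 / (V : ℝ) ^ 2 ≤ ((nearR P k ((P.card : ℝ) / (V : ℝ) ^ 3)).card : ℝ)

/-- **core theorem** -/
def CoreProp : Prop :=
  ∀ c₀ : ℝ, 0 < c₀ → ∀ V₁ : ℕ, 1 ≤ V₁ → ∃ Vmax N₀ : ℕ, ∀ P : Finset Pt, Generic P → ∀ k : ℕ,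
    N₀ ≤ P.card → ∃ V : ℕ, V₁ ≤ V ∧ V ≤ Vmax ∧ ¬ Tight P k c₀ V

/-- **Theorem E** -/
def TheoremE : Prop :=
  ∃ ε : ℝ, 0 < ε ∧ ∃ C : ℝ, ∀ P : Finset Pt, Generic P → ∀ k : ℕ,
    ((kAll P k).card : ℝ) ≤ C * (P.card : ℝ) ^ ((4 : ℝ) / 3 - ε)

theorem nearR_natCast {P : Finset Pt} {k b : ℕ} : nearR P k (b : ℝ) = nearAll P k b := by
  ext e
  simp only [nearR, nearAll, Near, Finset.mem_filter, abs_le]
  refine and_congr_right fun _ => ?_
  constructor
  · rintro ⟨h1, h2⟩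
    constructor
    · have : (lv P e : ℝ) ≤ (k : ℝ) + b := by linarith
      exact_mod_cast this
    · have : (k : ℝ) ≤ (lv P e : ℝ) + b := by linarith
      exact_mod_cast this
  · rintro ⟨h1, h2⟩
    have h1' : (lv P e : ℝ) ≤ (k : ℝ) + b := by exact_mod_cast h1
    have h2' : (k : ℝ) ≤ (lv P e : ℝ) + b := by exact_mod_cast h2
    constructor <;> linarith

/-- a real width is the same as its integer part -/
theorem nearR_eq {P : Finset Pt} {k : ℕ} {x : ℝ} (hx : 0 ≤ x) :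
    nearR P k x = nearAll P k ⌊x⌋₊ := by
  rw [← nearR_natCast]
  ext e
  simp only [nearR, Finset.mem_filter]
  refine and_congr_right fun _ => ?_
  constructor
  · intro h
    have h1 : ((((lv P e : ℤ) - (k : ℤ)).natAbs : ℕ) : ℝ) = |(lv P e : ℝ) - (k : ℝ)| := by
      rw [Nat.cast_natAbs]
      push_cast
      rfl
    rw [← h1] at h ⊢
    exact_mod_cast Nat.le_floor h
  · intro h
    exact h.trans (Nat.floor_le hx)

end Crest.Agent.R51
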