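import Crest.Agent.R51.HSys

/-!
# Row 51, section B7 (7.4): the number of lacunary points (helper445)

A point `v` is lacunary if for some centre `(c,τ)` a fixed proportion of the good 2-walks starting
at `v` has its last direction in a problematic window (`good c τ`). Robustness gives `≥ c V²` pairs
of problematic windows with small intersection which contain `v`; summing over `v` and using the
pair count 7.3 bounds the number of lacunary points.
-/

set_option autoImplicit false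
set_option linter.unusedVariables false

noncomputable section

open Classical Finset

namespace Crest.Agent.R51

namespace Lac7

/-- 7.4, abstract form, for the level `l` of a window system. -/
theorem card_lac_le {β : Type*} {P : Finset Pt} {k : ℕ} {V : ℕ → ℕ} {L : ℕ} {Cw : ℝ}
    (W : WSys P k V L Cw) (l : ℕ) {D' a lam3 K c8 δ8 M : ℝ}
    {H : Pt → Finset Edge} {good : ℝ → β → ℝ × ℝ → Prop} {LL : Finset Pt}
    (hV : 0 < V l) (hD : 0 < D') (ha : 0 < a) (hc8 : 0 < c8) (hδ8 : 0 < δ8) (hK : 0 ≤ K)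
    (hLP : LL ⊆ P)
    (hwinof : ∀ v ∈ LL, ∀ e ∈ H v, W.J l (esl e) ∈ wins (W.cuts l))
    (hcen : ∀ v ∈ LL, ∀ e ∈ H v, v ∈ W.A l (W.J l (esl e)))
    (hwin : ∀ v ∈ LL, ∀ J ∈ wins (W.cuts l),
      (((H v).filter (fun e => W.J l (esl e) = J)).card : ℝ) ≤ a * D' ^ 2 / (V l : ℝ))
    (hT6 : ∀ v ∈ LL, (H v).Nonempty → ¬ W.T6 lam3 l v)
    (hrob : ∀ v ∈ LL, ∀ S ⊆ H v, δ8 * D' ^ 2 ≤ (S.card : ℝ) →
      c8 * (S.card : ℝ) ^ 3 / D' ^ 2 ≤ (((S ×ˢ S).filter (fun x : Edge × Edge =>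
        W.NK lam3 K l (W.J l (esl x.1)) (W.J l (esl x.2)))).card : ℝ))
    (hpairs : (((wins (W.cuts l) ×ˢ wins (W.cuts l)).filter (fun x : (ℝ × ℝ) × (ℝ × ℝ) =>
      x.1 ≠ x.2 ∧ ∃ c τ, good c τ x.1 ∧ good c τ x.2)).card : ℝ) ≤ M)
    (hlac : ∀ v ∈ LL, ∃ c τ, δ8 * D' ^ 2 ≤
      (((H v).filter (fun e => good c τ (W.J l (esl e)))).card : ℝ)) :
    (LL.card : ℝ) * (c8 * δ8 ^ 3 / a ^ 2) * (V l : ℝ) ^ 2 ≤ M * (K * P.card / (V l : ℝ) ^ 4) := by
  classical
  have hV' : (0 : ℝ) < (V l : ℝ) := by exact_mod_cast hV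
  -- the problematic related pairs
  set PP := (wins (W.cuts l) ×ˢ wins (W.cuts l)).filter (fun x : (ℝ × ℝ) × (ℝ × ℝ) =>
    x.1 ≠ x.2 ∧ ∃ c τ, good c τ x.1 ∧ good c τ x.2) with hPP
  set QQ := PP.filter (fun x => W.NK lam3 K l x.1 x.2) with hQQ
  -- lacunary points have walks
  have hne : ∀ v ∈ LL, (H v).Nonempty := by
    intro v hv
    obtain ⟨c, τ, h⟩ := hlac v hv
    by_contra hcon
    rw [Finset.not_nonempty_iff_eq_empty] at hcon
    rw [hcon] at h
    simp only [Finset.filter_empty, Finset.card_empty, Nat.cast_zero] at h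
    have : 0 < δ8 * D' ^ 2 := by positivity
    linarith
  -- per point lower bound
  have hpt : ∀ v ∈ LL, c8 * δ8 ^ 3 / a ^ 2 * (V l : ℝ) ^ 2 ≤
      ((QQ.filter (fun x => v ∈ W.A l x.1 ∧ v ∈ W.A l x.2)).card : ℝ) := by
    intro v hv
    obtain ⟨c, τ, hS⟩ := hlac v hv
    set S := (H v).filter (fun e => good c τ (W.J l (esl e))) with hSdef
    have hSsub : S ⊆ H v := Finset.filter_subset _ _
    have h1 := hrob v hv S hSsub hS
    set T := (S ×ˢ S).filter (fun x : Edge × Edge =>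
      W.NK lam3 K l (W.J l (esl x.1)) (W.J l (esl x.2))) with hT
    set Q := QQ.filter (fun x => v ∈ W.A l x.1 ∧ v ∈ W.A l x.2) with hQ
    have hmaps : ∀ x ∈ T, (W.J l (esl x.1), W.J l (esl x.2)) ∈ Q := by
      intro x hx
      rw [hT, Finset.mem_filter, Finset.mem_product] at hx
      obtain ⟨⟨hx1, hx2⟩, hrel⟩ := hx
      have g1 := (Finset.mem_filter.1 hx1).2
      have g2 := (Finset.mem_filter.1 hx2).2
      have m1 := hSsub hx1
      have m2 := hSsub hx2
      rw [hQ, Finset.mem_filter, hQQ, Finset.mem_filter, hPP, Finset.mem_filter,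
        Finset.mem_product]
      exact ⟨⟨⟨⟨hwinof v hv _ m1, hwinof v hv _ m2⟩, hrel.1, c, τ, g1, g2⟩, hrel⟩,
        hcen v hv _ m1, hcen v hv _ m2⟩
    have hfib : ∀ y ∈ Q, ((T.filter (fun x => (W.J l (esl x.1), W.J l (esl x.2)) = y)).card
        : ℝ) ≤ (a * D' ^ 2 / (V l : ℝ)) ^ 2 := by
      intro y hy
      rw [hQ, Finset.mem_filter, hQQ, Finset.mem_filter, hPP, Finset.mem_filter,
        Finset.mem_product] at hy
      have w1 := hy.1.1.1.1
      have w2 := hy.1.1.1.2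
      have hsub : T.filter (fun x => (W.J l (esl x.1), W.J l (esl x.2)) = y) ⊆
          ((H v).filter (fun e => W.J l (esl e) = y.1)) ×ˢ
            ((H v).filter (fun e => W.J l (esl e) = y.2)) := by
        intro x hx
        rw [Finset.mem_filter, hT, Finset.mem_filter, Finset.mem_product] at hx
        obtain ⟨⟨⟨hx1, hx2⟩, -⟩, hxy⟩ := hx
        rw [Finset.mem_product, Finset.mem_filter, Finset.mem_filter]
        refine ⟨⟨hSsub hx1, ?_⟩, hSsub hx2, ?_⟩
        · rw [← hxy]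
        · rw [← hxy]
      have hc := Finset.card_le_card hsub
      rw [Finset.card_product] at hc
      have hc' : ((T.filter (fun x => (W.J l (esl x.1), W.J l (esl x.2)) = y)).card : ℝ) ≤
          (((H v).filter (fun e => W.J l (esl e) = y.1)).card : ℝ) *
            (((H v).filter (fun e => W.J l (esl e) = y.2)).card : ℝ) := by exact_mod_cast hc
      refine hc'.trans ?_
      rw [sq]
      exact mul_le_mul (hwin v hv _ w1) (hwin v hv _ w2) (by positivity) (by positivity)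
    have hT' : (T.card : ℝ) ≤ Q.card * (a * D' ^ 2 / (V l : ℝ)) ^ 2 := by
      have : T.card = ∑ y ∈ Q, (T.filter (fun x =>
          (W.J l (esl x.1), W.J l (esl x.2)) = y)).card :=
        Finset.card_eq_sum_card_fiberwise (fun x hx => hmaps x (Finset.mem_coe.1 hx))
      rw [this]
      push_cast
      calc ∑ y ∈ Q, ((T.filter (fun x => (W.J l (esl x.1), W.J l (esl x.2)) = y)).card : ℝ)
          ≤ ∑ _y ∈ Q, (a * D' ^ 2 / (V l : ℝ)) ^ 2 := Finset.sum_le_sum hfib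
        _ = Q.card * (a * D' ^ 2 / (V l : ℝ)) ^ 2 := by rw [Finset.sum_const, nsmul_eq_mul]
    have h2 : c8 * δ8 ^ 3 * D' ^ 4 ≤ Q.card * (a * D' ^ 2 / (V l : ℝ)) ^ 2 := by
      refine le_trans ?_ (h1.trans hT')
      rw [le_div_iff₀ (by positivity)]
      have h3 : (δ8 * D' ^ 2) ^ 3 ≤ (S.card : ℝ) ^ 3 :=
        pow_le_pow_left₀ (by positivity) hS 3
      calc c8 * δ8 ^ 3 * D' ^ 4 * D' ^ 2 = c8 * (δ8 * D' ^ 2) ^ 3 := by ring
        _ ≤ c8 * (S.card : ℝ) ^ 3 := mul_le_mul_of_nonneg_left h3 hc8.le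
    have h4 : (Q.card : ℝ) * (a * D' ^ 2 / (V l : ℝ)) ^ 2 =
        (Q.card * a ^ 2 / (V l : ℝ) ^ 2) * D' ^ 4 := by
      field_simp
    rw [h4] at h2
    have h5 : c8 * δ8 ^ 3 ≤ Q.card * a ^ 2 / (V l : ℝ) ^ 2 :=
      le_of_mul_le_mul_right h2 (by positivity)
    rw [le_div_iff₀ (by positivity)] at h5
    rw [div_mul_eq_mul_div, div_le_iff₀ (by positivity)]
    exact h5
  -- sum over `LL`
  have hsum : (LL.card : ℝ) * (c8 * δ8 ^ 3 / a ^ 2 * (V l : ℝ) ^ 2) ≤
      QQ.card * (K * P.card / (V l : ℝ) ^ 4) := by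
    calc (LL.card : ℝ) * (c8 * δ8 ^ 3 / a ^ 2 * (V l : ℝ) ^ 2)
        = ∑ _v ∈ LL, (c8 * δ8 ^ 3 / a ^ 2 * (V l : ℝ) ^ 2) := by
          rw [Finset.sum_const, nsmul_eq_mul]
      _ ≤ ∑ v ∈ LL, ((QQ.filter (fun x => v ∈ W.A l x.1 ∧ v ∈ W.A l x.2)).card : ℝ) :=
          Finset.sum_le_sum hpt
      _ = ∑ x ∈ QQ, ((LL.filter (fun v => v ∈ W.A l x.1 ∧ v ∈ W.A l x.2)).card : ℝ) := by
          have := Finset.sum_card_bipartiteAbove_eq_sum_card_bipartiteBelow (s := LL) (t := QQ)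
            (fun (v : Pt) (x : (ℝ × ℝ) × (ℝ × ℝ)) => v ∈ W.A l x.1 ∧ v ∈ W.A l x.2)
          simp only [Finset.bipartiteAbove, Finset.bipartiteBelow] at this
          exact_mod_cast this
      _ ≤ ∑ x ∈ QQ, (K * P.card / (V l : ℝ) ^ 4) := by
          refine Finset.sum_le_sum (fun x hx => ?_)
          have hrel := (Finset.mem_filter.1 hx).2
          refine le_trans ?_ hrel.2
          have : LL.filter (fun v => v ∈ W.A l x.1 ∧ v ∈ W.A l x.2) ⊆ W.cc lam3 l x.1 x.2 := by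
            intro v hv
            rw [Finset.mem_filter] at hv
            rw [WSys.cc, Finset.mem_filter]
            exact ⟨hLP hv.1, hv.2.1, hv.2.2, hT6 v hv.1 (hne v hv.1)⟩
          exact_mod_cast Finset.card_le_card this
      _ = QQ.card * (K * P.card / (V l : ℝ) ^ 4) := by rw [Finset.sum_const, nsmul_eq_mul]
  have hQM : (QQ.card : ℝ) ≤ M := by
    have : (QQ.card : ℝ) ≤ PP.card := by
      exact_mod_cast Finset.card_le_card (Finset.filter_subset _ _)
    exact this.trans hpairs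
  have hKN : 0 ≤ K * (P.card : ℝ) / (V l : ℝ) ^ 4 := by positivity
  calc (LL.card : ℝ) * (c8 * δ8 ^ 3 / a ^ 2) * (V l : ℝ) ^ 2
      = (LL.card : ℝ) * (c8 * δ8 ^ 3 / a ^ 2 * (V l : ℝ) ^ 2) := by ring
    _ ≤ QQ.card * (K * P.card / (V l : ℝ) ^ 4) := hsum
    _ ≤ M * (K * P.card / (V l : ℝ) ^ 4) := mul_le_mul_of_nonneg_right hQM hKN

end Lac7

end Crest.Agent.R51
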