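import Crest.Agent.R51.WalkDefs
import Crest.Agent.R51.Active

/-!
# Row 51, B4 (locality lemma): the combinatorial core (helper476)

`W` is a finite family of pairwise disjoint windows covering all slopes.
-/

set_option autoImplicit false

noncomputable section

open Classical

namespace Crest.Agent.R51.Loc

/-- A finite family of disjoint windows covering all slopes. -/
structure Wins (P : Finset Pt) (W : Finset (ℝ × ℝ)) : Prop where
  ns : ∀ J ∈ W, NonSlope P J.1 ∧ NonSlope P J.2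
  lt : ∀ J ∈ W, J.1 < J.2
  disj : ∀ J ∈ W, ∀ J' ∈ W, J ≠ J' → J.2 ≤ J'.1 ∨ J'.2 ≤ J.1
  cover : ∀ e ∈ pairs P, ∃ J ∈ W, J.1 < esl e ∧ esl e < J.2

variable {P : Finset Pt} {W : Finset (ℝ × ℝ)}

lemma Wins.eq_of_mem (hW : Wins P W) {J J' : ℝ × ℝ} (hJ : J ∈ W) (hJ' : J' ∈ W) {θ : ℝ}
    (h1 : J.1 < θ) (h2 : θ < J.2) (h3 : J'.1 < θ) (h4 : θ < J'.2) : J = J' := by
  by_contra hne
  rcases hW.disj J hJ J' hJ' hne with h | h
  · linarith
  · linarith

/-- Sum over disjoint windows of a count of edges. -/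
lemma sum_filter_windows_le (hW : Wins P W) (k b : ℕ) (Q : Edge → Prop) (W' : Finset (ℝ × ℝ))
    (hW' : W' ⊆ W) :
    ∑ J ∈ W', ((nearE P k b J.1 J.2).filter Q).card ≤ ((nearAll P k b).filter Q).card := by
  rw [← Finset.card_biUnion]
  · apply Finset.card_le_card
    intro e he
    rw [Finset.mem_biUnion] at he
    obtain ⟨J, _, he⟩ := he
    rw [Finset.mem_filter] at he ⊢
    exact ⟨nearE_subset he.1, he.2⟩
  · intro J hJ J' hJ' hne
    rw [Function.onFun, Finset.disjoint_left]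
    intro e he he'
    rw [Finset.mem_filter, mem_nearE] at he he'
    exact hne (hW.eq_of_mem (hW' hJ) (hW' hJ') he.1.2.1 he.1.2.2.1 he'.1.2.1 he'.1.2.2.1)

/-- Sum over disjoint windows of the window degrees. -/
lemma sum_nbW_le (hW : Wins P W) (k b : ℕ) (v : Pt) (W' : Finset (ℝ × ℝ)) (hW' : W' ⊆ W) :
    ∑ J ∈ W', (nbW P k b J.1 J.2 v).card ≤ (nb P k b v).card := by
  rw [← Finset.card_biUnion]
  · apply Finset.card_le_card
    intro w hw
    rw [Finset.mem_biUnion] at hw
    obtain ⟨J, _, hw⟩ := hw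
    exact nbW_subset hw
  · intro J hJ J' hJ' hne
    rw [Function.onFun, Finset.disjoint_left]
    intro w hw hw'
    rw [mem_nbW_iff] at hw hw'
    exact hne (hW.eq_of_mem (hW' hJ) (hW' hJ') hw.2.1 hw.2.2 hw'.2.1 hw'.2.2)

/-- At the slope of a near-`b` pair both ends are `(b+1)`-central. -/
lemma central_of_NP {k b : ℕ} {v w : Pt} (h : NP P k b v w) :
    Central P k (b + 1) (sl v w) v ∧ Central P k (b + 1) (sl v w) w := by
  have h1 := mem_nearAll.1 h
  have hN : Near P k b (mk v w) := h1.2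
  have hlv : lv P (mk v w) = 1 + rk P (sl v w) (mk v w).1 := by
    rw [← esl_mk]; rfl
  have hr : rk P (sl v w) (mk v w).2 = rk P (sl v w) (mk v w).1 := by
    have := Active.lv_eq_right (P := P) (e := mk v w) (mem_pairs.1 h1.1).2.2
    have h2 : lv P (mk v w) = 1 + rk P (sl v w) (mk v w).2 := by
      rw [this, ← esl_mk]
    omega
  have hc : ∀ p : Pt, rk P (sl v w) p = rk P (sl v w) (mk v w).1 →
      Central P k (b + 1) (sl v w) p := by
    intro p hp
    unfold Central
    rw [hp]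
    obtain ⟨h3, h4⟩ := hN
    constructor <;> omega
  rcases lt_or_gt_of_ne h.ne with hlt | hlt
  · rw [mk_of_lt hlt] at hc hr
    exact ⟨hc v rfl, hc w hr⟩
  · rw [mk_of_gt hlt] at hc hr
    exact ⟨hc v hr, hc w rfl⟩

lemma Central.mono {k b b' : ℕ} {θ : ℝ} {p : Pt} (h : Central P k b θ p) (hb : b ≤ b') :
    Central P k b' θ p := ⟨h.1.trans (by omega), h.2.trans (by omega)⟩

/-! ### The five classes of bad walks -/

/-- windows where `v` moves fast: `a`-central somewhere, not `K`-central somewhere -/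
def WF (P : Finset Pt) (W : Finset (ℝ × ℝ)) (k a K : ℕ) (v : Pt) : Finset (ℝ × ℝ) :=
  W.filter (fun J => (∃ θ, J.1 < θ ∧ θ < J.2 ∧ Central P k a θ v) ∧
    ∃ θ, J.1 < θ ∧ θ < J.2 ∧ ¬ Central P k K θ v)

lemma card_WF (hG : Generic P) (hW : Wins P W) {k a K : ℕ} (v : Pt) (hv : v ∈ P) :
    (WF P W k a K v).card * (K - a) ≤ (nb P k K v).card := by
  have h1 : ∀ J ∈ WF P W k a K v, K - a ≤ (nbW P k K J.1 J.2 v).card := by
    intro J hJ
    rw [WF, Finset.mem_filter] at hJ
    obtain ⟨hJW, ⟨θ₁, h1, h2, h3⟩, θ₂, h4, h5, h6⟩ := hJ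
    rw [card_nbW]
    have h7 : k + K ≤ rk P θ₂ v ∨ rk P θ₂ v + K ≤ k := by
      unfold Central at h6
      by_contra hc
      rw [not_or, not_le, not_le] at hc
      exact h6 ⟨by omega, by omega⟩
    have := Active.fast_partners hG hv (hW.ns J hJW).1 (hW.ns J hJW).2 h1.le h2.le h4.le h5.le h3 h7
    omega
  calc (WF P W k a K v).card * (K - a) = ∑ J ∈ WF P W k a K v, (K - a) := by
        rw [Finset.sum_const, smul_eq_mul]
    _ ≤ ∑ J ∈ WF P W k a K v, (nbW P k K J.1 J.2 v).card := Finset.sum_le_sum h1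
    _ ≤ _ := sum_nbW_le hW k K v _ (Finset.filter_subset _ _)

/-- windows in which at least `χ` near-`b` pairs cross `{v,w}` -/
def WS (P : Finset Pt) (W : Finset (ℝ × ℝ)) (k b χ : ℕ) (v w : Pt) : Finset (ℝ × ℝ) :=
  W.filter (fun J => χ ≤ ((nearE P k b J.1 J.2).filter (fun e => Cross e (mk v w))).card)

lemma card_WS (hW : Wins P W) {k b χ : ℕ} (v w : Pt) :
    (WS P W k b χ v w).card * χ ≤ ((nearAll P k b).filter (fun e => Cross e (mk v w))).card := by
  calc (WS P W k b χ v w).card * χ = ∑ J ∈ WS P W k b χ v w, χ := by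
        rw [Finset.sum_const, smul_eq_mul]
    _ ≤ ∑ J ∈ WS P W k b χ v w,
          ((nearE P k b J.1 J.2).filter (fun e => Cross e (mk v w))).card :=
        Finset.sum_le_sum fun J hJ => (Finset.mem_filter.1 hJ).2
    _ ≤ _ := sum_filter_windows_le hW k b _ _ (Finset.filter_subset _ _)

/-- The sum over ordered adjacent pairs of a function of the edge. -/
lemma sum_nb_edge (P : Finset Pt) (k b : ℕ) (f : Edge → ℕ) :
    ∑ v ∈ P, ∑ w ∈ nb P k b v, f (mk v w) = 2 * ∑ e ∈ nearAll P k b, f e := by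
  have h1 : ∀ v ∈ P, ∑ w ∈ nb P k b v, f (mk v w) =
      ∑ w ∈ (nb P k b v).filter (fun w => v.1 < w.1), f (v, w) +
        ∑ w ∈ (nb P k b v).filter (fun w => w.1 < v.1), f (w, v) := by
    intro v _
    rw [← Finset.sum_filter_add_sum_filter_not (nb P k b v) (fun w => v.1 < w.1)]
    congr 1
    · refine Finset.sum_congr rfl fun w hw => ?_
      rw [mk_of_lt (Finset.mem_filter.1 hw).2]
    · have : (nb P k b v).filter (fun w => ¬ v.1 < w.1) =
          (nb P k b v).filter (fun w => w.1 < v.1) := by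
        refine Finset.filter_congr fun w hw => ?_
        have := (mem_nb.1 hw).ne
        constructor
        · intro h; exact lt_of_le_of_ne (not_lt.1 h) this.symm
        · intro h; exact not_lt.2 h.le
      rw [this]
      refine Finset.sum_congr rfl fun w hw => ?_
      rw [mk_of_gt (Finset.mem_filter.1 hw).2]
  rw [Finset.sum_congr rfl h1, Finset.sum_add_distrib]
  have h2 : ∑ v ∈ P, ∑ w ∈ (nb P k b v).filter (fun w => v.1 < w.1), f (v, w) =
      ∑ e ∈ nearAll P k b, f e := by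
    rw [Finset.sum_sigma']
    refine Finset.sum_bij (fun x _ => ((x.1, x.2) : Edge)) ?_ ?_ ?_ ?_
    · rintro ⟨v, w⟩ h
      rw [Finset.mem_sigma, Finset.mem_filter, mem_nb] at h
      obtain ⟨_, h3, h4⟩ := h
      have h3 : mk v w ∈ nearAll P k b := h3
      rw [mk_of_lt h4] at h3
      exact h3
    · rintro ⟨v, w⟩ _ ⟨v', w'⟩ _ h
      simp only [Prod.mk.injEq] at h
      obtain ⟨rfl, rfl⟩ := h
      rfl
    · rintro ⟨v, w⟩ h
      have h3 := mem_pairs.1 (nearAll_subset h)
      refine ⟨⟨v, w⟩, ?_, rfl⟩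
      rw [Finset.mem_sigma, Finset.mem_filter, mem_nb]
      refine ⟨h3.1, ?_, h3.2.2⟩
      unfold NP
      rw [mk_of_lt h3.2.2]
      exact h
    · rintro ⟨v, w⟩ _
      rfl
  have h3 : ∑ v ∈ P, ∑ w ∈ (nb P k b v).filter (fun w => w.1 < v.1), f (w, v) =
      ∑ e ∈ nearAll P k b, f e := by
    rw [Finset.sum_sigma']
    refine Finset.sum_bij (fun x _ => ((x.2, x.1) : Edge)) ?_ ?_ ?_ ?_
    · rintro ⟨v, w⟩ h
      rw [Finset.mem_sigma, Finset.mem_filter, mem_nb] at h
      obtain ⟨_, h3, h4⟩ := h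
      have h3 : mk v w ∈ nearAll P k b := h3
      rw [mk_of_gt h4] at h3
      exact h3
    · rintro ⟨v, w⟩ _ ⟨v', w'⟩ _ h
      simp only [Prod.mk.injEq] at h
      obtain ⟨rfl, rfl⟩ := h
      rfl
    · rintro ⟨w, v⟩ h
      have h3 := mem_pairs.1 (nearAll_subset h)
      refine ⟨⟨v, w⟩, ?_, rfl⟩
      rw [Finset.mem_sigma, Finset.mem_filter, mem_nb]
      refine ⟨h3.2.1, ?_, h3.2.2⟩
      unfold NP
      rw [mk_of_gt h3.2.2]
      exact h
    · rintro ⟨v, w⟩ _
      rfl
  rw [h2, h3]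
  ring

/-- total number of slow windows over all ordered adjacent pairs -/
lemma sum_WS (hW : Wins P W) {k b b' χ : ℕ} :
    (∑ v ∈ P, ∑ w ∈ nb P k b' v, (WS P W k b χ v w).card) * χ ≤
      2 * crs (nearAll P k b) (nearAll P k b') := by
  have h1 : crs (nearAll P k b) (nearAll P k b') =
      ∑ f ∈ nearAll P k b', ((nearAll P k b).filter (fun e => Cross e f)).card := by
    unfold crs
    rw [Finset.card_filter, Finset.sum_product_right]
    refine Finset.sum_congr rfl fun f _ => ?_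
    rw [Finset.card_filter]
  rw [h1, ← sum_nb_edge P k b' (fun f => ((nearAll P k b).filter (fun e => Cross e f)).card),
    Finset.sum_mul]
  refine Finset.sum_le_sum fun v _ => ?_
  rw [Finset.sum_mul]
  exact Finset.sum_le_sum fun w _ => card_WS hW v w

end Crest.Agent.R51.Loc
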