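import Crest.Agent.R51.Loc1

/-!
# Row 51, B4 (locality lemma): counting the bad walks (helper476)
-/

set_option autoImplicit false

noncomputable section

open Classical

namespace Crest.Agent.R51.Loc

variable {P : Finset Pt} {W : Finset (ℝ × ℝ)}

/-- Ordered 2-walks `(v,w,x)` with low degrees at `v`, `w` whose first vertex is not
`K`-central in the direction of the second edge. -/
def Bad (P : Finset Pt) (k b' K : ℕ) (L1 : ℝ) : Finset (Pt × Pt × Pt) :=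
  (P ×ˢ P ×ˢ P).filter (fun z => z.1 ≠ z.2.2 ∧ z.2.1 ∈ nb P k b' z.1 ∧ z.2.2 ∈ nb P k b' z.2.1 ∧
    ((nb P k b' z.1).card : ℝ) ≤ L1 ∧ ((nb P k b' z.2.1).card : ℝ) ≤ L1 ∧
    ¬ Central P k K (sl z.2.1 z.2.2) z.1)

/-- ordered pairs with too large window degree -/
def AA (P : Finset Pt) (W : Finset (ℝ × ℝ)) (k b' : ℕ) (L2 : ℝ) : Finset (Pt × Pt) :=
  (P ×ˢ P).filter (fun z => z.2 ∈ nb P k b' z.1 ∧
    ∃ J ∈ W, J.1 < sl z.1 z.2 ∧ sl z.1 z.2 < J.2 ∧ L2 < ((nbW P k b' J.1 J.2 z.1).card : ℝ))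

/-- ordered pairs with few near-`bf` partners in the window -/
def BB (P : Finset Pt) (W : Finset (ℝ × ℝ)) (k b' bf X : ℕ) : Finset (Pt × Pt) :=
  (P ×ˢ P).filter (fun z => z.2 ∈ nb P k b' z.1 ∧
    ∃ J ∈ W, J.1 < sl z.1 z.2 ∧ sl z.1 z.2 < J.2 ∧ (nbW P k bf J.1 J.2 z.1).card < X)

/-- points of large near-`K` degree -/
def CC (P : Finset Pt) (k K : ℕ) (L3 : ℝ) : Finset Pt :=
  P.filter (fun v => L3 < ((nb P k K v).card : ℝ))

/-- The flux statement used for the slow windows. -/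
def FluxHyp (P : Finset Pt) (W : Finset (ℝ × ℝ)) (k bf X χ : ℕ) : Prop :=
  ∀ v ∈ P, ∀ w ∈ P, ∀ J ∈ W, v.1 ≠ w.1 → ¬ (J.1 < sl v w ∧ sl v w < J.2) →
    (∀ θ, J.1 < θ → θ < J.2 → ¬ Central P k (2 * bf) θ v) →
    (∃ θ, J.1 < θ ∧ θ < J.2 ∧ Central P k bf θ w) →
    X ≤ (nbW P k bf J.1 J.2 w).card →
    χ ≤ ((nearE P k (2 * bf) J.1 J.2).filter (fun e => Cross e (mk v w))).card

lemma mem_Bad {k b' K : ℕ} {L1 : ℝ} {z : Pt × Pt × Pt} : z ∈ Bad P k b' K L1 ↔
    z.1 ≠ z.2.2 ∧ NP P k b' z.1 z.2.1 ∧ NP P k b' z.2.1 z.2.2 ∧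
    ((nb P k b' z.1).card : ℝ) ≤ L1 ∧ ((nb P k b' z.2.1).card : ℝ) ≤ L1 ∧
    ¬ Central P k K (sl z.2.1 z.2.2) z.1 := by
  unfold Bad
  rw [Finset.mem_filter, mem_nb, mem_nb]
  constructor
  · exact fun h => h.2
  · intro h
    refine ⟨?_, h⟩
    rw [Finset.mem_product, Finset.mem_product]
    exact ⟨h.2.1.mem_left, h.2.1.mem_right, h.2.2.1.mem_right⟩

/-- The four sets covering the bad walks. -/
def UA (P : Finset Pt) (W : Finset (ℝ × ℝ)) (k b' : ℕ) (L1 L2 : ℝ) : Finset (Pt × Pt × Pt) :=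
  ((AA P W k b' L2).filter (fun y => ((nb P k b' y.1).card : ℝ) ≤ L1)).biUnion
    (fun y => (nb P k b' y.1).image (fun v => (v, y.1, y.2)))

def UB (P : Finset Pt) (W : Finset (ℝ × ℝ)) (k b' bf X : ℕ) (L1 : ℝ) : Finset (Pt × Pt × Pt) :=
  ((BB P W k b' bf X).filter (fun y => ((nb P k b' y.1).card : ℝ) ≤ L1)).biUnion
    (fun y => (nb P k b' y.1).image (fun v => (v, y.1, y.2)))

def UC (P : Finset Pt) (k b' K : ℕ) (L1 L3 : ℝ) : Finset (Pt × Pt × Pt) :=
  ((CC P k K L3).filter (fun v => ((nb P k b' v).card : ℝ) ≤ L1)).biUnion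
    (fun v => ((nb P k b' v).filter (fun w => ((nb P k b' w).card : ℝ) ≤ L1)).biUnion
      (fun w => (nb P k b' w).image (fun x => (v, w, x))))

def UF (P : Finset Pt) (W : Finset (ℝ × ℝ)) (k b' a K : ℕ) (L1 L2 L3 : ℝ) :
    Finset (Pt × Pt × Pt) :=
  (P.filter (fun v => ((nb P k b' v).card : ℝ) ≤ L1 ∧ ((nb P k K v).card : ℝ) ≤ L3)).biUnion
    (fun v => (WF P W k a K v).biUnion (fun J =>
      ((nb P k b' v).filter (fun w => ((nbW P k b' J.1 J.2 w).card : ℝ) ≤ L2)).biUnion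
        (fun w => (nbW P k b' J.1 J.2 w).image (fun x => (v, w, x)))))

def US (P : Finset Pt) (W : Finset (ℝ × ℝ)) (k b' bf χ : ℕ) (L2 : ℝ) : Finset (Pt × Pt × Pt) :=
  P.biUnion (fun v => (nb P k b' v).biUnion (fun w =>
    ((WS P W k (2 * bf) χ v w).filter
        (fun J => ((nbW P k b' J.1 J.2 w).card : ℝ) ≤ L2)).biUnion
      (fun J => (nbW P k b' J.1 J.2 w).image (fun x => (v, w, x)))))

lemma Bad_subset (hW : Wins P W) {k b' bf a K X χ : ℕ} {L1 L2 L3 : ℝ}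
    (hflux : FluxHyp P W k bf X χ) (h1 : b' + 1 ≤ bf) (h2 : b' + 1 ≤ a) (h3 : 2 * bf ≤ a) :
    Bad P k b' K L1 ⊆ UA P W k b' L1 L2 ∪ UB P W k b' bf X L1 ∪ UC P k b' K L1 L3 ∪
      UF P W k b' a K L1 L2 L3 ∪ US P W k b' bf χ L2 := by
  rintro ⟨v, w, x⟩ hz
  obtain ⟨hvx, hvw, hwx, hdv, hdw, hcen⟩ := mem_Bad.1 hz
  dsimp only at hvx hvw hwx hdv hdw hcen
  obtain ⟨J, hJ, hJ1, hJ2⟩ := hW.cover _ (nearAll_subset hwx)
  rw [esl_mk] at hJ1 hJ2
  by_cases hA : L2 < ((nbW P k b' J.1 J.2 w).card : ℝ)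
  · refine Finset.mem_union_left _ (Finset.mem_union_left _ (Finset.mem_union_left _
      (Finset.mem_union_left _ ?_)))
    unfold UA
    rw [Finset.mem_biUnion]
    refine ⟨(w, x), ?_, Finset.mem_image.2 ⟨v, mem_nb.2 hvw.symm, rfl⟩⟩
    rw [Finset.mem_filter, AA, Finset.mem_filter, Finset.mem_product]
    exact ⟨⟨⟨hwx.mem_left, hwx.mem_right⟩, mem_nb.2 hwx, J, hJ, hJ1, hJ2, hA⟩, hdw⟩
  by_cases hB : (nbW P k bf J.1 J.2 w).card < X
  · refine Finset.mem_union_left _ (Finset.mem_union_left _ (Finset.mem_union_left _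
      (Finset.mem_union_right _ ?_)))
    unfold UB
    rw [Finset.mem_biUnion]
    refine ⟨(w, x), ?_, Finset.mem_image.2 ⟨v, mem_nb.2 hvw.symm, rfl⟩⟩
    rw [Finset.mem_filter, BB, Finset.mem_filter, Finset.mem_product]
    exact ⟨⟨⟨hwx.mem_left, hwx.mem_right⟩, mem_nb.2 hwx, J, hJ, hJ1, hJ2, hB⟩, hdw⟩
  by_cases hC : L3 < ((nb P k K v).card : ℝ)
  · refine Finset.mem_union_left _ (Finset.mem_union_left _ (Finset.mem_union_right _ ?_))
    unfold UC
    rw [Finset.mem_biUnion]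
    refine ⟨v, ?_, ?_⟩
    · rw [Finset.mem_filter, CC, Finset.mem_filter]
      exact ⟨⟨hvw.mem_left, hC⟩, hdv⟩
    · rw [Finset.mem_biUnion]
      refine ⟨w, ?_, Finset.mem_image.2 ⟨x, mem_nb.2 hwx, rfl⟩⟩
      rw [Finset.mem_filter]
      exact ⟨mem_nb.2 hvw, hdw⟩
  rw [not_lt] at hA hB hC
  by_cases hF : ∃ θ, J.1 < θ ∧ θ < J.2 ∧ Central P k a θ v
  · refine Finset.mem_union_left _ (Finset.mem_union_right _ ?_)
    unfold UF
    rw [Finset.mem_biUnion]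
    refine ⟨v, Finset.mem_filter.2 ⟨hvw.mem_left, hdv, hC⟩, ?_⟩
    rw [Finset.mem_biUnion]
    refine ⟨J, ?_, ?_⟩
    · rw [WF, Finset.mem_filter]
      exact ⟨hJ, hF, _, hJ1, hJ2, hcen⟩
    · rw [Finset.mem_biUnion]
      refine ⟨w, Finset.mem_filter.2 ⟨mem_nb.2 hvw, hA⟩,
        Finset.mem_image.2 ⟨x, mem_nbW_iff.2 ⟨mem_nb.2 hwx, hJ1, hJ2⟩, rfl⟩⟩
  · refine Finset.mem_union_right _ ?_
    push Not at hF
    unfold US
    rw [Finset.mem_biUnion]
    refine ⟨v, hvw.mem_left, ?_⟩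
    rw [Finset.mem_biUnion]
    refine ⟨w, mem_nb.2 hvw, ?_⟩
    rw [Finset.mem_biUnion]
    refine ⟨J, ?_, Finset.mem_image.2 ⟨x, mem_nbW_iff.2 ⟨mem_nb.2 hwx, hJ1, hJ2⟩, rfl⟩⟩
    rw [Finset.mem_filter, WS, Finset.mem_filter]
    refine ⟨⟨hJ, ?_⟩, hA⟩
    refine hflux v hvw.mem_left w hvw.mem_right J hJ hvw.ne ?_ ?_ ?_ hB
    · rintro ⟨h4, h5⟩
      exact hF _ h4 h5 (Central.mono (central_of_NP hvw).1 h2)
    · intro θ h4 h5 h6
      exact hF θ h4 h5 (Central.mono h6 h3)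
    · exact ⟨_, hJ1, hJ2, Central.mono (central_of_NP hwx).1 h1⟩

/-! ### Cardinalities -/

lemma card_UA (k b' : ℕ) {L1 L2 : ℝ} (hL1 : 0 ≤ L1) :
    ((UA P W k b' L1 L2).card : ℝ) ≤ (AA P W k b' L2).card * L1 := by
  have h1 : ((UA P W k b' L1 L2).card : ℝ) ≤
      ∑ y ∈ (AA P W k b' L2).filter (fun y => ((nb P k b' y.1).card : ℝ) ≤ L1), L1 := by
    refine (Nat.cast_le.2 Finset.card_biUnion_le).trans ?_
    push_cast
    refine Finset.sum_le_sum fun y hy => ?_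
    refine (Nat.cast_le.2 Finset.card_image_le).trans (Finset.mem_filter.1 hy).2
  refine h1.trans ?_
  rw [Finset.sum_const, nsmul_eq_mul]
  exact mul_le_mul_of_nonneg_right (Nat.cast_le.2 (Finset.card_filter_le _ _)) hL1

lemma card_UB (k b' bf X : ℕ) {L1 : ℝ} (hL1 : 0 ≤ L1) :
    ((UB P W k b' bf X L1).card : ℝ) ≤ (BB P W k b' bf X).card * L1 := by
  have h1 : ((UB P W k b' bf X L1).card : ℝ) ≤
      ∑ y ∈ (BB P W k b' bf X).filter (fun y => ((nb P k b' y.1).card : ℝ) ≤ L1), L1 := by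
    refine (Nat.cast_le.2 Finset.card_biUnion_le).trans ?_
    push_cast
    refine Finset.sum_le_sum fun y hy => ?_
    refine (Nat.cast_le.2 Finset.card_image_le).trans (Finset.mem_filter.1 hy).2
  refine h1.trans ?_
  rw [Finset.sum_const, nsmul_eq_mul]
  exact mul_le_mul_of_nonneg_right (Nat.cast_le.2 (Finset.card_filter_le _ _)) hL1

lemma card_UC (k b' K : ℕ) {L1 L3 : ℝ} (hL1 : 0 ≤ L1) :
    ((UC P k b' K L1 L3).card : ℝ) ≤ (CC P k K L3).card * L1 ^ 2 := by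
  have h1 : ((UC P k b' K L1 L3).card : ℝ) ≤
      ∑ v ∈ (CC P k K L3).filter (fun v => ((nb P k b' v).card : ℝ) ≤ L1), L1 ^ 2 := by
    refine (Nat.cast_le.2 Finset.card_biUnion_le).trans ?_
    push_cast
    refine Finset.sum_le_sum fun v hv => ?_
    have hv2 := (Finset.mem_filter.1 hv).2
    refine (Nat.cast_le.2 Finset.card_biUnion_le).trans ?_
    push_cast
    calc ∑ w ∈ (nb P k b' v).filter (fun w => ((nb P k b' w).card : ℝ) ≤ L1),
          ((((nb P k b' w).image (fun x => (v, w, x))).card : ℕ) : ℝ)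
        ≤ ∑ w ∈ (nb P k b' v).filter (fun w => ((nb P k b' w).card : ℝ) ≤ L1), L1 := by
          refine Finset.sum_le_sum fun w hw => ?_
          exact (Nat.cast_le.2 Finset.card_image_le).trans (Finset.mem_filter.1 hw).2
      _ ≤ L1 * L1 := by
          rw [Finset.sum_const, nsmul_eq_mul]
          refine mul_le_mul_of_nonneg_right ?_ hL1
          exact (Nat.cast_le.2 (Finset.card_filter_le _ _)).trans hv2
      _ = L1 ^ 2 := by ring
  refine h1.trans ?_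
  rw [Finset.sum_const, nsmul_eq_mul]
  exact mul_le_mul_of_nonneg_right (Nat.cast_le.2 (Finset.card_filter_le _ _)) (sq_nonneg _)

lemma card_UF (hG : Generic P) (hW : Wins P W) (k b' a K : ℕ) (haK : a < K) {L1 L2 L3 : ℝ}
    (hL1 : 0 ≤ L1) (hL2 : 0 ≤ L2) (hL3 : 0 ≤ L3) :
    ((UF P W k b' a K L1 L2 L3).card : ℝ) ≤
      P.card * ((L3 / ((K : ℝ) - a)) * (L1 * L2)) := by
  have hKa : (0 : ℝ) < (K : ℝ) - a := by
    have : (a : ℝ) < K := by exact_mod_cast haK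
    linarith
  have h1 : ((UF P W k b' a K L1 L2 L3).card : ℝ) ≤
      ∑ v ∈ P.filter (fun v => ((nb P k b' v).card : ℝ) ≤ L1 ∧ ((nb P k K v).card : ℝ) ≤ L3),
        (L3 / ((K : ℝ) - a)) * (L1 * L2) := by
    refine (Nat.cast_le.2 Finset.card_biUnion_le).trans ?_
    push_cast
    refine Finset.sum_le_sum fun v hv => ?_
    obtain ⟨hvP, hv2, hv3⟩ := Finset.mem_filter.1 hv
    refine (Nat.cast_le.2 Finset.card_biUnion_le).trans ?_
    push_cast
    have h2 : ∀ J ∈ WF P W k a K v,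
        ((((nb P k b' v).filter (fun w => ((nbW P k b' J.1 J.2 w).card : ℝ) ≤ L2)).biUnion
          (fun w => (nbW P k b' J.1 J.2 w).image (fun x => (v, w, x)))).card : ℝ) ≤ L1 * L2 := by
      intro J _
      refine (Nat.cast_le.2 Finset.card_biUnion_le).trans ?_
      push_cast
      calc ∑ w ∈ (nb P k b' v).filter (fun w => ((nbW P k b' J.1 J.2 w).card : ℝ) ≤ L2),
            ((((nbW P k b' J.1 J.2 w).image (fun x => (v, w, x))).card : ℕ) : ℝ)
          ≤ ∑ w ∈ (nb P k b' v).filter (fun w => ((nbW P k b' J.1 J.2 w).card : ℝ) ≤ L2), L2 := by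
            refine Finset.sum_le_sum fun w hw => ?_
            exact (Nat.cast_le.2 Finset.card_image_le).trans (Finset.mem_filter.1 hw).2
        _ ≤ L1 * L2 := by
            rw [Finset.sum_const, nsmul_eq_mul]
            refine mul_le_mul_of_nonneg_right ?_ hL2
            exact (Nat.cast_le.2 (Finset.card_filter_le _ _)).trans hv2
    refine (Finset.sum_le_sum h2).trans ?_
    rw [Finset.sum_const, nsmul_eq_mul]
    refine mul_le_mul_of_nonneg_right ?_ (mul_nonneg hL1 hL2)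
    rw [le_div_iff₀ hKa]
    have h3 := card_WF hG hW (k := k) (a := a) (K := K) v hvP
    have h4 : (((WF P W k a K v).card * (K - a) : ℕ) : ℝ) ≤ L3 :=
      (Nat.cast_le.2 h3).trans hv3
    rw [Nat.cast_mul, Nat.cast_sub haK.le] at h4
    exact h4
  refine h1.trans ?_
  rw [Finset.sum_const, nsmul_eq_mul]
  refine mul_le_mul_of_nonneg_right (Nat.cast_le.2 (Finset.card_filter_le _ _)) ?_
  exact mul_nonneg (div_nonneg hL3 hKa.le) (mul_nonneg hL1 hL2)

lemma card_US (hW : Wins P W) (k b' bf χ : ℕ) (hχ : 0 < χ) {L2 : ℝ} (hL2 : 0 ≤ L2) :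
    ((US P W k b' bf χ L2).card : ℝ) ≤
      (2 * crs (nearAll P k (2 * bf)) (nearAll P k b') : ℝ) / χ * L2 := by
  have hχ' : (0 : ℝ) < χ := by exact_mod_cast hχ
  have h1 : ((US P W k b' bf χ L2).card : ℝ) ≤
      ∑ v ∈ P, ∑ w ∈ nb P k b' v, ((WS P W k (2 * bf) χ v w).card : ℝ) * L2 := by
    refine (Nat.cast_le.2 Finset.card_biUnion_le).trans ?_
    push_cast
    refine Finset.sum_le_sum fun v _ => ?_
    refine (Nat.cast_le.2 Finset.card_biUnion_le).trans ?_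
    push_cast
    refine Finset.sum_le_sum fun w _ => ?_
    refine (Nat.cast_le.2 Finset.card_biUnion_le).trans ?_
    push_cast
    calc ∑ J ∈ (WS P W k (2 * bf) χ v w).filter
            (fun J => ((nbW P k b' J.1 J.2 w).card : ℝ) ≤ L2),
            ((((nbW P k b' J.1 J.2 w).image (fun x => (v, w, x))).card : ℕ) : ℝ)
        ≤ ∑ J ∈ (WS P W k (2 * bf) χ v w).filter
            (fun J => ((nbW P k b' J.1 J.2 w).card : ℝ) ≤ L2), L2 := by
          refine Finset.sum_le_sum fun J hJ => ?_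
          exact (Nat.cast_le.2 Finset.card_image_le).trans (Finset.mem_filter.1 hJ).2
      _ ≤ ((WS P W k (2 * bf) χ v w).card : ℝ) * L2 := by
          rw [Finset.sum_const, nsmul_eq_mul]
          exact mul_le_mul_of_nonneg_right (Nat.cast_le.2 (Finset.card_filter_le _ _)) hL2
  refine h1.trans ?_
  have h2 : ∑ v ∈ P, ∑ w ∈ nb P k b' v, ((WS P W k (2 * bf) χ v w).card : ℝ) * L2 =
      (((∑ v ∈ P, ∑ w ∈ nb P k b' v, (WS P W k (2 * bf) χ v w).card : ℕ)) : ℝ) * L2 := by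
    push_cast
    rw [Finset.sum_mul]
    refine Finset.sum_congr rfl fun v _ => ?_
    rw [Finset.sum_mul]
  rw [h2]
  refine mul_le_mul_of_nonneg_right ?_ hL2
  rw [le_div_iff₀ hχ']
  have h3 := sum_WS (k := k) (b := 2 * bf) (b' := b') (χ := χ) hW
  exact_mod_cast h3

/-- **The combinatorial core of B4.** -/
theorem card_Bad_le (hG : Generic P) (hW : Wins P W) {k b' bf a K X χ : ℕ} {L1 L2 L3 : ℝ}
    (hflux : FluxHyp P W k bf X χ) (h1 : b' + 1 ≤ bf) (h2 : b' + 1 ≤ a) (h3 : 2 * bf ≤ a)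
    (haK : a < K) (hχ : 0 < χ) (hL1 : 0 ≤ L1) (hL2 : 0 ≤ L2) (hL3 : 0 ≤ L3) :
    ((Bad P k b' K L1).card : ℝ) ≤
      (AA P W k b' L2).card * L1 + (BB P W k b' bf X).card * L1 + (CC P k K L3).card * L1 ^ 2 +
      P.card * ((L3 / ((K : ℝ) - a)) * (L1 * L2)) +
      (2 * crs (nearAll P k (2 * bf)) (nearAll P k b') : ℝ) / χ * L2 := by
  have h4 := Finset.card_le_card
    (Bad_subset (K := K) (L1 := L1) (L2 := L2) (L3 := L3) hW hflux h1 h2 h3)
  have h5 := (h4.trans (Finset.card_union_le _ _)).trans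
    (Nat.add_le_add_right ((Finset.card_union_le _ _).trans
      (Nat.add_le_add_right ((Finset.card_union_le _ _).trans
        (Nat.add_le_add_right (Finset.card_union_le _ _) _)) _)) _)
  have h6 : ((Bad P k b' K L1).card : ℝ) ≤ (UA P W k b' L1 L2).card +
      (UB P W k b' bf X L1).card + (UC P k b' K L1 L3).card +
      (UF P W k b' a K L1 L2 L3).card + (US P W k b' bf χ L2).card := by
    exact_mod_cast h5
  have hA := card_UA (P := P) (W := W) k b' (L2 := L2) hL1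
  have hB := card_UB (P := P) (W := W) k b' bf X hL1
  have hC := card_UC (P := P) k b' K (L3 := L3) hL1
  have hF := card_UF hG hW k b' a K haK hL1 hL2 hL3
  have hS := card_US hW k b' bf χ hχ hL2
  linarith

end Crest.Agent.R51.Loc
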