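import Crest.Agent.R51.Loc2
import Crest.Agent.R51.WinDefs
import Crest.Agent.R51.FluxNb

/-!
# Row 51, B4 (locality lemma): the windows of one level of a window system; the flux constants
(helper795)
-/

set_option autoImplicit false

noncomputable section

open Classical

namespace Crest.Agent.R51.Loc

variable {P : Finset Pt}

/-- The windows of one level of a window system form a `Wins` family. -/
theorem wins_of_WSys {k : ℕ} {V : ℕ → ℕ} {L : ℕ} {Cw : ℝ} (S : WSys P k V L Cw) {l : ℕ}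
    (hl : l ≤ L) : Wins P (wins (S.cuts l)) where
  ns J hJ := ⟨S.nons l hl _ (mem_wins.1 hJ).1, S.nons l hl _ (mem_wins.1 hJ).2.1⟩
  lt J hJ := (mem_wins.1 hJ).2.2.1
  disj J hJ J' hJ' hne := by
    by_contra hc
    rw [not_or, not_le, not_le] at hc
    have h1 : max J.1 J'.1 < min J.2 J'.2 :=
      max_lt (lt_min (mem_wins.1 hJ).2.2.1 hc.2) (lt_min hc.1 (mem_wins.1 hJ').2.2.1)
    obtain ⟨θ, h2, h3⟩ := exists_between h1
    exact hne (win_unique hJ hJ' ((le_max_left _ _).trans_lt h2) (h3.trans_le (min_le_left _ _))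
      ((le_max_right _ _).trans_lt h2) (h3.trans_le (min_le_right _ _)))
  cover e he := exists_win (S.sub 0 l (Nat.zero_le _) hl S.lo_mem)
    (S.sub 0 l (Nat.zero_le _) hl S.hi_mem) (S.lo_lt_slope e he) (S.slope_lt_hi e he)
    (fun h => S.nons l hl _ h e he rfl)

/-- The window of `Wins` containing the slope of an edge is `winOf`. -/
lemma winOf_of_mem {k : ℕ} {V : ℕ → ℕ} {L : ℕ} {Cw : ℝ} (S : WSys P k V L Cw) {l : ℕ}
    {J : ℝ × ℝ} (hJ : J ∈ wins (S.cuts l)) {θ : ℝ} (h1 : J.1 < θ) (h2 : θ < J.2) :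
    winOf (S.cuts l) θ = J := winOf_eq hJ h1 h2

/-- the windows of level `l` form a `Wins` family. -/
theorem wins_wins {k : ℕ} {V : ℕ → ℕ} {L : ℕ} {Cw : ℝ} (S : WSys P k V L Cw) {l : ℕ}
    (hl : l ≤ L) : Wins P (wins (S.cuts l)) := wins_of_WSys S hl

/-- `FluxHyp` from G7. -/
theorem fluxHyp_of_flux {W : Finset (ℝ × ℝ)} (hG : Generic P) (hW : Wins P W) {k bf X χ : ℕ}
    (h2 : 2 ≤ bf) (hX : 100 * bf ≤ X) (hχ : 16 * χ ≤ bf * X) :
    FluxHyp P W k bf X χ := by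
  intro v hv w hw J hJ hne hsl hfar hc hXn
  have hvw : v ≠ w := by
    rintro rfl
    exact hne rfl
  have h3 := flux_nbW' hG (hW.ns J hJ).1 (hW.ns J hJ).2 (by omega : 1 ≤ bf) hv hw hvw hsl hfar hc
  set Y := (nbW P k bf J.1 J.2 w).card
  set Z := ((nearE P k (2 * bf) J.1 J.2).filter (fun e => Cross e (mk v w))).card
  obtain ⟨c, rfl⟩ : ∃ c, bf = c + 2 := ⟨bf - 2, by omega⟩
  obtain ⟨y, hy⟩ : ∃ y, Y = 16 * (c + 2) + 8 + y := ⟨Y - (16 * (c + 2) + 8), by omega⟩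
  have h4 : Y - (16 * (c + 2) + 8) = y := by omega
  have h5 : c + 2 - 1 = c + 1 := by omega
  rw [h4, h5] at h3
  have h6 : 5 * y ≥ 4 * X := by omega
  have h7 : 5 * ((c + 1) * y) ≥ (c + 1) * (4 * X) := by
    calc 5 * ((c + 1) * y) = (c + 1) * (5 * y) := by ring
      _ ≥ (c + 1) * (4 * X) := Nat.mul_le_mul_left _ h6
  have h8 : 2 * ((c + 1) * (4 * X)) ≥ (c + 2) * (4 * X) := by
    calc 2 * ((c + 1) * (4 * X)) = (2 * (c + 1)) * (4 * X) := by ring
      _ ≥ (c + 2) * (4 * X) := Nat.mul_le_mul_right _ (by omega)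
  have h9 : (c + 2) * (4 * X) = 4 * ((c + 2) * X) := by ring
  omega

/-- `FluxHyp` in the form used in `Loc4`. -/
theorem flux_hyp {W : Finset (ℝ × ℝ)} (hG : Generic P) (hW : Wins P W) {k bf X : ℕ}
    (hbf : 4 ≤ bf) (hX : 100 * bf ≤ X) : FluxHyp P W k bf X (bf * X / 16) :=
  fluxHyp_of_flux hG hW (by omega) hX (Nat.mul_div_le _ _)

end Crest.Agent.R51.Loc
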