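import Crest.Agent.R51.Loc2
import Crest.Agent.R51.Dey

/-!
# Row 51, B4 (locality lemma): the constants (helper476)

`core_real`: the numerical form of `card_Bad_le` for given scales `V, V'', Vf, V'`.
-/

set_option autoImplicit false

noncomputable section

open Classical

namespace Crest.Agent.R51.Loc

/-- `⌊N / V^3⌋` from below. -/
lemma bb_lower (N V : ℕ) (hV : 1 ≤ V) : (N : ℝ) / (V : ℝ) ^ 3 - 1 ≤ ((N / V ^ 3 : ℕ) : ℝ) := by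
  have h1 : N < V ^ 3 * (N / V ^ 3 + 1) := Nat.lt_mul_div_succ N (by positivity)
  have h2 : (N : ℝ) < (V : ℝ) ^ 3 * (((N / V ^ 3 : ℕ) : ℝ) + 1) := by exact_mod_cast h1
  have hV' : (0 : ℝ) < (V : ℝ) ^ 3 := by
    have : (0 : ℝ) < V := by exact_mod_cast hV
    positivity
  have h3 : (N : ℝ) / (V : ℝ) ^ 3 < ((N / V ^ 3 : ℕ) : ℝ) + 1 := by
    rw [div_lt_iff₀ hV']
    linarith [mul_comm ((V : ℝ) ^ 3) (((N / V ^ 3 : ℕ) : ℝ) + 1)]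
  linarith

lemma bb_upper (N V : ℕ) : ((N / V ^ 3 : ℕ) : ℝ) ≤ (N : ℝ) / (V : ℝ) ^ 3 := by
  have := Nat.cast_div_le (α := ℝ) (m := N) (n := V ^ 3)
  push_cast at this
  exact this

lemma aux1 {N V Vf κ : ℝ} (hN : 0 ≤ N) (hV : 0 < V) (hVf : 0 < Vf)
    (h : 8 * V ^ 3 ≤ κ * Vf ^ 3) : N / Vf ^ 3 ≤ κ * (N / V ^ 3) / 8 := by
  rw [div_le_iff₀ (by positivity)]
  have e : κ * (N / V ^ 3) / 8 * Vf ^ 3 = N * (κ * Vf ^ 3) / (8 * V ^ 3) := by field_simp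
  rw [e, le_div_iff₀ (by positivity)]
  exact mul_le_mul_of_nonneg_left h hN

lemma aux2 {N V2 Vf c : ℝ} (hN : 0 ≤ N) (hV2 : 0 < V2) (hVf : 0 < Vf)
    (h : 100 * V2 ≤ c * Vf) : 100 * (N / Vf ^ 3) ≤ c * N / (V2 * Vf ^ 2) := by
  rw [← mul_div_assoc, div_le_div_iff₀ (by positivity) (by positivity)]
  calc 100 * N * (V2 * Vf ^ 2) = (N * Vf ^ 2) * (100 * V2) := by ring
    _ ≤ (N * Vf ^ 2) * (c * Vf) := mul_le_mul_of_nonneg_left h (by positivity)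
    _ = c * N * Vf ^ 3 := by ring

lemma aux3 {N Vf V' : ℝ} (hN : 0 ≤ N) (hVf : 0 < Vf) (h : 2 * Vf ≤ V') :
    N / V' ^ 3 ≤ N / Vf ^ 3 / 8 := by
  rw [div_div]
  apply div_le_div_of_nonneg_left hN (by positivity)
  calc Vf ^ 3 * 8 = (2 * Vf) ^ 3 := by ring
    _ ≤ V' ^ 3 := pow_le_pow_left₀ (by positivity) h 3

lemma aux4 {N Vf V2 c bf X : ℝ} (hN : 0 ≤ N) (hVf : 0 < Vf) (hV2 : 0 < V2) (hc : 0 < c)
    (h1 : N / Vf ^ 3 / 2 ≤ bf) (h2 : c * N / (V2 * Vf ^ 2) ≤ X) :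
    32 * (c * N ^ 2 / (64 * (V2 * Vf ^ 5))) ≤ bf * X := by
  have h0 : 0 ≤ N / Vf ^ 3 / 2 := by positivity
  have h6 : N / Vf ^ 3 / 2 * (c * N / (V2 * Vf ^ 2)) ≤ bf * X :=
    mul_le_mul h1 h2 (by positivity) (h0.trans h1)
  refine le_trans (le_of_eq ?_) h6
  field_simp
  ring

lemma aux5 {N V κ lam3 d : ℝ} (hN : 0 < N) (hV : 0 < V) (hκ : 0 < κ) (hl : 0 ≤ lam3)
    (h : κ * (N / V ^ 3) / 4 ≤ d) : lam3 * (N / V ^ 2) / d ≤ 4 * lam3 * V / κ := by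
  have hpos : 0 < κ * (N / V ^ 3) / 4 := by positivity
  refine (div_le_div_of_nonneg_left (by positivity) hpos h).trans (le_of_eq ?_)
  field_simp

lemma aux6 {N Vf V2 V' c cr χ : ℝ} (hN : 0 < N) (hVf : 0 < Vf) (hV2 : 0 < V2) (hV' : 0 < V')
    (hc : 0 < c) (h1 : cr ≤ 36 * (N / Vf ^ 3) * (N / V' ^ 3) * N * N) 
    (h2 : c * N ^ 2 / (64 * (V2 * Vf ^ 5)) ≤ χ) :
    2 * cr / χ ≤ 4608 * V2 * Vf ^ 2 * N ^ 2 / (c * V' ^ 3) := by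
  have hpos : 0 < c * N ^ 2 / (64 * (V2 * Vf ^ 5)) := by positivity
  have h3 : 2 * cr ≤ 2 * (36 * (N / Vf ^ 3) * (N / V' ^ 3) * N * N) := by linarith
  calc 2 * cr / χ ≤ (2 * (36 * (N / Vf ^ 3) * (N / V' ^ 3) * N * N)) /
            (c * N ^ 2 / (64 * (V2 * Vf ^ 5))) := div_le_div₀ (by positivity) h3 hpos h2
    _ = 4608 * V2 * Vf ^ 2 * N ^ 2 / (c * V' ^ 3) := by
        field_simp
        ring

lemma aux7 {N Vf V' bf b' cr : ℝ} (hN : 0 ≤ N) (hbf0 : 0 ≤ bf) (hb'0 : 0 ≤ b')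
    (ubf : bf ≤ N / Vf ^ 3) (ub' : b' ≤ N / V' ^ 3)
    (h : cr ≤ 18 * (2 * bf) * b' * N * N) :
    cr ≤ 36 * (N / Vf ^ 3) * (N / V' ^ 3) * N * N := by
  have h6 : bf * b' ≤ (N / Vf ^ 3) * (N / V' ^ 3) := mul_le_mul ubf ub' hb'0 (hbf0.trans ubf)
  calc cr ≤ 36 * (N * N) * (bf * b') := by
        refine h.trans (le_of_eq ?_)
        ring
    _ ≤ 36 * (N * N) * ((N / Vf ^ 3) * (N / V' ^ 3)) :=
        mul_le_mul_of_nonneg_left h6 (by positivity)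
    _ = _ := by ring

set_option maxHeartbeats 1000000 in
/-- Numerical form of the core inequality. -/
theorem core_real {P : Finset Pt} {W : Finset (ℝ × ℝ)} (hG : Generic P) (hW : Wins P W)
    {k V V2 Vf V' : ℕ} (hV : 1 ≤ V) (hV2 : 1 ≤ V2) (hVf : 1 ≤ Vf) (hV' : 2 * Vf ≤ V')
    {κ c lam1 lam2 lam3 : ℝ} (hκ : 0 < κ) (hκ1 : κ ≤ 1) (hc : 0 < c) (hlam1 : 1 ≤ lam1)
    (hlam2 : 1 ≤ lam2) (hlam3 : 1 ≤ lam3)
    (hflux : ∀ X : ℕ, 4 ≤ P.card / Vf ^ 3 → 100 * (P.card / Vf ^ 3) ≤ X →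
      FluxHyp P W k (P.card / Vf ^ 3) X (P.card / Vf ^ 3 * X / 16))
    (h1 : 8 * (V : ℝ) ^ 3 ≤ κ * (Vf : ℝ) ^ 3) (h2 : 100 * (V2 : ℝ) ≤ c * Vf)
    (hN1 : 16 * (Vf : ℝ) ^ 3 ≤ P.card) (hN2 : (V' : ℝ) ^ 3 ≤ P.card)
    (hN3 : 6 * (V : ℝ) ^ 3 ≤ κ * P.card) (hN4 : 64 * ((V2 : ℝ) * (Vf : ℝ) ^ 5) ≤ c * (P.card : ℝ) ^ 2) :
    ((Bad P k (P.card / V' ^ 3) ⌊κ * ((P.card / V ^ 3 : ℕ) : ℝ)⌋₊
        (lam1 * ((P.card : ℝ) / (V' : ℝ) ^ 2))).card : ℝ) ≤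
      (AA P W k (P.card / V' ^ 3) (lam2 * ((P.card : ℝ) / (V' : ℝ) ^ 2) / V2)).card *
        (lam1 * ((P.card : ℝ) / (V' : ℝ) ^ 2)) +
      (BB P W k (P.card / V' ^ 3) (P.card / Vf ^ 3)
        ⌈c * P.card / (V2 * (Vf : ℝ) ^ 2)⌉₊).card * (lam1 * ((P.card : ℝ) / (V' : ℝ) ^ 2)) +
      (CC P k (P.card / V ^ 3) (lam3 * ((P.card : ℝ) / (V : ℝ) ^ 2))).card *
        (lam1 * ((P.card : ℝ) / (V' : ℝ) ^ 2)) ^ 2 +
      4 * lam1 * lam2 * lam3 / κ * ((V : ℝ) / V2) * (P.card * ((P.card : ℝ) / (V' : ℝ) ^ 2) ^ 2) +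
      4608 * lam2 / c * ((Vf : ℝ) ^ 2 / V') * (P.card * ((P.card : ℝ) / (V' : ℝ) ^ 2) ^ 2) := by
  set N : ℕ := P.card with hNdef
  have hVr : (1 : ℝ) ≤ V := by exact_mod_cast hV
  have hV2r : (1 : ℝ) ≤ V2 := by exact_mod_cast hV2
  have hVfr : (1 : ℝ) ≤ Vf := by exact_mod_cast hVf
  have hV'r : 2 * (Vf : ℝ) ≤ V' := by exact_mod_cast hV'
  have hV'1 : (2 : ℝ) ≤ V' := by linarith
  have hN : (16 : ℝ) ≤ N := by
    have : (1 : ℝ) ≤ (Vf : ℝ) ^ 3 := one_le_pow₀ hVfr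
    linarith
  have hV3 : (0 : ℝ) < (V : ℝ) ^ 3 := by positivity
  have hVf3 : (0 : ℝ) < (Vf : ℝ) ^ 3 := by positivity
  have hV'3 : (0 : ℝ) < (V' : ℝ) ^ 3 := by positivity
  set b' : ℕ := N / V' ^ 3 with hb'
  set bf : ℕ := N / Vf ^ 3 with hbf
  set bV : ℕ := N / V ^ 3 with hbV
  set K : ℕ := ⌊κ * (bV : ℝ)⌋₊ with hK
  have ub' : (b' : ℝ) ≤ N / (V' : ℝ) ^ 3 := bb_upper N V'
  have ubf : (bf : ℝ) ≤ N / (Vf : ℝ) ^ 3 := bb_upper N Vf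
  have lbf : (N : ℝ) / (Vf : ℝ) ^ 3 - 1 ≤ bf := bb_lower N Vf hVf
  have ubV : (bV : ℝ) ≤ N / (V : ℝ) ^ 3 := bb_upper N V
  have lbV : (N : ℝ) / (V : ℝ) ^ 3 - 1 ≤ bV := bb_lower N V hV
  have hNf : 16 ≤ (N : ℝ) / (Vf : ℝ) ^ 3 := by rw [le_div_iff₀ hVf3]; exact hN1
  have hNV : 6 ≤ κ * ((N : ℝ) / (V : ℝ) ^ 3) := by
    rw [← mul_div_assoc, le_div_iff₀ hV3]; exact hN3
  -- b' + 1 ≤ bf
  have hb'f : b' + 1 ≤ bf := by
    have h3 : (N : ℝ) / (V' : ℝ) ^ 3 ≤ (N : ℝ) / (Vf : ℝ) ^ 3 / 8 :=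
      aux3 (by linarith) (by linarith) hV'r
    have h4 : (b' : ℝ) + 1 ≤ bf := by linarith
    exact_mod_cast h4
  have hb'1 : 1 ≤ b' := by
    have hV'0 : 0 < V' := by omega
    rw [hb', Nat.le_div_iff_mul_le (by positivity), one_mul]
    exact_mod_cast hN2
  -- K
  have lK : κ * ((N : ℝ) / (V : ℝ) ^ 3) - 2 ≤ K := by
    have h3 : κ * (bV : ℝ) < K + 1 := Nat.lt_floor_add_one _
    have h4 : κ * ((N : ℝ) / (V : ℝ) ^ 3 - 1) ≤ κ * bV := mul_le_mul_of_nonneg_left lbV hκ.le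
    rw [mul_sub, mul_one] at h4
    linarith
  have uK : K ≤ bV := by
    have h3 : (K : ℝ) ≤ κ * bV := Nat.floor_le (by positivity)
    have h4 : κ * (bV : ℝ) ≤ bV := mul_le_of_le_one_left (Nat.cast_nonneg bV) hκ1
    exact_mod_cast h3.trans h4
  set a : ℕ := K / 2 with ha
  have la : (K : ℝ) / 2 - 1 / 2 ≤ a := by
    have : K ≤ 2 * a + 1 := by omega
    have : (K : ℝ) ≤ 2 * a + 1 := by exact_mod_cast this
    linarith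
  have ua : (a : ℝ) ≤ K / 2 := by
    have : 2 * a ≤ K := by omega
    have : 2 * (a : ℝ) ≤ K := by exact_mod_cast this
    linarith
  have hbfa : 2 * bf ≤ a := by
    have h3 : (N : ℝ) / (Vf : ℝ) ^ 3 ≤ κ * ((N : ℝ) / (V : ℝ) ^ 3) / 8 :=
      aux1 (by linarith) (by linarith) (by linarith) h1
    have h4 : 2 * (bf : ℝ) ≤ a := by linarith
    exact_mod_cast h4
  have haK : a < K := by
    have : (0 : ℝ) < K := by linarith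
    have : 0 < K := by exact_mod_cast this
    omega
  have hKa : κ * ((N : ℝ) / (V : ℝ) ^ 3) / 4 ≤ (K : ℝ) - a := by linarith
  -- X and χ
  set X : ℕ := ⌈c * N / (V2 * (Vf : ℝ) ^ 2)⌉₊ with hX
  have lX : c * N / (V2 * (Vf : ℝ) ^ 2) ≤ X := Nat.le_ceil _
  have hbf4 : 4 ≤ bf := by
    have : (4 : ℝ) ≤ bf := by linarith
    exact_mod_cast this
  have h100 : 100 * bf ≤ X := by
    have h3 : 100 * ((N : ℝ) / (Vf : ℝ) ^ 3) ≤ c * N / (V2 * (Vf : ℝ) ^ 2) :=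
      aux2 (by linarith) (by linarith) (by linarith) h2
    have h4 : 100 * (bf : ℝ) ≤ X := by linarith
    exact_mod_cast h4
  set χ : ℕ := bf * X / 16 with hχ
  have lχ : c * (N : ℝ) ^ 2 / (64 * (V2 * (Vf : ℝ) ^ 5)) ≤ χ := by
    have h3 : bf * X < 16 * (χ + 1) := Nat.lt_mul_div_succ _ (by norm_num)
    have h4 : (bf : ℝ) * X < 16 * (χ + 1) := by exact_mod_cast h3
    have h5 : (N : ℝ) / (Vf : ℝ) ^ 3 / 2 ≤ bf := by linarith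
    have h6 := aux4 (N := N) (Vf := Vf) (V2 := V2) (by linarith) (by linarith) (by linarith) hc
      h5 lX
    have h7 : 1 ≤ c * (N : ℝ) ^ 2 / (64 * (V2 * (Vf : ℝ) ^ 5)) := by
      rw [le_div_iff₀ (by positivity), one_mul]
      exact hN4
    linarith
  have hχ0 : 0 < χ := by
    have h7 : 1 ≤ c * (N : ℝ) ^ 2 / (64 * (V2 * (Vf : ℝ) ^ 5)) := by
      rw [le_div_iff₀ (by positivity), one_mul]
      exact hN4
    have : (0 : ℝ) < χ := by linarith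
    exact_mod_cast this
  have key := card_Bad_le (k := k) (b' := b') (bf := bf) (a := a) (K := K) (X := X) (χ := χ)
    (L1 := lam1 * ((N : ℝ) / (V' : ℝ) ^ 2)) (L2 := lam2 * ((N : ℝ) / (V' : ℝ) ^ 2) / V2)
    (L3 := lam3 * ((N : ℝ) / (V : ℝ) ^ 2)) hG hW (hflux X hbf4 h100) hb'f
    (hb'f.trans ((Nat.le_mul_of_pos_left bf (by norm_num)).trans hbfa)) hbfa haK hχ0
    (by positivity) (by positivity) (by positivity)
  refine key.trans ?_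
  -- the five terms
  have t3 : ((CC P k K (lam3 * ((N : ℝ) / (V : ℝ) ^ 2))).card : ℝ) ≤
      (CC P k bV (lam3 * ((N : ℝ) / (V : ℝ) ^ 2))).card := by
    apply Nat.cast_le.2
    apply Finset.card_le_card
    intro v hv
    rw [CC, Finset.mem_filter] at hv ⊢
    refine ⟨hv.1, lt_of_lt_of_le hv.2 ?_⟩
    exact Nat.cast_le.2 (Finset.card_le_card (nb_mono uK v))
  have t4 : lam3 * ((N : ℝ) / (V : ℝ) ^ 2) / ((K : ℝ) - a) ≤ 4 * lam3 * V / κ :=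
    aux5 (by linarith) (by linarith) hκ (by linarith) hKa
  have t5 : (2 * crs (nearAll P k (2 * bf)) (nearAll P k b') : ℝ) / χ ≤
      4608 * (V2 : ℝ) * (Vf : ℝ) ^ 2 * (N : ℝ) ^ 2 / (c * (V' : ℝ) ^ 3) := by
    have h3 := dey_all hG k (2 * bf) k b' (by omega) hb'1
    have h4 : (crs (nearAll P k (2 * bf)) (nearAll P k b') : ℝ) ≤
        18 * (2 * (bf : ℝ)) * b' * N * N := by exact_mod_cast h3
    have h5 := aux7 (N := N) (Vf := Vf) (V' := V') (by linarith) (Nat.cast_nonneg bf)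
      (Nat.cast_nonneg b') ubf ub' h4
    exact aux6 (by linarith) (by linarith) (by linarith) (by linarith) hc h5 lχ
  have s3 := mul_le_mul_of_nonneg_right t3
    (sq_nonneg (lam1 * ((N : ℝ) / (V' : ℝ) ^ 2)))
  have s4 : (N : ℝ) * (lam3 * ((N : ℝ) / (V : ℝ) ^ 2) / ((K : ℝ) - a) *
      (lam1 * ((N : ℝ) / (V' : ℝ) ^ 2) * (lam2 * ((N : ℝ) / (V' : ℝ) ^ 2) / V2))) ≤
      4 * lam1 * lam2 * lam3 / κ * ((V : ℝ) / V2) * (N * ((N : ℝ) / (V' : ℝ) ^ 2) ^ 2) := by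
    have h3 : (0 : ℝ) ≤ (lam1 * ((N : ℝ) / (V' : ℝ) ^ 2) *
        (lam2 * ((N : ℝ) / (V' : ℝ) ^ 2) / V2)) := by positivity
    have h4 := mul_le_mul_of_nonneg_left (mul_le_mul_of_nonneg_right t4 h3)
      (Nat.cast_nonneg (α := ℝ) N)
    refine h4.trans (le_of_eq ?_)
    field_simp
  have s5 : (2 * crs (nearAll P k (2 * bf)) (nearAll P k b') : ℝ) / χ *
      (lam2 * ((N : ℝ) / (V' : ℝ) ^ 2) / V2) ≤
      4608 * lam2 / c * ((Vf : ℝ) ^ 2 / V') * (N * ((N : ℝ) / (V' : ℝ) ^ 2) ^ 2) := by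
    have h3 : (0 : ℝ) ≤ (lam2 * ((N : ℝ) / (V' : ℝ) ^ 2) / V2) := by positivity
    refine (mul_le_mul_of_nonneg_right t5 h3).trans (le_of_eq ?_)
    field_simp
  linarith

end Crest.Agent.R51.Loc
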