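import Crest.Agent.R51.WinIrr

/-!
# Row 51, section B3: W6 (many partners)
-/

set_option autoImplicit false

noncomputable section

open Classical

namespace Crest.Agent.R51

/-- W5 in `V`-form -/
def W5V (C : ℝ) : Prop :=
  ∀ P : Finset Pt, Generic P → ∀ k V V' q : ℕ, 1 ≤ V → 1 ≤ q → 2 * (q * V) ≤ V' →
    V' ^ 3 ≤ P.card → ∀ s t : ℝ, s < t → NonSlope P s → NonSlope P t →
    (cen P k (bb P.card V) s t).card ≤ 7 * bb P.card V → Dl P k s t ≤ bb P.card (q * V) →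
    ((nearE P k (bb P.card V') s t).card : ℝ)
      ≤ C / q * ((P.card : ℝ) ^ 2 / ((V : ℝ) ^ 4 * (V' : ℝ) ^ 2))

lemma bb_le_real (N V : ℕ) : ((bb N V : ℕ) : ℝ) ≤ (N : ℝ) / (V : ℝ) ^ 3 := by
  unfold bb
  refine Nat.cast_div_le.trans (le_of_eq ?_)
  push_cast; ring

lemma bb_anti {N V V' : ℕ} (hV : 1 ≤ V) (h : V ≤ V') : bb N V' ≤ bb N V := by
  unfold bb
  exact Nat.div_le_div_left (Nat.pow_le_pow_left h 3) (by positivity)

/-- cube root by the arithmetic-geometric inequality -/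
lemma cbrt_le {x c : ℝ} (hx : 0 ≤ x) (hc : 0 < c) :
    x ^ ((1 : ℝ) / 3) ≤ c ^ ((1 : ℝ) / 3) * ((x / c + 2) / 3) := by
  have h := Real.geom_mean_le_arith_mean2_weighted (w₁ := 1 / 3) (w₂ := 2 / 3)
    (p₁ := x / c) (p₂ := 1) (by norm_num) (by norm_num) (by positivity) (by norm_num)
    (by norm_num)
  rw [Real.one_rpow, mul_one] at h
  have h2 : x ^ ((1 : ℝ) / 3) = c ^ ((1 : ℝ) / 3) * (x / c) ^ ((1 : ℝ) / 3) := by
    rw [← Real.mul_rpow hc.le (by positivity)]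
    congr 1
    field_simp
  rw [h2]
  refine mul_le_mul_of_nonneg_left ?_ (Real.rpow_nonneg hc.le _)
  linarith

/-- a point central in many good subwindows has many partners -/
lemma card_nbW_ge {P : Finset Pt} {k b b1 : ℕ} {J : ℝ × ℝ} {w : Pt} (G : Finset (ℝ × ℝ))
    (hG : ∀ j ∈ G, J.1 ≤ j.1 ∧ j.2 ≤ J.2 ∧ b1 ≤ (nbW P k b j.1 j.2 w).card)
    (hdis : ∀ j ∈ G, ∀ j' ∈ G, ∀ θ : ℝ, j.1 < θ → θ < j.2 → j'.1 < θ → θ < j'.2 → j = j') :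
    G.card * b1 ≤ (nbW P k b J.1 J.2 w).card := by
  have h1 : G.card * b1 ≤ ∑ j ∈ G, (nbW P k b j.1 j.2 w).card := by
    rw [← smul_eq_mul]
    exact Finset.card_nsmul_le_sum _ _ _ fun j hj => (hG j hj).2.2
  refine h1.trans ?_
  rw [← Finset.card_biUnion]
  · refine Finset.card_le_card fun x hx => ?_
    obtain ⟨j, hj, hxj⟩ := Finset.mem_biUnion.1 hx
    rw [mem_nbW_iff] at hxj ⊢
    exact ⟨hxj.1, (hG j hj).1.trans_lt hxj.2.1, hxj.2.2.trans_le (hG j hj).2.1⟩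
  · intro j hj j' hj' hne
    rw [Function.onFun, Finset.disjoint_left]
    intro x hx hx'
    rw [mem_nbW_iff] at hx hx'
    exact hne (hdis j hj j' hj' _ hx.2.1 hx.2.2 hx'.2.1 hx'.2.2)


/-- the numerical facts on `b1 = ⌊b_{qV}/12⌋` -/
lemma num_b1 {N q Vf V' : ℕ} (hq1 : 1 ≤ q) (hVf1 : 1 ≤ Vf) (h4 : 4 * (q * Vf) ≤ V')
    (hV'3 : V' ^ 3 ≤ N) :
    (N : ℝ) / (24 * (q : ℝ) ^ 3 * (Vf : ℝ) ^ 3) ≤ ((bb N (q * Vf) / 12 : ℕ) : ℝ) ∧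
      bb N V' + 1 ≤ bb N (q * Vf) / 12 := by
  have hqpos : (0 : ℝ) < (q : ℝ) := by exact_mod_cast hq1
  have hvfpos : (0 : ℝ) < (Vf : ℝ) := by exact_mod_cast hVf1
  have hqV : 0 < (q * Vf) ^ 3 := by positivity
  have hV'1 : 1 ≤ V' := by
    have : 1 ≤ q * Vf := Nat.one_le_iff_ne_zero.2 (by positivity)
    omega
  have hv'pos : (0 : ℝ) < (V' : ℝ) := by exact_mod_cast hV'1
  have hNpos : (0 : ℝ) < (N : ℝ) := by
    have h1 : 0 < V' ^ 3 := by positivity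
    exact_mod_cast lt_of_lt_of_le h1 hV'3
  have h64 : 64 * (q * Vf) ^ 3 ≤ V' ^ 3 := by
    calc 64 * (q * Vf) ^ 3 = (4 * (q * Vf)) ^ 3 := by ring
      _ ≤ V' ^ 3 := Nat.pow_le_pow_left h4 3
  have h64r : 64 * ((q : ℝ) * Vf) ^ 3 ≤ (V' : ℝ) ^ 3 := by exact_mod_cast h64
  have hX : (0 : ℝ) < ((q : ℝ) * Vf) ^ 3 := by positivity
  have hV'3r : (V' : ℝ) ^ 3 ≤ (N : ℝ) := by exact_mod_cast hV'3
  have hx : (N : ℝ) / ((q : ℝ) * Vf) ^ 3 - 1 ≤ ((bb N (q * Vf) : ℕ) : ℝ) := by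
    have h1 := Nat.lt_div_mul_add (a := N) (b := (q * Vf) ^ 3) hqV
    have h2 : (N : ℝ) < ((N / (q * Vf) ^ 3 : ℕ) : ℝ) * ((q : ℝ) * Vf) ^ 3 + ((q : ℝ) * Vf) ^ 3 := by
      have h3 : (N : ℝ) < ((N / (q * Vf) ^ 3 * (q * Vf) ^ 3 + (q * Vf) ^ 3 : ℕ) : ℝ) := by
        exact_mod_cast h1
      rw [Nat.cast_add, Nat.cast_mul, Nat.cast_pow, Nat.cast_mul] at h3
      exact h3
    unfold bb
    rw [sub_le_iff_le_add, div_le_iff₀ hX]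
    linarith [add_mul (((N / (q * Vf) ^ 3 : ℕ) : ℝ)) 1 (((q : ℝ) * Vf) ^ 3)]
  have hy : (((bb N (q * Vf) : ℕ) : ℝ) / 12 - 1) ≤ ((bb N (q * Vf) / 12 : ℕ) : ℝ) := by
    have h1 : bb N (q * Vf) < 12 * (bb N (q * Vf) / 12) + 12 := by omega
    have h2 : ((bb N (q * Vf) : ℕ) : ℝ) < 12 * ((bb N (q * Vf) / 12 : ℕ) : ℝ) + 12 := by
      exact_mod_cast h1
    linarith
  have hz : (52 : ℝ) ≤ (N : ℝ) / ((q : ℝ) * Vf) ^ 3 := by
    rw [le_div_iff₀ hX]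
    linarith
  have hw : (N : ℝ) / (24 * (q : ℝ) ^ 3 * (Vf : ℝ) ^ 3) = ((N : ℝ) / ((q : ℝ) * Vf) ^ 3) / 24 := by
    rw [div_div]
    congr 1
    ring
  have hA : (N : ℝ) / (24 * (q : ℝ) ^ 3 * (Vf : ℝ) ^ 3) ≤ ((bb N (q * Vf) / 12 : ℕ) : ℝ) := by
    rw [hw]
    linarith
  refine ⟨hA, ?_⟩
  have h1 : ((bb N V' + 1 : ℕ) : ℝ) ≤ ((bb N (q * Vf) / 12 : ℕ) : ℝ) := by
    refine le_trans ?_ hA
    have h2 : ((bb N V' : ℕ) : ℝ) ≤ (N : ℝ) / (V' : ℝ) ^ 3 := bb_le_real _ _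
    have h3' : (1 : ℝ) ≤ (N : ℝ) / (V' : ℝ) ^ 3 := by
      rw [le_div_iff₀ (by positivity), one_mul]
      exact hV'3r
    have h5 : (N : ℝ) / (V' : ℝ) ^ 3 ≤ ((N : ℝ) / ((q : ℝ) * Vf) ^ 3) / 64 := by
      rw [div_div]
      refine div_le_div_of_nonneg_left hNpos.le (by positivity) ?_
      linarith
    rw [hw, Nat.cast_add, Nat.cast_one]
    linarith
  exact_mod_cast h1

lemma sum_alg {ι : Type*} (W : Finset ι) (z : ι → ℝ) {C c B c1 Q : ℝ} :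
    ∑ j ∈ W, 2 * (C * (c * ((z j / B / c1 + 2) / 3)) * Q + C * B)
      = 2 * C * (c * (((∑ j ∈ W, z j) / B / c1 + 2 * (W.card : ℝ)) / 3)) * Q
        + 2 * C * ((W.card : ℝ) * B) := by
  have h : ∀ j ∈ W, 2 * (C * (c * ((z j / B / c1 + 2) / 3)) * Q + C * B)
      = (2 * C * c * Q / 3 / B / c1) * z j + (4 * C * c * Q / 3 + 2 * C * B) := by
    intro j _
    ring
  rw [Finset.sum_congr rfl h, Finset.sum_add_distrib, ← Finset.mul_sum, Finset.sum_const,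
    nsmul_eq_mul]
  ring

lemma final_alg {C Cw c v vf v' N : ℝ} (hv : 0 < v) (hvf : 0 < vf) (hv' : 0 < v') :
    (Cw * v ^ 4) * (2 * C * (c * ((vf / v) ^ 4 * (7 + 2 * Cw) / 3)) * (N ^ 2 / (vf ^ 4 * v' ^ 2))
      + 2 * C * (Cw * (vf / v) ^ 4 * (N / vf ^ 3)))
      = 2 * C * Cw * (7 + 2 * Cw) / 3 * c * (N * (N / v' ^ 2)) + 2 * C * Cw ^ 2 * (N * vf) := by
  field_simp

section W6

variable {P : Finset Pt} {k : ℕ} {V : ℕ → ℕ} {L : ℕ} {Cw : ℝ}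

/-- good windows: large activity -/
def Gd (P : Finset Pt) (k b0 : ℕ) (j : ℝ × ℝ) : Prop := b0 < Dl P k j.1 j.2

/-- the good windows of level `l'` inside `J` in which `w` is `b1`-central -/
def GW (P : Finset Pt) (k b0 b1 : ℕ) (W : Finset (ℝ × ℝ)) (w : Pt) (J : ℝ × ℝ) :
    Finset (ℝ × ℝ) :=
  W.filter (fun j => (J.1 ≤ j.1 ∧ j.2 ≤ J.2) ∧ Gd P k b0 j ∧ w ∈ cen P k b1 j.1 j.2)

/-- bad windows -/
lemma W6_bad {C5 : ℝ} (hC5 : 0 ≤ C5) (h5 : W5V C5) (hG : Generic P) (S : WSys P k V L Cw)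
    {l' : ℕ} (hl' : l' ≤ L) (hVf1 : 1 ≤ V l') {q V' : ℕ} (hq1 : 1 ≤ q)
    (h2qV : 2 * (q * V l') ≤ V') (hV'3 : V' ^ 3 ≤ P.card) (T1 : Finset (Pt × Pt))
    (hT1 : ∀ x ∈ T1, x.1 ∈ P ∧ x.2 ∈ nb P k (bb P.card V') x.1 ∧
      ¬ Gd P k (bb P.card (q * V l')) (winOf (S.cuts l') (sl x.1 x.2))) :
    (T1.card : ℝ) ≤ (2 * Cw * C5 / q) * ((P.card : ℝ) * ((P.card : ℝ) / (V' : ℝ) ^ 2)) := by
  have hvfpos : (0 : ℝ) < (V l' : ℝ) := by exact_mod_cast hVf1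
  have hqpos : (0 : ℝ) < (q : ℝ) := by exact_mod_cast hq1
  have hV'1 : 1 ≤ V' := by
    have : 1 ≤ q * V l' := Nat.one_le_iff_ne_zero.2 (by positivity)
    omega
  have hv'pos : (0 : ℝ) < (V' : ℝ) := by exact_mod_cast hV'1
  have h1 : T1.card ≤ ∑ J ∈ wins (S.cuts l'),
      (T1.filter (fun x => J.1 < sl x.1 x.2 ∧ sl x.1 x.2 < J.2)).card :=
    card_le_sum_wins S hl' (b := bb P.card V') T1 fun x hx => (hT1 x hx).2.1
  have h2 : ∀ J ∈ wins (S.cuts l'),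
      ((T1.filter (fun x => J.1 < sl x.1 x.2 ∧ sl x.1 x.2 < J.2)).card : ℝ)
      ≤ 2 * (C5 / q * ((P.card : ℝ) ^ 2 / ((V l' : ℝ) ^ 4 * (V' : ℝ) ^ 2))) := by
    intro J hJ
    by_cases hgood : Gd P k (bb P.card (q * V l')) J
    · have : T1.filter (fun x => J.1 < sl x.1 x.2 ∧ sl x.1 x.2 < J.2) = ∅ := by
        rw [Finset.filter_eq_empty_iff]
        rintro x hx ⟨h3', h4⟩
        have h5' := (hT1 x hx).2.2
        rw [winOf_eq hJ h3' h4] at h5'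
        exact h5' hgood
      rw [this, Finset.card_empty, Nat.cast_zero]
      positivity
    · have h3' : (T1.filter (fun x => J.1 < sl x.1 x.2 ∧ sl x.1 x.2 < J.2)).card
          ≤ 2 * ((nearE P k (bb P.card V') J.1 J.2).filter (fun e => e.1 ∈ P ∨ e.2 ∈ P)).card := by
        refine card_ordered_le P _ fun x hx => ?_
        rw [Finset.mem_filter] at hx
        exact ⟨mem_nbW_iff.2 ⟨(hT1 x hx.1).2.1, hx.2.1, hx.2.2⟩, (hT1 x hx.1).1⟩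
      have h4 : ((nearE P k (bb P.card V') J.1 J.2).filter (fun e => e.1 ∈ P ∨ e.2 ∈ P)).card
          ≤ (nearE P k (bb P.card V') J.1 J.2).card := Finset.card_filter_le _ _
      have hwin := mem_wins.1 hJ
      have h6 := h5 P hG k (V l') V' q hVf1 hq1 h2qV hV'3 J.1 J.2 hwin.2.2.1
        (S.nons l' hl' _ hwin.1) (S.nons l' hl' _ hwin.2.1) (S.cen_le l' hl' J hJ)
        (not_lt.1 hgood)
      have h8 : (T1.filter (fun x => J.1 < sl x.1 x.2 ∧ sl x.1 x.2 < J.2)).card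
          ≤ 2 * (nearE P k (bb P.card V') J.1 J.2).card := h3'.trans (by omega)
      have h7 : ((T1.filter (fun x => J.1 < sl x.1 x.2 ∧ sl x.1 x.2 < J.2)).card : ℝ)
          ≤ 2 * ((nearE P k (bb P.card V') J.1 J.2).card : ℝ) := by exact_mod_cast h8
      exact h7.trans (mul_le_mul_of_nonneg_left h6 (by norm_num))
  have h3' : (T1.card : ℝ) ≤ ∑ J ∈ wins (S.cuts l'),
      ((T1.filter (fun x => J.1 < sl x.1 x.2 ∧ sl x.1 x.2 < J.2)).card : ℝ) := by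
    exact_mod_cast h1
  have hcard_f : ((wins (S.cuts l')).card : ℝ) ≤ Cw * (V l' : ℝ) ^ 4 := S.card_wins hl'
  calc (T1.card : ℝ) ≤ _ := h3'
    _ ≤ ∑ J ∈ wins (S.cuts l'), 2 * (C5 / q * ((P.card : ℝ) ^ 2
          / ((V l' : ℝ) ^ 4 * (V' : ℝ) ^ 2))) := Finset.sum_le_sum h2
    _ = ((wins (S.cuts l')).card : ℝ) * (2 * (C5 / q * ((P.card : ℝ) ^ 2
          / ((V l' : ℝ) ^ 4 * (V' : ℝ) ^ 2)))) := by
        rw [Finset.sum_const, nsmul_eq_mul]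
    _ ≤ (Cw * (V l' : ℝ) ^ 4) * (2 * (C5 / q * ((P.card : ℝ) ^ 2
          / ((V l' : ℝ) ^ 4 * (V' : ℝ) ^ 2)))) :=
        mul_le_mul_of_nonneg_right hcard_f (by positivity)
    _ = (2 * Cw * C5 / q) * ((P.card : ℝ) * ((P.card : ℝ) / (V' : ℝ) ^ 2)) := by field_simp

/-- a point with few partners in `J` lies in few good windows -/
lemma W6_few (hG : Generic P) (S : WSys P k V L Cw) {l' : ℕ} (hl' : l' ≤ L)
    {b0 b1 bf : ℕ} (h01 : 12 * b1 ≤ b0) (h0f : b0 ≤ bf) {w : Pt} (hw : w ∈ P) (J : ℝ × ℝ) :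
    (GW P k b0 b1 (wins (S.cuts l')) w J).card * b1 ≤ (nbW P k bf J.1 J.2 w).card := by
  refine card_nbW_ge _ ?_ ?_
  · intro j hj
    rw [GW, Finset.mem_filter] at hj
    obtain ⟨hj1, ⟨hj2, hj3⟩, hj4, hj5⟩ := hj
    refine ⟨hj2, hj3, ?_⟩
    have hwin := mem_wins.1 hj1
    obtain ⟨_, θ, hθ1, hθ2, hθ3⟩ := mem_cen.1 hj5
    have h2 := Active.near_partners_of_Dl hG hw hwin.2.2.1.le (S.nons l' hl' _ hwin.1)
      (S.nons l' hl' _ hwin.2.1) hθ1.le hθ2.le hθ3 (lt_of_le_of_lt (by omega) hj4)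
    rw [← card_nbW] at h2
    exact h2.trans (Finset.card_le_card (nbW_mono (by omega) _))
  · intro j hj j' hj' θ a1 a2 a3 a4
    exact win_unique (Finset.mem_filter.1 hj).1 (Finset.mem_filter.1 hj').1 a1 a2 a3 a4

/-- double counting of the pairs (point of `Z`, good window) -/
lemma W6_double (S : WSys P k V L Cw) {l : ℕ} (hl : l ≤ L) {b0 b1 : ℕ}
    (W : Finset (ℝ × ℝ)) {J : ℝ × ℝ} (hJ : J ∈ wins (S.cuts l)) (hb : b1 ≤ bb P.card (V l))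
    {x : ℝ} (hx : 0 ≤ x) :
    ∑ j ∈ W.filter (fun j => (J.1 ≤ j.1 ∧ j.2 ≤ J.2) ∧ Gd P k b0 j),
      (((P.filter (fun w => ((GW P k b0 b1 W w J).card : ℝ) < x)) ∩ cen P k b1 j.1 j.2).card : ℝ)
      ≤ 7 * ((P.card : ℝ) / (V l : ℝ) ^ 3) * x := by
  set Z := P.filter (fun w => ((GW P k b0 b1 W w J).card : ℝ) < x) with hZ
  set WJ := W.filter (fun j => (J.1 ≤ j.1 ∧ j.2 ≤ J.2) ∧ Gd P k b0 j) with hWJ
  have e1 : ∑ j ∈ WJ, (Z ∩ cen P k b1 j.1 j.2).card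
      = ∑ w ∈ Z ∩ cen P k (bb P.card (V l)) J.1 J.2, (GW P k b0 b1 W w J).card := by
    have e2 : ∀ j ∈ WJ, (Z ∩ cen P k b1 j.1 j.2).card
        = ∑ w ∈ Z ∩ cen P k (bb P.card (V l)) J.1 J.2,
          (if w ∈ cen P k b1 j.1 j.2 then 1 else 0) := by
      intro j hj
      rw [← Finset.card_filter]
      congr 1
      ext w
      rw [Finset.mem_filter (s := Z ∩ cen P k (bb P.card (V l)) J.1 J.2), Finset.mem_inter,
        Finset.mem_inter]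
      rw [hWJ, Finset.mem_filter] at hj
      exact ⟨fun h => ⟨⟨h.1, cen_mono hb hj.2.1.1 hj.2.1.2 h.2⟩, h.2⟩,
        fun h => ⟨h.1.1, h.2⟩⟩
    rw [Finset.sum_congr rfl e2, Finset.sum_comm]
    refine Finset.sum_congr rfl fun w _ => ?_
    rw [← Finset.card_filter, GW, hWJ, Finset.filter_filter]
    congr 1
    ext j
    simp only [Finset.mem_filter, and_assoc]
  have e3 : (∑ j ∈ WJ, ((Z ∩ cen P k b1 j.1 j.2).card : ℝ))
      = ∑ w ∈ Z ∩ cen P k (bb P.card (V l)) J.1 J.2, ((GW P k b0 b1 W w J).card : ℝ) := by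
    exact_mod_cast e1
  rw [e3]
  have e4 : ∑ w ∈ Z ∩ cen P k (bb P.card (V l)) J.1 J.2, ((GW P k b0 b1 W w J).card : ℝ)
      ≤ ((Z ∩ cen P k (bb P.card (V l)) J.1 J.2).card : ℝ) * x := by
    rw [← nsmul_eq_mul]
    exact Finset.sum_le_card_nsmul _ _ _ fun w hw =>
      (Finset.mem_filter.1 (Finset.mem_inter.1 hw).1).2.le
  refine e4.trans (mul_le_mul_of_nonneg_right ?_ hx)
  have e5 : (Z ∩ cen P k (bb P.card (V l)) J.1 J.2).card ≤ 7 * bb P.card (V l) :=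
    (Finset.card_le_card Finset.inter_subset_right).trans (S.cen_le l hl J hJ)
  have e6 : ((bb P.card (V l) : ℕ) : ℝ) ≤ (P.card : ℝ) / (V l : ℝ) ^ 3 := bb_le_real _ _
  have e7 : ((Z ∩ cen P k (bb P.card (V l)) J.1 J.2).card : ℝ)
      ≤ 7 * ((bb P.card (V l) : ℕ) : ℝ) := by exact_mod_cast e5
  linarith

/-- one small window -/
lemma W6_one {C : ℝ} (hC : 0 ≤ C) (h3 : W3V C) (hG : Generic P) {Vf V' : ℕ} (hVf : 1 ≤ Vf)
    (h2V : 2 * Vf ≤ V') (hV'3 : V' ^ 3 ≤ P.card) {j : ℝ × ℝ}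
    (hcen : (cen P k (bb P.card Vf) j.1 j.2).card ≤ 7 * bb P.card Vf) {c1 : ℝ} (hc1 : 0 < c1)
    (Zj : Finset Pt) (T : Finset (Pt × Pt))
    (hT : ∀ x ∈ T, x.2 ∈ nbW P k (bb P.card V') j.1 j.2 x.1 ∧ x.1 ∈ Zj) :
    (T.card : ℝ) ≤ 2 * (C * (c1 ^ ((1 : ℝ) / 3) *
        (((Zj.card : ℝ) / ((P.card : ℝ) / (Vf : ℝ) ^ 3) / c1 + 2) / 3))
        * ((P.card : ℝ) ^ 2 / ((Vf : ℝ) ^ 4 * (V' : ℝ) ^ 2))
        + C * ((P.card : ℝ) / (Vf : ℝ) ^ 3)) := by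
  have f1 : T.card ≤ 2 * ((nearE P k (bb P.card V') j.1 j.2).filter
      (fun e => e.1 ∈ Zj ∨ e.2 ∈ Zj)).card := card_ordered_le Zj _ hT
  have f2 := h3 P hG k Vf V' hVf h2V hV'3 j.1 j.2 hcen Zj
  have hvf : (0 : ℝ) < (Vf : ℝ) := by exact_mod_cast hVf
  have hV'1 : 1 ≤ V' := by omega
  have hNpos : (0 : ℝ) < (P.card : ℝ) := by
    have h1 : 0 < V' ^ 3 := by positivity
    exact_mod_cast lt_of_lt_of_le h1 hV'3
  have hB0 : (0 : ℝ) < (P.card : ℝ) / (Vf : ℝ) ^ 3 := by positivity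
  have f3 : (((Zj ∩ cen P k (bb P.card Vf) j.1 j.2).card : ℝ)
        / ((P.card : ℝ) / (Vf : ℝ) ^ 3)) ^ ((1 : ℝ) / 3)
      ≤ c1 ^ ((1 : ℝ) / 3) * (((Zj.card : ℝ) / ((P.card : ℝ) / (Vf : ℝ) ^ 3) / c1 + 2) / 3) := by
    refine le_trans (Real.rpow_le_rpow (by positivity) ?_ (by norm_num))
      (cbrt_le (by positivity) hc1)
    refine div_le_div_of_nonneg_right ?_ hB0.le
    exact_mod_cast Finset.card_le_card Finset.inter_subset_left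
  have f4 : (T.card : ℝ) ≤ 2 * (((nearE P k (bb P.card V') j.1 j.2).filter
      (fun e => e.1 ∈ Zj ∨ e.2 ∈ Zj)).card : ℝ) := by exact_mod_cast f1
  refine f4.trans (mul_le_mul_of_nonneg_left (f2.trans ?_) (by norm_num))
  refine add_le_add ?_ le_rfl
  refine mul_le_mul_of_nonneg_right ?_ (by positivity)
  exact mul_le_mul_of_nonneg_left f3 hC

/-- one large window -/
lemma W6_key {C : ℝ} (hC : 0 ≤ C) (h3 : W3V C) (hG : Generic P) (S : WSys P k V L Cw)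
    {l l' : ℕ} (hll : l ≤ l') (hl' : l' ≤ L) (hV : 1 ≤ V l) (hVf1 : 1 ≤ V l') {V' : ℕ}
    (h2VfV : 2 * V l' ≤ V') (hV'3 : V' ^ 3 ≤ P.card) {b0 b1 : ℕ} (hb1 : bb P.card V' + 1 ≤ b1)
    (hb12 : b1 ≤ bb P.card (V l)) {c1 : ℝ} (hc1pos : 0 < c1) {J : ℝ × ℝ}
    (hJ : J ∈ wins (S.cuts l)) (TJ : Finset (Pt × Pt))
    (hTJ : ∀ x ∈ TJ, x.1 ∈ P ∧ x.2 ∈ nbW P k (bb P.card V') J.1 J.2 x.1 ∧
      Gd P k b0 (winOf (S.cuts l') (sl x.1 x.2)) ∧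
      ((GW P k b0 b1 (wins (S.cuts l')) x.1 J).card : ℝ) < c1 * ((V l' : ℝ) / (V l : ℝ))) :
    (TJ.card : ℝ) ≤ 2 * C * (c1 ^ ((1 : ℝ) / 3) * (((V l' : ℝ) / (V l : ℝ)) ^ 4
        * (7 + 2 * Cw) / 3)) * ((P.card : ℝ) ^ 2 / ((V l' : ℝ) ^ 4 * (V' : ℝ) ^ 2))
      + 2 * C * (Cw * ((V l' : ℝ) / (V l : ℝ)) ^ 4 * ((P.card : ℝ) / (V l' : ℝ) ^ 3)) := by
  have hl : l ≤ L := hll.trans hl'
  have hvpos : (0 : ℝ) < (V l : ℝ) := by exact_mod_cast hV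
  have hvfpos : (0 : ℝ) < (V l' : ℝ) := by exact_mod_cast hVf1
  have hV'1 : 1 ≤ V' := by omega
  have hv'pos : (0 : ℝ) < (V' : ℝ) := by exact_mod_cast hV'1
  have hNpos : (0 : ℝ) < (P.card : ℝ) := by
    have h1 : 0 < V' ^ 3 := by positivity
    exact_mod_cast lt_of_lt_of_le h1 hV'3
  have hR0 : 0 < ((V l' : ℝ) / (V l : ℝ)) ^ 4 := by positivity
  have hB0 : (0 : ℝ) < (P.card : ℝ) / (V l' : ℝ) ^ 3 := by positivity
  set Wf := wins (S.cuts l') with hWf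
  set Z := P.filter (fun w => ((GW P k b0 b1 Wf w J).card : ℝ)
    < c1 * ((V l' : ℝ) / (V l : ℝ))) with hZ
  set WJ := Wf.filter (fun j => (J.1 ≤ j.1 ∧ j.2 ≤ J.2) ∧ Gd P k b0 j) with hWJ
  have hWJcard : (WJ.card : ℝ) ≤ Cw * ((V l' : ℝ) / (V l : ℝ)) ^ 4 := by
    refine le_trans ?_ (S.count_in l l' hll hl' J hJ)
    refine Nat.cast_le.2 (Finset.card_le_card ?_)
    intro j hj
    rw [hWJ, Finset.mem_filter] at hj
    exact Finset.mem_filter.2 ⟨hj.1, hj.2.1⟩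
  have hZsum : ∑ j ∈ WJ, ((Z ∩ cen P k b1 j.1 j.2).card : ℝ)
      ≤ 7 * ((P.card : ℝ) / (V l : ℝ) ^ 3) * (c1 * ((V l' : ℝ) / (V l : ℝ))) :=
    W6_double S hl Wf hJ hb12 (by positivity)
  have hsplit : (TJ.card : ℝ) ≤ ∑ j ∈ WJ,
      ((TJ.filter (fun x => j.1 < sl x.1 x.2 ∧ sl x.1 x.2 < j.2)).card : ℝ) := by
    have : TJ.card ≤ ∑ j ∈ WJ,
        (TJ.filter (fun x => j.1 < sl x.1 x.2 ∧ sl x.1 x.2 < j.2)).card := by
      refine le_trans (Finset.card_le_card ?_) Finset.card_biUnion_le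
      intro x hx
      obtain ⟨hx1, hx2, hx3, hx4⟩ := hTJ x hx
      obtain ⟨hx5, hx6, hx7⟩ := mem_nbW_iff.1 hx2
      obtain ⟨a1, a2, a3⟩ := S.winOf_nb hl' hx5
      refine Finset.mem_biUnion.2 ⟨winOf (S.cuts l') (sl x.1 x.2), ?_,
        Finset.mem_filter.2 ⟨hx, a2, a3⟩⟩
      refine Finset.mem_filter.2 ⟨a1, ?_, hx3⟩
      obtain ⟨J2, hJ2, c1', c2'⟩ := exists_parent (S.sub l l' hll hl')
        (S.sub 0 l (Nat.zero_le _) hl S.lo_mem) (S.sub 0 l (Nat.zero_le _) hl S.hi_mem)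
        (S.lo_le l' hl') (S.le_hi l' hl') a1
      have : J2 = J := win_unique hJ2 hJ (c1'.trans_lt a2) (a3.trans_le c2') hx6 hx7
      rw [this] at c1' c2'
      exact ⟨c1', c2'⟩
    exact_mod_cast this
  have hone : ∀ j ∈ WJ,
      ((TJ.filter (fun x => j.1 < sl x.1 x.2 ∧ sl x.1 x.2 < j.2)).card : ℝ)
      ≤ 2 * (C * (c1 ^ ((1 : ℝ) / 3) * ((((Z ∩ cen P k b1 j.1 j.2).card : ℝ)
          / ((P.card : ℝ) / (V l' : ℝ) ^ 3) / c1 + 2) / 3))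
          * ((P.card : ℝ) ^ 2 / ((V l' : ℝ) ^ 4 * (V' : ℝ) ^ 2))
          + C * ((P.card : ℝ) / (V l' : ℝ) ^ 3)) := by
    intro j hj
    have hj' := Finset.mem_filter.1 hj
    refine W6_one hC h3 hG hVf1 h2VfV hV'3 (S.cen_le l' hl' j hj'.1) hc1pos _ _ ?_
    intro x hx
    have hx1 := Finset.mem_filter.1 hx
    obtain ⟨hxP, hx2, hx3, hx4⟩ := hTJ x hx1.1
    obtain ⟨hx5, hx6, hx7⟩ := mem_nbW_iff.1 hx2
    have hxW : x.2 ∈ nbW P k (bb P.card V') j.1 j.2 x.1 := mem_nbW_iff.2 ⟨hx5, hx1.2.1, hx1.2.2⟩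
    refine ⟨hxW, Finset.mem_inter.2 ⟨Finset.mem_filter.2 ⟨hxP, hx4⟩, ?_⟩⟩
    refine cen_mono hb1 le_rfl le_rfl ?_
    have h7 := mem_nbW.1 hxW
    rcases lt_or_gt_of_ne (mk_mem_pairs (mem_nearE.1 h7).1).2.2 with hlt | hlt
    · rw [mk_of_lt hlt] at h7
      exact left_mem_cen h7
    · rw [mk_of_gt hlt] at h7
      exact right_mem_cen h7
  refine hsplit.trans ((Finset.sum_le_sum hone).trans ?_)
  have hQ0 : (0 : ℝ) ≤ (P.card : ℝ) ^ 2 / ((V l' : ℝ) ^ 4 * (V' : ℝ) ^ 2) := by positivity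
  rw [sum_alg]
  have g3 : (∑ j ∈ WJ, ((Z ∩ cen P k b1 j.1 j.2).card : ℝ)) / ((P.card : ℝ) / (V l' : ℝ) ^ 3) / c1
      ≤ 7 * ((V l' : ℝ) / (V l : ℝ)) ^ 4 := by
    rw [div_le_iff₀ hc1pos, div_le_iff₀ hB0]
    refine hZsum.trans (le_of_eq ?_)
    field_simp
  have g4 : c1 ^ ((1 : ℝ) / 3) * (((∑ j ∈ WJ, ((Z ∩ cen P k b1 j.1 j.2).card : ℝ))
          / ((P.card : ℝ) / (V l' : ℝ) ^ 3) / c1 + 2 * (WJ.card : ℝ)) / 3)
        ≤ c1 ^ ((1 : ℝ) / 3) * (((V l' : ℝ) / (V l : ℝ)) ^ 4 * (7 + 2 * Cw) / 3) := by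
    refine mul_le_mul_of_nonneg_left ?_ (Real.rpow_nonneg hc1pos.le _)
    linarith
  refine add_le_add ?_ ?_
  · refine mul_le_mul_of_nonneg_right ?_ hQ0
    exact mul_le_mul_of_nonneg_left g4 (by positivity)
  · refine mul_le_mul_of_nonneg_left ?_ (by positivity)
    exact mul_le_mul_of_nonneg_right hWJcard hB0.le

end W6

set_option maxHeartbeats 1000000 in
/-- **W6** (many partners) -/
theorem W6 {C C5 : ℝ} (hC : 0 ≤ C) (hC5 : 0 ≤ C5) (h3 : W3V C) (h5 : W5V C5) {Cw : ℝ}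
    (hCw : 0 ≤ Cw) {ε : ℝ} (hε : 0 < ε) :
    ∃ c : ℝ, 0 < c ∧ ∃ Ce : ℕ, 1 ≤ Ce ∧ ∀ P : Finset Pt, Generic P → ∀ (k : ℕ) (V : ℕ → ℕ) (L : ℕ)
      (S : WSys P k V L Cw) (l l' : ℕ), l ≤ l' → l' ≤ L → 1 ≤ V l → 2 * V l ≤ V l' →
      ∀ V' : ℕ, Ce * V l' ≤ V' → Ce * V' ^ 3 ≤ P.card →
      (((P ×ˢ P).filter (fun x : Pt × Pt => x.2 ∈ nb P k (bb P.card V') x.1 ∧
        ((nbW P k (bb P.card (V l')) (winOf (S.cuts l) (sl x.1 x.2)).1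
          (winOf (S.cuts l) (sl x.1 x.2)).2 x.1).card : ℝ)
          < c * ((P.card : ℝ) / ((V l : ℝ) * (V l' : ℝ) ^ 2)))).card : ℝ)
        ≤ ε * ((P.card : ℝ) * ((P.card : ℝ) / (V' : ℝ) ^ 2)) := by
  -- constants
  obtain ⟨q, hq⟩ := exists_nat_ge (4 * Cw * C5 / ε + 1)
  have hq1 : (1 : ℝ) ≤ (q : ℝ) := by
    have : 0 ≤ 4 * Cw * C5 / ε := by positivity
    linarith
  have hq1' : 1 ≤ q := by exact_mod_cast hq1
  have hqε : 2 * Cw * C5 / q ≤ ε / 2 := by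
    rw [div_le_iff₀ (by linarith)]
    have h1 : 4 * Cw * C5 / ε ≤ (q : ℝ) := by linarith
    rw [div_le_iff₀ hε] at h1
    linarith
  obtain ⟨A, hA⟩ : ∃ A : ℝ, A = 2 * C * Cw * (7 + 2 * Cw) / 3 := ⟨_, rfl⟩
  have hA0 : 0 ≤ A := by rw [hA]; positivity
  obtain ⟨c1, hc1⟩ : ∃ c1 : ℝ, c1 = min 1 ((ε / (4 * (A + 1))) ^ (3 : ℝ)) := ⟨_, rfl⟩
  have hc1pos : 0 < c1 := by
    rw [hc1]
    exact lt_min one_pos (Real.rpow_pos_of_pos (by positivity) _)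
  have hc1A : A * c1 ^ ((1 : ℝ) / 3) ≤ ε / 4 := by
    have h1 : c1 ^ ((1 : ℝ) / 3) ≤ ε / (4 * (A + 1)) := by
      calc c1 ^ ((1 : ℝ) / 3) ≤ ((ε / (4 * (A + 1))) ^ (3 : ℝ)) ^ ((1 : ℝ) / 3) :=
            Real.rpow_le_rpow hc1pos.le (by rw [hc1]; exact min_le_right _ _) (by norm_num)
        _ = ε / (4 * (A + 1)) := by
            rw [← Real.rpow_mul (by positivity)]
            norm_num
    calc A * c1 ^ ((1 : ℝ) / 3) ≤ A * (ε / (4 * (A + 1))) := mul_le_mul_of_nonneg_left h1 hA0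
      _ ≤ (A + 1) * (ε / (4 * (A + 1))) := by
          refine mul_le_mul_of_nonneg_right (by linarith) (by positivity)
      _ = ε / 4 := by field_simp
  obtain ⟨E2, hE2⟩ := exists_nat_ge (8 * C * Cw ^ 2 / ε + 1)
  have hq3 : 1 ≤ q ^ 3 := Nat.one_le_pow _ _ hq1'
  have hCe1 : 1 ≤ 100 * q ^ 3 + E2 := by omega
  refine ⟨c1 / (48 * (q : ℝ) ^ 3), by positivity, 100 * q ^ 3 + E2, hCe1, ?_⟩
  intro P hG k V L S l l' hll hl' hV h2V V' hV' hN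
  have hl : l ≤ L := hll.trans hl'
  have hVf1 : 1 ≤ V l' := by omega
  have hVV : V l' ≤ V' := le_trans (Nat.le_mul_of_pos_left _ hCe1) hV'
  have hV'1 : 1 ≤ V' := hVf1.trans hVV
  have hqq3 : q ≤ q ^ 3 := Nat.le_self_pow (by norm_num) q
  have h4qV : 4 * (q * V l') ≤ V' := by
    refine le_trans ?_ hV'
    rw [← mul_assoc]
    exact Nat.mul_le_mul_right _ (by omega)
  have hV'3 : V' ^ 3 ≤ P.card := le_trans (Nat.le_mul_of_pos_left _ hCe1) hN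
  have hVq : V l' ≤ q * V l' := Nat.le_mul_of_pos_left _ hq1'
  have h2VfV : 2 * V l' ≤ V' := by omega
  have hvpos : (0 : ℝ) < (V l : ℝ) := by exact_mod_cast hV
  have hvfpos : (0 : ℝ) < (V l' : ℝ) := by exact_mod_cast hVf1
  have hv'pos : (0 : ℝ) < (V' : ℝ) := by exact_mod_cast hV'1
  have hqpos : (0 : ℝ) < (q : ℝ) := by linarith
  have hNpos : (0 : ℝ) < (P.card : ℝ) := by
    have h1 : 0 < V' ^ 3 := by positivity
    exact_mod_cast lt_of_lt_of_le h1 hV'3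
  obtain ⟨hb1real, hb'b1⟩ := num_b1 hq1' hVf1 h4qV hV'3
  have hb0f : bb P.card (q * V l') ≤ bb P.card (V l') := bb_anti hVf1 hVq
  have hbfb2 : bb P.card (V l') ≤ bb P.card (V l) := bb_anti hV (by omega)
  obtain ⟨b0, hb0⟩ : ∃ b0, b0 = bb P.card (q * V l') := ⟨_, rfl⟩
  obtain ⟨b1, hb1⟩ : ∃ b1, b1 = b0 / 12 := ⟨_, rfl⟩
  rw [← hb0, ← hb1] at hb1real hb'b1
  rw [← hb0] at hb0f
  have h12 : 12 * b1 ≤ b0 := by omega
  -- the windows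
  obtain ⟨T, hT⟩ : ∃ T, T = (P ×ˢ P).filter (fun x : Pt × Pt =>
      x.2 ∈ nb P k (bb P.card V') x.1 ∧
        ((nbW P k (bb P.card (V l')) (winOf (S.cuts l) (sl x.1 x.2)).1
          (winOf (S.cuts l) (sl x.1 x.2)).2 x.1).card : ℝ)
          < c1 / (48 * (q : ℝ) ^ 3) * ((P.card : ℝ) / ((V l : ℝ) * (V l' : ℝ) ^ 2))) := ⟨_, rfl⟩
  rw [← hT]
  have hTm : ∀ x ∈ T, x.1 ∈ P ∧ x.2 ∈ nb P k (bb P.card V') x.1 ∧
      ((nbW P k (bb P.card (V l')) (winOf (S.cuts l) (sl x.1 x.2)).1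
          (winOf (S.cuts l) (sl x.1 x.2)).2 x.1).card : ℝ)
          < c1 / (48 * (q : ℝ) ^ 3) * ((P.card : ℝ) / ((V l : ℝ) * (V l' : ℝ) ^ 2)) := by
    intro x hx
    rw [hT, Finset.mem_filter, Finset.mem_product] at hx
    exact ⟨hx.1.1, hx.2⟩
  have hTsplit : (T.card : ℝ) = ((T.filter (fun x => ¬ Gd P k b0
        (winOf (S.cuts l') (sl x.1 x.2)))).card : ℝ)
      + ((T.filter (fun x => Gd P k b0 (winOf (S.cuts l') (sl x.1 x.2)))).card : ℝ) := by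
    have h2 : T.card = (T.filter (fun x => ¬ Gd P k b0 (winOf (S.cuts l') (sl x.1 x.2)))).card
        + (T.filter (fun x => Gd P k b0 (winOf (S.cuts l') (sl x.1 x.2)))).card := by
      rw [← Finset.card_filter_add_card_filter_not (s := T)
        (fun x => Gd P k b0 (winOf (S.cuts l') (sl x.1 x.2))), add_comm]
    exact_mod_cast h2
  -- bad windows
  have hT1le : ((T.filter (fun x => ¬ Gd P k b0
        (winOf (S.cuts l') (sl x.1 x.2)))).card : ℝ)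
      ≤ ε / 2 * ((P.card : ℝ) * ((P.card : ℝ) / (V' : ℝ) ^ 2)) := by
    refine (W6_bad hC5 h5 hG S hl' hVf1 hq1' (by omega) hV'3 _ ?_).trans
      (mul_le_mul_of_nonneg_right hqε (by positivity))
    intro x hx
    rw [← hb0]
    obtain ⟨hx1, hx2⟩ := Finset.mem_filter.1 hx
    exact ⟨(hTm x hx1).1, (hTm x hx1).2.1, hx2⟩
  -- points with few good windows
  obtain ⟨T2, hT2⟩ : ∃ T2, T2 = T.filter (fun x => Gd P k b0
    (winOf (S.cuts l') (sl x.1 x.2))) := ⟨_, rfl⟩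
  have hfew : ∀ x ∈ T2, ((GW P k b0 b1 (wins (S.cuts l')) x.1
      (winOf (S.cuts l) (sl x.1 x.2))).card : ℝ) < c1 * ((V l' : ℝ) / (V l : ℝ)) := by
    intro x hx
    by_contra hcon
    rw [not_lt] at hcon
    rw [hT2, Finset.mem_filter] at hx
    obtain ⟨hxP, hxnb, h3'⟩ := hTm x hx.1
    have h1 := W6_few (w := x.1) hG S hl' h12 hb0f hxP (winOf (S.cuts l) (sl x.1 x.2))
    have h2 : ((GW P k b0 b1 (wins (S.cuts l')) x.1
        (winOf (S.cuts l) (sl x.1 x.2))).card : ℝ) * (b1 : ℝ)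
        ≤ ((nbW P k (bb P.card (V l')) (winOf (S.cuts l) (sl x.1 x.2)).1
          (winOf (S.cuts l) (sl x.1 x.2)).2 x.1).card : ℝ) := by
      exact_mod_cast h1
    have h4 : c1 * ((V l' : ℝ) / (V l : ℝ)) * ((P.card : ℝ) / (24 * (q : ℝ) ^ 3 * (V l' : ℝ) ^ 3))
        ≤ ((GW P k b0 b1 (wins (S.cuts l')) x.1
        (winOf (S.cuts l) (sl x.1 x.2))).card : ℝ) * (b1 : ℝ) :=
      mul_le_mul hcon hb1real (by positivity) (by positivity)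
    have h5' : c1 * ((V l' : ℝ) / (V l : ℝ))
          * ((P.card : ℝ) / (24 * (q : ℝ) ^ 3 * (V l' : ℝ) ^ 3))
        = 2 * (c1 / (48 * (q : ℝ) ^ 3) * ((P.card : ℝ) / ((V l : ℝ) * (V l' : ℝ) ^ 2))) := by
      field_simp; norm_num
    have h6 : 0 < c1 / (48 * (q : ℝ) ^ 3) * ((P.card : ℝ) / ((V l : ℝ) * (V l' : ℝ) ^ 2)) := by
      positivity
    linarith
  have hT2le : (T2.card : ℝ) ≤ ε / 2 * ((P.card : ℝ) * ((P.card : ℝ) / (V' : ℝ) ^ 2)) := by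
    have h1 : T2.card ≤ ∑ J ∈ wins (S.cuts l),
        (T2.filter (fun x => J.1 < sl x.1 x.2 ∧ sl x.1 x.2 < J.2)).card := by
      refine card_le_sum_wins S hl (b := bb P.card V') T2 fun x hx => ?_
      rw [hT2, Finset.mem_filter] at hx
      exact (hTm x hx.1).2.1
    have key : ∀ J ∈ wins (S.cuts l),
        ((T2.filter (fun x => J.1 < sl x.1 x.2 ∧ sl x.1 x.2 < J.2)).card : ℝ)
        ≤ 2 * C * (c1 ^ ((1 : ℝ) / 3) * (((V l' : ℝ) / (V l : ℝ)) ^ 4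
        * (7 + 2 * Cw) / 3)) * ((P.card : ℝ) ^ 2 / ((V l' : ℝ) ^ 4 * (V' : ℝ) ^ 2))
      + 2 * C * (Cw * ((V l' : ℝ) / (V l : ℝ)) ^ 4 * ((P.card : ℝ) / (V l' : ℝ) ^ 3)) := by
      intro J hJ
      refine W6_key (b0 := b0) hC h3 hG S hll hl' hV hVf1 h2VfV hV'3 hb'b1 (by omega) hc1pos hJ _ ?_
      intro x hx
      obtain ⟨hx1, hx2, hx3⟩ := Finset.mem_filter.1 hx
      have hx4 := hfew x hx1
      rw [winOf_eq hJ hx2 hx3] at hx4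
      rw [hT2, Finset.mem_filter] at hx1
      exact ⟨(hTm x hx1.1).1, mem_nbW_iff.2 ⟨(hTm x hx1.1).2.1, hx2, hx3⟩, hx1.2, hx4⟩
    have h3' : (T2.card : ℝ) ≤ ∑ J ∈ wins (S.cuts l),
        ((T2.filter (fun x => J.1 < sl x.1 x.2 ∧ sl x.1 x.2 < J.2)).card : ℝ) := by
      exact_mod_cast h1
    have hlast : 2 * C * Cw ^ 2 * ((P.card : ℝ) * (V l' : ℝ))
        ≤ ε / 4 * ((P.card : ℝ) * ((P.card : ℝ) / (V' : ℝ) ^ 2)) := by
      have e1 : 8 * C * Cw ^ 2 / ε ≤ (E2 : ℝ) := by linarith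
      have e2 : (E2 : ℝ) * (V' : ℝ) ^ 3 ≤ (P.card : ℝ) := by
        have : E2 * V' ^ 3 ≤ P.card := le_trans (Nat.mul_le_mul_right _ (by omega)) hN
        exact_mod_cast this
      have e3 : (V l' : ℝ) ≤ (V' : ℝ) := by exact_mod_cast hVV
      have e4 : (E2 : ℝ) * (V' : ℝ) ≤ (P.card : ℝ) / (V' : ℝ) ^ 2 := by
        rw [le_div_iff₀ (by positivity)]
        calc (E2 : ℝ) * (V' : ℝ) * (V' : ℝ) ^ 2 = (E2 : ℝ) * (V' : ℝ) ^ 3 := by ring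
          _ ≤ (P.card : ℝ) := e2
      have e5 : 8 * C * Cw ^ 2 * (V l' : ℝ) ≤ ε * ((P.card : ℝ) / (V' : ℝ) ^ 2) := by
        rw [div_le_iff₀ hε] at e1
        have e6 : (E2 : ℝ) * (V l' : ℝ) ≤ (P.card : ℝ) / (V' : ℝ) ^ 2 :=
          le_trans (mul_le_mul_of_nonneg_left e3 (Nat.cast_nonneg _)) e4
        calc 8 * C * Cw ^ 2 * (V l' : ℝ) ≤ (E2 : ℝ) * ε * (V l' : ℝ) :=
              mul_le_mul_of_nonneg_right e1 hvfpos.le
          _ = ε * ((E2 : ℝ) * (V l' : ℝ)) := by ring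
          _ ≤ ε * ((P.card : ℝ) / (V' : ℝ) ^ 2) := mul_le_mul_of_nonneg_left e6 hε.le
      have e7 : (P.card : ℝ) * (8 * C * Cw ^ 2 * (V l' : ℝ))
          ≤ (P.card : ℝ) * (ε * ((P.card : ℝ) / (V' : ℝ) ^ 2)) :=
        mul_le_mul_of_nonneg_left e5 hNpos.le
      linarith
    have hcard_2 : ((wins (S.cuts l)).card : ℝ) ≤ Cw * (V l : ℝ) ^ 4 := S.card_wins hl
    calc (T2.card : ℝ) ≤ _ := h3'
      _ ≤ ∑ J ∈ wins (S.cuts l), (2 * C * (c1 ^ ((1 : ℝ) / 3) * (((V l' : ℝ) / (V l : ℝ)) ^ 4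
        * (7 + 2 * Cw) / 3)) * ((P.card : ℝ) ^ 2 / ((V l' : ℝ) ^ 4 * (V' : ℝ) ^ 2))
      + 2 * C * (Cw * ((V l' : ℝ) / (V l : ℝ)) ^ 4 * ((P.card : ℝ) / (V l' : ℝ) ^ 3))) :=
          Finset.sum_le_sum key
      _ = ((wins (S.cuts l)).card : ℝ) * (2 * C * (c1 ^ ((1 : ℝ) / 3) *
          (((V l' : ℝ) / (V l : ℝ)) ^ 4
        * (7 + 2 * Cw) / 3)) * ((P.card : ℝ) ^ 2 / ((V l' : ℝ) ^ 4 * (V' : ℝ) ^ 2))
      + 2 * C * (Cw * ((V l' : ℝ) / (V l : ℝ)) ^ 4 * ((P.card : ℝ) / (V l' : ℝ) ^ 3))) := by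
          rw [Finset.sum_const, nsmul_eq_mul]
      _ ≤ (Cw * (V l : ℝ) ^ 4) * (2 * C * (c1 ^ ((1 : ℝ) / 3) *
          (((V l' : ℝ) / (V l : ℝ)) ^ 4
        * (7 + 2 * Cw) / 3)) * ((P.card : ℝ) ^ 2 / ((V l' : ℝ) ^ 4 * (V' : ℝ) ^ 2))
      + 2 * C * (Cw * ((V l' : ℝ) / (V l : ℝ)) ^ 4 * ((P.card : ℝ) / (V l' : ℝ) ^ 3))) :=
          mul_le_mul_of_nonneg_right hcard_2 (by positivity)
      _ = A * c1 ^ ((1 : ℝ) / 3) * ((P.card : ℝ) * ((P.card : ℝ) / (V' : ℝ) ^ 2))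
          + 2 * C * Cw ^ 2 * ((P.card : ℝ) * (V l' : ℝ)) := by
          rw [hA]
          exact final_alg hvpos hvfpos hv'pos
      _ ≤ ε / 4 * ((P.card : ℝ) * ((P.card : ℝ) / (V' : ℝ) ^ 2))
          + ε / 4 * ((P.card : ℝ) * ((P.card : ℝ) / (V' : ℝ) ^ 2)) := by
          refine add_le_add ?_ hlast
          exact mul_le_mul_of_nonneg_right hc1A (by positivity)
      _ = ε / 2 * ((P.card : ℝ) * ((P.card : ℝ) / (V' : ℝ) ^ 2)) := by ring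
  rw [hTsplit, ← hT2]
  linarith

end Crest.Agent.R51
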