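import Crest.Agent.R51.Loc3
import Crest.Agent.R51.Loc5
import Crest.Agent.R51.WinDey
import Crest.Agent.R51.WinMany
import Crest.Agent.R51.WalkH

/-!
# Row 51, B4 (locality lemma): assembly (helper476)

`b4_of_W15` : B4 from W1 and W5.
-/

set_option autoImplicit false

noncomputable section

open Classical

namespace Crest.Agent.R51.Loc

theorem fluxAll : FluxAll := fun _ _ hG hW _ _ _ hbf hX => flux_hyp hG hW hbf hX

theorem w1Two_of {Cw : ℝ} (h : IW1 Cw) : W1Two Cw := by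
  intro V0 V1 h0 h01
  obtain ⟨N0, hN0⟩ := h (fun l => if l = 0 then V0 else V1) 1 h0 (by
    intro l hl
    interval_cases l
    simpa using h01)
  exact ⟨N0, fun P hG hN k => hN0 P hG hN k⟩

theorem w6Two_of {Cw C5 : ℝ} (hCw : 0 ≤ Cw) (hC5 : 0 ≤ C5) (h5 : W5V C5) : W6Two Cw := by
  intro ε hε
  obtain ⟨c, hc, M, hM, h⟩ := W6 (C := 504) (by norm_num) hC5 w3V h5 hCw hε
  refine ⟨c, hc, M, hM, fun V0 V1 h0 h01 V' hV' => ⟨M * V' ^ 3, fun P hG hN k S => ?_⟩⟩
  have h1 := h P hG k _ 1 S 0 1 (by norm_num) (by norm_num) (by simpa using h0)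
    (by simpa using h01) V' (by simpa using hV') hN
  refine le_trans (le_of_eq ?_) h1
  congr 2
  ext z
  simp only [Finset.mem_filter]
  refine and_congr_right fun _ => and_congr_right fun _ => ?_
  have e1 : c * (P.card : ℝ) / ((V0 : ℝ) * (V1 : ℝ) ^ 2) =
      c * ((P.card : ℝ) / ((V0 : ℝ) * (V1 : ℝ) ^ 2)) := by ring
  rw [e1]
  exact Iff.rfl

/-- **B4** from W1 and W5. -/
theorem b4_of_W15 {Cw C5 : ℝ} (hCw : 1 ≤ Cw) (hW1 : IW1 Cw) (hC5 : 0 ≤ C5) (h5 : W5V C5) :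
    B4Prop :=
  b4_of (C0 := 23) (C := 504) (by linarith : (0 : ℝ) ≤ Cw) (by norm_num) (by norm_num)
    (fun P hG k V hV hVN => w0V P hG k V hV hVN) (w1Two_of hW1)
    (by
      intro P hG k V V' h1 h2 h3 s t h4
      refine (w2V P hG k V V' h1 h2 h3 s t h4).trans ?_
      exact mul_le_mul_of_nonneg_right (by norm_num) (by positivity))
    w3V (w6Two_of (by linarith) hC5 h5) (fun _ _ _ _ S _ hl => wins_wins S hl) fluxAll

end Crest.Agent.R51.Loc
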