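import Crest.Agent.R51.NoFinal
import Crest.Agent.R51.GoodHalf

/-! Row 51: `NoFinal` (7.5 + B8 + B9). -/

set_option autoImplicit false

namespace Crest.Agent.R51

theorem noFinal : NoFinal := noFinal_of_goodHalf Gd.goodHalf

end Crest.Agent.R51
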