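import Crest.Agent.R51.Quad4

/-!
# Row 51, section B6: assembly (helper422)
-/

set_option autoImplicit false

noncomputable section

open Classical Finset

namespace Crest.Agent.R51.Quad

open Crest.Agent.R51 Crest.Agent.R51.Active

namespace BCtx

variable (c : BCtx)

/-- what we know about a triple of a star -/
lemma St_spec {v : Pt} {t : Pt × Pt × Pt} (ht : t ∈ c.St v) :
    (c.Al t.1 (c.wn v t.1) ∧ c.Al t.2.1 (c.wn v t.2.1) ∧ c.Al t.2.2 (c.wn v t.2.2)) ∧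
    (c.Al v (c.wn v t.1) ∧ c.Al v (c.wn v t.2.1) ∧ c.Al v (c.wn v t.2.2)) ∧
    (t.1.1 < v.1 ∧ t.2.1.1 < v.1 ∧ t.2.2.1 < v.1) ∧
    (c.Rel (c.wn v t.1) (c.wn v t.2.1) ∧ c.Rel (c.wn v t.1) (c.wn v t.2.2) ∧
      c.Rel (c.wn v t.2.1) (c.wn v t.2.2)) := by
  unfold St at ht
  rw [Finset.mem_filter] at ht
  obtain ⟨_, hW, h1, h2, h3⟩ := ht
  unfold WT at hW
  simp only [Finset.mem_filter, Finset.mem_product] at hW
  have g1 := (Finset.mem_filter.1 (c.WG_sub v hW.1.1)).2.1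
  have g2 := (Finset.mem_filter.1 (c.WG_sub v hW.1.2.1)).2.1
  have g3 := (Finset.mem_filter.1 (c.WG_sub v hW.1.2.2)).2.1
  have l1 := Finset.mem_filter.1 h1
  have l2 := Finset.mem_filter.1 h2
  have l3 := Finset.mem_filter.1 h3
  exact ⟨⟨c.mem_AL.1 l1.1, c.mem_AL.1 l2.1, c.mem_AL.1 l3.1⟩, ⟨g1, g2, g3⟩,
    ⟨l1.2.1, l2.2.1, l3.2.1⟩, hW.2⟩

/-- from a popular triple to the final configuration -/
lemma final_of_triple (c5 : ℝ) (hpos : 0 < c5 * ((c.P.card : ℝ) / (c.V : ℝ) ^ 2))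
    (t : Pt × Pt × Pt)
    (ht : c5 * ((c.P.card : ℝ) / (c.V : ℝ) ^ 2) ≤
      ((c.GV.filter (fun v => t ∈ c.St v)).card : ℝ)) :
    FinalConf c.P c.V c.Cf c.ε1 c5 c.D' c.Rel c.H ![t.1, t.2.1, t.2.2]
      (c.GV.filter (fun v => t ∈ c.St v)) := by
  obtain ⟨v0, hv0⟩ : (c.GV.filter (fun v => t ∈ c.St v)).Nonempty := by
    rw [← Finset.card_pos]
    have := hpos.trans_le ht
    exact_mod_cast this
  have hs0 := c.St_spec (Finset.mem_filter.1 hv0).2
  have hne12 : t.1 ≠ t.2.1 := by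
    intro h
    have := hs0.2.2.2.1
    rw [h] at this
    exact c.hH.rel_irr _ this
  have hne13 : t.1 ≠ t.2.2 := by
    intro h
    have := hs0.2.2.2.2.1
    rw [h] at this
    exact c.hH.rel_irr _ this
  have hne23 : t.2.1 ≠ t.2.2 := by
    intro h
    have := hs0.2.2.2.2.2
    rw [h] at this
    exact c.hH.rel_irr _ this
  refine ⟨?_, ?_, ?_, ht, ?_, ?_, ?_, ?_⟩
  · intro i j hij
    fin_cases i <;> fin_cases j <;> first | rfl | (exfalso; simp at hij; first | exact hne12 hij | exact hne13 hij | exact hne23 hij | exact hne12 hij.symm | exact hne13 hij.symm | exact hne23 hij.symm)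
  · intro i
    fin_cases i
    · exact c.alive_mem hs0.1.1
    · exact c.alive_mem hs0.1.2.1
    · exact c.alive_mem hs0.1.2.2
  · intro v hv
    exact c.mem_GV_P (Finset.mem_filter.1 hv).1
  · intro v hv i
    have hs := c.St_spec (Finset.mem_filter.1 hv).2
    fin_cases i
    · exact hs.2.2.1.1
    · exact hs.2.2.1.2.1
    · exact hs.2.2.1.2.2
  · intro v hv i
    have hs := c.St_spec (Finset.mem_filter.1 hv).2
    fin_cases i
    · exact hs.1.1
    · exact hs.1.2.1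
    · exact hs.1.2.2
  · intro v hv i
    have hs := c.St_spec (Finset.mem_filter.1 hv).2
    fin_cases i
    · exact hs.2.1.1
    · exact hs.2.1.2.1
    · exact hs.2.1.2.2
  · intro v hv i j hij
    have hs := (c.St_spec (Finset.mem_filter.1 hv).2).2.2.2
    fin_cases i <;> fin_cases j
    · exact absurd rfl hij
    · exact hs.1
    · exact hs.2.1
    · exact c.hH.rel_symm _ _ hs.1
    · exact absurd rfl hij
    · exact hs.2.2
    · exact c.hH.rel_symm _ _ hs.2.1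
    · exact c.hH.rel_symm _ _ hs.2.2
    · exact absurd rfl hij

end BCtx

theorem b6 : B6 := by
  intro Cw lam1 lam2 lam3 κ c2 c8 L hCw h1 h2 h3 hκ hκ2 hc2 hc21 hc8 hc81 hL
  have hl1 : 0 < lam1 := by linarith
  have hl2 : 0 < lam2 := by linarith
  have hl3 : 0 < lam3 := by linarith
  have hCw0 : 0 < Cw := by linarith
  obtain ⟨ε1, hε1⟩ : ∃ ε1 : ℝ, ε1 = c2 / (16 * lam3) := ⟨_, rfl⟩
  have hε10 : 0 < ε1 := by rw [hε1]; positivity
  obtain ⟨c9, hc9⟩ : ∃ c9 : ℝ, c9 = c8 * (c2 / 16) ^ 3 / (2 * lam1 ^ 2) := ⟨_, rfl⟩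
  have hc90 : 0 < c9 := by rw [hc9]; positivity
  obtain ⟨K, hK⟩ : ∃ K : ℝ, K = (lam1 * lam2) / (ε1 * κ) *
    max 16 (16 * 448 * (Cw * lam1 * lam2) / c2) := ⟨_, rfl⟩
  obtain ⟨β, hβ⟩ : ∃ β : ℕ, β = max 2 ⌈K⌉₊ := ⟨_, rfl⟩
  have hβ2 : 2 ≤ β := by rw [hβ]; exact le_max_left _ _
  have hβK : K ≤ (β : ℝ) := by
    refine (Nat.le_ceil K).trans ?_
    rw [hβ]
    exact_mod_cast le_max_right _ _
  have hβ0 : (0 : ℝ) < β := by
    have : 0 < β := by omega
    exact_mod_cast this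
  obtain ⟨ρ, hρ⟩ : ∃ ρ : ℝ, ρ = ε1 * κ * β / (lam1 * lam2) := ⟨_, rfl⟩
  have hρ0 : 0 < ρ := by rw [hρ]; positivity
  have hρmax : max 16 (16 * 448 * (Cw * lam1 * lam2) / c2) ≤ ρ := by
    rw [hρ, le_div_iff₀ (by positivity)]
    calc max 16 (16 * 448 * (Cw * lam1 * lam2) / c2) * (lam1 * lam2)
        = ε1 * κ * K := by
          rw [hK]
          field_simp
      _ ≤ ε1 * κ * β := mul_le_mul_of_nonneg_left hβK (by positivity)
  have hρ16 : 16 ≤ ρ := (le_max_left _ _).trans hρmax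
  have hρB : Cw * lam1 * lam2 * (448 / ρ) ≤ c2 / 16 := by
    have h4 : 16 * 448 * (Cw * lam1 * lam2) / c2 ≤ ρ := (le_max_right _ _).trans hρmax
    rw [div_le_iff₀ hc2] at h4
    rw [mul_div_assoc', div_le_div_iff₀ hρ0 (by norm_num)]
    nlinarith
  obtain ⟨c10, hc10⟩ : ∃ c10 : ℝ, c10 = c9 / (lam1 * lam2) *
    (c8 * c9 ^ 3 / (lam1 * lam2) ^ 2) := ⟨_, rfl⟩
  have hc100 : 0 < c10 := by rw [hc10]; positivity
  obtain ⟨b1, hb1⟩ : ∃ b1 : ℝ, b1 = 1 / (2 * (β : ℝ) ^ 3) := ⟨_, rfl⟩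
  have hb10 : 0 < b1 := by rw [hb1]; positivity
  have hLr : (1 : ℝ) ≤ L := by exact_mod_cast hL
  obtain ⟨c5, hc5, D0, hfin⟩ := Final.final_config (c2 / (16 * lam1 ^ 2)) (c10 * b1 ^ 3)
    (c2 / (16 * (lam1 * lam2)) * (ρ / 16) * b1) (36 * L) (72 * (L : ℝ) ^ 2)
    (by positivity) (by positivity) (by positivity) (by positivity) (by positivity)
  refine ⟨min (c2 / 16) c9, lt_min (by positivity) hc90, ε1, hε10, c5, hc5, β, hβ2, ?_⟩
  intro V hV
  refine ⟨(β * V) ^ 3 * ⌈2 / κ⌉₊ + V ^ 2 * (⌈D0⌉₊ + 1), ?_⟩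
  intro P hP hN k Vs Lw W l0 hl0 hVs hVb D' hD' Rel H hH
  have hV0 : (0 : ℝ) < V := by
    have : 0 < V := hV
    exact_mod_cast this
  let c : BCtx :=
    { P := P, hP := hP, k := k, V := V, β := β, L := L, Vs := Vs, Lw := Lw, Cw := Cw,
      lam1 := lam1, lam2 := lam2, lam3 := lam3, κ := κ, c2 := c2, c8 := c8,
      δ1 := min (c2 / 16) c9, ε1 := ε1, D' := D', W := W, l0 := l0, hl0 := hl0, hVs := hVs,
      hVb := hVb, Rel := Rel, H := H, hH := hH, hCw := hCw, h1 := h1, h2 := h2, h3 := h3,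
      hκ := hκ, hκ2 := hκ2, hc2 := hc2, hc8 := hc8, hδ1 := lt_min (by positivity) hc90,
      hε1 := hε10, hD' := hD', hV1 := hV, hβ := hβ2, hL := hL }
  have hcN : c.P = P := rfl
  have hrho : c.rho = ρ := by rw [hρ]; rfl
  -- sizes
  have hVpos : 0 < V ^ 3 := Nat.pow_pos hV
  have hβVpos : 0 < (β * V) ^ 3 := Nat.pow_pos (Nat.mul_pos (by omega) hV)
  have hbBc : ⌈2 / κ⌉₊ ≤ c.bB := by
    show ⌈2 / κ⌉₊ ≤ P.card / (β * V) ^ 3
    rw [Nat.le_div_iff_mul_le hβVpos, mul_comm]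
    omega
  have hκbB : 2 ≤ c.κ * c.bB := by
    have h5 : 2 / κ ≤ (c.bB : ℝ) := (Nat.le_ceil _).trans (by exact_mod_cast hbBc)
    rw [div_le_iff₀ hκ] at h5
    show 2 ≤ κ * (c.bB : ℝ)
    linarith
  have hbB1 : 1 ≤ c.bB := by
    by_contra h
    have h6 : c.bB = 0 := by omega
    rw [h6] at hκbB
    simp at hκbB
    linarith
  have hbBmul : c.bB * (β * V) ^ 3 ≤ P.card := Nat.div_mul_le_self _ _
  have hbVge : c.bB * β ^ 3 ≤ c.bV := by
    show c.bB * β ^ 3 ≤ P.card / V ^ 3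
    rw [Nat.le_div_iff_mul_le hVpos]
    calc c.bB * β ^ 3 * V ^ 3 = c.bB * (β * V) ^ 3 := by ring
      _ ≤ P.card := hbBmul
  have hβ8 : 8 ≤ β ^ 3 := by
    calc 8 = 2 ^ 3 := by norm_num
      _ ≤ β ^ 3 := Nat.pow_le_pow_left hβ2 3
  have hbV : c.bB + 1 ≤ c.bV := by nlinarith
  have hbV1 : 1 ≤ c.bV := by omega
  have hkV : c.kb ≤ c.bV := by
    have := c.two_kb
    omega
  have hcard_pos : 0 < P.card := by
    have : 0 < c.bB * (β * V) ^ 3 := Nat.mul_pos hbB1 hβVpos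
    omega
  obtain ⟨D, hD⟩ : ∃ D : ℝ, D = (P.card : ℝ) / (V : ℝ) ^ 2 := ⟨_, rfl⟩
  have hDge : (⌈D0⌉₊ : ℝ) + 1 ≤ D := by
    rw [hD, le_div_iff₀ (by positivity)]
    have h7 : V ^ 2 * (⌈D0⌉₊ + 1) ≤ P.card := by omega
    have h8 : (V : ℝ) ^ 2 * ((⌈D0⌉₊ : ℝ) + 1) ≤ P.card := by exact_mod_cast h7
    linarith
  have hD0 : D0 ≤ D := by
    have := Nat.le_ceil D0
    linarith
  have hD1 : 1 ≤ D := by
    have : (0 : ℝ) ≤ (⌈D0⌉₊ : ℝ) := Nat.cast_nonneg _
    linarith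
  have hVbB : b1 * D ≤ (V : ℝ) * c.bB := by
    have h9 : P.card < (c.bB + 1) * (β * V) ^ 3 := by
      have h10 := Nat.div_add_mod P.card ((β * V) ^ 3)
      have h11 := Nat.mod_lt P.card hβVpos
      have h11' : c.bB = P.card / (β * V) ^ 3 := rfl
      rw [h11', Nat.add_mul, one_mul, Nat.mul_comm]
      omega
    have h12 : (P.card : ℝ) ≤ (2 * c.bB) * (β * V) ^ 3 := by
      have h13 : P.card ≤ (2 * c.bB) * (β * V) ^ 3 :=
        h9.le.trans (Nat.mul_le_mul_right _ (by omega))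
      exact_mod_cast h13
    rw [hb1, hD, one_div, inv_mul_eq_div, div_div, div_le_iff₀ (by positivity)]
    calc (P.card : ℝ) ≤ (2 * c.bB) * (β * V) ^ 3 := h12
      _ = (V : ℝ) * c.bB * ((V : ℝ) ^ 2 * (2 * (β : ℝ) ^ 3)) := by ring
  -- exceptional sets
  have hap : ∀ J ∈ wins c.Cf, ((c.Ex J).card : ℝ) ≤ 448 / ρ * c.bV := by
    intro J hJ
    have h14 := c.ex_card hκbB hbB1 hbV (by rw [hrho]; exact hρ16) hJ
      (fun A _ d => ap c.hP J.1 J.2 d)
    rw [hrho] at h14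
    rw [div_mul_eq_mul_div, le_div_iff₀ hρ0]
    exact h14
  have hsum := c.sum_Hg hkV (448 / ρ) hap (by positivity)
    (by
      show lam3 * ε1 ≤ c2 / 16
      rw [hε1]
      apply le_of_eq
      field_simp)
    (by
      show Cw * lam1 * lam2 * (448 / ρ) ≤ c2 / 16
      exact hρB)
  have hGV := c.GV_card hsum
  have hc9e : c.c9 = c9 := by rw [hc9]; rfl
  have hc10e : c.c10 = c10 := by
    rw [hc10]
    unfold BCtx.c10
    rw [hc9e]
  obtain ⟨t, ht⟩ := hfin P c.G2 D hP c.G2_sub hcard_pos hD0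
    (by
      have := c.card_G2 hbV1 (by rw [hcN, ← hD]; exact hD1)
      rw [hD]
      exact this)
    (by
      have := c.crs_G2 hbV1
      rw [hD]
      exact this)
    c.GV (fun v hv => c.mem_GV_P hv) hGV c.St
    (fun v hv t ht => c.St_edges hbV1 hv ht)
    (by
      intro v hv
      have h15 := c.WT_card (min_le_left _ _) (by rw [hc9e]; exact min_le_right _ _) hv
      rw [hc10e] at h15
      have h16 : ((c.WT v).card : ℝ) * (c.bB : ℝ) ^ 3 ≤ ((c.St v).card : ℝ) := by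
        exact_mod_cast c.St_card v
      refine le_trans ?_ h16
      calc c10 * b1 ^ 3 * D ^ 3 = c10 * (b1 * D) ^ 3 := by ring
        _ ≤ c10 * ((V : ℝ) * c.bB) ^ 3 := by
            apply mul_le_mul_of_nonneg_left _ hc100.le
            exact pow_le_pow_left₀ (by positivity) hVbB 3
        _ = (c10 * (V : ℝ) ^ 3) * (c.bB : ℝ) ^ 3 := by ring
        _ ≤ ((c.WT v).card : ℝ) * (c.bB : ℝ) ^ 3 :=
            mul_le_mul_of_nonneg_right h15 (by positivity))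
    (by
      intro v hv
      have h17 := c.right_deg hκbB hbB1 hbV (by rw [hrho]; exact hρ16) hv
      rw [hrho] at h17
      refine le_trans ?_ h17
      show c2 / (16 * (lam1 * lam2)) * (ρ / 16) * b1 * D ≤
        c2 / (16 * (lam1 * lam2)) * (V : ℝ) * (ρ * (c.bB : ℝ) / 16)
      calc c2 / (16 * (lam1 * lam2)) * (ρ / 16) * b1 * D
          = (c2 / (16 * (lam1 * lam2)) * (ρ / 16)) * (b1 * D) := by ring
        _ ≤ (c2 / (16 * (lam1 * lam2)) * (ρ / 16)) * ((V : ℝ) * c.bB) :=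
            mul_le_mul_of_nonneg_left hVbB (by positivity)
        _ = _ := by ring)
  rw [hD] at ht
  refine ⟨_, _, c.final_of_triple c5 ?_ t ht⟩
  show 0 < c5 * ((P.card : ℝ) / (V : ℝ) ^ 2)
  rw [← hD]
  have : 0 < D := by linarith
  positivity

end Crest.Agent.R51.Quad
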