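import Crest.Agent.R51.Red7
import Crest.Agent.R51.Iface

/-! # Row 51: `CoreProp → S0070` (interface form) -/

set_option autoImplicit false

noncomputable section

open Classical

namespace Crest.Agent.R51

theorem core_of_coreProp (H : CoreProp) : Core := by
  intro c₀ hc V₁
  obtain ⟨Vmax, N₀, h⟩ := H c₀ hc (max V₁ 1) (le_max_right _ _)
  refine ⟨Vmax, N₀, ?_⟩
  intro P hP k hN
  obtain ⟨V, h1, h2, h3⟩ := h P hP k hN
  refine ⟨V, (le_max_left _ _).trans h1, h2, ?_⟩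
  unfold Tight at h3
  rw [not_le, nearR_eq (by positivity)] at h3
  have hfl : ⌊(P.card : ℝ) / (V : ℝ) ^ 3⌋₊ = P.card / V ^ 3 := by
    have := Nat.floor_div_eq_div (K := ℝ) P.card (V ^ 3)
    rw [← this]
    push_cast
    rfl
  rw [hfl] at h3
  calc ((nearAll P k (P.card / V ^ 3)).card : ℝ)
      < c₀ * (P.card : ℝ) ^ 2 / (V : ℝ) ^ 2 := h3
    _ = c₀ * ((P.card : ℝ) ^ 2 / (V : ℝ) ^ 2) := by ring

/-- **S0070 (verbatim) from the core theorem in interface form.** -/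
theorem S0070_of_coreProp (H : CoreProp) :
    ∃ ε₀ : ℝ, 0 < ε₀ ∧ ∃ C₀ : ℝ, ∀ n : ℕ, 2 ≤ n → ∀ k : ℕ, 1 ≤ k → 2 * k ≤ n →
      ∀ Q : Finset (ℝ × ℝ), Q.card = n →
        (∀ p ∈ Q, ∀ q ∈ Q, ∀ r ∈ Q, p ≠ q → p ≠ r → q ≠ r →
          (q.1 - p.1) * (r.2 - p.2) - (q.2 - p.2) * (r.1 - p.1) ≠ 0) →
        (((Q.powersetCard k).filter (fun S => ∃ a b c : ℝ, (a ≠ 0 ∨ b ≠ 0) ∧
            (∀ p ∈ S, a * p.1 + b * p.2 + c < 0) ∧
            (∀ p ∈ Q, p ∉ S → 0 < a * p.1 + b * p.2 + c))).card : ℝ)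
          ≤ C₀ * (n : ℝ) * ((k : ℝ) + 1) ^ ((1 : ℝ) / 3 - ε₀) := by
  obtain ⟨ε₀, hε, C₀, h⟩ := S0070_of_core (core_of_coreProp H)
  exact ⟨ε₀, hε, C₀, fun n hn k hk hkn Q hQ _ => h n hn k hk hkn Q hQ⟩

end Crest.Agent.R51
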