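import Crest.Agent.R51.WalkAss
import Crest.Agent.R51.Walk51
import Crest.Agent.R51.Loc7
import Crest.Agent.R51.WalkI38
import Crest.Agent.R51.WinFin
import Crest.Agent.R51.WinSysB
import Crest.Agent.R51.TrimI
import Crest.Agent.R51.WalkRob
import Crest.Agent.R51.LacPts2
import Crest.Agent.R51.BridgeB6
import Crest.Agent.R51.Quad5
import Crest.Agent.R51.NoFinalDone
import Crest.Agent.R51.Red8

/-!
# Row 51: the core theorem (final assembly: helper169)

`HExists` (sections B3, B4, B5, 7.1-7.4), `FinalExists` (section B6) and `NoFinal` (sections 7.5,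
B8, B9) give `CoreProp`; section B10 (`S0070_of_coreProp`) gives the statement.
-/

set_option autoImplicit false

namespace Crest.Agent.R51

/-- **the core theorem**: no configuration is tight at all scales -/
theorem coreProp : CoreProp :=
  core_of
    (hExists_of (Cw := 2433) (by norm_num) iw1_of i51 i2 i3 i4 i5 i6 i7 i8 i53 i54 i74)
    (finalExists_of_B6 Quad.b6) noFinal

end Crest.Agent.R51
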