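import Crest.Agent.R51.NoFinalOf
import Crest.Agent.R51.AddMain

/-!
# Row 51: `NoFinal` from 7.5 (`GoodHalf`), with the additive theorem ADD (helper377, helper635, ...)
plugged in (helper417)
-/

set_option autoImplicit false

noncomputable section

open Classical Finset

namespace Crest.Agent.R51

theorem addProp : ADDProp := by
  intro C η hC hη
  obtain ⟨mu0, h⟩ := Add.ADD C η hC hη
  refine ⟨mu0, fun mu hmu => ?_⟩
  obtain ⟨N1, N0, h2⟩ := h mu hmu
  exact ⟨N1, N0, fun n1 n0 h3 h4 h5 R _ α w wl G h6 h7 h8 =>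
    h2 n1 n0 h3 h4 h5 R α w wl G h6 h7 h8⟩

/-- **7.5 implies `NoFinal`** -/
theorem noFinal_of_goodHalf (hG : GoodHalf) : NoFinal := noFinal_of hG addProp

end Crest.Agent.R51
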