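import Crest.Agent.R51.NoFinalWin

/-!
# Row 51, section B8: `NoFinal` from 7.5 (`GoodHalf`) and the additive theorem (`ADDProp`)
(helper417)
-/

set_option autoImplicit false

noncomputable section

open Classical Finset

namespace Crest.Agent.R51

/-- **the contradiction** : 7.5 + ADD exclude the final configuration -/
theorem noFinal_of (hG : GoodHalf) (hADD : ADDProp) : NoFinal := by
  intro a ha K1 hK1 be hbe e1 he1 c5 hc5
  obtain ⟨d8, hd8, mu1, h1⟩ := hG a ha e1 he1 c5 hc5
  have hlam : 1 ≤ a.lam3 := ha.lam3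
  obtain ⟨mu2, h2⟩ := ceva_main hADD (7 * a.lam3 + K1 + 7) (c5 / 2) (1 / 200) (by linarith)
    (by norm_num)
  refine ⟨d8, hd8, max 2 (max mu1 mu2), fun mu hmu => ?_⟩
  have hmu1 : mu1 ≤ mu := by omega
  have hmu2 : mu2 ≤ mu := by omega
  have hmu0 : 1 ≤ mu := by omega
  obtain ⟨N1, N0, h3⟩ := h2 mu hmu2
  refine ⟨max 200 N1, fun n2 hn2 => ⟨max N0 (8 * n2), fun n0 hn0 => ⟨1, fun Vp hVp =>
    ⟨1, fun P hP hPc k W H d1 p R hs hf => ?_⟩⟩⟩⟩
  obtain ⟨R', hR', hcard, hR'2⟩ := h1 mu hmu1 n2 n0 be Vp K1 d1 P k W H p R hP (by omega)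
    (by omega) hVp hs hf
  have hV : (0 : ℝ) < (lev mu n0 be n0 : ℝ) := by
    exact_mod_cast NF.lev_pos (be := be) hmu0 (le_refl n0)
  have hPpos : (0 : ℝ) < (P.card : ℝ) := by exact_mod_cast hPc
  have hVeq : (lev mu n0 be n0 : ℝ) = ((mu : ℝ) ^ 10) ^ n0 := NF.lev_cast le_rfl
  have hDpos : 0 < (P.card : ℝ) / (lev mu n0 be n0 : ℝ) ^ 2 := by positivity
  set D : ℝ := (P.card : ℝ) / (lev mu n0 be n0 : ℝ) ^ 2 with hD
  refine h3 (2 * n2) n0 (by omega) (by omega) (by omega) D p R' W.cuts
    (fun v => goodLevs W mu n2 n0 a.lam3 (sl (p 0) (p 1)) (sl (p 0) (p 2)) (p 0)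
        (sl (p 0) v)) ?_
  have hC7 : (7 : ℝ) ≤ 7 * a.lam3 + K1 + 7 := by linarith
  have hCK : K1 ≤ 7 * a.lam3 + K1 + 7 := by linarith
  have hCl : 7 * a.lam3 ≤ 7 * a.lam3 + K1 + 7 := by linarith
  have hCl' : a.lam3 ≤ 7 * a.lam3 + K1 + 7 := by linarith
  have hpne : ∀ i j : Fin 3, i ≠ j → p i ≠ p j := fun i j hij h => hij (hf.inj h)
  refine
    { D_pos := hDpos
      card := ?_
      xne := fun i j hij => hP.x_ne (hf.memP i) (hf.memP j) (hpne i j hij)
      xv := fun v hv i => (hf.left v (hR' hv) i).ne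
      ab := ?_
      sv := ?_
      A1 := ?_
      A2 := ?_
      A3 := ?_
      G_sub := ?_
      block := ?_
      fibre := ?_
      labels := ?_ }
  · have e1 : (R.card : ℝ) ≤ 2 * (R'.card : ℝ) := by exact_mod_cast hcard
    have e2 := hf.big
    rw [← hD] at e2
    linarith
  · intro i
    have i1 : i ≠ i + 1 := by fin_cases i <;> decide
    have i2 : i ≠ i + 2 := by fin_cases i <;> decide
    have i3 : i + 1 ≠ i + 2 := by fin_cases i <;> decide
    exact NF.sl_ne_of_ne hP (hf.memP _) (hf.memP _) (hf.memP _) (hpne _ _ i1) (hpne _ _ i2)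
      (hpne _ _ i3)
  · intro v hv i j hij
    have hvi : p i ≠ v := fun h => by
      have := hf.left v (hR' hv) i
      rw [h] at this
      exact lt_irrefl _ this
    have hvj : v ≠ p j := fun h => by
      have := hf.left v (hR' hv) j
      rw [← h] at this
      exact lt_irrefl _ this
    exact NF.sl_ne_of_ne hP (hf.memP _) (hf.sub (hR' hv)) (hf.memP _) hvi (hpne _ _ hij) hvj
  · intro i
    rcases R'.eq_empty_or_nonempty with h0 | ⟨v, hv⟩
    · rw [h0]
      simp only [Finset.image_empty, Finset.card_empty, Nat.cast_zero]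
      positivity
    · have := NF.labels_le hPc hVp hmu0 (by omega) he1 ha hs hf i (le_refl n0)
        (NF.not_T6_p hPc hVp hmu0 he1 hs hf (hR' hv) i) hR'
      rw [hVeq] at this
      refine this.trans (mul_le_mul_of_nonneg_right hCl' (by positivity))
  · intro i x
    have := NF.fibre_le hf hmu0 i x hR'
    rw [← hD] at this
    rw [← hVeq]
    exact this.trans (mul_le_mul_of_nonneg_right hC7 hDpos.le)
  · intro i j hij x y
    have := NF.fibre2_le hf hmu0 hK1 hij x y hR'
    rw [← hD] at this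
    rw [← hVeq]
    exact this.trans (mul_le_mul_of_nonneg_right hCK hDpos.le)
  · intro v hv
    constructor
    · intro j hj
      unfold goodLevs at hj
      rw [Finset.mem_filter, Finset.mem_Ioc] at hj
      rw [Finset.mem_Icc]
      omega
    · have := (hR'2 v hv).2
      have h5 : ((2 * n2 : ℕ) : ℝ) ≤ 200 * ((goodLevs W mu n2 n0 a.lam3 (sl (p 0) (p 1))
        (sl (p 0) (p 2)) (p 0) (sl (p 0) v)).card : ℝ) := by exact_mod_cast this
      linarith
  · intro v hv j hj
    unfold goodLevs at hj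
    rw [Finset.mem_filter, Finset.mem_Ioc] at hj
    exact NF.sideBlock_of_good hf (hR' hv) (hR'2 v hv).1 (by omega) (by omega) hj.2
  · intro v hv j hj
    unfold goodLevs at hj
    rw [Finset.mem_filter, Finset.mem_Ioc] at hj
    have := NF.fibre_coarse_le hPc hVp hmu0 (by omega) he1 ha hs hf 0 (l := j - 1) (by omega)
      (hR' hv) hj.2.nt7 hR'
    rw [← hD, NF.lev_cast (by omega)] at this
    exact this.trans (mul_le_mul_of_nonneg_right hCl hDpos.le)
  · intro v hv j hj
    unfold goodLevs at hj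
    rw [Finset.mem_filter, Finset.mem_Ioc] at hj
    have := NF.labels_le hPc hVp hmu0 (by omega) he1 ha hs hf 0 (l := j) (by omega) hj.2.nt6 hR'
    rw [NF.lev_cast (by omega)] at this
    refine this.trans (mul_le_mul_of_nonneg_right hCl' (by positivity))

end Crest.Agent.R51
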