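import Crest.Agent.R51.HSys
import Crest.Agent.R51.GoodDefs
import Crest.Agent.R51.CevaMain

/-!
# Row 51, section B8: windows of directions; consequences of the final configuration (helper417)
-/

set_option autoImplicit false

noncomputable section

open Classical Finset

namespace Crest.Agent.R51.NF

/-! ### generic facts on slopes -/

lemma sl_ne_of_ne {P : Finset Pt} (hG : Generic P) {p q r : Pt} (hp : p ∈ P) (hq : q ∈ P)
    (hr : r ∈ P) (hpq : p ≠ q) (hpr : p ≠ r) (hqr : q ≠ r) : sl p q ≠ sl p r := by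
  intro h
  have h1 : mk p q ∈ pairs P := mk_mem_pairs_iff.2 ⟨hp, hq, hG.x_ne hp hq hpq⟩
  have h2 : mk p r ∈ pairs P := mk_mem_pairs_iff.2 ⟨hp, hr, hG.x_ne hp hr hpr⟩
  have h3 : esl (mk p q) = esl (mk p r) := by rw [esl_mk, esl_mk, h]
  have h4 := hG.esl_inj h1 h2 h3
  unfold mk at h4
  split_ifs at h4 with a1 a2 a2
  · exact hqr (congrArg Prod.snd h4)
  · exact hpr (congrArg Prod.fst h4 |>.trans rfl)
  · exact hpq (congrArg Prod.fst h4).symm
  · exact hqr (congrArg Prod.fst h4)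

/-! ### windows of a direction -/

section win

variable {P : Finset Pt} {k : ℕ} {V : ℕ → ℕ} {L : ℕ} {Cw : ℝ} (W : WSys P k V L Cw)

/-- admissible directions: between `lo` and `hi`, not a cut -/
def Adm (θ : ℝ) : Prop := W.lo < θ ∧ θ < W.hi ∧ ∀ l ≤ L, θ ∉ W.cuts l

lemma adm_of_pair {e : Edge} (he : e ∈ pairs P) : Adm W (esl e) :=
  ⟨W.lo_lt_slope e he, W.slope_lt_hi e he, fun l hl h => W.nons l hl _ h e he rfl⟩

variable {W}

lemma J_spec {l : ℕ} (hl : l ≤ L) {θ : ℝ} (h : Adm W θ) :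
    W.J l θ ∈ wins (W.cuts l) ∧ (W.J l θ).1 < θ ∧ θ < (W.J l θ).2 :=
  winOf_spec (exists_win (W.sub 0 l (Nat.zero_le l) hl W.lo_mem)
    (W.sub 0 l (Nat.zero_le l) hl W.hi_mem) h.1 h.2.1 (h.2.2 l hl))

lemma J_nest {l l' : ℕ} (hll : l ≤ l') (hl : l' ≤ L) {θ : ℝ} (h : Adm W θ) :
    (W.J l θ).1 ≤ (W.J l' θ).1 ∧ (W.J l' θ).2 ≤ (W.J l θ).2 := by
  obtain ⟨a1, a2, a3⟩ := J_spec (hll.trans hl) h
  obtain ⟨b1, b2, b3⟩ := J_spec hl h
  rw [mem_wins] at a1 b1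
  constructor
  · by_contra hcon
    rw [not_le] at hcon
    exact b1.2.2.2 _ (W.sub l l' hll hl a1.1) ⟨hcon, a2.trans b3⟩
  · by_contra hcon
    rw [not_le] at hcon
    exact b1.2.2.2 _ (W.sub l l' hll hl a1.2.1) ⟨b2.trans a3, hcon⟩

lemma J_eq_of_fine {l l' : ℕ} (hll : l ≤ l') (hl : l' ≤ L) {θ θ' : ℝ} (h : Adm W θ)
    (h' : Adm W θ') (hJ : W.J l' θ = W.J l' θ') : W.J l θ = W.J l θ' := by
  obtain ⟨a1, a2, a3⟩ := J_spec (hll.trans hl) h
  obtain ⟨b1, b2, b3⟩ := J_spec (hll.trans hl) h'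
  obtain ⟨c1, c2⟩ := J_nest hll hl h
  obtain ⟨d1, d2, d3⟩ := J_spec hl h'
  rw [← hJ] at d2 d3
  exact win_unique a1 b1 (c1.trans_lt d2) (d3.trans_le c2) b2 b3

lemma lab_eq_iff {l : ℕ} (hl : l ≤ L) {θ θ' : ℝ} (h : Adm W θ) (h' : Adm W θ') :
    lab (W.cuts l) θ = lab (W.cuts l) θ' ↔ W.J l θ = W.J l θ' :=
  widx_eq_iff_winOf (W.sub 0 l (Nat.zero_le l) hl W.lo_mem)
    (W.sub 0 l (Nat.zero_le l) hl W.hi_mem) h.1 h.2.1 h'.1 h'.2.1 (h.2.2 l hl) (h'.2.2 l hl)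

/-- the label of a direction is the label of the left end of its window -/
lemma lab_left {l : ℕ} (hl : l ≤ L) {θ : ℝ} (h : Adm W θ) :
    lab (W.cuts l) θ = lab (W.cuts l) (W.J l θ).1 := by
  obtain ⟨a1, a2, a3⟩ := J_spec hl h
  rw [mem_wins] at a1
  symm
  apply lab_eq_of_no_cut a2.le
  rintro c hc ⟨h1, h2⟩
  exact a1.2.2.2 c hc ⟨h1, h2.trans_lt a3⟩

lemma card_lab_le {l : ℕ} (hl : l ≤ L) (R : Finset Pt) (f : Pt → ℝ) (q : Pt)
    (hf : ∀ v ∈ R, Adm W (f v)) (hq : ∀ v ∈ R, q ∈ W.A l (W.J l (f v))) :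
    #(R.image (fun v => lab (W.cuts l) (f v))) ≤ #(W.act l q) := by
  have hsub : R.image (fun v => lab (W.cuts l) (f v)) ⊆
      (W.act l q).image (fun J => lab (W.cuts l) J.1) := by
    intro x hx
    obtain ⟨v, hv, rfl⟩ := Finset.mem_image.1 hx
    refine Finset.mem_image.2 ⟨W.J l (f v), ?_, (lab_left hl (hf v hv)).symm⟩
    unfold WSys.act
    rw [Finset.mem_filter]
    exact ⟨(J_spec hl (hf v hv)).1, hq v hv⟩
  exact (Finset.card_le_card hsub).trans Finset.card_image_le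

end win

/-! ### level widths -/

lemma bb_anti {N V V' : ℕ} (hV : 1 ≤ V) (h : V ≤ V') : bb N V' ≤ bb N V := by
  unfold bb
  exact Nat.div_le_div_left (Nat.pow_le_pow_left h 3) (by positivity)

lemma bb_le (N V : ℕ) : (bb N V : ℝ) ≤ N / (V : ℝ) ^ 3 := by
  unfold bb
  have := @Nat.cast_div_le ℝ _ _ _ N (V ^ 3)
  push_cast at this
  exact this

lemma lev_of_le {mu n0 be l : ℕ} (h : l ≤ n0) : lev mu n0 be l = mu ^ (10 * l) := if_pos h

lemma lev_succ {mu n0 be : ℕ} : lev mu n0 be (n0 + 1) = be * mu ^ (10 * n0) := by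
  unfold lev
  rw [if_neg (by omega)]

lemma lev_cast {mu n0 be l : ℕ} (h : l ≤ n0) :
    (lev mu n0 be l : ℝ) = ((mu : ℝ) ^ 10) ^ l := by
  rw [lev_of_le h, ← pow_mul]
  push_cast
  rfl

lemma lev_pos {mu n0 be l : ℕ} (hmu : 1 ≤ mu) (h : l ≤ n0) : 1 ≤ lev mu n0 be l := by
  rw [lev_of_le h]
  exact Nat.one_le_pow _ _ hmu

lemma lev_mono {mu n0 be l l' : ℕ} (hmu : 1 ≤ mu) (hll : l ≤ l') (h : l' ≤ n0) :
    lev mu n0 be l ≤ lev mu n0 be l' := by
  rw [lev_of_le h, lev_of_le (hll.trans h)]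
  exact Nat.pow_le_pow_right hmu (by omega)

lemma lev_le_succ {mu n0 be : ℕ} (hbe : 1 ≤ be) :
    lev mu n0 be n0 ≤ lev mu n0 be (n0 + 1) := by
  rw [lev_succ, lev_of_le le_rfl]
  exact Nat.le_mul_of_pos_left _ hbe

/-! ### consequences of `HSystem` and `FinalCfg` -/

section cfg

variable {P : Finset Pt} {k mu n2 n0 be Vp : ℕ} {a : Cst} {K1 d1 d8 e1 c5 : ℝ}
  {W : WSys P k (lev mu n0 be) (n0 + 1) a.Cw} {H : Finset Walk} {p : Fin 3 → Pt} {R : Finset Pt}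

lemma adm_v (hf : FinalCfg mu n0 be Vp a K1 e1 c5 W H p R) {v : Pt} (hv : v ∈ R) (i : Fin 3) :
    Adm W (sl (p i) v) := by
  have he : ((p i, v) : Edge) ∈ pairs P := mem_pairs.2 ⟨hf.memP i, hf.sub hv, hf.left v hv i⟩
  exact adm_of_pair W he

/-- an element of `H` from `p i` in the finest window of `slope (p_i v)` -/
lemma exists_walk (hP : 1 ≤ P.card) (hVp : 1 ≤ Vp) (hmu : 1 ≤ mu) (he1 : 0 < e1)
    (hs : HSystem mu n2 n0 be Vp a K1 d1 d8 W H)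
    (hf : FinalCfg mu n0 be Vp a K1 e1 c5 W H p R) {v : Pt} (hv : v ∈ R) (i : Fin 3) :
    ∃ z ∈ H, z.1 = p i ∧ Adm W (esl (lastE z)) ∧
      W.J n0 (esl (lastE z)) = W.J n0 (sl (p i) v) := by
  have h1 := hf.alive v hv i
  have h2 : (0 : ℝ) < (lev mu n0 be n0 : ℝ) := by
    exact_mod_cast lev_pos (be := be) hmu (le_refl n0)
  have h3 : (0 : ℝ) < (P.card : ℝ) := by exact_mod_cast hP
  have h4 : (0 : ℝ) < (Vp : ℝ) := by exact_mod_cast hVp
  have h5 : 0 < e1 * ((P.card : ℝ) / (Vp : ℝ) ^ 2) ^ 2 / (lev mu n0 be n0 : ℝ) := by positivity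
  have h6 : (0 : ℝ) < (((fib H (p i)).filter
      (fun e => W.J n0 (esl e) = W.J n0 (sl (p i) v))).card : ℝ) := lt_of_lt_of_le h5 h1
  have h7 : 0 < ((fib H (p i)).filter
      (fun e => W.J n0 (esl e) = W.J n0 (sl (p i) v))).card := by exact_mod_cast h6
  obtain ⟨e, he⟩ := Finset.card_pos.1 h7
  rw [Finset.mem_filter, mem_fib] at he
  refine ⟨(p i, e.1, e.2), he.1, rfl, ?_, ?_⟩
  · have h8 := mem_T0' (hs.sub he.1)
    exact adm_of_pair W (e := lastE (p i, e.1, e.2))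
      (mem_pairs.2 ⟨h8.2.1, h8.2.2.1, h8.2.2.2.2.1⟩)
  · exact he.2

lemma central_of_mem (hmu : 1 ≤ mu) (hbe : 1 ≤ be) (ha : a.Good)
    (hs : HSystem mu n2 n0 be Vp a K1 d1 d8 W H) {z : Walk} (hz : z ∈ H) {l : ℕ} (hl : l ≤ n0) :
    Central P k (bb P.card (lev mu n0 be l)) (esl (lastE z)) z.1 := by
  refine (hs.t2 z hz).mono ?_
  have h1 : bb P.card (lev mu n0 be (n0 + 1)) ≤ bb P.card (lev mu n0 be l) :=
    bb_anti (lev_pos hmu hl) ((lev_mono hmu hl le_rfl).trans (lev_le_succ hbe))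
  refine le_trans ?_ h1
  apply Nat.floor_le_of_le
  have h2 : (0 : ℝ) ≤ (bb P.card (lev mu n0 be (n0 + 1)) : ℝ) := by positivity
  have := ha.kap_le
  nlinarith

/-- `p i` is active at every level `l ≤ n0` in the window of `slope (p_i v)` -/
lemma act_p (hP : 1 ≤ P.card) (hVp : 1 ≤ Vp) (hmu : 1 ≤ mu) (hbe : 1 ≤ be) (he1 : 0 < e1)
    (ha : a.Good) (hs : HSystem mu n2 n0 be Vp a K1 d1 d8 W H)
    (hf : FinalCfg mu n0 be Vp a K1 e1 c5 W H p R) {v : Pt} (hv : v ∈ R) (i : Fin 3) {l : ℕ}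
    (hl : l ≤ n0) : p i ∈ W.A l (W.J l (sl (p i) v)) := by
  obtain ⟨z, hz, h1, h2, h3⟩ := exists_walk hP hVp hmu he1 hs hf hv i
  have h4 := central_of_mem hmu hbe ha hs hz hl
  rw [h1] at h4
  have h5 : W.J l (esl (lastE z)) = W.J l (sl (p i) v) :=
    J_eq_of_fine hl (by omega) h2 (adm_v hf hv i) h3
  obtain ⟨b1, b2, b3⟩ := J_spec (l := l) (by omega) h2
  rw [h5] at b2 b3
  exact mem_cen.2 ⟨hf.memP i, esl (lastE z), b2, b3, h4⟩

lemma not_T6_p (hP : 1 ≤ P.card) (hVp : 1 ≤ Vp) (hmu : 1 ≤ mu) (he1 : 0 < e1)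
    (hs : HSystem mu n2 n0 be Vp a K1 d1 d8 W H)
    (hf : FinalCfg mu n0 be Vp a K1 e1 c5 W H p R) {v : Pt} (hv : v ∈ R) (i : Fin 3) :
    ¬ W.T6 a.lam3 n0 (p i) := by
  obtain ⟨z, hz, h1, -, -⟩ := exists_walk hP hVp hmu he1 hs hf hv i
  have := hs.t6 z hz
  rwa [h1] at this

/-- number of labels -/
lemma labels_le (hP : 1 ≤ P.card) (hVp : 1 ≤ Vp) (hmu : 1 ≤ mu) (hbe : 1 ≤ be) (he1 : 0 < e1)
    (ha : a.Good) (hs : HSystem mu n2 n0 be Vp a K1 d1 d8 W H)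
    (hf : FinalCfg mu n0 be Vp a K1 e1 c5 W H p R) (i : Fin 3) {l : ℕ} (hl : l ≤ n0)
    (h6 : ¬ W.T6 a.lam3 l (p i)) {R' : Finset Pt} (hR' : R' ⊆ R) :
    (#(R'.image (fun v => lab (W.cuts l) (sl (p i) v))) : ℝ) ≤ a.lam3 * lev mu n0 be l := by
  have h1 := card_lab_le (W := W) (l := l) (by omega) R' (fun v => sl (p i) v) (p i)
    (fun v hv => adm_v hf (hR' hv) i)
    (fun v hv => act_p hP hVp hmu hbe he1 ha hs hf (hR' hv) i hl)
  unfold WSys.T6 at h6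
  rw [not_lt] at h6
  refine le_trans ?_ h6
  exact_mod_cast h1

/-- fibres at the finest level -/
lemma fibre_le (hf : FinalCfg mu n0 be Vp a K1 e1 c5 W H p R) (hmu : 1 ≤ mu) (i : Fin 3) (x : ℕ)
    {R' : Finset Pt} (hR' : R' ⊆ R) :
    (#(R'.filter (fun v => lab (W.cuts n0) (sl (p i) v) = x)) : ℝ) * lev mu n0 be n0 ≤
      7 * (P.card / (lev mu n0 be n0 : ℝ) ^ 2) := by
  have hV : (0 : ℝ) < (lev mu n0 be n0 : ℝ) := by
    exact_mod_cast lev_pos (be := be) hmu (le_refl n0)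
  have key : #(R'.filter (fun v => lab (W.cuts n0) (sl (p i) v) = x)) ≤
      7 * bb P.card (lev mu n0 be n0) := by
    rcases (R'.filter (fun v => lab (W.cuts n0) (sl (p i) v) = x)).eq_empty_or_nonempty with h | h
    · rw [h]; simp
    · obtain ⟨v0, hv0⟩ := h
      rw [Finset.mem_filter] at hv0
      have hJ := (J_spec (W := W) (l := n0) (by omega) (adm_v hf (hR' hv0.1) i)).1
      refine le_trans (Finset.card_le_card ?_) (W.cen_le n0 (by omega) _ hJ)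
      intro v hv
      rw [Finset.mem_filter] at hv
      have h1 := (lab_eq_iff (W := W) (l := n0) (by omega) (adm_v hf (hR' hv.1) i)
        (adm_v hf (hR' hv0.1) i)).1 (hv.2.trans hv0.2.symm)
      have h2 := hf.actv v (hR' hv.1) i
      rw [h1] at h2
      exact h2
  have h1 : (#(R'.filter (fun v => lab (W.cuts n0) (sl (p i) v) = x)) : ℝ) ≤
      7 * (P.card / (lev mu n0 be n0 : ℝ) ^ 3) := by
    have h2 := bb_le P.card (lev mu n0 be n0)
    have h3 : (#(R'.filter (fun v => lab (W.cuts n0) (sl (p i) v) = x)) : ℝ) ≤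
        7 * (bb P.card (lev mu n0 be n0) : ℝ) := by exact_mod_cast key
    linarith
  calc (#(R'.filter (fun v => lab (W.cuts n0) (sl (p i) v) = x)) : ℝ) * lev mu n0 be n0
      ≤ 7 * (P.card / (lev mu n0 be n0 : ℝ) ^ 3) * lev mu n0 be n0 :=
        mul_le_mul_of_nonneg_right h1 hV.le
    _ = 7 * (P.card / (lev mu n0 be n0 : ℝ) ^ 2) := by field_simp

/-- fibres of pairs of labels -/
lemma fibre2_le (hf : FinalCfg mu n0 be Vp a K1 e1 c5 W H p R) (hmu : 1 ≤ mu) (hK : 0 < K1)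
    {i j : Fin 3} (hij : i ≠ j) (x y : ℕ) {R' : Finset Pt} (hR' : R' ⊆ R) :
    (#(R'.filter (fun v => lab (W.cuts n0) (sl (p i) v) = x ∧
      lab (W.cuts n0) (sl (p j) v) = y)) : ℝ) * (lev mu n0 be n0 : ℝ) ^ 2 ≤
      K1 * (P.card / (lev mu n0 be n0 : ℝ) ^ 2) := by
  have hV : (0 : ℝ) < (lev mu n0 be n0 : ℝ) := by
    exact_mod_cast lev_pos (be := be) hmu (le_refl n0)
  have key : (#(R'.filter (fun v => lab (W.cuts n0) (sl (p i) v) = x ∧
      lab (W.cuts n0) (sl (p j) v) = y)) : ℝ) ≤ K1 * P.card / (lev mu n0 be n0 : ℝ) ^ 4 := by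
    rcases (R'.filter (fun v => lab (W.cuts n0) (sl (p i) v) = x ∧
      lab (W.cuts n0) (sl (p j) v) = y)).eq_empty_or_nonempty with h | h
    · rw [h]
      simp only [Finset.card_empty, Nat.cast_zero]
      positivity
    · obtain ⟨v0, hv0⟩ := h
      rw [Finset.mem_filter] at hv0
      refine le_trans ?_ (hf.nk v0 (hR' hv0.1) i j hij).2
      rw [Nat.cast_le]
      apply Finset.card_le_card
      intro v hv
      rw [Finset.mem_filter] at hv
      have h1 := (lab_eq_iff (W := W) (l := n0) (by omega) (adm_v hf (hR' hv.1) i)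
        (adm_v hf (hR' hv0.1) i)).1 (hv.2.1.trans hv0.2.1.symm)
      have h2 := (lab_eq_iff (W := W) (l := n0) (by omega) (adm_v hf (hR' hv.1) j)
        (adm_v hf (hR' hv0.1) j)).1 (hv.2.2.trans hv0.2.2.symm)
      have h3 := hf.actv v (hR' hv.1) i
      have h4 := hf.actv v (hR' hv.1) j
      rw [h1] at h3
      rw [h2] at h4
      unfold WSys.cc
      rw [Finset.mem_filter]
      exact ⟨hf.sub (hR' hv.1), h3, h4, hf.t6 v (hR' hv.1)⟩
  calc (#(R'.filter (fun v => lab (W.cuts n0) (sl (p i) v) = x ∧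
        lab (W.cuts n0) (sl (p j) v) = y)) : ℝ) * (lev mu n0 be n0 : ℝ) ^ 2
      ≤ K1 * P.card / (lev mu n0 be n0 : ℝ) ^ 4 * (lev mu n0 be n0 : ℝ) ^ 2 :=
        mul_le_mul_of_nonneg_right key (by positivity)
    _ = K1 * (P.card / (lev mu n0 be n0 : ℝ) ^ 2) := by field_simp

/-- fibres at a coarser level `l` without `(t7)_l` -/
lemma fibre_coarse_le (hP : 1 ≤ P.card) (hVp : 1 ≤ Vp) (hmu : 1 ≤ mu) (hbe : 1 ≤ be)
    (he1 : 0 < e1) (ha : a.Good) (hs : HSystem mu n2 n0 be Vp a K1 d1 d8 W H)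
    (hf : FinalCfg mu n0 be Vp a K1 e1 c5 W H p R) (i : Fin 3) {l : ℕ} (hl : l ≤ n0) {v0 : Pt}
    (hv0 : v0 ∈ R) (h7 : ¬ W.T7 a.lam3 n0 l (p i) (sl (p i) v0)) {R' : Finset Pt} (hR' : R' ⊆ R) :
    (#(R'.filter (fun u => lab (W.cuts l) (sl (p i) u) = lab (W.cuts l) (sl (p i) v0))) : ℝ) *
      lev mu n0 be l ≤ 7 * a.lam3 * (P.card / (lev mu n0 be n0 : ℝ) ^ 2) := by
  have hV : (0 : ℝ) < (lev mu n0 be n0 : ℝ) := by
    exact_mod_cast lev_pos (be := be) hmu (le_refl n0)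
  have hVl : (0 : ℝ) < (lev mu n0 be l : ℝ) := by
    exact_mod_cast lev_pos (be := be) hmu hl
  have hlam : 0 < a.lam3 := by linarith [ha.lam3]
  set I := W.J l (sl (p i) v0) with hI
  have hsub : R'.filter (fun u => lab (W.cuts l) (sl (p i) u) = lab (W.cuts l) (sl (p i) v0)) ⊆
      (W.actIn n0 I (p i)).biUnion (fun K => W.A n0 K) := by
    intro u hu
    rw [Finset.mem_filter] at hu
    have hau := adm_v hf (hR' hu.1) i
    have h1 := (lab_eq_iff (W := W) (l := l) (by omega) hau (adm_v hf hv0 i)).1 hu.2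
    rw [Finset.mem_biUnion]
    refine ⟨W.J n0 (sl (p i) u), ?_, hf.actv u (hR' hu.1) i⟩
    unfold WSys.actIn WSys.act
    rw [Finset.mem_filter, Finset.mem_filter]
    refine ⟨⟨(J_spec (W := W) (l := n0) (by omega) hau).1,
      act_p hP hVp hmu hbe he1 ha hs hf (hR' hu.1) i le_rfl⟩, ?_⟩
    have h2 := J_nest (W := W) hl (by omega) hau
    rw [h1] at h2
    exact h2
  have h1 : #(R'.filter (fun u => lab (W.cuts l) (sl (p i) u) = lab (W.cuts l) (sl (p i) v0))) ≤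
      #(W.actIn n0 I (p i)) * (7 * bb P.card (lev mu n0 be n0)) := by
    refine (Finset.card_le_card hsub).trans (Finset.card_biUnion_le_card_mul _ _ _ ?_)
    intro K hK
    unfold WSys.actIn WSys.act at hK
    rw [Finset.mem_filter, Finset.mem_filter] at hK
    exact W.cen_le n0 (by omega) K hK.1.1
  unfold WSys.T7 at h7
  rw [not_lt] at h7
  have h2 : (#(R'.filter (fun u => lab (W.cuts l) (sl (p i) u) =
      lab (W.cuts l) (sl (p i) v0))) : ℝ) ≤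
      (a.lam3 * ((lev mu n0 be n0 : ℝ) / (lev mu n0 be l : ℝ))) *
        (7 * (P.card / (lev mu n0 be n0 : ℝ) ^ 3)) := by
    have h3 : (#(R'.filter (fun u => lab (W.cuts l) (sl (p i) u) =
      lab (W.cuts l) (sl (p i) v0))) : ℝ) ≤
        (#(W.actIn n0 I (p i)) : ℝ) * (7 * (bb P.card (lev mu n0 be n0) : ℝ)) := by
      exact_mod_cast h1
    refine h3.trans ?_
    have h4 := bb_le P.card (lev mu n0 be n0)
    apply mul_le_mul h7 (by linarith) (by positivity) (by positivity)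
  calc (#(R'.filter (fun u => lab (W.cuts l) (sl (p i) u) =
        lab (W.cuts l) (sl (p i) v0))) : ℝ) * lev mu n0 be l
      ≤ (a.lam3 * ((lev mu n0 be n0 : ℝ) / (lev mu n0 be l : ℝ))) *
        (7 * (P.card / (lev mu n0 be n0 : ℝ) ^ 3)) * lev mu n0 be l :=
        mul_le_mul_of_nonneg_right h2 hVl.le
    _ = 7 * a.lam3 * (P.card / (lev mu n0 be n0 : ℝ) ^ 2) := by field_simp

/-- a good level gives a side block -/
lemma sideBlock_of_good (hf : FinalCfg mu n0 be Vp a K1 e1 c5 W H p R) {v : Pt} (hv : v ∈ R)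
    {x y : ℝ} (hns : NonSpec W x y (sl (p 0) v)) {j : ℕ} (hj : 2 ≤ j) (hj' : j ≤ n0)
    (hg : GoodLev W mu n0 a.lam3 x y (p 0) (sl (p 0) v) j) :
    SideBlock (W.cuts j) (W.cuts (j - 1)) x y ((mu : ℝ) ^ 11) (sl (p 0) v) := by
  have hadm := adm_v hf hv 0
  obtain ⟨l, r, hb⟩ := hg.blocks
  have hnd := hg.ndom
  have hnd' : ¬ (wtab x y l (W.J j (sl (p 0) v)).1 <
      (mu : ℝ) ^ 11 * wtab x y (W.J j (sl (p 0) v)).1 (W.J j (sl (p 0) v)).2 ∧
      wtab x y (W.J j (sl (p 0) v)).2 r <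
        (mu : ℝ) ^ 11 * wtab x y (W.J j (sl (p 0) v)).1 (W.J j (sl (p 0) v)).2) :=
    fun h => hnd ⟨l, r, hb, h.1, h.2⟩
  obtain ⟨b1, b2, b3, b4, b5, b6, -, -⟩ := hb
  obtain ⟨j1, j2, j3⟩ := J_spec (W := W) (l := j) (by omega) hadm
  obtain ⟨i1, i2, i3⟩ := J_spec (W := W) (l := j - 1) (by omega) hadm
  obtain ⟨m1, m2⟩ := J_nest (W := W) (l := j - 1) (l' := j) (by omega) (by omega) hadm
  obtain ⟨q1, q2⟩ := J_nest (W := W) (l := 1) (l' := j - 1) (by omega) (by omega) hadm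
  rw [mem_wins] at j1 i1
  refine ⟨(W.J (j - 1) (sl (p 0) v)).1, (W.J (j - 1) (sl (p 0) v)).2,
    (W.J j (sl (p 0) v)).1, (W.J j (sl (p 0) v)).2, m1, j2, j3, m2, j1.1, j1.2.1,
    i1.2.2.2, ?_, ?_, ?_⟩
  · rintro ⟨h1, h2⟩
    exact hns x (by simp [spec]) ⟨q1.trans h1, h2.trans q2⟩
  · rintro ⟨h1, h2⟩
    exact hns y (by simp [spec]) ⟨q1.trans h1, h2.trans q2⟩
  · rw [not_and_or, not_lt, not_lt] at hnd'
    unfold wtab at hnd'
    rcases hnd' with h | h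
    · right
      exact ⟨l, b5, b3.le, h⟩
    · left
      exact ⟨r, b4.le, b6, h⟩

end cfg

end Crest.Agent.R51.NF
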