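import Mathlib

/-!
# Planar bound for x-monotone drawings

`E ≤ 3 V` for a simple graph drawn with x-monotone curves without crossings.
Elementary charging proof (no topology besides IVT).
-/

set_option autoImplicit false

namespace Crest.Agent.R51

/-- A drawing by x-monotone curves: vertices `V` with distinct abscissae, edges `E`, with left and
right ends `l`, `r` and a curve `h e : ℝ → ℝ` (relevant on `[x (l e), x (r e)]`). -/
structure Drawing (V E : Type*) where
  x : V → ℝ
  y : V → ℝ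
  l : E → V
  r : E → V
  h : E → ℝ → ℝ
  inj : Function.Injective x
  lr : ∀ e, x (l e) < x (r e)
  cont : ∀ e, Continuous (h e)
  hl : ∀ e, h e (x (l e)) = y (l e)
  hr : ∀ e, h e (x (r e)) = y (r e)
  hv : ∀ e w, x (l e) < x w → x w < x (r e) → h e (x w) ≠ y w

namespace Drawing

variable {V E : Type*} (D : Drawing V E)

/-- the two curves meet at an abscissa interior to both. -/
def Cross (e f : E) : Prop :=
  ∃ t, D.x (D.l e) < t ∧ D.x (D.l f) < t ∧ t < D.x (D.r e) ∧ t < D.x (D.r f) ∧ D.h e t = D.h f t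

theorem Cross.symm {D : Drawing V E} {e f : E} (h : D.Cross e f) : D.Cross f e := by
  obtain ⟨t, h1, h2, h3, h4, h5⟩ := h
  exact ⟨t, h2, h1, h4, h3, h5.symm⟩

/-- no two edges have the same ends. -/
def Simple : Prop := ∀ e f, D.l e = D.l f → D.r e = D.r f → e = f

/-- no crossings. -/
def Plane : Prop := ∀ e f, e ≠ f → ¬ D.Cross e f

variable {D}

/-- sign constancy: `h e < h f` at `t'` (inside both, or at a right end) implies it at `t`. -/
theorem lt_of_lt (hp : D.Plane) {e f : E} {t t' : ℝ}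
    (h1 : D.x (D.l e) < t) (h2 : D.x (D.l f) < t) (h3 : t < D.x (D.r e)) (h4 : t < D.x (D.r f))
    (h1' : D.x (D.l e) < t') (h2' : D.x (D.l f) < t') (h3' : t' ≤ D.x (D.r e))
    (h4' : t' ≤ D.x (D.r f)) (hlt : D.h e t' < D.h f t') : D.h e t < D.h f t := by
  by_contra hcon
  push Not at hcon
  have hne : e ≠ f := by rintro rfl; exact lt_irrefl _ hlt
  set g : ℝ → ℝ := fun s => D.h f s - D.h e s with hg
  have hgc : Continuous g := (D.cont f).sub (D.cont e)
  have hgt : g t ≤ 0 := by simp only [hg]; linarith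
  have hgt' : 0 < g t' := by simp only [hg]; linarith
  have htt : t ≠ t' := by rintro rfl; linarith
  rcases lt_or_gt_of_ne htt with hlt1 | hlt1
  · -- t < t'
    obtain ⟨s, hs, hs0⟩ := intermediate_value_Icc hlt1.le hgc.continuousOn
      (show (0:ℝ) ∈ Set.Icc (g t) (g t') from ⟨hgt, hgt'.le⟩)
    have hst : s ≠ t' := by rintro rfl; linarith
    have hs2 : s < t' := lt_of_le_of_ne hs.2 hst
    refine hp e f hne ⟨s, lt_of_lt_of_le h1 hs.1, lt_of_lt_of_le h2 hs.1, lt_of_lt_of_le hs2 h3',
      lt_of_lt_of_le hs2 h4', ?_⟩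
    simp only [hg] at hs0; linarith
  · obtain ⟨s, hs, hs0⟩ := intermediate_value_Icc' hlt1.le hgc.continuousOn
      (show (0:ℝ) ∈ Set.Icc (g t) (g t') from ⟨hgt, hgt'.le⟩)
    refine hp e f hne ⟨s, lt_of_lt_of_le h1' hs.1, lt_of_lt_of_le h2' hs.1, lt_of_le_of_lt hs.2 h3,
      lt_of_le_of_lt hs.2 h4, ?_⟩
    simp only [hg] at hs0; linarith

/-- going left: if `h e < h f` at `t'`, then `h e ≤ h f` at any `t < t'` where both are defined. -/
theorem le_of_lt (hp : D.Plane) {e f : E} {t t' : ℝ} (htt : t < t')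
    (h1 : D.x (D.l e) ≤ t) (h2 : D.x (D.l f) ≤ t) (h3' : t' ≤ D.x (D.r e))
    (h4' : t' ≤ D.x (D.r f)) (hlt : D.h e t' < D.h f t') : D.h e t ≤ D.h f t := by
  by_contra hcon
  push Not at hcon
  have hne : e ≠ f := by rintro rfl; exact lt_irrefl _ hlt
  set g : ℝ → ℝ := fun s => D.h f s - D.h e s with hg
  have hgc : Continuous g := (D.cont f).sub (D.cont e)
  have hgt : g t < 0 := by simp only [hg]; linarith
  have hgt' : 0 < g t' := by simp only [hg]; linarith
  obtain ⟨s, hs, hs0⟩ := intermediate_value_Icc htt.le hgc.continuousOn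
      (show (0:ℝ) ∈ Set.Icc (g t) (g t') from ⟨hgt.le, hgt'.le⟩)
  have hst : s ≠ t' := by rintro rfl; linarith
  have hst' : s ≠ t := by rintro rfl; linarith
  have hs2 : s < t' := lt_of_le_of_ne hs.2 hst
  have hs1 : t < s := lt_of_le_of_ne hs.1 (Ne.symm hst')
  refine hp e f hne ⟨s, by linarith, by linarith, by linarith, by linarith, ?_⟩
  simp only [hg] at hs0; linarith

/-- going right: if `h e < h f` at `t`, then `h e ≤ h f` at any `t' > t` where both are defined. -/
theorem le_of_lt' (hp : D.Plane) {e f : E} {t t' : ℝ} (htt : t < t')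
    (h1 : D.x (D.l e) < t) (h2 : D.x (D.l f) < t) (h3' : t' ≤ D.x (D.r e))
    (h4' : t' ≤ D.x (D.r f)) (hlt : D.h e t < D.h f t) : D.h e t' ≤ D.h f t' := by
  by_contra hcon
  push Not at hcon
  have := lt_of_lt hp (e := f) (f := e) (t := t) (t' := t') h2 h1 (lt_of_lt_of_le htt h4')
    (lt_of_lt_of_le htt h3') (h2.trans htt) (h1.trans htt) h4' h3' hcon
  linarith

section fin

variable [Finite V]

/-- an abscissa just right of `v`. -/
theorem exists_right (D : Drawing V E) (v : V) :
    ∃ t, D.x v < t ∧ ∀ w, D.x v < D.x w → t < D.x w := by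
  classical
  have := Fintype.ofFinite V
  set S : Finset ℝ := (Finset.univ.filter (fun w => D.x v < D.x w)).image D.x
  by_cases hS : S.Nonempty
  · have hmem := S.min'_mem hS
    have hlt : D.x v < S.min' hS := by
      simp only [S, Finset.mem_image, Finset.mem_filter, Finset.mem_univ, true_and] at hmem
      obtain ⟨w, hw, hw2⟩ := hmem
      rw [← hw2]; exact hw
    obtain ⟨t, ht1, ht2⟩ := exists_between hlt
    refine ⟨t, ht1, fun w hw => lt_of_lt_of_le ht2 (S.min'_le _ ?_)⟩
    simp only [S, Finset.mem_image, Finset.mem_filter, Finset.mem_univ, true_and]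
    exact ⟨w, hw, rfl⟩
  · refine ⟨D.x v + 1, by linarith, fun w hw => (hS ⟨D.x w, ?_⟩).elim⟩
    simp only [S, Finset.mem_image, Finset.mem_filter, Finset.mem_univ, true_and]
    exact ⟨w, hw, rfl⟩

/-- an abscissa just left of `v`. -/
theorem exists_left (D : Drawing V E) (v : V) :
    ∃ t, t < D.x v ∧ ∀ w, D.x w < D.x v → D.x w < t := by
  classical
  have := Fintype.ofFinite V
  set S : Finset ℝ := (Finset.univ.filter (fun w => D.x w < D.x v)).image D.x
  by_cases hS : S.Nonempty
  · have hmem := S.max'_mem hS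
    have hlt : S.max' hS < D.x v := by
      simp only [S, Finset.mem_image, Finset.mem_filter, Finset.mem_univ, true_and] at hmem
      obtain ⟨w, hw, hw2⟩ := hmem
      rw [← hw2]; exact hw
    obtain ⟨t, ht1, ht2⟩ := exists_between hlt
    refine ⟨t, ht2, fun w hw => lt_of_le_of_lt (S.le_max' _ ?_) ht1⟩
    simp only [S, Finset.mem_image, Finset.mem_filter, Finset.mem_univ, true_and]
    exact ⟨w, hw, rfl⟩
  · refine ⟨D.x v - 1, by linarith, fun w hw => (hS ⟨D.x w, ?_⟩).elim⟩
    simp only [S, Finset.mem_image, Finset.mem_filter, Finset.mem_univ, true_and]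
    exact ⟨w, hw, rfl⟩

end fin

/-- `e'` is the right edge directly above `e` at their common left end. -/
structure Consec (D : Drawing V E) (τ : V → ℝ) (e e' : E) : Prop where
  same : D.l e' = D.l e
  lt : D.h e (τ (D.l e)) < D.h e' (τ (D.l e))
  next : ∀ f, D.l f = D.l e → D.h e (τ (D.l e)) < D.h f (τ (D.l e)) →
    D.h e' (τ (D.l e)) ≤ D.h f (τ (D.l e))

/-- the region between `e` and `e'`. -/
structure Reg (D : Drawing V E) (e e' : E) (w : V) : Prop where
  left : D.x (D.l e) < D.x w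
  r1 : D.x w ≤ D.x (D.r e)
  r2 : D.x w ≤ D.x (D.r e')
  lo : D.h e (D.x w) ≤ D.y w
  hi : D.y w ≤ D.h e' (D.x w)

theorem key {D : Drawing V E} (hp : D.Plane) {τ : V → ℝ} (hτ1 : ∀ v, D.x v < τ v)
    (hτ2 : ∀ v w, D.x v < D.x w → τ v < D.x w)
    {e e' : E} (hc : D.Consec τ e e') {w : V} (hw : D.Reg e e' w)
    (hmin : ∀ w', D.Reg e e' w' → D.x w ≤ D.x w') {f : E} {s : ℝ}
    (hs1 : D.x (D.l e) < s) (hs2 : D.x (D.l f) < s) (hs3 : s ≤ D.x w) (hs4 : s ≤ D.x (D.r f))
    (ha : D.h e s < D.h f s) (hb : D.h f s < D.h e' s) : False := by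
  have hs5 : s ≤ D.x (D.r e) := hs3.trans hw.r1
  have hs6 : s ≤ D.x (D.r e') := hs3.trans hw.r2
  rcases lt_trichotomy (D.x (D.l e)) (D.x (D.l f)) with h | h | h
  · -- left end of f inside the region
    have h1 : D.h e (D.x (D.l f)) ≤ D.y (D.l f) := by
      rw [← D.hl f]
      exact le_of_lt hp hs2 h.le le_rfl hs5 hs4 ha
    have h2 : D.y (D.l f) ≤ D.h e' (D.x (D.l f)) := by
      rw [← D.hl f]
      exact le_of_lt hp hs2 le_rfl (by rw [hc.same]; exact h.le) hs4 hs6 hb
    have := hmin (D.l f) ⟨h, by linarith, by linarith, h1, h2⟩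
    linarith
  · have hl : D.l e = D.l f := D.inj h
    have hτ : ∀ g, D.l g = D.l e → τ (D.l e) < D.x (D.r g) := fun g hg =>
      hτ2 _ _ (by rw [← hg]; exact D.lr g)
    have h1 : D.h e (τ (D.l e)) < D.h f (τ (D.l e)) :=
      lt_of_lt hp (hτ1 _) (by rw [← hl]; exact hτ1 _) (hτ e rfl) (hτ f hl.symm) hs1 hs2 hs5 hs4 ha
    have h2 : D.h f (τ (D.l e)) < D.h e' (τ (D.l e)) :=
      lt_of_lt hp (by rw [← hl]; exact hτ1 _) (by rw [hc.same]; exact hτ1 _) (hτ f hl.symm)
        (hτ e' hc.same) hs2 (by rw [hc.same]; exact hs1) hs4 hs6 hb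
    have := hc.next f hl.symm h1
    linarith
  · -- left end of f strictly left of v
    have hne : D.h f (D.x (D.l e)) ≠ D.y (D.l e) := D.hv f (D.l e) h (lt_of_lt_of_le hs1 hs4)
    have h1 : D.h e (D.x (D.l e)) ≤ D.h f (D.x (D.l e)) :=
      le_of_lt hp hs1 le_rfl h.le hs5 hs4 ha
    have h2 : D.h f (D.x (D.l e)) ≤ D.h e' (D.x (D.l e)) :=
      le_of_lt hp hs1 h.le (by rw [hc.same]) hs4 hs6 hb
    have h3 : D.h e' (D.x (D.l e)) = D.y (D.l e) := by
      rw [← hc.same]; exact D.hl e'
    rw [D.hl e] at h1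
    rw [h3] at h2
    exact hne (le_antisymm h2 h1)

/-- existence of a first vertex in the region. -/
theorem exists_first [Finite V] {D : Drawing V E} (hp : D.Plane) {τ : V → ℝ}
    (hτ1 : ∀ v, D.x v < τ v) (hτ2 : ∀ v w, D.x v < D.x w → τ v < D.x w)
    {e e' : E} (hc : D.Consec τ e e') :
    ∃ w, D.Reg e e' w ∧ ∀ w', D.Reg e e' w' → D.x w ≤ D.x w' := by
  classical
  have := Fintype.ofFinite V
  have hτ : ∀ g, D.l g = D.l e → τ (D.l e) < D.x (D.r g) := fun g hg =>
      hτ2 _ _ (by rw [← hg]; exact D.lr g)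
  have hne : (Finset.univ.filter (fun w => D.Reg e e' w)).Nonempty := by
    rcases le_total (D.x (D.r e)) (D.x (D.r e')) with h | h
    · refine ⟨D.r e, ?_⟩
      simp only [Finset.mem_filter, Finset.mem_univ, true_and]
      refine ⟨D.lr e, le_rfl, h, (D.hr e).le, ?_⟩
      rw [← D.hr e]
      exact le_of_lt' hp (hτ e rfl) (hτ1 _) (by rw [hc.same]; exact hτ1 _) le_rfl h hc.lt
    · refine ⟨D.r e', ?_⟩
      simp only [Finset.mem_filter, Finset.mem_univ, true_and]
      refine ⟨by rw [← hc.same]; exact D.lr e', h, le_rfl, ?_, (D.hr e').ge⟩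
      rw [← D.hr e']
      exact le_of_lt' hp (hτ e' hc.same) (hτ1 _) (by rw [hc.same]; exact hτ1 _) h le_rfl hc.lt
  obtain ⟨w, hw, hmin⟩ := Finset.exists_min_image _ D.x hne
  simp only [Finset.mem_filter, Finset.mem_univ, true_and] at hw hmin
  exact ⟨w, hw, hmin⟩

/-- **Planar bound** for x-monotone simple plane drawings. -/
theorem card_le_of_plane [Fintype V] [Fintype E] {D : Drawing V E} (hs : D.Simple)
    (hp : D.Plane) : Fintype.card E ≤ 3 * Fintype.card V := by
  classical
  rcases isEmpty_or_nonempty V with hVe | hVe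
  · have : IsEmpty E := ⟨fun e => hVe.elim (D.l e)⟩
    simp
  choose τ hτ1 hτ2 using D.exists_right
  choose σ hσ1 hσ2 using D.exists_left
  -- nothing strictly above
  let top : E → Prop := fun e => ∀ f, D.l f = D.l e → D.h f (τ (D.l e)) ≤ D.h e (τ (D.l e))
  have hτ : ∀ g, τ (D.l g) < D.x (D.r g) := fun g => hτ2 _ _ (D.lr g)
  have heq : ∀ e f, D.l e = D.l f → D.h e (τ (D.l e)) = D.h f (τ (D.l e)) → e = f := by
    intro e f hl h
    by_contra hne
    exact hp e f hne ⟨τ (D.l e), hτ1 _, by rw [← hl]; exact hτ1 _, hτ e, by rw [hl]; exact hτ f, h⟩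
  have hnext : ∀ e, ¬ top e → ∃ e', D.Consec τ e e' := by
    intro e he
    simp only [top, not_forall, not_le, exists_prop] at he
    have hne : (Finset.univ.filter (fun f => D.l f = D.l e ∧
        D.h e (τ (D.l e)) < D.h f (τ (D.l e)))).Nonempty := by
      obtain ⟨f, hf1, hf2⟩ := he
      exact ⟨f, by simp [hf1, hf2]⟩
    obtain ⟨e', he', hmin⟩ := Finset.exists_min_image _ (fun f => D.h f (τ (D.l e))) hne
    simp only [Finset.mem_filter, Finset.mem_univ, true_and] at he' hmin
    exact ⟨e', he'.1, he'.2, fun f h1 h2 => hmin f ⟨h1, h2⟩⟩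
  choose! nx hnx using hnext
  have hfirst : ∀ e, ¬ top e → ∃ w, D.Reg e (nx e) w ∧ ∀ w', D.Reg e (nx e) w' → D.x w ≤ D.x w' :=
    fun e he => exists_first hp hτ1 hτ2 (hnx e he)
  choose! W hW hWmin using hfirst
  -- nx e ≠ e and r (nx e) ≠ r e
  have hr : ∀ e, ¬ top e → D.r (nx e) ≠ D.r e := by
    intro e he h
    have : nx e = e := hs _ _ (hnx e he).same h
    have h2 := (hnx e he).lt
    rw [this] at h2
    exact lt_irrefl _ h2
  -- topmost edges inject in V
  have hcard1 : (Finset.univ.filter (fun e => top e)).card ≤ Fintype.card V := by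
    rw [← Finset.card_univ]
    refine Finset.card_le_card_of_injOn D.l (fun _ _ => Finset.mem_univ _) ?_
    intro e he f hf hl
    simp only [Finset.coe_filter, Finset.mem_univ, true_and, Set.mem_ofPred_eq] at he hf
    refine heq e f hl (le_antisymm ?_ (he f hl.symm))
    have := hf e hl
    rwa [← hl] at this
  have hcard2 : (Finset.univ.filter (fun e => ¬ top e)).card ≤ 2 * Fintype.card V := by
    have : Fintype.card (V × Bool) = 2 * Fintype.card V := by
      rw [Fintype.card_prod, Fintype.card_bool, mul_comm]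
    rw [← this, ← Finset.card_univ]
    refine Finset.card_le_card_of_injOn (fun e => (W e, decide (D.r (nx e) = W e)))
      (fun _ _ => Finset.mem_univ _) ?_
    intro e he f hf hef
    simp only [Finset.coe_filter, Finset.mem_univ, true_and, Set.mem_ofPred_eq] at he hf
    simp only [Prod.mk.injEq, decide_eq_decide] at hef
    obtain ⟨hwe, hiff⟩ := hef
    by_contra hne
    have hW1 := hW e he
    have hW2 := hW f hf
    have hm1 := hWmin e he
    have hm2 := hWmin f hf
    rw [← hwe] at hW2 hiff hm2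
    set w := W e with hwdef
    have hne2 : nx e ≠ nx f := by
      intro h
      have hl : D.l e = D.l f := by rw [← (hnx e he).same, h, (hnx f hf).same]
      have hne3 : D.h e (τ (D.l e)) ≠ D.h f (τ (D.l e)) := fun h' => hne (heq e f hl h')
      rcases lt_or_gt_of_ne hne3 with h1 | h1
      · have h2 := (hnx e he).next f hl.symm h1
        have h3 := (hnx f hf).lt
        rw [← h, ← hl] at h3
        linarith
      · have h2 := (hnx f hf).next e hl (by rw [← hl]; exact h1)
        have h3 := (hnx e he).lt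
        rw [h, hl] at h3
        linarith
    -- general facts at w
    have hxe : D.x (D.l e) < σ w := hσ2 _ _ hW1.left
    have hxf : D.x (D.l f) < σ w := hσ2 _ _ hW2.left
    have hxe' : D.x (D.l (nx e)) < σ w := by rw [(hnx e he).same]; exact hxe
    have hxf' : D.x (D.l (nx f)) < σ w := by rw [(hnx f hf).same]; exact hxf
    have hσw := hσ1 w
    by_cases hcase : D.r (nx e) = w
    · -- both upper edges end at w
      have hcase2 : D.r (nx f) = w := hiff.1 hcase
      have hstrict : ∀ g, ¬ top g → D.Reg g (nx g) w → D.r (nx g) = w → D.h g (D.x w) < D.y w := by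
        intro g hg hR hrr
        refine lt_of_le_of_ne hR.lo (D.hv g w hR.left (lt_of_le_of_ne hR.r1 ?_))
        intro h
        exact hr g hg (by rw [hrr]; exact D.inj h)
      have hse := hstrict e he hW1 hcase
      have hsf := hstrict f hf hW2 hcase2
      have hye : D.h (nx e) (D.x w) = D.y w := by rw [← hcase]; exact D.hr _
      have hyf : D.h (nx f) (D.x w) = D.y w := by rw [← hcase2]; exact D.hr _
      have hneσ : D.h (nx e) (σ w) ≠ D.h (nx f) (σ w) := by
        intro h
        exact hp _ _ hne2 ⟨σ w, hxe', hxf', lt_of_lt_of_le hσw hW1.r2, lt_of_lt_of_le hσw hW2.r2, h⟩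
      rcases lt_or_gt_of_ne hneσ with h1 | h1
      · -- nx e lies between f and nx f
        have h2 : D.h f (σ w) < D.h (nx e) (σ w) :=
          lt_of_lt hp hxf hxe' (lt_of_lt_of_le hσw hW2.r1) (lt_of_lt_of_le hσw hW1.r2)
            hW2.left (by rw [(hnx e he).same]; exact hW1.left) hW2.r1 hW1.r2 (by rw [hye]; exact hsf)
        exact key hp hτ1 hτ2 (hnx f hf) hW2 hm2 hxf hxe' hσw.le (hσw.le.trans hW1.r2) h2 h1
      · have h2 : D.h e (σ w) < D.h (nx f) (σ w) :=
          lt_of_lt hp hxe hxf' (lt_of_lt_of_le hσw hW1.r1) (lt_of_lt_of_le hσw hW2.r2)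
            hW1.left (by rw [(hnx f hf).same]; exact hW2.left) hW1.r1 hW2.r2 (by rw [hyf]; exact hse)
        exact key hp hτ1 hτ2 (hnx e he) hW1 hm1 hxe hxf' hσw.le (hσw.le.trans hW2.r2) h2 h1
    · have hcase2 : D.r (nx f) ≠ w := fun h => hcase (hiff.2 h)
      have hstrict : ∀ g, ¬ top g → D.Reg g (nx g) w → D.r (nx g) ≠ w →
          D.y w < D.h (nx g) (D.x w) := by
        intro g hg hR hrr
        refine lt_of_le_of_ne hR.hi (Ne.symm (D.hv (nx g) w ?_ (lt_of_le_of_ne hR.r2 ?_)))
        · rw [(hnx g hg).same]; exact hR.left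
        · intro h
          exact hrr (D.inj h).symm
      have hse := hstrict e he hW1 hcase
      have hsf := hstrict f hf hW2 hcase2
      have hneσ : D.h e (σ w) ≠ D.h f (σ w) := by
        intro h
        exact hp _ _ hne ⟨σ w, hxe, hxf, lt_of_lt_of_le hσw hW1.r1, lt_of_lt_of_le hσw hW2.r1, h⟩
      rcases lt_or_gt_of_ne hneσ with h1 | h1
      · have h2 : D.h f (σ w) < D.h (nx e) (σ w) :=
          lt_of_lt hp hxf hxe' (lt_of_lt_of_le hσw hW2.r1) (lt_of_lt_of_le hσw hW1.r2)
            hW2.left (by rw [(hnx e he).same]; exact hW1.left) hW2.r1 hW1.r2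
            (lt_of_le_of_lt hW2.lo hse)
        exact key hp hτ1 hτ2 (hnx e he) hW1 hm1 hxe hxf hσw.le (hσw.le.trans hW2.r1) h1 h2
      · have h2 : D.h e (σ w) < D.h (nx f) (σ w) :=
          lt_of_lt hp hxe hxf' (lt_of_lt_of_le hσw hW1.r1) (lt_of_lt_of_le hσw hW2.r2)
            hW1.left (by rw [(hnx f hf).same]; exact hW2.left) hW1.r1 hW2.r2
            (lt_of_le_of_lt hW1.lo hsf)
        exact key hp hτ1 hτ2 (hnx f hf) hW2 hm2 hxf hxe hσw.le (hσw.le.trans hW1.r1) h1 h2
  have hsplit : (Finset.univ.filter (fun e => top e)).card +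
      (Finset.univ.filter (fun e => ¬ top e)).card = Fintype.card E := by
    rw [Finset.card_filter_add_card_filter_not, Finset.card_univ]
  omega

end Drawing

end Crest.Agent.R51
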