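import Crest.Agent.R51.QuadDefs
import Crest.Agent.R51.Active
import Crest.Agent.R51.Level2

/-!
# Row 51, section B6: context, windows, 6.1 (helper422)
-/

set_option autoImplicit false

noncomputable section

open Classical Finset

namespace Crest.Agent.R51.Quad

open Crest.Agent.R51 Crest.Agent.R51.Active

/-- counting by fibres: if every fibre of `f` on `E` has at most `B` elements -/
lemma card_le_image_mul {α ι : Type*} [DecidableEq ι] (E : Finset α) (f : α → ι) (B : ℝ)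
    (hB : ∀ i ∈ E.image f, ((E.filter (fun e => f e = i)).card : ℝ) ≤ B) :
    (E.card : ℝ) ≤ (E.image f).card * B := by
  have h1 : E.card = ∑ i ∈ E.image f, (E.filter (fun e => f e = i)).card :=
    Finset.card_eq_sum_card_image f E
  rw [h1]
  push_cast
  calc (∑ i ∈ E.image f, ((E.filter (fun e => f e = i)).card : ℝ))
      ≤ ∑ _i ∈ E.image f, B := Finset.sum_le_sum hB
    _ = (E.image f).card * B := by rw [Finset.sum_const, nsmul_eq_mul]

/-- the data of section B6 -/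
structure BCtx where
  P : Finset Pt
  hP : Generic P
  k : ℕ
  V : ℕ
  β : ℕ
  L : ℕ
  Vs : ℕ → ℕ
  Lw : ℕ
  Cw : ℝ
  lam1 : ℝ
  lam2 : ℝ
  lam3 : ℝ
  κ : ℝ
  c2 : ℝ
  c8 : ℝ
  δ1 : ℝ
  ε1 : ℝ
  D' : ℝ
  W : WSys P k Vs Lw Cw
  l0 : ℕ
  hl0 : l0 + 1 ≤ Lw
  hVs : Vs l0 = V
  hVb : Vs (l0 + 1) = β * V
  Rel : ℝ × ℝ → ℝ × ℝ → Prop
  H : Pt → Finset Edge
  hH : HSys P k V β L (W.cuts l0) (W.cuts (l0 + 1)) lam1 lam2 lam3 κ c2 c8 δ1 D' Rel H
  hCw : 1 ≤ Cw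
  h1 : 1 ≤ lam1
  h2 : 1 ≤ lam2
  h3 : 1 ≤ lam3
  hκ : 0 < κ
  hκ2 : κ ≤ 1 / 2
  hc2 : 0 < c2
  hc8 : 0 < c8
  hδ1 : 0 < δ1
  hε1 : 0 < ε1
  hD' : 0 < D'
  hV1 : 1 ≤ V
  hβ : 2 ≤ β
  hL : 1 ≤ L

namespace BCtx

variable (c : BCtx)

/-- cuts of the finest level -/
def Cf : Finset ℝ := c.W.cuts c.l0
/-- cuts of the level `V_b` -/
def Cb : Finset ℝ := c.W.cuts (c.l0 + 1)
/-- number of points -/
def N : ℕ := c.P.card
/-- width of the finest level -/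
def bV : ℕ := bb c.P.card c.V
/-- width of the level `V_b` -/
def bB : ℕ := bb c.P.card (c.β * c.V)
/-- `⌊κ b_{V_b}⌋` -/
def kb : ℕ := ⌊c.κ * (bb c.P.card (c.β * c.V) : ℝ)⌋₊

lemma Cf_sub_Cb : c.Cf ⊆ c.Cb := c.W.sub _ _ (Nat.le_succ _) c.hl0

lemma hl0' : c.l0 ≤ c.Lw := (Nat.le_succ _).trans c.hl0

lemma nonsf : ∀ x ∈ c.Cf, NonSlope c.P x := c.W.nons _ c.hl0'
lemma nonsb : ∀ x ∈ c.Cb, NonSlope c.P x := c.W.nons _ c.hl0

lemma win_nonslope {J : ℝ × ℝ} (hJ : J ∈ wins c.Cf) : NonSlope c.P J.1 ∧ NonSlope c.P J.2 := by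
  rw [mem_wins] at hJ
  exact ⟨c.nonsf _ hJ.1, c.nonsf _ hJ.2.1⟩

lemma winb_nonslope {J : ℝ × ℝ} (hJ : J ∈ wins c.Cb) : NonSlope c.P J.1 ∧ NonSlope c.P J.2 := by
  rw [mem_wins] at hJ
  exact ⟨c.nonsb _ hJ.1, c.nonsb _ hJ.2.1⟩

lemma lo_mem_f : c.W.lo ∈ c.Cf := c.W.sub 0 _ (Nat.zero_le _) c.hl0' c.W.lo_mem
lemma hi_mem_f : c.W.hi ∈ c.Cf := c.W.sub 0 _ (Nat.zero_le _) c.hl0' c.W.hi_mem
lemma lo_mem_b : c.W.lo ∈ c.Cb := c.W.sub 0 _ (Nat.zero_le _) c.hl0 c.W.lo_mem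
lemma hi_mem_b : c.W.hi ∈ c.Cb := c.W.sub 0 _ (Nat.zero_le _) c.hl0 c.W.hi_mem

/-- the slope of a pair lies in a finest window -/
lemma exists_winf {e : Edge} (he : e ∈ pairs c.P) : ∃ J ∈ wins c.Cf, J.1 < esl e ∧ esl e < J.2 :=
  exists_win c.lo_mem_f c.hi_mem_f (c.W.lo_lt_slope e he) (c.W.slope_lt_hi e he)
    (fun h => c.nonsf _ h e he rfl)

lemma exists_winb {e : Edge} (he : e ∈ pairs c.P) : ∃ J ∈ wins c.Cb, J.1 < esl e ∧ esl e < J.2 :=
  exists_win c.lo_mem_b c.hi_mem_b (c.W.lo_lt_slope e he) (c.W.slope_lt_hi e he)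
    (fun h => c.nonsb _ h e he rfl)

lemma winOf_f {e : Edge} (he : e ∈ pairs c.P) :
    winOf c.Cf (esl e) ∈ wins c.Cf ∧ (winOf c.Cf (esl e)).1 < esl e ∧
      esl e < (winOf c.Cf (esl e)).2 := winOf_spec (c.exists_winf he)

lemma winOf_b {e : Edge} (he : e ∈ pairs c.P) :
    winOf c.Cb (esl e) ∈ wins c.Cb ∧ (winOf c.Cb (esl e)).1 < esl e ∧
      esl e < (winOf c.Cb (esl e)).2 := winOf_spec (c.exists_winb he)

/-- a `V_b`-window meeting a finest window is contained in it -/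
lemma winb_sub {J j : ℝ × ℝ} (hJ : J ∈ wins c.Cf) (hj : j ∈ wins c.Cb) {θ : ℝ} (h1 : J.1 < θ)
    (h2 : θ < J.2) (h3 : j.1 < θ) (h4 : θ < j.2) : J.1 ≤ j.1 ∧ j.2 ≤ J.2 := by
  rw [mem_wins] at hJ hj
  refine ⟨?_, ?_⟩
  · by_contra h
    exact hj.2.2.2 _ (c.Cf_sub_Cb hJ.1) ⟨not_le.1 h, h1.trans h4⟩
  · by_contra h
    exact hj.2.2.2 _ (c.Cf_sub_Cb hJ.2.1) ⟨h3.trans h2, not_le.1 h⟩

/-- alive -/
def Al (v : Pt) (J : ℝ × ℝ) : Prop := Alive c.V c.Cf c.ε1 c.D' c.H v J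

lemma Vpos : (0 : ℝ) < c.V := by
  have := c.hV1
  exact_mod_cast this

lemma βpos : (0 : ℝ) < c.β := by
  have := c.hβ
  have h : 0 < c.β := by omega
  exact_mod_cast h

lemma alive_nonempty {v : Pt} {J : ℝ × ℝ} (h : c.Al v J) : (inWin (c.H v) J).Nonempty := by
  rw [← Finset.card_pos]
  have h1 : (0 : ℝ) < c.ε1 * c.D' ^ 2 / c.V := by
    have := c.hε1
    have := c.hD'
    have := c.Vpos
    positivity
  have h2 := h1.trans_le h.2
  exact_mod_cast h2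

lemma alive_mem {v : Pt} {J : ℝ × ℝ} (h : c.Al v J) : v ∈ c.P := by
  obtain ⟨e, he⟩ := c.alive_nonempty h
  exact (c.hH.mem v e (mem_inWin.1 he).1).1

/-- the `V_b` windows hit by `H_v ∩ J` -/
def hit (v : Pt) (J : ℝ × ℝ) : Finset (ℝ × ℝ) :=
  (inWin (c.H v) J).image (fun e => winOf c.Cb (esl e))

lemma hit_card {v : Pt} {J : ℝ × ℝ} (h : c.Al v J) :
    c.ε1 * c.β / (c.lam1 * c.lam2) ≤ ((c.hit v J).card : ℝ) := by
  have hb := card_le_image_mul (inWin (c.H v) J) (fun e => winOf c.Cb (esl e))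
    (c.lam1 * c.lam2 * c.D' ^ 2 / (c.β * c.V)) (by
      intro j hj
      obtain ⟨e0, he0, rfl⟩ := Finset.mem_image.1 hj
      have hp0 := (c.hH.mem v e0 (mem_inWin.1 he0).1).2
      refine le_trans ?_ (c.hH.winb_le v _ (c.winOf_b hp0).1)
      have : ((inWin (c.H v) J).filter (fun e => winOf c.Cb (esl e) = winOf c.Cb (esl e0))) ⊆
          inWin (c.H v) (winOf c.Cb (esl e0)) := by
        intro e he
        rw [Finset.mem_filter] at he
        obtain ⟨he1, he2⟩ := he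
        have hmem := (mem_inWin.1 he1).1
        have hp := (c.hH.mem v e hmem).2
        rw [mem_inWin]
        have := c.winOf_b hp
        rw [he2] at this
        exact ⟨hmem, this.2.1, this.2.2⟩
      exact_mod_cast Finset.card_le_card this)
  have hlow := h.2
  have hV := c.Vpos
  have hβ := c.βpos
  have hD := c.hD'
  have h12 : 0 < c.lam1 * c.lam2 := by
    have := c.h1
    have := c.h2
    positivity
  have hh : c.ε1 * c.D' ^ 2 / c.V ≤ ((c.hit v J).card : ℝ) *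
      (c.lam1 * c.lam2 * c.D' ^ 2 / (c.β * c.V)) := hlow.trans hb
  rw [div_le_iff₀ h12]
  have h3 : c.ε1 * c.D' ^ 2 / c.V * (c.β * c.V / c.D' ^ 2) ≤ ((c.hit v J).card : ℝ) *
      (c.lam1 * c.lam2 * c.D' ^ 2 / (c.β * c.V)) * (c.β * c.V / c.D' ^ 2) :=
    mul_le_mul_of_nonneg_right hh (by positivity)
  have e1 : c.ε1 * c.D' ^ 2 / c.V * (c.β * c.V / c.D' ^ 2) = c.ε1 * c.β := by
    field_simp
  have e2 : ((c.hit v J).card : ℝ) *
      (c.lam1 * c.lam2 * c.D' ^ 2 / (c.β * c.V)) * (c.β * c.V / c.D' ^ 2) =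
      ((c.hit v J).card : ℝ) * (c.lam1 * c.lam2) := by
    field_simp
  rw [e1, e2] at h3
  exact h3

/-- number of near-`b_{V_b}` partners of `v` in `J` -/
def X (v : Pt) (J : ℝ × ℝ) : ℕ := Lp c.P c.k c.bB J.1 J.2 v + Rp c.P c.k c.bB J.1 J.2 v

lemma two_kb : 2 * c.kb ≤ c.bB := by
  have h : (c.kb : ℝ) ≤ c.κ * (c.bB : ℝ) := Nat.floor_le (by
    have := c.hκ
    positivity)
  have h2 : (2 * c.kb : ℝ) ≤ (c.bB : ℝ) := by
    have := c.hκ2
    have h3 : (0 : ℝ) ≤ (c.bB : ℝ) := Nat.cast_nonneg _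
    nlinarith
  exact_mod_cast h2

/-- **6.1** -/
theorem X_ge {v : Pt} {J : ℝ × ℝ} (h : c.Al v J) :
    c.ε1 * c.β / (c.lam1 * c.lam2) * c.kb ≤ (c.X v J : ℝ) := by
  have hvP := c.alive_mem h
  have key : (c.hit v J).card * c.kb ≤ c.X v J := by
    unfold X
    rw [← card_partners]
    have hdisj : ∀ j ∈ c.hit v J, ∀ j' ∈ c.hit v J, j ≠ j' →
        Disjoint ((nearE c.P c.k c.bB j.1 j.2).filter (fun e => e.1 = v ∨ e.2 = v))
          ((nearE c.P c.k c.bB j'.1 j'.2).filter (fun e => e.1 = v ∨ e.2 = v)) := by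
      intro j hj j' hj' hne
      rw [Finset.disjoint_left]
      intro e he he'
      rw [Finset.mem_filter, mem_nearE] at he he'
      obtain ⟨e0, he0, rfl⟩ := Finset.mem_image.1 hj
      obtain ⟨e1, he1, rfl⟩ := Finset.mem_image.1 hj'
      have hp0 := (c.hH.mem v e0 (mem_inWin.1 he0).1).2
      have hp1 := (c.hH.mem v e1 (mem_inWin.1 he1).1).2
      exact hne (win_unique (c.winOf_b hp0).1 (c.winOf_b hp1).1 he.1.2.1 he.1.2.2.1 he'.1.2.1
        he'.1.2.2.1)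
    have hsub : (c.hit v J).biUnion (fun j =>
        (nearE c.P c.k c.bB j.1 j.2).filter (fun e => e.1 = v ∨ e.2 = v)) ⊆
        (nearE c.P c.k c.bB J.1 J.2).filter (fun e => e.1 = v ∨ e.2 = v) := by
      intro e he
      rw [Finset.mem_biUnion] at he
      obtain ⟨j, hj, he⟩ := he
      rw [Finset.mem_filter, mem_nearE] at he
      obtain ⟨e0, he0, rfl⟩ := Finset.mem_image.1 hj
      have hm0 := mem_inWin.1 he0
      have hp0 := (c.hH.mem v e0 hm0.1).2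
      have hw := c.winOf_b hp0
      have hs := c.winb_sub h.1 hw.1 hm0.2.1 hm0.2.2 hw.2.1 hw.2.2
      rw [Finset.mem_filter, mem_nearE]
      exact ⟨⟨he.1.1, hs.1.trans_lt he.1.2.1, he.1.2.2.1.trans_le hs.2, he.1.2.2.2⟩, he.2⟩
    refine le_trans ?_ (Finset.card_le_card hsub)
    rw [Finset.card_biUnion hdisj, ← smul_eq_mul, ← Finset.sum_const]
    apply Finset.sum_le_sum
    intro j hj
    obtain ⟨e0, he0, rfl⟩ := Finset.mem_image.1 hj
    have hm0 := mem_inWin.1 he0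
    have hp0 := (c.hH.mem v e0 hm0.1).2
    have hw := c.winOf_b hp0
    have hns := c.winb_nonslope hw.1
    have hcent := c.hH.cent v e0 hm0.1
    have hdl := c.hH.dl v e0 hm0.1 _ hw.1 hw.2.1 hw.2.2
    have hfl : (c.kb : ℝ) ≤ c.κ * (bb c.P.card (c.β * c.V) : ℝ) := Nat.floor_le (by
      have := c.hκ
      positivity)
    have h5 : 5 * c.kb < Dl c.P c.k (winOf c.Cb (esl e0)).1 (winOf c.Cb (esl e0)).2 := by
      have : (5 * c.kb : ℝ) < (Dl c.P c.k (winOf c.Cb (esl e0)).1 (winOf c.Cb (esl e0)).2 : ℝ) := by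
        refine lt_of_le_of_lt ?_ hdl
        have h6 : (0 : ℝ) ≤ c.κ * (bb c.P.card (c.β * c.V) : ℝ) := by
          have := c.hκ
          positivity
        nlinarith
      exact_mod_cast this
    have hg6 := near_partners_of_Dl c.hP hvP (hw.2.1.trans hw.2.2).le hns.1 hns.2 hw.2.1.le
      hw.2.2.le hcent h5
    rw [← card_partners] at hg6
    refine hg6.trans (Finset.card_le_card ?_)
    intro e he
    rw [Finset.mem_filter, mem_nearE] at he ⊢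
    exact ⟨⟨he.1.1, he.1.2.1, he.1.2.2.1, he.1.2.2.2.mono c.two_kb⟩, he.2⟩
  have hc := c.hit_card h
  have key' : ((c.hit v J).card : ℝ) * c.kb ≤ (c.X v J : ℝ) := by exact_mod_cast key
  refine le_trans ?_ key'
  exact mul_le_mul_of_nonneg_right hc (Nat.cast_nonneg _)

end BCtx

end Crest.Agent.R51.Quad
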