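import Crest.Agent.R51.Quad1

/-!
# Row 51, section B6: 6.2 and the good part `H^g_v` (helper422)
-/

set_option autoImplicit false

noncomputable section

open Classical Finset

namespace Crest.Agent.R51.Quad

open Crest.Agent.R51 Crest.Agent.R51.Active

lemma card_wins_le (C : Finset ℝ) : (wins C).card ≤ C.card := by
  apply Finset.card_le_card_of_injOn (fun J => J.1)
  · intro J hJ
    exact (mem_wins.1 hJ).1
  · intro J hJ J' hJ' h
    have hJ := Finset.mem_coe.1 hJ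
    have hJ' := Finset.mem_coe.1 hJ'
    have h1 := (mem_wins.1 hJ).2.2.1
    have h2 := (mem_wins.1 hJ').2.2.1
    have h : J.1 = J'.1 := h
    obtain ⟨θ, h3, h4⟩ := exists_between (lt_min h1 (h ▸ h2 : J.1 < J'.2))
    exact win_unique hJ hJ' h3 (h4.trans_le (min_le_left _ _)) (h ▸ h3)
      (h4.trans_le (min_le_right _ _))

namespace BCtx

variable (c : BCtx)

/-- `𝒜_J` -/
def AL (J : ℝ × ℝ) : Finset Pt := c.P.filter (fun v => c.Al v J)

/-- alive left partners of `v` in `J` -/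
def lft (J : ℝ × ℝ) (v : Pt) : Finset Pt :=
  (c.AL J).filter (fun p => p.1 < v.1 ∧ J.1 < sl p v ∧ sl p v < J.2)

/-- `Ex_J` -/
def Ex (J : ℝ × ℝ) : Finset Pt := (c.AL J).filter (fun v => (c.lft J v).card < c.bB)

lemma mem_AL {J : ℝ × ℝ} {v : Pt} : v ∈ c.AL J ↔ c.Al v J := by
  unfold AL
  rw [Finset.mem_filter]
  exact ⟨fun h => h.2, fun h => ⟨c.alive_mem h, h⟩⟩

lemma AL_sub (J : ℝ × ℝ) : c.AL J ⊆ c.P := Finset.filter_subset _ _

/-- `ρ = ε₁ κ β / (λ₁ λ₂)` -/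
def rho : ℝ := c.ε1 * c.κ * c.β / (c.lam1 * c.lam2)

lemma lam12_pos : 0 < c.lam1 * c.lam2 := by
  have := c.h1
  have := c.h2
  positivity

lemma rho_pos : 0 < c.rho := by
  have := c.hε1
  have := c.hκ
  have := c.βpos
  have := c.lam12_pos
  unfold rho
  positivity

lemma kb_ge (h : 2 ≤ c.κ * c.bB) : c.κ * c.bB / 2 ≤ (c.kb : ℝ) := by
  have h1 : c.κ * c.bB < (c.kb : ℝ) + 1 := Nat.lt_floor_add_one _
  linarith

lemma X_ge_rho (h : 2 ≤ c.κ * c.bB) {v : Pt} {J : ℝ × ℝ} (hA : c.Al v J) :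
    c.rho * c.bB / 2 ≤ (c.X v J : ℝ) := by
  refine le_trans ?_ (c.X_ge hA)
  have h1 := c.kb_ge h
  have h2 : 0 ≤ c.ε1 * c.β / (c.lam1 * c.lam2) := by
    have := c.hε1
    have := c.βpos
    have := c.lam12_pos
    positivity
  calc c.rho * c.bB / 2 = c.ε1 * c.β / (c.lam1 * c.lam2) * (c.κ * c.bB / 2) := by
        unfold rho
        ring
    _ ≤ c.ε1 * c.β / (c.lam1 * c.lam2) * c.kb := mul_le_mul_of_nonneg_left h1 h2

lemma balance' (v : Pt) {J : ℝ × ℝ} (hJ : J ∈ wins c.Cf) :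
    Lp c.P c.k c.bB J.1 J.2 v ≤ Rp c.P c.k c.bB J.1 J.2 v + (2 * c.bB + 1) ∧
    Rp c.P c.k c.bB J.1 J.2 v ≤ Lp c.P c.k c.bB J.1 J.2 v + (2 * c.bB + 1) := by
  have hn := c.win_nonslope hJ
  have hlt := (mem_wins.1 hJ).2.2.1
  exact balance c.hP hn.1 hn.2 hlt _ _ v

/-- both one-sided partner numbers are large -/
lemma Lp_Rp_ge (h : 2 ≤ c.κ * c.bB) (hb : 1 ≤ c.bB) (hρ : 16 ≤ c.rho) {v : Pt} {J : ℝ × ℝ}
    (hA : c.Al v J) :
    c.rho * c.bB / 16 ≤ (Lp c.P c.k c.bB J.1 J.2 v : ℝ) ∧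
    c.rho * c.bB / 16 ≤ (Rp c.P c.k c.bB J.1 J.2 v : ℝ) := by
  have hX := c.X_ge_rho h hA
  obtain ⟨h1, h2⟩ := c.balance' v hA.1
  have h1' : (Lp c.P c.k c.bB J.1 J.2 v : ℝ) ≤ Rp c.P c.k c.bB J.1 J.2 v + (2 * c.bB + 1) := by
    exact_mod_cast h1
  have h2' : (Rp c.P c.k c.bB J.1 J.2 v : ℝ) ≤ Lp c.P c.k c.bB J.1 J.2 v + (2 * c.bB + 1) := by
    exact_mod_cast h2
  unfold X at hX
  push_cast at hX
  have hb' : (1 : ℝ) ≤ c.bB := by exact_mod_cast hb
  have h3 : 16 * (c.bB : ℝ) ≤ c.rho * c.bB := by nlinarith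
  constructor <;> linarith

/-- the statement of G8 (AP) used in 6.2 -/
def APAt (s t : ℝ) : Prop :=
  ∀ (A : Finset Pt), A ⊆ c.P → ∀ d : ℕ,
    ((nearE c.P c.k c.bB s t).filter (fun e => e.2 ∈ A ∧
      (A.filter (fun p => p.1 < e.2.1 ∧ s < sl p e.2 ∧ sl p e.2 < t)).card < d)).card ≤
      (2 * c.bB + 1 + d) * (ActN c.P c.k c.bB s t).card

/-- **6.2** -/
theorem ex_card (h : 2 ≤ c.κ * c.bB) (hb : 1 ≤ c.bB) (hbV : c.bB + 1 ≤ c.bV) (hρ : 16 ≤ c.rho)
    {J : ℝ × ℝ} (hJ : J ∈ wins c.Cf) (hap : c.APAt J.1 J.2) :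
    ((c.Ex J).card : ℝ) * c.rho ≤ 448 * c.bV := by
  have hap' := hap (c.AL J) (c.AL_sub J) c.bB
  have hact : (ActN c.P c.k c.bB J.1 J.2).card ≤ 7 * c.bV := by
    have h1 : ActN c.P c.k c.bB J.1 J.2 ⊆ cen c.P c.k (bb c.P.card (c.Vs c.l0)) J.1 J.2 := by
      refine (ends_nearE_subset).trans (cen_mono ?_ le_rfl le_rfl)
      rw [c.hVs]
      exact hbV
    have h2 := (Finset.card_le_card h1).trans (c.W.cen_le c.l0 c.hl0' J hJ)
    rwa [c.hVs] at h2
  have hlow : ((c.Ex J).card : ℝ) * (c.rho * c.bB / 16) ≤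
      (((nearE c.P c.k c.bB J.1 J.2).filter (fun e => e.2 ∈ c.AL J ∧
      ((c.AL J).filter (fun p => p.1 < e.2.1 ∧ J.1 < sl p e.2 ∧ sl p e.2 < J.2)).card
        < c.bB)).card : ℝ) := by
    have hset : (nearE c.P c.k c.bB J.1 J.2).filter (fun e => e.2 ∈ c.AL J ∧
      ((c.AL J).filter (fun p => p.1 < e.2.1 ∧ J.1 < sl p e.2 ∧ sl p e.2 < J.2)).card
        < c.bB) = (nearE c.P c.k c.bB J.1 J.2).filter (fun e => e.2 ∈ c.Ex J) := by
      apply Finset.filter_congr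
      intro e _
      unfold Ex lft
      rw [Finset.mem_filter]
    rw [hset]
    have hsum : ((nearE c.P c.k c.bB J.1 J.2).filter (fun e => e.2 ∈ c.Ex J)).card =
        ∑ v ∈ c.Ex J, Lp c.P c.k c.bB J.1 J.2 v := by
      rw [Finset.card_eq_sum_card_fiberwise (f := Prod.snd) (t := c.Ex J)]
      · apply Finset.sum_congr rfl
        intro v hv
        unfold Lp
        congr 1
        ext e
        rw [Finset.mem_filter, Finset.mem_filter, Finset.mem_filter]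
        constructor
        · rintro ⟨⟨h1, _⟩, h2⟩
          exact ⟨h1, h2⟩
        · rintro ⟨h1, h2⟩
          exact ⟨⟨h1, h2 ▸ hv⟩, h2⟩
      · intro e he
        exact (Finset.mem_filter.1 (Finset.mem_coe.1 he)).2
    rw [hsum]
    push_cast
    rw [← nsmul_eq_mul, ← Finset.sum_const]
    apply Finset.sum_le_sum
    intro v hv
    have hA : c.Al v J := c.mem_AL.1 (Finset.mem_filter.1 hv).1
    exact (c.Lp_Rp_ge h hb hρ hA).1
  have hb' : (1 : ℝ) ≤ c.bB := by exact_mod_cast hb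
  have hup : (((nearE c.P c.k c.bB J.1 J.2).filter (fun e => e.2 ∈ c.AL J ∧
      ((c.AL J).filter (fun p => p.1 < e.2.1 ∧ J.1 < sl p e.2 ∧ sl p e.2 < J.2)).card
        < c.bB)).card : ℝ) ≤ (2 * c.bB + 1 + c.bB) * (7 * c.bV) := by
    have h3 : ((nearE c.P c.k c.bB J.1 J.2).filter (fun e => e.2 ∈ c.AL J ∧
      ((c.AL J).filter (fun p => p.1 < e.2.1 ∧ J.1 < sl p e.2 ∧ sl p e.2 < J.2)).card
        < c.bB)).card ≤ (2 * c.bB + 1 + c.bB) * (7 * c.bV) :=
      hap'.trans (Nat.mul_le_mul_left _ hact)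
    exact_mod_cast h3
  have h4 : ((c.Ex J).card : ℝ) * (c.rho * c.bB / 16) ≤ (2 * c.bB + 1 + c.bB) * (7 * c.bV) :=
    hlow.trans hup
  have h5 : (0 : ℝ) ≤ c.bV := Nat.cast_nonneg _
  have h6 : ((2 * c.bB + 1 + c.bB) * (7 * c.bV) : ℝ) ≤ 28 * c.bB * c.bV := by nlinarith
  have h7 : ((c.Ex J).card : ℝ) * c.rho * c.bB ≤ 448 * c.bV * c.bB := by nlinarith
  exact le_of_mul_le_mul_right h7 (by linarith)

/-- the good windows of `v` -/
def GW (v : Pt) : Finset (ℝ × ℝ) := (wins c.Cf).filter (fun J => c.Al v J ∧ v ∉ c.Ex J)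

/-- the good part of `H_v` -/
def Hg (v : Pt) : Finset Edge := (c.H v).filter (fun e => winOf c.Cf (esl e) ∈ c.GW v)

lemma Hg_sub (v : Pt) : c.Hg v ⊆ c.H v := Finset.filter_subset _ _

lemma fibre_win {v : Pt} {S : Finset Edge} (hS : S ⊆ c.H v) {J : ℝ × ℝ} :
    S.filter (fun e => winOf c.Cf (esl e) = J) ⊆ inWin (c.H v) J := by
  intro e he
  rw [Finset.mem_filter] at he
  obtain ⟨he1, he2⟩ := he
  have hm := hS he1
  have hw := c.winOf_f (c.hH.mem v e hm).2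
  rw [he2] at hw
  rw [mem_inWin]
  exact ⟨hm, hw.2.1, hw.2.2⟩

/-- the part of `H_v` in non-alive windows is small -/
lemma lost_nonalive (hkV : c.kb ≤ c.bV) (v : Pt) :
    (((c.H v).filter (fun e => ¬ c.Al v (winOf c.Cf (esl e)))).card : ℝ) ≤
      c.lam3 * c.ε1 * c.D' ^ 2 := by
  set E := (c.H v).filter (fun e => ¬ c.Al v (winOf c.Cf (esl e))) with hE
  have hV := c.Vpos
  have hD := c.hD'
  have hε := c.hε1
  rcases (c.H v).eq_empty_or_nonempty with h0 | h0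
  · rw [hE, h0]
    simp only [Finset.filter_empty, Finset.card_empty, Nat.cast_zero]
    have := c.h3
    positivity
  have hE1 : E ⊆ c.H v := Finset.filter_subset _ _
  have hb := card_le_image_mul E (fun e => winOf c.Cf (esl e)) (c.ε1 * c.D' ^ 2 / c.V) (by
    intro J hJ
    obtain ⟨e0, he0, rfl⟩ := Finset.mem_image.1 hJ
    rw [hE, Finset.mem_filter] at he0
    have hw := c.winOf_f (c.hH.mem v e0 he0.1).2
    have hna : ¬ (c.ε1 * c.D' ^ 2 / c.V ≤
      ((inWin (c.H v) (winOf c.Cf (esl e0))).card : ℝ)) := fun h => he0.2 ⟨hw.1, h⟩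
    rw [not_le] at hna
    refine le_trans ?_ hna.le
    exact_mod_cast Finset.card_le_card (c.fibre_win hE1))
  have himg : E.image (fun e => winOf c.Cf (esl e)) ⊆
      (wins c.Cf).filter (fun J => v ∈ cen c.P c.k (bb c.P.card c.V) J.1 J.2) := by
    intro J hJ
    obtain ⟨e0, he0, rfl⟩ := Finset.mem_image.1 hJ
    have hm := hE1 he0
    have hmem := c.hH.mem v e0 hm
    have hw := c.winOf_f hmem.2
    rw [Finset.mem_filter, mem_cen]
    exact ⟨hw.1, hmem.1, esl e0, hw.2.1, hw.2.2, (c.hH.cent v e0 hm).mono hkV⟩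
  have hcard : ((E.image (fun e => winOf c.Cf (esl e))).card : ℝ) ≤ c.lam3 * c.V :=
    le_trans (by exact_mod_cast Finset.card_le_card himg) (c.hH.few v h0)
  refine hb.trans ?_
  calc ((E.image (fun e => winOf c.Cf (esl e))).card : ℝ) * (c.ε1 * c.D' ^ 2 / c.V)
      ≤ (c.lam3 * c.V) * (c.ε1 * c.D' ^ 2 / c.V) :=
        mul_le_mul_of_nonneg_right hcard (by positivity)
    _ = c.lam3 * c.ε1 * c.D' ^ 2 := by field_simp

/-- the part in exceptional windows is small on average -/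
lemma lost_ex (B : ℝ) (hB : ∀ J ∈ wins c.Cf, ((c.Ex J).card : ℝ) ≤ B) (hB0 : 0 ≤ B) :
    ∑ v ∈ c.P, (((c.H v).filter (fun e => v ∈ c.Ex (winOf c.Cf (esl e)))).card : ℝ) ≤
      c.Cw * c.V ^ 4 * B * (c.lam1 * c.lam2 * c.D' ^ 2 / c.V) := by
  have hV := c.Vpos
  have hD := c.hD'
  have h12 := c.lam12_pos
  have h1 : ∀ v ∈ c.P, (((c.H v).filter (fun e => v ∈ c.Ex (winOf c.Cf (esl e)))).card : ℝ) ≤
      ∑ J ∈ wins c.Cf, (if v ∈ c.Ex J then (c.lam1 * c.lam2 * c.D' ^ 2 / c.V) else 0) := by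
    intro v _
    set E := (c.H v).filter (fun e => v ∈ c.Ex (winOf c.Cf (esl e))) with hE
    have hE1 : E ⊆ c.H v := Finset.filter_subset _ _
    have hb := card_le_image_mul E (fun e => winOf c.Cf (esl e))
      (c.lam1 * c.lam2 * c.D' ^ 2 / c.V) (by
        intro J hJ
        obtain ⟨e0, he0, rfl⟩ := Finset.mem_image.1 hJ
        have hw := c.winOf_f (c.hH.mem v e0 (hE1 he0)).2
        refine le_trans ?_ (c.hH.win_le v _ hw.1)
        exact_mod_cast Finset.card_le_card (c.fibre_win hE1))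
    refine hb.trans ?_
    rw [← Finset.sum_filter, Finset.sum_const, nsmul_eq_mul]
    apply mul_le_mul_of_nonneg_right _ (by positivity)
    have : E.image (fun e => winOf c.Cf (esl e)) ⊆ (wins c.Cf).filter (fun J => v ∈ c.Ex J) := by
      intro J hJ
      obtain ⟨e0, he0, rfl⟩ := Finset.mem_image.1 hJ
      rw [hE, Finset.mem_filter] at he0
      rw [Finset.mem_filter]
      exact ⟨(c.winOf_f (c.hH.mem v e0 he0.1).2).1, he0.2⟩
    exact_mod_cast Finset.card_le_card this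
  refine (Finset.sum_le_sum h1).trans ?_
  rw [Finset.sum_comm]
  have h2 : ∀ J ∈ wins c.Cf, ∑ v ∈ c.P, (if v ∈ c.Ex J then
      (c.lam1 * c.lam2 * c.D' ^ 2 / c.V) else 0) ≤ B * (c.lam1 * c.lam2 * c.D' ^ 2 / c.V) := by
    intro J hJ
    rw [← Finset.sum_filter, Finset.sum_const, nsmul_eq_mul]
    apply mul_le_mul_of_nonneg_right _ (by positivity)
    refine le_trans ?_ (hB J hJ)
    have : c.P.filter (fun v => v ∈ c.Ex J) ⊆ c.Ex J := by
      intro v hv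
      exact (Finset.mem_filter.1 hv).2
    exact_mod_cast Finset.card_le_card this
  refine (Finset.sum_le_sum h2).trans ?_
  rw [Finset.sum_const, nsmul_eq_mul]
  have hw : ((wins c.Cf).card : ℝ) ≤ c.Cw * c.V ^ 4 := by
    have h3 := c.W.count_all c.l0 c.hl0'
    rw [c.hVs] at h3
    refine le_trans ?_ h3
    exact_mod_cast card_wins_le _
  calc ((wins c.Cf).card : ℝ) * (B * (c.lam1 * c.lam2 * c.D' ^ 2 / c.V))
      ≤ (c.Cw * c.V ^ 4) * (B * (c.lam1 * c.lam2 * c.D' ^ 2 / c.V)) :=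
        mul_le_mul_of_nonneg_right hw (by positivity)
    _ = c.Cw * c.V ^ 4 * B * (c.lam1 * c.lam2 * c.D' ^ 2 / c.V) := by ring

/-- `H_v` splits -/
lemma H_split (v : Pt) : ((c.H v).card : ℝ) ≤ ((c.Hg v).card : ℝ) +
    (((c.H v).filter (fun e => ¬ c.Al v (winOf c.Cf (esl e)))).card : ℝ) +
    (((c.H v).filter (fun e => v ∈ c.Ex (winOf c.Cf (esl e)))).card : ℝ) := by
  have : c.H v ⊆ c.Hg v ∪ (c.H v).filter (fun e => ¬ c.Al v (winOf c.Cf (esl e))) ∪
      (c.H v).filter (fun e => v ∈ c.Ex (winOf c.Cf (esl e))) := by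
    intro e he
    rw [Finset.mem_union, Finset.mem_union, Finset.mem_filter, Finset.mem_filter]
    unfold Hg
    rw [Finset.mem_filter]
    unfold GW
    rw [Finset.mem_filter]
    have hw := (c.winOf_f (c.hH.mem v e he).2).1
    tauto
  have h2 := (Finset.card_le_card this).trans ((Finset.card_union_le _ _).trans
    (Nat.add_le_add_right (Finset.card_union_le _ _) _))
  exact_mod_cast h2

/-- **6.3, first half**: the good part is large in total. -/
theorem sum_Hg (hkV : c.kb ≤ c.bV) (B : ℝ)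
    (hB : ∀ J ∈ wins c.Cf, ((c.Ex J).card : ℝ) ≤ B * c.bV) (hB0 : 0 ≤ B)
    (h1 : c.lam3 * c.ε1 ≤ c.c2 / 16) (h2 : c.Cw * c.lam1 * c.lam2 * B ≤ c.c2 / 16) :
    c.c2 / 8 * c.P.card * c.D' ^ 2 ≤ ∑ v ∈ c.P, ((c.Hg v).card : ℝ) := by
  have ht := c.hH.total
  have hV := c.Vpos
  have hD := c.hD'
  have hbV0 : (0 : ℝ) ≤ c.bV := Nat.cast_nonneg _
  have hsum : ∑ v ∈ c.P, ((c.H v).card : ℝ) ≤ ∑ v ∈ c.P, ((c.Hg v).card : ℝ) +
      ∑ v ∈ c.P, (((c.H v).filter (fun e => ¬ c.Al v (winOf c.Cf (esl e)))).card : ℝ) +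
      ∑ v ∈ c.P, (((c.H v).filter (fun e => v ∈ c.Ex (winOf c.Cf (esl e)))).card : ℝ) := by
    rw [← Finset.sum_add_distrib, ← Finset.sum_add_distrib]
    exact Finset.sum_le_sum (fun v _ => c.H_split v)
  have hna : ∑ v ∈ c.P, (((c.H v).filter (fun e => ¬ c.Al v (winOf c.Cf (esl e)))).card : ℝ) ≤
      c.c2 / 16 * c.P.card * c.D' ^ 2 := by
    calc _ ≤ ∑ _v ∈ c.P, c.lam3 * c.ε1 * c.D' ^ 2 :=
          Finset.sum_le_sum (fun v _ => c.lost_nonalive hkV v)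
      _ = c.P.card * (c.lam3 * c.ε1 * c.D' ^ 2) := by rw [Finset.sum_const, nsmul_eq_mul]
      _ ≤ c.P.card * (c.c2 / 16 * c.D' ^ 2) := by
          apply mul_le_mul_of_nonneg_left _ (Nat.cast_nonneg _)
          exact mul_le_mul_of_nonneg_right h1 (by positivity)
      _ = _ := by ring
  have hex : ∑ v ∈ c.P, (((c.H v).filter (fun e => v ∈ c.Ex (winOf c.Cf (esl e)))).card : ℝ) ≤
      c.c2 / 16 * c.P.card * c.D' ^ 2 := by
    refine (c.lost_ex (B * c.bV) hB (by positivity)).trans ?_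
    have hbN : (c.bV : ℝ) * c.V ^ 3 ≤ c.P.card := by
      have : c.bV * c.V ^ 3 ≤ c.P.card := Nat.div_mul_le_self _ _
      exact_mod_cast this
    have h12 := c.lam12_pos
    have hCw : 0 < c.Cw := lt_of_lt_of_le one_pos c.hCw
    calc c.Cw * c.V ^ 4 * (B * c.bV) * (c.lam1 * c.lam2 * c.D' ^ 2 / c.V)
        = (c.Cw * c.lam1 * c.lam2 * B) * (c.bV * c.V ^ 3) * c.D' ^ 2 := by
          field_simp
      _ ≤ (c.c2 / 16) * c.P.card * c.D' ^ 2 := by
          apply mul_le_mul_of_nonneg_right _ (by positivity)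
          apply mul_le_mul h2 hbN (by positivity)
          have := c.hc2
          positivity
  linarith

end BCtx

end Crest.Agent.R51.Quad
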