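import Mathlib

/-!
# Row 51, B6.3: the abstract triple lemma (helper943)

`S` is a finite set of edges with window labels `J`, robust with respect to a relation `Rel` between
windows.  Then there are at least `c₁₀ V³` ordered triples of windows of `S` which are pairwise
related.
-/

set_option autoImplicit false

noncomputable section

open Classical

namespace Crest.Agent.R51.Quad3

/-- fibre bound: a set whose fibres have at most `F` elements has at least `#T / F` labels. -/
theorem card_le_image_mul {α ι : Type*} [DecidableEq α] [DecidableEq ι] (T : Finset α) (J : α → ι) {F : ℝ}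
    (hF : ∀ i, ((T.filter (fun e => J e = i)).card : ℝ) ≤ F) :
    (T.card : ℝ) ≤ (T.image J).card * F := by
  have h := Finset.card_eq_sum_card_fiberwise (s := T) (t := T.image J) (f := J)
    (fun e he => Finset.mem_coe.2 (Finset.mem_image_of_mem J (Finset.mem_coe.1 he)))
  rw [h]
  push_cast
  calc ∑ i ∈ T.image J, ((T.filter (fun e => J e = i)).card : ℝ) ≤ ∑ _i ∈ T.image J, F :=
        Finset.sum_le_sum fun i _ => hF i
    _ = (T.image J).card * F := by rw [Finset.sum_const, nsmul_eq_mul]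

/-- pairs of elements versus pairs of labels. -/
theorem card_pairs_le {α ι : Type*} [DecidableEq α] [DecidableEq ι] (T : Finset α) (J : α → ι) (Rel : ι → ι → Prop) {F : ℝ}
    (hF0 : 0 ≤ F) (hF : ∀ i, ((T.filter (fun e => J e = i)).card : ℝ) ≤ F) :
    (((T ×ˢ T).filter (fun x : α × α => Rel (J x.1) (J x.2))).card : ℝ) ≤
      (((T.image J) ×ˢ (T.image J)).filter (fun y : ι × ι => Rel y.1 y.2)).card * F ^ 2 := by
  set A := (T ×ˢ T).filter (fun x : α × α => Rel (J x.1) (J x.2)) with hA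
  set B := ((T.image J) ×ˢ (T.image J)).filter (fun y : ι × ι => Rel y.1 y.2) with hB
  have hmaps : ∀ x ∈ A, (J x.1, J x.2) ∈ B := by
    intro x hx
    rw [hA, Finset.mem_filter, Finset.mem_product] at hx
    rw [hB, Finset.mem_filter, Finset.mem_product]
    exact ⟨⟨Finset.mem_image_of_mem J hx.1.1, Finset.mem_image_of_mem J hx.1.2⟩, hx.2⟩
  have h := Finset.card_eq_sum_card_fiberwise (s := A) (t := B) (f := fun x => (J x.1, J x.2))
    (fun x hx => Finset.mem_coe.2 (hmaps x (Finset.mem_coe.1 hx)))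
  rw [h]
  push_cast
  calc ∑ y ∈ B, ((A.filter (fun x => (J x.1, J x.2) = y)).card : ℝ) ≤ ∑ _y ∈ B, F ^ 2 := by
        refine Finset.sum_le_sum fun y _ => ?_
        have hsub : A.filter (fun x => (J x.1, J x.2) = y) ⊆
            (T.filter (fun e => J e = y.1)) ×ˢ (T.filter (fun e => J e = y.2)) := by
          intro x hx
          rw [Finset.mem_filter, hA, Finset.mem_filter, Finset.mem_product] at hx
          rw [Finset.mem_product, Finset.mem_filter, Finset.mem_filter]
          exact ⟨⟨hx.1.1.1, (Prod.ext_iff.1 hx.2).1⟩, ⟨hx.1.1.2, (Prod.ext_iff.1 hx.2).2⟩⟩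
        have h1 := Finset.card_le_card hsub
        rw [Finset.card_product] at h1
        calc ((A.filter (fun x => (J x.1, J x.2) = y)).card : ℝ)
            ≤ ((T.filter (fun e => J e = y.1)).card : ℝ) *
                ((T.filter (fun e => J e = y.2)).card : ℝ) := by exact_mod_cast h1
          _ ≤ F * F := mul_le_mul (hF _) (hF _) (Nat.cast_nonneg _) hF0
          _ = F ^ 2 := by ring
    _ = B.card * F ^ 2 := by rw [Finset.sum_const, nsmul_eq_mul]

/-- **Triple lemma (6.3).** -/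
theorem triples {α ι : Type*} [DecidableEq α] [DecidableEq ι] (S : Finset α) (J : α → ι) (Rel : ι → ι → Prop)
    {X B s1 c8 δ1 V D2 : ℝ} (hX : 0 < X) (hB : 0 < B) (hs1 : 0 < s1) (hc8 : 0 < c8)
    (hV : 0 < V) (hD2 : 0 < D2) (hSX : (S.card : ℝ) ≤ X * D2)
    (hfib : ∀ i, ((S.filter (fun e => J e = i)).card : ℝ) ≤ B * D2 / V)
    (hrob : ∀ T ⊆ S, δ1 * D2 ≤ (T.card : ℝ) → c8 * (T.card : ℝ) ^ 3 / D2 ≤
      (((T ×ˢ T).filter (fun x : α × α => Rel (J x.1) (J x.2))).card : ℝ))
    (hSs : s1 * D2 ≤ (S.card : ℝ)) (hδs : δ1 ≤ s1) (hδc : δ1 ≤ c8 * s1 ^ 3 / (2 * X)) :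
    (c8 * s1 ^ 3 / (2 * X)) / B * (c8 * (c8 * s1 ^ 3 / (2 * X)) ^ 3 / B ^ 2) * V ^ 3 ≤
      (((S.image J) ×ˢ ((S.image J) ×ˢ (S.image J))).filter
        (fun t : ι × ι × ι => Rel t.1 t.2.1 ∧ Rel t.1 t.2.2 ∧ Rel t.2.1 t.2.2)).card := by
  set c9 : ℝ := c8 * s1 ^ 3 / (2 * X) with hc9
  have hc9pos : 0 < c9 := by rw [hc9]; positivity
  have hs1X : s1 ≤ X := by
    have := hSs.trans hSX
    exact le_of_mul_le_mul_right this hD2
  have hc9le : c9 ≤ c8 * s1 ^ 2 / 2 := by
    rw [hc9, div_le_div_iff₀ (by positivity) (by norm_num)]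
    have : c8 * s1 ^ 2 * s1 ≤ c8 * s1 ^ 2 * X := mul_le_mul_of_nonneg_left hs1X (by positivity)
    nlinarith
  -- the star of an element
  set st : ι → Finset α := fun i => S.filter (fun f => Rel i (J f)) with hst
  have hSpos : 0 < (S.card : ℝ) := lt_of_lt_of_le (by positivity) hSs
  have hM := hrob S (Finset.Subset.refl _) (le_trans (mul_le_mul_of_nonneg_right hδs hD2.le) hSs)
  -- number of related pairs = sum of the stars
  have hsum : (((S ×ˢ S).filter (fun x : α × α => Rel (J x.1) (J x.2))).card : ℝ) =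
      ∑ e ∈ S, ((st (J e)).card : ℝ) := by
    have : ((S ×ˢ S).filter (fun x : α × α => Rel (J x.1) (J x.2))).card =
        ∑ e ∈ S, (st (J e)).card := by
      rw [Finset.card_filter, Finset.sum_product]
      refine Finset.sum_congr rfl fun e _ => ?_
      rw [hst, Finset.card_filter]
    rw [this]
    push_cast
    rfl
  set G := S.filter (fun e => c9 * D2 ≤ ((st (J e)).card : ℝ)) with hGdef
  have hGsum : ∑ e ∈ S, ((st (J e)).card : ℝ) ≤ G.card * S.card + S.card * (c9 * D2) := by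
    rw [← Finset.sum_filter_add_sum_filter_not S (fun e => c9 * D2 ≤ ((st (J e)).card : ℝ))]
    apply add_le_add
    · calc ∑ e ∈ G, ((st (J e)).card : ℝ) ≤ ∑ _e ∈ G, (S.card : ℝ) := by
            refine Finset.sum_le_sum fun e _ => ?_
            exact_mod_cast Finset.card_filter_le _ _
        _ = G.card * S.card := by rw [Finset.sum_const, nsmul_eq_mul]
    · calc ∑ e ∈ S.filter (fun e => ¬ c9 * D2 ≤ ((st (J e)).card : ℝ)), ((st (J e)).card : ℝ)
          ≤ ∑ _e ∈ S.filter (fun e => ¬ c9 * D2 ≤ ((st (J e)).card : ℝ)), (c9 * D2) := by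
            refine Finset.sum_le_sum fun e he => ?_
            exact (not_le.1 (Finset.mem_filter.1 he).2).le
        _ = (S.filter (fun e => ¬ c9 * D2 ≤ ((st (J e)).card : ℝ))).card * (c9 * D2) := by
            rw [Finset.sum_const, nsmul_eq_mul]
        _ ≤ S.card * (c9 * D2) := by
            apply mul_le_mul_of_nonneg_right _ (by positivity)
            exact_mod_cast Finset.card_filter_le _ _
  have hGcard : c9 * D2 ≤ (G.card : ℝ) := by
    rw [hsum] at hM
    have h1 := hM.trans hGsum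
    -- divide by #S
    have h2 : c8 * (S.card : ℝ) ^ 2 / D2 ≤ G.card + c9 * D2 := by
      have h3 : (c8 * (S.card : ℝ) ^ 2 / D2) * S.card ≤ (G.card + c9 * D2) * S.card := by
        calc (c8 * (S.card : ℝ) ^ 2 / D2) * S.card = c8 * (S.card : ℝ) ^ 3 / D2 := by ring
          _ ≤ _ := h1
          _ = _ := by ring
      exact le_of_mul_le_mul_right h3 hSpos
    have h4 : c8 * s1 ^ 2 * D2 ≤ c8 * (S.card : ℝ) ^ 2 / D2 := by
      rw [le_div_iff₀ hD2]
      have h5 : (s1 * D2) ^ 2 ≤ (S.card : ℝ) ^ 2 := by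
        apply pow_le_pow_left₀ (by positivity) hSs
      calc c8 * s1 ^ 2 * D2 * D2 = c8 * (s1 * D2) ^ 2 := by ring
        _ ≤ c8 * (S.card : ℝ) ^ 2 := mul_le_mul_of_nonneg_left h5 hc8.le
    have h6 : c9 * D2 ≤ c8 * s1 ^ 2 / 2 * D2 := mul_le_mul_of_nonneg_right hc9le hD2.le
    linarith
  -- windows of the good elements
  have hGimg : c9 / B * V ≤ ((G.image J).card : ℝ) := by
    have h1 := card_le_image_mul G J (F := B * D2 / V) (fun i => by
      refine le_trans ?_ (hfib i)
      exact_mod_cast Finset.card_le_card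
        (Finset.filter_subset_filter _ (Finset.filter_subset _ _)))
    have h2 := hGcard.trans h1
    have h3 : (c9 / B * V) * (B * D2 / V) ≤ (G.image J).card * (B * D2 / V) := by
      calc (c9 / B * V) * (B * D2 / V) = c9 * D2 := by field_simp
        _ ≤ _ := h2
    exact le_of_mul_le_mul_right h3 (by positivity)
  -- for every good window many pairs
  have hpairs : ∀ a ∈ G.image J, c8 * c9 ^ 3 / B ^ 2 * V ^ 2 ≤
      ((((S.image J) ×ˢ (S.image J)).filter
        (fun y : ι × ι => Rel a y.1 ∧ Rel a y.2 ∧ Rel y.1 y.2)).card : ℝ) := by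
    intro a ha
    rw [Finset.mem_image] at ha
    obtain ⟨e, he, rfl⟩ := ha
    have hcard : c9 * D2 ≤ ((st (J e)).card : ℝ) := (Finset.mem_filter.1 he).2
    have hT := hrob (st (J e)) (Finset.filter_subset _ _)
      (le_trans (mul_le_mul_of_nonneg_right hδc hD2.le) hcard)
    have h1 := card_pairs_le (st (J e)) J Rel (F := B * D2 / V) (by positivity) (fun i => by
      refine le_trans ?_ (hfib i)
      exact_mod_cast Finset.card_le_card
        (Finset.filter_subset_filter _ (Finset.filter_subset _ _)))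
    have h2 : (((((st (J e)).image J) ×ˢ ((st (J e)).image J)).filter
        (fun y : ι × ι => Rel y.1 y.2)).card : ℝ) ≤
        ((((S.image J) ×ˢ (S.image J)).filter
        (fun y : ι × ι => Rel (J e) y.1 ∧ Rel (J e) y.2 ∧ Rel y.1 y.2)).card : ℝ) := by
      have : (((st (J e)).image J) ×ˢ ((st (J e)).image J)).filter
          (fun y : ι × ι => Rel y.1 y.2) ⊆ ((S.image J) ×ˢ (S.image J)).filter
          (fun y : ι × ι => Rel (J e) y.1 ∧ Rel (J e) y.2 ∧ Rel y.1 y.2) := by
        intro y hy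
        rw [Finset.mem_filter, Finset.mem_product, Finset.mem_image, Finset.mem_image] at hy
        obtain ⟨⟨⟨f, hf, hf1⟩, ⟨g, hg, hg1⟩⟩, hr⟩ := hy
        rw [hst, Finset.mem_filter] at hf hg
        rw [Finset.mem_filter, Finset.mem_product]
        refine ⟨⟨?_, ?_⟩, ?_, ?_, hr⟩
        · rw [← hf1]; exact Finset.mem_image_of_mem J hf.1
        · rw [← hg1]; exact Finset.mem_image_of_mem J hg.1
        · rw [← hf1]; exact hf.2
        · rw [← hg1]; exact hg.2
      exact_mod_cast Finset.card_le_card this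
    have h3 : c8 * c9 ^ 3 * D2 ^ 2 ≤ c8 * ((st (J e)).card : ℝ) ^ 3 / D2 := by
      rw [le_div_iff₀ hD2]
      have h4 : (c9 * D2) ^ 3 ≤ ((st (J e)).card : ℝ) ^ 3 :=
        pow_le_pow_left₀ (by positivity) hcard 3
      calc c8 * c9 ^ 3 * D2 ^ 2 * D2 = c8 * (c9 * D2) ^ 3 := by ring
        _ ≤ _ := mul_le_mul_of_nonneg_left h4 hc8.le
    have h5 : c8 * c9 ^ 3 * D2 ^ 2 ≤ ((((S.image J) ×ˢ (S.image J)).filter
        (fun y : ι × ι => Rel (J e) y.1 ∧ Rel (J e) y.2 ∧ Rel y.1 y.2)).card : ℝ) *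
          (B * D2 / V) ^ 2 :=
      (h3.trans hT).trans (h1.trans (mul_le_mul_of_nonneg_right h2 (by positivity)))
    have h6 : (c8 * c9 ^ 3 / B ^ 2 * V ^ 2) * (B * D2 / V) ^ 2 ≤
        ((((S.image J) ×ˢ (S.image J)).filter
        (fun y : ι × ι => Rel (J e) y.1 ∧ Rel (J e) y.2 ∧ Rel y.1 y.2)).card : ℝ) *
          (B * D2 / V) ^ 2 := by
      calc (c8 * c9 ^ 3 / B ^ 2 * V ^ 2) * (B * D2 / V) ^ 2 = c8 * c9 ^ 3 * D2 ^ 2 := by
            field_simp
        _ ≤ _ := h5
    exact le_of_mul_le_mul_right h6 (by positivity)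
  -- final count
  set R3 := ((S.image J) ×ˢ ((S.image J) ×ˢ (S.image J))).filter
        (fun t : ι × ι × ι => Rel t.1 t.2.1 ∧ Rel t.1 t.2.2 ∧ Rel t.2.1 t.2.2) with hR3
  have hGS : G.image J ⊆ S.image J := Finset.image_subset_image (Finset.filter_subset _ _)
  have hcount : ∑ a ∈ G.image J, (((S.image J) ×ˢ (S.image J)).filter
        (fun y : ι × ι => Rel a y.1 ∧ Rel a y.2 ∧ Rel y.1 y.2)).card ≤ R3.card := by
    rw [hR3, Finset.card_filter, Finset.sum_product]
    refine le_trans ?_ (Finset.sum_le_sum_of_subset hGS)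
    refine Finset.sum_le_sum fun a _ => ?_
    rw [Finset.card_filter]
  calc c9 / B * (c8 * c9 ^ 3 / B ^ 2) * V ^ 3
      = (c9 / B * V) * (c8 * c9 ^ 3 / B ^ 2 * V ^ 2) := by ring
    _ ≤ (G.image J).card * (c8 * c9 ^ 3 / B ^ 2 * V ^ 2) :=
        mul_le_mul_of_nonneg_right hGimg (by positivity)
    _ = ∑ _a ∈ G.image J, (c8 * c9 ^ 3 / B ^ 2 * V ^ 2) := by
        rw [Finset.sum_const, nsmul_eq_mul]
    _ ≤ ∑ a ∈ G.image J, ((((S.image J) ×ˢ (S.image J)).filter
        (fun y : ι × ι => Rel a y.1 ∧ Rel a y.2 ∧ Rel y.1 y.2)).card : ℝ) :=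
        Finset.sum_le_sum hpairs
    _ ≤ R3.card := by exact_mod_cast hcount

end Crest.Agent.R51.Quad3
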