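import Crest.Agent.R51.Quad2
import Crest.Agent.R51.Quad3
import Crest.Agent.R51.Final
import Crest.Agent.R51.FluxNb
import Crest.Agent.R51.Dey

/-!
# Row 51, section B6: good points, stars, assembly (helper422)
-/

set_option autoImplicit false

noncomputable section

open Classical Finset

namespace Crest.Agent.R51.Quad

open Crest.Agent.R51 Crest.Agent.R51.Active

namespace BCtx

variable (c : BCtx)

/-- the good points -/
def GV : Finset Pt := c.P.filter (fun v => c.c2 / 16 * c.D' ^ 2 ≤ ((c.Hg v).card : ℝ))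

lemma GV_card (hs : c.c2 / 8 * c.P.card * c.D' ^ 2 ≤ ∑ v ∈ c.P, ((c.Hg v).card : ℝ)) :
    c.c2 / (16 * c.lam1 ^ 2) * c.P.card ≤ (c.GV.card : ℝ) := by
  have hD := c.hD'
  have h1 := c.h1
  have h2 : ∑ v ∈ c.P, ((c.Hg v).card : ℝ) ≤
      c.GV.card * (c.lam1 ^ 2 * c.D' ^ 2) + c.P.card * (c.c2 / 16 * c.D' ^ 2) := by
    rw [← Finset.sum_filter_add_sum_filter_not c.P
      (fun v => c.c2 / 16 * c.D' ^ 2 ≤ ((c.Hg v).card : ℝ))]
    apply add_le_add
    · calc _ ≤ ∑ _v ∈ c.GV, c.lam1 ^ 2 * c.D' ^ 2 := by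
            refine Finset.sum_le_sum fun v _ => ?_
            refine le_trans ?_ (c.hH.card_le v)
            exact_mod_cast Finset.card_le_card (c.Hg_sub v)
        _ = _ := by rw [Finset.sum_const, nsmul_eq_mul]
    · calc _ ≤ ∑ _v ∈ c.P.filter (fun v => ¬ c.c2 / 16 * c.D' ^ 2 ≤ ((c.Hg v).card : ℝ)),
            (c.c2 / 16 * c.D' ^ 2) := by
            refine Finset.sum_le_sum fun v hv => ?_
            exact (not_le.1 (Finset.mem_filter.1 hv).2).le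
        _ = (c.P.filter (fun v => ¬ c.c2 / 16 * c.D' ^ 2 ≤ ((c.Hg v).card : ℝ))).card *
            (c.c2 / 16 * c.D' ^ 2) := by rw [Finset.sum_const, nsmul_eq_mul]
        _ ≤ _ := by
            apply mul_le_mul_of_nonneg_right
            · exact_mod_cast Finset.card_filter_le _ _
            · have := c.hc2
              positivity
  have h3 : c.c2 / 16 * c.P.card * c.D' ^ 2 ≤ c.GV.card * (c.lam1 ^ 2 * c.D' ^ 2) := by
    have := hs.trans h2
    linarith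
  have h4 : c.c2 / (16 * c.lam1 ^ 2) * c.P.card * (c.lam1 ^ 2 * c.D' ^ 2) ≤
      c.GV.card * (c.lam1 ^ 2 * c.D' ^ 2) := by
    calc c.c2 / (16 * c.lam1 ^ 2) * c.P.card * (c.lam1 ^ 2 * c.D' ^ 2)
        = c.c2 / 16 * c.P.card * c.D' ^ 2 := by field_simp
      _ ≤ _ := h3
  exact le_of_mul_le_mul_right h4 (by positivity)

/-- windows of the good part -/
def WG (v : Pt) : Finset (ℝ × ℝ) := (c.Hg v).image (fun e => winOf c.Cf (esl e))

lemma WG_sub (v : Pt) : c.WG v ⊆ c.GW v := by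
  intro J hJ
  obtain ⟨e, he, rfl⟩ := Finset.mem_image.1 hJ
  exact (Finset.mem_filter.1 he).2

lemma fib_Hg (v : Pt) (J : ℝ × ℝ) :
    (((c.Hg v).filter (fun e => winOf c.Cf (esl e) = J)).card : ℝ) ≤
      c.lam1 * c.lam2 * c.D' ^ 2 / c.V := by
  rcases ((c.Hg v).filter (fun e => winOf c.Cf (esl e) = J)).eq_empty_or_nonempty with h0 | ⟨e, he⟩
  · rw [h0]
    have := c.lam12_pos
    have := c.hD'
    have := c.Vpos
    simp only [Finset.card_empty, Nat.cast_zero]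
    positivity
  · rw [Finset.mem_filter] at he
    have hw := (c.winOf_f (c.hH.mem v e (c.Hg_sub v he.1)).2).1
    rw [he.2] at hw
    refine le_trans ?_ (c.hH.win_le v J hw)
    exact_mod_cast Finset.card_le_card (c.fibre_win (c.Hg_sub v))

lemma WG_card {v : Pt} (hv : v ∈ c.GV) :
    c.c2 / (16 * (c.lam1 * c.lam2)) * c.V ≤ ((c.WG v).card : ℝ) := by
  have hD := c.hD'
  have hV := c.Vpos
  have h12 := c.lam12_pos
  have h1 := (Finset.mem_filter.1 hv).2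
  have h2 := card_le_image_mul (c.Hg v) (fun e => winOf c.Cf (esl e))
    (c.lam1 * c.lam2 * c.D' ^ 2 / c.V) (fun J _ => c.fib_Hg v J)
  have h3 : (c.c2 / (16 * (c.lam1 * c.lam2)) * c.V) * (c.lam1 * c.lam2 * c.D' ^ 2 / c.V) ≤
      ((c.WG v).card : ℝ) * (c.lam1 * c.lam2 * c.D' ^ 2 / c.V) := by
    have hl1 : c.lam1 ≠ 0 := by
      have := c.h1
      positivity
    have hl2 : c.lam2 ≠ 0 := by
      have := c.h2
      positivity
    calc (c.c2 / (16 * (c.lam1 * c.lam2)) * c.V) * (c.lam1 * c.lam2 * c.D' ^ 2 / c.V)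
        = c.c2 / 16 * c.D' ^ 2 := by field_simp
      _ ≤ _ := h1.trans h2
  exact le_of_mul_le_mul_right h3 (by positivity)

/-- the triples of windows -/
def WT (v : Pt) : Finset ((ℝ × ℝ) × (ℝ × ℝ) × (ℝ × ℝ)) :=
  ((c.WG v) ×ˢ ((c.WG v) ×ˢ (c.WG v))).filter
    (fun t => c.Rel t.1 t.2.1 ∧ c.Rel t.1 t.2.2 ∧ c.Rel t.2.1 t.2.2)

/-- the constant `c₉` -/
def c9 : ℝ := c.c8 * (c.c2 / 16) ^ 3 / (2 * c.lam1 ^ 2)

/-- the constant `c₁₀` -/
def c10 : ℝ := c.c9 / (c.lam1 * c.lam2) * (c.c8 * c.c9 ^ 3 / (c.lam1 * c.lam2) ^ 2)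

lemma WT_card (hδs : c.δ1 ≤ c.c2 / 16) (hδc : c.δ1 ≤ c.c9) {v : Pt} (hv : v ∈ c.GV) :
    c.c10 * c.V ^ 3 ≤ ((c.WT v).card : ℝ) := by
  have hD := c.hD'
  have hV := c.Vpos
  have h12 := c.lam12_pos
  have h1 := c.h1
  have hc2 := c.hc2
  have := Quad3.triples (c.Hg v) (fun e => winOf c.Cf (esl e)) c.Rel
    (X := c.lam1 ^ 2) (B := c.lam1 * c.lam2) (s1 := c.c2 / 16) (c8 := c.c8) (δ1 := c.δ1)
    (V := c.V) (D2 := c.D' ^ 2) (by positivity) h12 (by positivity) c.hc8 hV (by positivity)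
    (le_trans (by exact_mod_cast Finset.card_le_card (c.Hg_sub v)) (c.hH.card_le v))
    (fun J => c.fib_Hg v J)
    (fun T hT hδ => c.hH.robust v T (hT.trans (c.Hg_sub v)) hδ)
    (Finset.mem_filter.1 hv).2 hδs hδc
  exact this

/-- the width of the graph `G₂` -/
def m2 : ℕ := 2 * c.L * c.bV

/-- the graph `G₂` -/
def G2 : Finset Edge := nearAll c.P c.k c.m2

lemma G2_sub : c.G2 ⊆ pairs c.P := Finset.filter_subset _ _

/-- edges from alive left partners are in `G₂` -/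
lemma left_edge (hbV : 1 ≤ c.bV) {v : Pt} (hv : v ∈ c.P) {J : ℝ × ℝ} (hJ : J ∈ wins c.Cf)
    {p : Pt} (hp : p ∈ c.lft J v) : (p, v) ∈ c.G2 := by
  unfold lft at hp
  rw [Finset.mem_filter] at hp
  obtain ⟨hpA, hx, hs1, hs2⟩ := hp
  have hal := c.mem_AL.1 hpA
  obtain ⟨e, he⟩ := c.alive_nonempty hal
  rw [mem_inWin] at he
  have hcen := c.hH.centL p e he.1 J hJ he.2.1 he.2.2 (sl p v) hs1 hs2
  have hL := c.hL
  unfold G2
  rw [mem_nearAll, mem_pairs]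
  refine ⟨⟨c.alive_mem hal, hv, hx⟩, ?_⟩
  unfold Near lv
  obtain ⟨h1, h2⟩ := hcen
  have h3 : 1 + c.L * bb c.P.card c.V ≤ c.m2 := by
    unfold m2
    have : 1 ≤ c.L * bb c.P.card c.V := Nat.one_le_iff_ne_zero.2
      (Nat.mul_ne_zero (by omega) (by unfold bV at hbV; omega))
    have e1 : 2 * c.L * c.bV = c.L * bb c.P.card c.V + c.L * bb c.P.card c.V := by
      unfold bV
      ring
    omega
  have e2 : esl (p, v) = sl p v := rfl
  rw [e2]
  constructor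
  · show 1 + rk c.P (sl p v) p ≤ c.k + c.m2
    omega
  · show c.k ≤ 1 + rk c.P (sl p v) p + c.m2
    omega

/-- right degree of good points -/
lemma right_deg (h : 2 ≤ c.κ * c.bB) (hb : 1 ≤ c.bB) (hbV : c.bB + 1 ≤ c.bV)
    (hρ : 16 ≤ c.rho) {v : Pt} (hv : v ∈ c.GV) :
    c.c2 / (16 * (c.lam1 * c.lam2)) * c.V * (c.rho * c.bB / 16) ≤
      ((c.G2.filter (fun e => e.1 = v)).card : ℝ) := by
  have hW := c.WG_card hv
  have hsum : (c.WG v).sum (fun J => Rp c.P c.k c.bB J.1 J.2 v) ≤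
      (c.G2.filter (fun e => e.1 = v)).card := by
    have hdisj : ∀ J ∈ c.WG v, ∀ J' ∈ c.WG v, J ≠ J' →
        Disjoint ((nearE c.P c.k c.bB J.1 J.2).filter (fun e => e.1 = v))
          ((nearE c.P c.k c.bB J'.1 J'.2).filter (fun e => e.1 = v)) := by
      intro J hJ J' hJ' hne
      rw [Finset.disjoint_left]
      intro e he he'
      rw [Finset.mem_filter, mem_nearE] at he he'
      exact hne (win_unique (Finset.mem_filter.1 (c.WG_sub v hJ)).1
        (Finset.mem_filter.1 (c.WG_sub v hJ')).1 he.1.2.1 he.1.2.2.1 he'.1.2.1 he'.1.2.2.1)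
    have hsub : (c.WG v).biUnion (fun J =>
        (nearE c.P c.k c.bB J.1 J.2).filter (fun e => e.1 = v)) ⊆
        c.G2.filter (fun e => e.1 = v) := by
      intro e he
      rw [Finset.mem_biUnion] at he
      obtain ⟨J, hJ, he⟩ := he
      rw [Finset.mem_filter, mem_nearE] at he
      rw [Finset.mem_filter]
      refine ⟨?_, he.2⟩
      unfold G2
      rw [mem_nearAll]
      refine ⟨he.1.1, he.1.2.2.2.mono ?_⟩
      have hL := c.hL
      have h1 : c.bV ≤ c.m2 := by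
        unfold m2
        exact Nat.le_mul_of_pos_left _ (by omega)
      omega
    have h2 := Finset.card_le_card hsub
    rw [Finset.card_biUnion hdisj] at h2
    exact h2
  have hsum' : (((c.WG v).sum (fun J => Rp c.P c.k c.bB J.1 J.2 v) : ℕ) : ℝ) ≤
      ((c.G2.filter (fun e => e.1 = v)).card : ℝ) := by exact_mod_cast hsum
  refine le_trans ?_ hsum'
  push_cast
  have hρ0 := c.rho_pos
  calc c.c2 / (16 * (c.lam1 * c.lam2)) * c.V * (c.rho * c.bB / 16)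
      ≤ (c.WG v).card * (c.rho * c.bB / 16) :=
        mul_le_mul_of_nonneg_right hW (by positivity)
    _ = ∑ _J ∈ c.WG v, (c.rho * c.bB / 16) := by rw [Finset.sum_const, nsmul_eq_mul]
    _ ≤ ∑ J ∈ c.WG v, (Rp c.P c.k c.bB J.1 J.2 v : ℝ) := by
        apply Finset.sum_le_sum
        intro J hJ
        exact (c.Lp_Rp_ge h hb hρ (Finset.mem_filter.1 (c.WG_sub v hJ)).2.1).2

/-- the window of the pair `(p, v)` -/
def wn (v p : Pt) : ℝ × ℝ := winOf c.Cf (sl p v)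

/-- the stars at `v` -/
def St (v : Pt) : Finset (Pt × Pt × Pt) :=
  (c.P ×ˢ (c.P ×ˢ c.P)).filter (fun t =>
    ((c.wn v t.1, c.wn v t.2.1, c.wn v t.2.2) ∈ c.WT v) ∧
    t.1 ∈ c.lft (c.wn v t.1) v ∧ t.2.1 ∈ c.lft (c.wn v t.2.1) v ∧
    t.2.2 ∈ c.lft (c.wn v t.2.2) v)

lemma wn_eq {v : Pt} {J : ℝ × ℝ} (hJ : J ∈ wins c.Cf) {p : Pt} (hp : p ∈ c.lft J v) :
    c.wn v p = J := by
  unfold lft at hp
  rw [Finset.mem_filter] at hp
  exact winOf_eq hJ hp.2.2.1 hp.2.2.2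

lemma lft_card {v : Pt} {J : ℝ × ℝ} (hJ : J ∈ c.GW v) : c.bB ≤ (c.lft J v).card := by
  unfold GW at hJ
  rw [Finset.mem_filter] at hJ
  by_contra h
  rw [not_le] at h
  exact hJ.2.2 (Finset.mem_filter.2 ⟨c.mem_AL.2 hJ.2.1, h⟩)

lemma St_card (v : Pt) : (c.WT v).card * c.bB ^ 3 ≤ (c.St v).card := by
  have hmaps : ∀ t ∈ c.St v, (c.wn v t.1, c.wn v t.2.1, c.wn v t.2.2) ∈ c.WT v := by
    intro t ht
    exact (Finset.mem_filter.1 ht).2.1
  have h := Finset.card_eq_sum_card_fiberwise (s := c.St v) (t := c.WT v)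
    (f := fun t => (c.wn v t.1, c.wn v t.2.1, c.wn v t.2.2))
    (fun t ht => Finset.mem_coe.2 (hmaps t (Finset.mem_coe.1 ht)))
  rw [h, ← smul_eq_mul, ← Finset.sum_const]
  apply Finset.sum_le_sum
  rintro ⟨J1, J2, J3⟩ hJ
  have hJ' := Finset.mem_filter.1 hJ
  simp only [Finset.mem_product] at hJ'
  obtain ⟨⟨hJ1, hJ2, hJ3⟩, _⟩ := hJ'
  have g1 := c.WG_sub v hJ1
  have g2 := c.WG_sub v hJ2
  have g3 := c.WG_sub v hJ3
  have w1 := (Finset.mem_filter.1 g1).1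
  have w2 := (Finset.mem_filter.1 g2).1
  have w3 := (Finset.mem_filter.1 g3).1
  have hsub : (c.lft J1 v) ×ˢ ((c.lft J2 v) ×ˢ (c.lft J3 v)) ⊆
      (c.St v).filter (fun t => (c.wn v t.1, c.wn v t.2.1, c.wn v t.2.2) = (J1, J2, J3)) := by
    rintro ⟨p1, p2, p3⟩ hp
    simp only [Finset.mem_product] at hp
    obtain ⟨hp1, hp2, hp3⟩ := hp
    have e1 := c.wn_eq w1 hp1
    have e2 := c.wn_eq w2 hp2
    have e3 := c.wn_eq w3 hp3
    have m1 : p1 ∈ c.P := c.AL_sub _ (Finset.mem_filter.1 hp1).1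
    have m2 : p2 ∈ c.P := c.AL_sub _ (Finset.mem_filter.1 hp2).1
    have m3 : p3 ∈ c.P := c.AL_sub _ (Finset.mem_filter.1 hp3).1
    rw [Finset.mem_filter]
    unfold St
    rw [Finset.mem_filter]
    simp only [Finset.mem_product, e1, e2, e3]
    exact ⟨⟨⟨m1, m2, m3⟩, hJ, hp1, hp2, hp3⟩, trivial⟩
  refine le_trans ?_ (Finset.card_le_card hsub)
  rw [Finset.card_product, Finset.card_product]
  have k1 := c.lft_card g1
  have k2 := c.lft_card g2
  have k3 := c.lft_card g3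
  calc c.bB ^ 3 = c.bB * (c.bB * c.bB) := by ring
    _ ≤ (c.lft J1 v).card * ((c.lft J2 v).card * (c.lft J3 v).card) :=
      Nat.mul_le_mul k1 (Nat.mul_le_mul k2 k3)

lemma mem_GV_P {v : Pt} (hv : v ∈ c.GV) : v ∈ c.P := (Finset.mem_filter.1 hv).1

lemma St_edges (hbV : 1 ≤ c.bV) {v : Pt} (hv : v ∈ c.GV) {t : Pt × Pt × Pt}
    (ht : t ∈ c.St v) : (t.1, v) ∈ c.G2 ∧ (t.2.1, v) ∈ c.G2 ∧ (t.2.2, v) ∈ c.G2 := by
  unfold St at ht
  rw [Finset.mem_filter] at ht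
  obtain ⟨_, hW, h1, h2, h3⟩ := ht
  unfold WT at hW
  simp only [Finset.mem_filter, Finset.mem_product] at hW
  have g1 := (Finset.mem_filter.1 (c.WG_sub v hW.1.1)).1
  have g2 := (Finset.mem_filter.1 (c.WG_sub v hW.1.2.1)).1
  have g3 := (Finset.mem_filter.1 (c.WG_sub v hW.1.2.2)).1
  exact ⟨c.left_edge hbV (c.mem_GV_P hv) g1 h1, c.left_edge hbV (c.mem_GV_P hv) g2 h2,
    c.left_edge hbV (c.mem_GV_P hv) g3 h3⟩

/-- crossings of `G₂` -/
lemma crs_G2 (hbV : 1 ≤ c.bV) : (crs c.G2 c.G2 : ℝ) ≤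
    72 * c.L ^ 2 * c.P.card * ((c.P.card : ℝ) / c.V ^ 2) ^ 3 := by
  have hL := c.hL
  have hm : 1 ≤ c.m2 := by
    unfold m2
    exact Nat.one_le_iff_ne_zero.2 (Nat.mul_ne_zero (by omega) (by omega))
  have h := dey_all c.hP c.k c.m2 c.k c.m2 hm hm
  have h' : (crs c.G2 c.G2 : ℝ) ≤ 18 * c.m2 * c.m2 * c.P.card * c.P.card := by
    exact_mod_cast h
  have hV := c.Vpos
  have hbVN : (c.bV : ℝ) ≤ c.P.card / c.V ^ 3 := by
    have := Nat.cast_div_le (α := ℝ) (m := c.P.card) (n := c.V ^ 3)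
    push_cast at this
    exact this
  have hm2 : (c.m2 : ℝ) ≤ 2 * c.L * (c.P.card / c.V ^ 3) := by
    unfold m2
    push_cast
    exact mul_le_mul_of_nonneg_left hbVN (by positivity)
  refine h'.trans ?_
  calc (18 * c.m2 * c.m2 * c.P.card * c.P.card : ℝ)
      = 18 * ((c.m2 : ℝ) * c.m2) * c.P.card * c.P.card := by ring
    _ ≤ 18 * ((2 * c.L * (c.P.card / c.V ^ 3)) * (2 * c.L * (c.P.card / c.V ^ 3))) *
        c.P.card * c.P.card := by
        gcongr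
    _ = 72 * c.L ^ 2 * c.P.card * ((c.P.card : ℝ) / c.V ^ 2) ^ 3 := by
        field_simp
        ring

/-- size of `G₂` -/
lemma card_G2 (hbV : 1 ≤ c.bV) (hD : 1 ≤ (c.P.card : ℝ) / c.V ^ 2) : (c.G2.card : ℝ) ≤
    36 * c.L * c.P.card * ((c.P.card : ℝ) / c.V ^ 2) := by
  have hL : (1 : ℝ) ≤ c.L := by exact_mod_cast c.hL
  have hc := c.crs_G2 hbV
  set D : ℝ := (c.P.card : ℝ) / c.V ^ 2 with hDdef
  have hD0 : 0 < D := by linarith
  have hN : (0 : ℝ) ≤ c.P.card := Nat.cast_nonneg _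
  rcases crossing_lemma c.hP (subset_refl c.P) c.G2_sub with h | h
  · refine h.trans ?_
    have : (18 : ℝ) ≤ 36 * c.L * D := by nlinarith
    calc (18 : ℝ) * c.P.card ≤ (36 * c.L * D) * c.P.card := mul_le_mul_of_nonneg_right this hN
      _ = 36 * c.L * c.P.card * D := by ring
  · have h3 : (c.G2.card : ℝ) ^ 3 ≤ (36 * c.L * c.P.card * D) ^ 3 := by
      calc (c.G2.card : ℝ) ^ 3 ≤ 648 * (c.P.card : ℝ) ^ 2 * (crs c.G2 c.G2 : ℝ) := h
        _ ≤ 648 * (c.P.card : ℝ) ^ 2 * (72 * c.L ^ 2 * c.P.card * D ^ 3) :=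
            mul_le_mul_of_nonneg_left hc (by positivity)
        _ = 46656 * (c.L : ℝ) ^ 2 * c.P.card ^ 3 * D ^ 3 := by ring
        _ ≤ 46656 * (c.L : ℝ) ^ 3 * c.P.card ^ 3 * D ^ 3 := by
            have : (c.L : ℝ) ^ 2 ≤ (c.L : ℝ) ^ 3 := pow_le_pow_right₀ hL (by norm_num)
            gcongr
        _ = (36 * c.L * c.P.card * D) ^ 3 := by ring
    exact le_of_pow_le_pow_left₀ (by norm_num) (by positivity) h3

end BCtx

end Crest.Agent.R51.Quad
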