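import Mathlib

set_option autoImplicit false

namespace Crest.Agent.R51.Red

open Finset Filter Topology

/-- strictly separable k-subsets, exactly as in S0070 -/
def Sep (Q S : Finset (ℝ × ℝ)) : Prop :=
  ∃ a b c : ℝ, (a ≠ 0 ∨ b ≠ 0) ∧
    (∀ p ∈ S, a * p.1 + b * p.2 + c < 0) ∧
    (∀ p ∈ Q, p ∉ S → 0 < a * p.1 + b * p.2 + c)

open Classical in
noncomputable def ksets (Q : Finset (ℝ × ℝ)) (k : ℕ) : Finset (Finset (ℝ × ℝ)) :=
  (Q.powersetCard k).filter (fun S => Sep Q S)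

def DX (P : Finset (ℝ × ℝ)) : Prop := ∀ p ∈ P, ∀ q ∈ P, p.1 = q.1 → p = q

def DS (P : Finset (ℝ × ℝ)) : Prop := ∀ p ∈ P, ∀ q ∈ P, ∀ r ∈ P, ∀ s ∈ P,
  p.1 < q.1 → r.1 < s.1 → (q.2 - p.2) * (s.1 - r.1) = (s.2 - r.2) * (q.1 - p.1) → p = r ∧ q = s

/-- eventually nonzero quadratic -/
lemma quad_ne (A B C : ℝ) (hA : A ≠ 0) : ∀ᶠ e in 𝓝[≠] (0:ℝ), A * e ^ 2 + B * e + C ≠ 0 := by
  by_cases hC : C = 0
  · by_cases hB : B = 0
    · filter_upwards [self_mem_nhdsWithin] with e he
      have he' : e ≠ 0 := he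
      simp [hC, hB, hA, he']
    · have h1 : ∀ᶠ e in 𝓝 (0:ℝ), A * e + B ≠ 0 := by
        have hc : Continuous fun e : ℝ => A * e + B := by fun_prop
        have := hc.tendsto 0
        simp only [mul_zero, zero_add] at this
        exact this.eventually_ne hB
      filter_upwards [self_mem_nhdsWithin, h1.filter_mono nhdsWithin_le_nhds] with e he he2
      have he' : e ≠ 0 := he
      have : A * e ^ 2 + B * e + C = e * (A * e + B) := by rw [hC]; ring
      rw [this]
      exact mul_ne_zero he' he2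
  · have hc : Continuous fun e : ℝ => A * e ^ 2 + B * e + C := by fun_prop
    have := hc.tendsto 0
    simp only [ne_eq, OfNat.ofNat_ne_zero, not_false_eq_true, zero_pow, mul_zero, zero_add] at this
    exact (this.eventually_ne hC).filter_mono nhdsWithin_le_nhds

lemma sidon {a b c d : ℕ} (hab : a ≠ b) (hcd : c ≠ d)
    (h : (2:ℝ) ^ a + 2 ^ b = 2 ^ c + 2 ^ d) : (a = c ∧ b = d) ∨ (a = d ∧ b = c) := by
  have h' : (2:ℕ) ^ a + 2 ^ b = 2 ^ c + 2 ^ d := by exact_mod_cast h
  -- compare the maxima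
  have key : ∀ {a b c d : ℕ}, a < b → c < d → (2:ℕ) ^ a + 2 ^ b = 2 ^ c + 2 ^ d → b = d := by
    intro a b c d hab hcd h
    have h1 : (2:ℕ) ^ a < 2 ^ b := Nat.pow_lt_pow_right (by norm_num) hab
    have h2 : (2:ℕ) ^ c < 2 ^ d := Nat.pow_lt_pow_right (by norm_num) hcd
    have h3 : 0 < (2:ℕ) ^ a := by positivity
    have h4 : 0 < (2:ℕ) ^ c := by positivity
    rcases lt_trichotomy b d with hbd | hbd | hbd
    · have : (2:ℕ) ^ (b+1) ≤ 2 ^ d := Nat.pow_le_pow_right (by norm_num) hbd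
      rw [pow_succ] at this
      omega
    · exact hbd
    · have : (2:ℕ) ^ (d+1) ≤ 2 ^ b := Nat.pow_le_pow_right (by norm_num) hbd
      rw [pow_succ] at this
      omega
  have inj : Function.Injective (fun n : ℕ => (2:ℕ) ^ n) := Nat.pow_right_injective (le_refl 2)
  rcases lt_or_gt_of_ne hab with h1 | h1 <;> rcases lt_or_gt_of_ne hcd with h2 | h2
  · have := key h1 h2 h'
    subst this
    left; exact ⟨inj (by simpa using h'), rfl⟩
  · have := key h1 h2 (by rw [h']; ring)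
    subst this
    right; exact ⟨inj (by simp only; omega), rfl⟩
  · have := key h1 h2 (by rw [← h']; ring)
    subst this
    right; exact ⟨rfl, inj (by simp only; omega)⟩
  · have := key h1 h2 (by rw [add_comm, h']; ring)
    subst this
    left; exact ⟨rfl, inj (by simpa using h')⟩

/-- PERTURBATION. -/
theorem exists_generic (Q : Finset (ℝ × ℝ)) (k : ℕ) :
    ∃ P : Finset (ℝ × ℝ), P.card = Q.card ∧ DX P ∧ DS P ∧ (ksets Q k).card ≤ (ksets P k).card := by
  classical
  -- injective index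
  obtain ⟨idx, hidx⟩ : ∃ idx : ℝ × ℝ → ℕ, ∀ p ∈ Q, ∀ q ∈ Q, idx p = idx q → p = q := by
    refine ⟨fun p => if h : p ∈ Q then (Q.equivFin ⟨p, h⟩ : ℕ) else 0, ?_⟩
    intro p hp q hq h
    simp only [hp, hq, dif_pos] at h
    have h2 := Fin.ext h
    have h3 := Q.equivFin.injective h2
    simpa using h3
  let g : ℝ → ℝ × ℝ → ℝ × ℝ := fun e p => (p.1 + e * 2 ^ (idx p), p.2 + e * 4 ^ (idx p))
  have hx : ∀ᶠ e in 𝓝[≠] (0:ℝ), ∀ p ∈ Q, ∀ q ∈ Q, (g e p).1 = (g e q).1 → p = q := by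
    rw [eventually_all_finset]
    intro p hp
    rw [eventually_all_finset]
    intro q hq
    by_cases hpq : p = q
    · exact Eventually.of_forall fun _ _ => hpq
    · have hne : idx p ≠ idx q := fun h => hpq (hidx p hp q hq h)
      have h2 : (2:ℝ) ^ idx p - 2 ^ idx q ≠ 0 := by
        intro h
        have h3 : (2:ℝ) ^ idx p = 2 ^ idx q := by linarith
        exact hne (pow_right_injective₀ (by norm_num) (by norm_num) h3)
      -- linear function of e times e
      have h4 := quad_ne ((2:ℝ) ^ idx p - 2 ^ idx q) (p.1 - q.1) 0 h2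
      filter_upwards [h4, self_mem_nhdsWithin] with e he he0 heq
      exfalso
      apply he
      have he0' : e ≠ 0 := he0
      simp only [g] at heq
      have : (p.1 - q.1) + e * (2 ^ idx p - 2 ^ idx q) = 0 := by linarith
      calc ((2:ℝ) ^ idx p - 2 ^ idx q) * e ^ 2 + (p.1 - q.1) * e + 0
          = e * ((p.1 - q.1) + e * (2 ^ idx p - 2 ^ idx q)) := by ring
        _ = 0 := by rw [this]; ring
  have hs : ∀ᶠ e in 𝓝[≠] (0:ℝ), ∀ p ∈ Q, ∀ q ∈ Q, ∀ r ∈ Q, ∀ s ∈ Q, p ≠ q → r ≠ s →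
      ((g e q).2 - (g e p).2) * ((g e s).1 - (g e r).1)
        = ((g e s).2 - (g e r).2) * ((g e q).1 - (g e p).1) → (p = r ∧ q = s) ∨ (p = s ∧ q = r) := by
    rw [eventually_all_finset]; intro p hp
    rw [eventually_all_finset]; intro q hq
    rw [eventually_all_finset]; intro r hr
    rw [eventually_all_finset]; intro s hs
    by_cases hpq : p = q
    · exact Eventually.of_forall fun _ h => absurd hpq h
    by_cases hrs : r = s
    · exact Eventually.of_forall fun _ _ h => absurd hrs h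
    by_cases hgood : (p = r ∧ q = s) ∨ (p = s ∧ q = r)
    · exact Eventually.of_forall fun _ _ _ _ => hgood
    have hpq' : idx p ≠ idx q := fun h => hpq (hidx p hp q hq h)
    have hrs' : idx r ≠ idx s := fun h => hrs (hidx r hr s hs h)
    have hinj : ∀ {a b : ℕ}, a ≠ b → (2:ℝ) ^ a - 2 ^ b ≠ 0 := by
      intro a b hab h
      have h3 : (2:ℝ) ^ a = 2 ^ b := by linarith
      exact hab (pow_right_injective₀ (by norm_num) (by norm_num) h3)
    have hA : ((4:ℝ) ^ idx q - 4 ^ idx p) * (2 ^ idx s - 2 ^ idx r)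
        - (4 ^ idx s - 4 ^ idx r) * (2 ^ idx q - 2 ^ idx p) ≠ 0 := by
      have h4 : ∀ m : ℕ, (4:ℝ) ^ m = 2 ^ m * 2 ^ m := by
        intro m; rw [← mul_pow]; norm_num
      have : ((4:ℝ) ^ idx q - 4 ^ idx p) * (2 ^ idx s - 2 ^ idx r)
          - (4 ^ idx s - 4 ^ idx r) * (2 ^ idx q - 2 ^ idx p)
          = (2 ^ idx q - 2 ^ idx p) * (2 ^ idx s - 2 ^ idx r)
            * ((2 ^ idx p + 2 ^ idx q) - (2 ^ idx r + 2 ^ idx s)) := by
        simp only [h4]; ring
      rw [this]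
      refine mul_ne_zero (mul_ne_zero (hinj (Ne.symm hpq')) (hinj (Ne.symm hrs'))) ?_
      intro h
      have h5 : (2:ℝ) ^ idx p + 2 ^ idx q = 2 ^ idx r + 2 ^ idx s := by linarith
      rcases sidon hpq' hrs' h5 with ⟨h6, h7⟩ | ⟨h6, h7⟩
      · exact hgood (Or.inl ⟨hidx p hp r hr h6, hidx q hq s hs h7⟩)
      · exact hgood (Or.inr ⟨hidx p hp s hs h6, hidx q hq r hr h7⟩)
    filter_upwards [quad_ne _ ((q.2 - p.2) * (2 ^ idx s - 2 ^ idx r) + (4 ^ idx q - 4 ^ idx p) * (s.1 - r.1)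
        - ((s.2 - r.2) * (2 ^ idx q - 2 ^ idx p) + (4 ^ idx s - 4 ^ idx r) * (q.1 - p.1)))
        ((q.2 - p.2) * (s.1 - r.1) - (s.2 - r.2) * (q.1 - p.1)) hA] with e he _ _ heq
    exfalso
    apply he
    simp only [g] at heq
    linear_combination heq
  have hsep : ∀ᶠ e in 𝓝[≠] (0:ℝ), ∀ S ∈ ksets Q k, ∃ a b c : ℝ, (a ≠ 0 ∨ b ≠ 0) ∧
      (∀ p ∈ S, a * (g e p).1 + b * (g e p).2 + c < 0) ∧
      (∀ p ∈ Q, p ∉ S → 0 < a * (g e p).1 + b * (g e p).2 + c) := by
    rw [eventually_all_finset]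
    intro S hS
    unfold ksets at hS
    obtain ⟨hS1, a, b, c, hab, h1, h2⟩ := Finset.mem_filter.mp hS
    have hc : ∀ p : ℝ × ℝ, Tendsto (fun e => a * (g e p).1 + b * (g e p).2 + c) (𝓝[≠] 0)
        (𝓝 (a * p.1 + b * p.2 + c)) := by
      intro p
      have : Continuous fun e : ℝ => a * (g e p).1 + b * (g e p).2 + c := by
        simp only [g]; fun_prop
      have h := (this.tendsto 0).mono_left (nhdsWithin_le_nhds (s := {(0:ℝ)}ᶜ))
      simpa [g] using h
    have h1' : ∀ᶠ e in 𝓝[≠] (0:ℝ), ∀ p ∈ S, a * (g e p).1 + b * (g e p).2 + c < 0 := by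
      rw [eventually_all_finset]
      intro p hp
      exact (hc p).eventually (gt_mem_nhds (h1 p hp))
    have h2' : ∀ᶠ e in 𝓝[≠] (0:ℝ), ∀ p ∈ Q, p ∉ S → 0 < a * (g e p).1 + b * (g e p).2 + c := by
      rw [eventually_all_finset]
      intro p hp
      by_cases hpS : p ∈ S
      · exact Eventually.of_forall fun _ h => absurd hpS h
      · filter_upwards [(hc p).eventually (lt_mem_nhds (h2 p hp hpS))] with e he _
        exact he
    filter_upwards [h1', h2'] with e he1 he2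
    exact ⟨a, b, c, hab, he1, he2⟩
  obtain ⟨e, hx, hs, hsep⟩ := (hx.and (hs.and hsep)).exists
  refine ⟨Q.image (g e), ?_, ?_, ?_, ?_⟩
  · apply Finset.card_image_of_injOn
    intro p hp q hq h
    exact hx p hp q hq (by rw [h])
  · intro p' hp' q' hq' h
    rw [Finset.mem_image] at hp' hq'
    obtain ⟨p, hp, rfl⟩ := hp'
    obtain ⟨q, hq, rfl⟩ := hq'
    rw [hx p hp q hq h]
  · intro p' hp' q' hq' r' hr' s' hs' hlt1 hlt2 heq
    rw [Finset.mem_image] at hp' hq' hr' hs'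
    obtain ⟨p, hp, rfl⟩ := hp'
    obtain ⟨q, hq, rfl⟩ := hq'
    obtain ⟨r, hr, rfl⟩ := hr'
    obtain ⟨s, hs2, rfl⟩ := hs'
    have hpq : p ≠ q := by rintro rfl; exact lt_irrefl _ hlt1
    have hrs : r ≠ s := by rintro rfl; exact lt_irrefl _ hlt2
    rcases hs p hp q hq r hr s hs2 hpq hrs heq with ⟨rfl, rfl⟩ | ⟨rfl, rfl⟩
    · exact ⟨rfl, rfl⟩
    · exact absurd hlt1 (not_lt.mpr hlt2.le)
  · apply Finset.card_le_card_of_injOn (fun S => S.image (g e))
    · intro S hS
      have hS2 := hsep S hS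
      rw [Finset.mem_coe] at hS ⊢
      unfold ksets at hS ⊢
      rw [Finset.mem_filter, Finset.mem_powersetCard] at hS ⊢
      obtain ⟨⟨hSQ, hSc⟩, -⟩ := hS
      refine ⟨⟨Finset.image_subset_image hSQ, ?_⟩, ?_⟩
      · rw [← hSc]
        apply Finset.card_image_of_injOn
        intro p hp q hq h
        exact hx p (hSQ hp) q (hSQ hq) (by rw [h])
      · obtain ⟨a, b, c, hab, h1, h2⟩ := hS2
        refine ⟨a, b, c, hab, ?_, ?_⟩
        · intro p' hp'
          rw [Finset.mem_image] at hp'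
          obtain ⟨p, hp, rfl⟩ := hp'
          exact h1 p hp
        · intro p' hp' hnp
          rw [Finset.mem_image] at hp'
          obtain ⟨p, hp, rfl⟩ := hp'
          apply h2 p hp
          intro hpS
          exact hnp (Finset.mem_image_of_mem _ hpS)
    · intro S hS T hT h
      rw [Finset.mem_coe] at hS hT
      unfold ksets at hS hT
      rw [Finset.mem_filter, Finset.mem_powersetCard] at hS hT
      have key : ∀ {A B : Finset (ℝ × ℝ)}, A ⊆ Q → B ⊆ Q → A.image (g e) = B.image (g e) → A ⊆ B := by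
        intro A B hA hB hAB p hp
        have h1 : g e p ∈ B.image (g e) := by
          rw [← hAB]; exact Finset.mem_image_of_mem _ hp
        rw [Finset.mem_image] at h1
        obtain ⟨q, hq, hqp⟩ := h1
        rw [← hx q (hB hq) p (hA hp) (by rw [hqp])]
        exact hq
      exact Finset.Subset.antisymm (key hS.1.1 hT.1.1 h) (key hT.1.1 hS.1.1 h.symm)
end Crest.Agent.R51.Red
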