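import Crest.Agent.R51.Red1

set_option autoImplicit false

namespace Crest.Agent.R51.Red

open Finset Filter Topology

noncomputable def hgt (t : ℝ) (p : ℝ × ℝ) : ℝ := p.2 - t * p.1

noncomputable def slp (p q : ℝ × ℝ) : ℝ := (q.2 - p.2) / (q.1 - p.1)

open Classical in
/-- points strictly below the line of slope `t` through `p` -/
noncomputable def bel (P : Finset (ℝ × ℝ)) (t : ℝ) (p : ℝ × ℝ) : Finset (ℝ × ℝ) :=
  P.filter (fun r => hgt t r < hgt t p)

open Classical in
/-- `k`-edges: `k-1` points strictly below -/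
noncomputable def edges (P : Finset (ℝ × ℝ)) (k : ℕ) : Finset ((ℝ × ℝ) × (ℝ × ℝ)) :=
  (P ×ˢ P).filter (fun e => e.1.1 < e.2.1 ∧ (bel P (slp e.1 e.2) e.1).card + 1 = k)

lemma hgt_slp {p q : ℝ × ℝ} (h : p.1 < q.1) : hgt (slp p q) p = hgt (slp p q) q := by
  unfold hgt slp
  have : q.1 - p.1 ≠ 0 := by linarith
  field_simp
  ring

lemma hgt_lt_iff {p q : ℝ × ℝ} (h : p.1 < q.1) (t : ℝ) : hgt t p < hgt t q ↔ t < slp p q := by
  unfold hgt slp
  have h1 : 0 < q.1 - p.1 := by linarith
  rw [lt_div_iff₀ h1]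
  constructor <;> intro h2 <;> nlinarith

lemma hgt_le_iff {p q : ℝ × ℝ} (h : p.1 < q.1) (t : ℝ) : hgt t p ≤ hgt t q ↔ t ≤ slp p q := by
  unfold hgt slp
  have h1 : 0 < q.1 - p.1 := by linarith
  rw [le_div_iff₀ h1]
  constructor <;> intro h2 <;> nlinarith

lemma hgt_eq_iff {p q : ℝ × ℝ} (h : p.1 < q.1) (t : ℝ) : hgt t p = hgt t q ↔ t = slp p q := by
  unfold hgt slp
  have h1 : 0 < q.1 - p.1 := by linarith
  rw [eq_div_iff h1.ne']
  constructor <;> intro h2 <;> nlinarith

def Low (P S : Finset (ℝ × ℝ)) : Prop :=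
  ∃ t : ℝ, ∀ p ∈ S, ∀ q ∈ P, q ∉ S → hgt t p < hgt t q

lemma slp_inj {P : Finset (ℝ × ℝ)} (hs : DS P) {p q r s : ℝ × ℝ} (hp : p ∈ P) (hq : q ∈ P)
    (hr : r ∈ P) (hs' : s ∈ P) (h1 : p.1 < q.1) (h2 : r.1 < s.1) (h : slp p q = slp r s) :
    p = r ∧ q = s := by
  apply hs p hp q hq r hr s hs' h1 h2
  unfold slp at h
  have h3 : q.1 - p.1 ≠ 0 := by linarith
  have h4 : s.1 - r.1 ≠ 0 := by linarith
  rw [div_eq_div_iff h3 h4] at h
  exact h

/-- on the line of slope `slp p q` through `p`, `q` there is no third point -/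
lemma on_line {P : Finset (ℝ × ℝ)} (hx : DX P) (hs : DS P) {p q r : ℝ × ℝ} (hp : p ∈ P)
    (hq : q ∈ P) (hr : r ∈ P) (h1 : p.1 < q.1) (h : hgt (slp p q) r = hgt (slp p q) p) :
    r = p ∨ r = q := by
  by_contra hne
  push Not at hne
  rcases lt_trichotomy r.1 p.1 with h2 | h2 | h2
  · have := (hgt_eq_iff h2 _).mp h
    have := slp_inj hs hp hq hr hp h1 h2 this
    exact hne.1 this.1.symm
  · exact hne.1 (hx r hr p hp h2)
  · have := (hgt_eq_iff h2 _).mp h.symm
    have := slp_inj hs hp hq hp hr h1 h2 this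
    exact hne.2 this.2.symm

open Classical in
theorem low_count (P : Finset (ℝ × ℝ)) (hx : DX P) (hs : DS P) (k : ℕ) :
    ((P.powersetCard k).filter (fun S => Low P S)).card ≤ 1 + (edges P k).card := by
  set L := (P.powersetCard k).filter (fun S => Low P S) with hL
  -- set of crossing candidates
  let A : Finset (ℝ × ℝ) → Finset ((ℝ × ℝ) × (ℝ × ℝ)) := fun S =>
    (S ×ˢ (P \ S)).filter (fun e => e.1.1 < e.2.1)
  have h0 : (L.filter (fun S => A S = ∅)).card ≤ 1 := by
    rw [Finset.card_le_one]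
    have key : ∀ S ∈ L.filter (fun S => A S = ∅), ∀ T ∈ L.filter (fun S => A S = ∅), S ⊆ T := by
      intro S hS T hT
      rw [Finset.mem_filter, hL, Finset.mem_filter, Finset.mem_powersetCard] at hS hT
      by_contra hST
      rw [Finset.not_subset] at hST
      obtain ⟨p, hpS, hpT⟩ := hST
      have hTS : ¬ T ⊆ S := by
        intro h
        have := Finset.eq_of_subset_of_card_le h (by rw [hS.1.1.2, hT.1.1.2])
        rw [this] at hpT
        exact hpT hpS
      rw [Finset.not_subset] at hTS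
      obtain ⟨q, hqT, hqS⟩ := hTS
      have hpP := hS.1.1.1 hpS
      have hqP := hT.1.1.1 hqT
      have hne : p ≠ q := by rintro rfl; exact hpT hqT
      rcases lt_trichotomy p.1 q.1 with h | h | h
      · have : (p, q) ∈ A S := by
          simp only [A, Finset.mem_filter, Finset.mem_product, Finset.mem_sdiff]
          exact ⟨⟨hpS, hqP, hqS⟩, h⟩
        rw [hS.2] at this
        simp at this
      · exact hne (hx p hpP q hqP h)
      · have : (q, p) ∈ A T := by
          simp only [A, Finset.mem_filter, Finset.mem_product, Finset.mem_sdiff]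
          exact ⟨⟨hqT, hpP, hpT⟩, h⟩
        rw [hT.2] at this
        simp at this
    intro S hS T hT
    exact Finset.Subset.antisymm (key S hS T hT) (key T hT S hS)
  have h1 : (L.filter (fun S => ¬ A S = ∅)).card ≤ (edges P k).card := by
    have hsub : L.filter (fun S => ¬ A S = ∅) ⊆
        (edges P k).image (fun e => insert e.1 (bel P (slp e.1 e.2) e.1)) := by
      intro S hS
      rw [Finset.mem_filter, hL, Finset.mem_filter, Finset.mem_powersetCard] at hS
      obtain ⟨⟨⟨hSP, hSk⟩, t, ht⟩, hA⟩ := hS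
      obtain ⟨e, he, hmin⟩ := Finset.exists_min_image (A S) (fun e => slp e.1 e.2)
        (Finset.nonempty_of_ne_empty hA)
      obtain ⟨p, q⟩ := e
      simp only at hmin
      have he' := he
      simp only [A, Finset.mem_filter, Finset.mem_product, Finset.mem_sdiff] at he'
      obtain ⟨⟨hpS, hqP, hqS⟩, hpq⟩ := he'
      have hpP := hSP hpS
      have htσ : t < slp p q := (hgt_lt_iff hpq t).mp (ht p hpS q hqP hqS)
      -- at σ
      have hσ : ∀ p' ∈ S, ∀ q' ∈ P, q' ∉ S → hgt (slp p q) p' ≤ hgt (slp p q) q' := by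
        intro p' hp' q' hq' hq'S
        rcases lt_trichotomy p'.1 q'.1 with h | h | h
        · have hm : (p', q') ∈ A S := by
            simp only [A, Finset.mem_filter, Finset.mem_product, Finset.mem_sdiff]
            exact ⟨⟨hp', hq', hq'S⟩, h⟩
          exact (hgt_le_iff h _).mpr (hmin _ hm)
        · have := hx p' (hSP hp') q' hq' h
          rw [this]
        · have h3 := ht p' hp' q' hq' hq'S
          have h4 : ¬ (t ≤ slp q' p') := fun h5 => not_lt.mpr ((hgt_le_iff h t).mpr h5) h3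
          have h5 : ¬ (slp p q < slp q' p') := by
            intro h6; apply h4; linarith
          have h6 := (hgt_lt_iff h (slp p q)).not.mpr h5
          exact not_lt.mp h6
      have hpqeq := hgt_slp hpq
      have hbel : insert p (bel P (slp p q) p) = S := by
        ext r
        rw [Finset.mem_insert, bel, Finset.mem_filter]
        constructor
        · rintro (rfl | ⟨hrP, hr⟩)
          · exact hpS
          · by_contra hrS
            exact absurd (hσ p hpS r hrP hrS) (not_le.mpr hr)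
        · intro hr
          by_cases hrp : r = p
          · exact Or.inl hrp
          · right
            refine ⟨hSP hr, ?_⟩
            have h3 := hσ r hr q hqP hqS
            rw [← hpqeq] at h3
            rcases lt_or_eq_of_le h3 with h4 | h4
            · exact h4
            · exfalso
              rcases on_line hx hs hpP hqP (hSP hr) hpq h4 with h5 | h5
              · exact hrp h5
              · rw [h5] at hr; exact hqS hr
      rw [Finset.mem_image]
      refine ⟨(p, q), ?_, hbel⟩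
      simp only [edges, Finset.mem_filter, Finset.mem_product]
      refine ⟨⟨hpP, hqP⟩, hpq, ?_⟩
      rw [← hSk, ← hbel, Finset.card_insert_of_notMem]
      simp [bel]
    exact (Finset.card_le_card hsub).trans Finset.card_image_le
  have := Finset.card_filter_add_card_filter_not (s := L) (fun S => A S = ∅)
  omega

/-- reflection -/
def rf (p : ℝ × ℝ) : ℝ × ℝ := (p.1, -p.2)

lemma rf_inj : Function.Injective rf := by
  intro p q h
  simp only [rf, Prod.mk.injEq, neg_inj] at h
  exact Prod.ext h.1 h.2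

lemma hgt_rf (t : ℝ) (p : ℝ × ℝ) : hgt (-t) (rf p) = - hgt t p := by
  simp only [hgt, rf]; ring

open Classical in
lemma DX_rf {P : Finset (ℝ × ℝ)} (hx : DX P) : DX (P.image rf) := by
  intro p' hp' q' hq' h
  rw [Finset.mem_image] at hp' hq'
  obtain ⟨p, hp, rfl⟩ := hp'
  obtain ⟨q, hq, rfl⟩ := hq'
  rw [hx p hp q hq h]

open Classical in
lemma DS_rf {P : Finset (ℝ × ℝ)} (hs : DS P) : DS (P.image rf) := by
  intro p' hp' q' hq' r' hr' s' hs' hlt1 hlt2 heq
  rw [Finset.mem_image] at hp' hq' hr' hs'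
  obtain ⟨p, hp, rfl⟩ := hp'
  obtain ⟨q, hq, rfl⟩ := hq'
  obtain ⟨r, hr, rfl⟩ := hr'
  obtain ⟨s, hs2, rfl⟩ := hs'
  have := hs p hp q hq r hr s hs2 hlt1 hlt2 (by simp only [rf] at heq; linarith)
  rw [this.1, this.2]; exact ⟨rfl, rfl⟩

open Classical in
lemma sep_cases {P S : Finset (ℝ × ℝ)} (h : Sep P S) (_hSP : S ⊆ P) :
    Low P S ∨ Low (P.image rf) (S.image rf) := by
  -- case of nonzero `b`
  have main : ∀ a b c : ℝ, b ≠ 0 → (∀ p ∈ S, a * p.1 + b * p.2 + c < 0) →
      (∀ p ∈ P, p ∉ S → 0 < a * p.1 + b * p.2 + c) →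
      Low P S ∨ Low (P.image rf) (S.image rf) := by
    intro a b c hb h1 h2
    rcases lt_or_gt_of_ne hb with hb | hb
    · right
      refine ⟨a / b, ?_⟩
      intro p' hp' q' hq' hq'S
      rw [Finset.mem_image] at hp' hq'
      obtain ⟨p, hp, rfl⟩ := hp'
      obtain ⟨q, hq, rfl⟩ := hq'
      have hqS : q ∉ S := fun h => hq'S (Finset.mem_image_of_mem _ h)
      have h3 := h1 p hp
      have h4 := h2 q hq hqS
      simp only [hgt, rf]
      have h5 : a * p.1 + b * p.2 < a * q.1 + b * q.2 := by linarith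
      have h6 : (a * p.1 + b * p.2) / b > (a * q.1 + b * q.2) / b :=
        (div_lt_div_right_of_neg hb).mpr h5
      have h7 : (a * p.1 + b * p.2) / b = a / b * p.1 + p.2 := by field_simp
      have h8 : (a * q.1 + b * q.2) / b = a / b * q.1 + q.2 := by field_simp
      rw [h7, h8] at h6
      linarith
    · left
      refine ⟨-(a / b), ?_⟩
      intro p hp q hq hqS
      have h3 := h1 p hp
      have h4 := h2 q hq hqS
      simp only [hgt]
      have h5 : a * p.1 + b * p.2 < a * q.1 + b * q.2 := by linarith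
      have h6 : (a * p.1 + b * p.2) / b < (a * q.1 + b * q.2) / b :=
        div_lt_div_of_pos_right h5 hb
      have h7 : (a * p.1 + b * p.2) / b = a / b * p.1 + p.2 := by field_simp
      have h8 : (a * q.1 + b * q.2) / b = a / b * q.1 + q.2 := by field_simp
      rw [h7, h8] at h6
      linarith
  obtain ⟨a, b, c, hab, h1, h2⟩ := h
  by_cases hb : b = 0
  · subst hb
    have hc : ∀ p : ℝ × ℝ, Tendsto (fun e => a * p.1 + e * p.2 + c) (𝓝[≠] 0)
        (𝓝 (a * p.1 + 0 * p.2 + c)) := by
      intro p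
      have : Continuous fun e : ℝ => a * p.1 + e * p.2 + c := by fun_prop
      exact (this.tendsto 0).mono_left nhdsWithin_le_nhds
    have h1' : ∀ᶠ e in 𝓝[≠] (0:ℝ), ∀ p ∈ S, a * p.1 + e * p.2 + c < 0 := by
      rw [eventually_all_finset]
      intro p hp
      exact (hc p).eventually (gt_mem_nhds (h1 p hp))
    have h2' : ∀ᶠ e in 𝓝[≠] (0:ℝ), ∀ p ∈ P, p ∉ S → 0 < a * p.1 + e * p.2 + c := by
      rw [eventually_all_finset]
      intro p hp
      by_cases hpS : p ∈ S
      · exact Eventually.of_forall fun _ h => absurd hpS h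
      · filter_upwards [(hc p).eventually (lt_mem_nhds (h2 p hp hpS))] with e he _
        exact he
    obtain ⟨e, ⟨he1, he2⟩, he0⟩ := ((h1'.and h2').and self_mem_nhdsWithin).exists
    exact main a e c he0 he1 he2
  · exact main a b c hb h1 h2

open Classical in
theorem ksets_le (P : Finset (ℝ × ℝ)) (hx : DX P) (hs : DS P) (k : ℕ) :
    (ksets P k).card ≤ 2 + (edges P k).card + (edges (P.image rf) k).card := by
  have hsub : ksets P k ⊆ (P.powersetCard k).filter (fun S => Low P S) ∪
      (P.powersetCard k).filter (fun S => Low (P.image rf) (S.image rf)) := by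
    intro S hS
    unfold ksets at hS
    rw [Finset.mem_filter, Finset.mem_powersetCard] at hS
    rw [Finset.mem_union, Finset.mem_filter, Finset.mem_filter, Finset.mem_powersetCard]
    rcases sep_cases hS.2 hS.1.1 with h | h
    · exact Or.inl ⟨hS.1, h⟩
    · exact Or.inr ⟨hS.1, h⟩
  have h2 : ((P.powersetCard k).filter (fun S => Low (P.image rf) (S.image rf))).card ≤
      (((P.image rf).powersetCard k).filter (fun S => Low (P.image rf) S)).card := by
    apply Finset.card_le_card_of_injOn (fun S => S.image rf)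
    · intro S hS
      rw [Finset.mem_coe, Finset.mem_filter, Finset.mem_powersetCard] at hS ⊢
      refine ⟨⟨Finset.image_subset_image hS.1.1, ?_⟩, hS.2⟩
      rw [Finset.card_image_of_injective _ rf_inj]; exact hS.1.2
    · intro S _ T _ h
      exact Finset.image_injective rf_inj h
  have h3 := low_count P hx hs k
  have h4 := low_count (P.image rf) (DX_rf hx) (DS_rf hs) k
  have h5 := (Finset.card_le_card hsub).trans (Finset.card_union_le _ _)
  omega

/-- Bound for k-edges of generic sets. -/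
def EdgeBound : Prop :=
  ∃ ε₀ : ℝ, 0 < ε₀ ∧ ∃ C₀ : ℝ, ∀ k : ℕ, 1 ≤ k → ∀ P : Finset (ℝ × ℝ), DX P → DS P →
    2 * k ≤ P.card →
    ((edges P k).card : ℝ) ≤ C₀ * (P.card : ℝ) * ((k : ℝ) + 1) ^ ((1 : ℝ) / 3 - ε₀)

theorem S0070_of_edgeBound (H : EdgeBound) :
    ∃ ε₀ : ℝ, 0 < ε₀ ∧ ∃ C₀ : ℝ, ∀ n : ℕ, 2 ≤ n → ∀ k : ℕ, 1 ≤ k → 2 * k ≤ n →
      ∀ Q : Finset (ℝ × ℝ), Q.card = n →
        ((ksets Q k).card : ℝ) ≤ C₀ * (n : ℝ) * ((k : ℝ) + 1) ^ ((1 : ℝ) / 3 - ε₀) := by
  classical
  obtain ⟨ε, hε, C, hC⟩ := H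
  -- make the exponent nonnegative
  refine ⟨min ε (1/3), lt_min hε (by norm_num), 2 * |C| + 2, ?_⟩
  intro n hn k hk hkn Q hQ
  obtain ⟨P, hPc, hx, hs, hle⟩ := exists_generic Q k
  have h1 := ksets_le P hx hs k
  have hP1 := hC k hk P hx hs (by omega)
  have hcard : (P.image rf).card = P.card := Finset.card_image_of_injective _ rf_inj
  have hP2 := hC k hk (P.image rf) (DX_rf hx) (DS_rf hs) (by omega)
  rw [hcard] at hP2
  rw [hPc, hQ] at hP1 hP2
  have hbase : (1:ℝ) ≤ (k:ℝ) + 1 := by
    have : (0:ℝ) ≤ k := Nat.cast_nonneg k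
    linarith
  have hmono : ((k : ℝ) + 1) ^ ((1 : ℝ) / 3 - ε) ≤ ((k : ℝ) + 1) ^ ((1 : ℝ) / 3 - min ε (1/3)) := by
    apply Real.rpow_le_rpow_of_exponent_le hbase
    have := min_le_left ε (1/3)
    linarith
  have hone : (1:ℝ) ≤ ((k : ℝ) + 1) ^ ((1 : ℝ) / 3 - min ε (1/3)) := by
    apply Real.one_le_rpow hbase
    have := min_le_right ε (1/3)
    linarith
  set X := ((k : ℝ) + 1) ^ ((1 : ℝ) / 3 - min ε (1/3)) with hX
  have hn' : (2:ℝ) ≤ n := by exact_mod_cast hn
  have hb : ∀ E : ℝ, E ≤ C * (n:ℝ) * ((k : ℝ) + 1) ^ ((1 : ℝ) / 3 - ε) → E ≤ |C| * n * X := by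
    intro E hE
    have hnn : 0 ≤ ((k : ℝ) + 1) ^ ((1 : ℝ) / 3 - ε) := by positivity
    calc E ≤ C * (n:ℝ) * ((k : ℝ) + 1) ^ ((1 : ℝ) / 3 - ε) := hE
      _ ≤ |C| * n * ((k : ℝ) + 1) ^ ((1 : ℝ) / 3 - ε) := by
        have := le_abs_self C
        have h3 : C * (n:ℝ) ≤ |C| * n := mul_le_mul_of_nonneg_right this (by linarith)
        exact mul_le_mul_of_nonneg_right h3 hnn
      _ ≤ |C| * n * X := by
        apply mul_le_mul_of_nonneg_left hmono
        positivity
  have hE1 := hb _ hP1
  have hE2 := hb _ hP2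
  have hcount : ((ksets Q k).card : ℝ) ≤ 2 + (edges P k).card + (edges (P.image rf) k).card := by
    exact_mod_cast hle.trans h1
  have h4 : (2:ℝ) ≤ 2 * n * X := by nlinarith
  calc ((ksets Q k).card : ℝ) ≤ 2 + (edges P k).card + (edges (P.image rf) k).card := hcount
    _ ≤ 2 * n * X + |C| * n * X + |C| * n * X := by linarith
    _ = (2 * |C| + 2) * n * X := by ring

end Crest.Agent.R51.Red
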