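import Crest.Agent.R51.Red2

set_option autoImplicit false

namespace Crest.Agent.R51.Red

open Finset

noncomputable def rank (P : Finset (ℝ × ℝ)) (t : ℝ) (p : ℝ × ℝ) : ℕ := (bel P t p).card

/-- left partners of `p` with slope in `(a,b]` -/
noncomputable def lpart (P : Finset (ℝ × ℝ)) (p : ℝ × ℝ) (a b : ℝ) : Finset (ℝ × ℝ) := by
  classical exact P.filter (fun r => r.1 < p.1 ∧ a < slp r p ∧ slp r p ≤ b)

/-- right partners of `p` with slope in `[a,b)` -/
noncomputable def rpart (P : Finset (ℝ × ℝ)) (p : ℝ × ℝ) (a b : ℝ) : Finset (ℝ × ℝ) := by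
  classical exact P.filter (fun r => p.1 < r.1 ∧ a ≤ slp p r ∧ slp p r < b)

lemma mem_lpart {P : Finset (ℝ × ℝ)} {p r : ℝ × ℝ} {a b : ℝ} :
    r ∈ lpart P p a b ↔ r ∈ P ∧ r.1 < p.1 ∧ a < slp r p ∧ slp r p ≤ b := by
  simp [lpart]

lemma mem_rpart {P : Finset (ℝ × ℝ)} {p r : ℝ × ℝ} {a b : ℝ} :
    r ∈ rpart P p a b ↔ r ∈ P ∧ p.1 < r.1 ∧ a ≤ slp p r ∧ slp p r < b := by
  simp [rpart]

lemma mem_bel {P : Finset (ℝ × ℝ)} {p r : ℝ × ℝ} {t : ℝ} :
    r ∈ bel P t p ↔ r ∈ P ∧ hgt t r < hgt t p := by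
  simp [bel]

lemma bel_sub_left {P : Finset (ℝ × ℝ)} (hx : DX P) {p : ℝ × ℝ} (hp : p ∈ P) {a c : ℝ}
    (hac : a ≤ c) : bel P a p ⊆ bel P c p ∪ lpart P p a c := by
  intro r hr
  rw [mem_bel] at hr
  rw [Finset.mem_union, mem_bel, mem_lpart]
  rcases lt_trichotomy r.1 p.1 with h | h | h
  · have h1 := (hgt_lt_iff h a).mp hr.2
    by_cases h2 : c < slp r p
    · exact Or.inl ⟨hr.1, (hgt_lt_iff h c).mpr h2⟩
    · exact Or.inr ⟨hr.1, h, h1, not_lt.mp h2⟩
  · have := hx r hr.1 p hp h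
    rw [this] at hr
    exact absurd hr.2 (lt_irrefl _)
  · left
    refine ⟨hr.1, ?_⟩
    have h1 : ¬ (a ≤ slp p r) := fun h2 => not_lt.mpr ((hgt_le_iff h a).mpr h2) hr.2
    have h2 : ¬ (c ≤ slp p r) := fun h2 => h1 (hac.trans h2)
    have h3 := (hgt_le_iff h c).not.mpr h2
    exact not_le.mp h3

lemma bel_sub_right {P : Finset (ℝ × ℝ)} (hx : DX P) {p : ℝ × ℝ} (hp : p ∈ P) {c b : ℝ}
    (hcb : c ≤ b) : bel P b p ⊆ bel P c p ∪ rpart P p c b := by
  intro r hr
  rw [mem_bel] at hr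
  rw [Finset.mem_union, mem_bel, mem_rpart]
  rcases lt_trichotomy r.1 p.1 with h | h | h
  · have h1 := (hgt_lt_iff h b).mp hr.2
    exact Or.inl ⟨hr.1, (hgt_lt_iff h c).mpr (lt_of_le_of_lt hcb h1)⟩
  · have := hx r hr.1 p hp h
    rw [this] at hr
    exact absurd hr.2 (lt_irrefl _)
  · have h1 : ¬ (b ≤ slp p r) := fun h2 => not_lt.mpr ((hgt_le_iff h b).mpr h2) hr.2
    by_cases h2 : c ≤ slp p r
    · exact Or.inr ⟨hr.1, h, h2, not_le.mp h1⟩
    · left
      refine ⟨hr.1, ?_⟩
      have h3 := (hgt_le_iff h c).not.mpr h2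
      exact not_le.mp h3

/-- FALLING: if the rank of `p` is `≥ v` at time `a` and `< v` at time `b` then at some time in
`(a,b]` the point `p` swaps with a left partner at level `v`. -/
theorem falling {P : Finset (ℝ × ℝ)} (hx : DX P) (hs : DS P) {p : ℝ × ℝ} (hp : p ∈ P) (v : ℕ)
    (b : ℝ) : ∀ n : ℕ, ∀ a : ℝ, a ≤ b → (lpart P p a b).card ≤ n → v ≤ rank P a p →
      rank P b p < v → ∃ r ∈ lpart P p a b, rank P (slp r p) p + 1 = v := by
  classical
  intro n
  induction n with
  | zero =>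
    intro a hab hc h1 h2
    exfalso
    have h3 := bel_sub_left hx hp hab
    rw [Finset.card_eq_zero.mp (Nat.le_zero.mp hc), Finset.union_empty] at h3
    have := Finset.card_le_card h3
    unfold rank at h1 h2
    omega
  | succ n ih =>
    intro a hab hc h1 h2
    by_cases hne : (lpart P p a b).Nonempty
    · obtain ⟨r, hr, hmin⟩ := Finset.exists_min_image _ (fun r => slp r p) hne
      have hr' := mem_lpart.mp hr
      have hsub := bel_sub_left hx hp (le_of_lt hr'.2.2.1)
      have hl1 : lpart P p a (slp r p) ⊆ {r} := by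
        intro x hxm
        have hx' := mem_lpart.mp hxm
        have hx2 : x ∈ lpart P p a b := mem_lpart.mpr ⟨hx'.1, hx'.2.1, hx'.2.2.1, hx'.2.2.2.trans hr'.2.2.2⟩
        have h3 := hmin x hx2
        have h4 : slp x p = slp r p := le_antisymm hx'.2.2.2 h3
        have h5 := slp_inj hs hx'.1 hp hr'.1 hp hx'.2.1 hr'.2.1 h4
        rw [Finset.mem_singleton]; exact h5.1
      have hcard : rank P a p ≤ rank P (slp r p) p + 1 := by
        unfold rank
        calc (bel P a p).card ≤ (bel P (slp r p) p ∪ lpart P p a (slp r p)).card :=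
              Finset.card_le_card hsub
          _ ≤ (bel P (slp r p) p).card + (lpart P p a (slp r p)).card := Finset.card_union_le _ _
          _ ≤ (bel P (slp r p) p).card + 1 := by
              have := Finset.card_le_card hl1
              simp at this
              omega
      by_cases h3 : rank P (slp r p) p + 1 = v
      · exact ⟨r, hr, h3⟩
      · have h4 : v ≤ rank P (slp r p) p := by omega
        have hsub2 : lpart P p (slp r p) b ⊆ (lpart P p a b).erase r := by
          intro x hxm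
          have hx' := mem_lpart.mp hxm
          rw [Finset.mem_erase, mem_lpart]
          refine ⟨?_, hx'.1, hx'.2.1, hr'.2.2.1.trans hx'.2.2.1, hx'.2.2.2⟩
          rintro rfl
          exact lt_irrefl _ hx'.2.2.1
        have hc2 : (lpart P p (slp r p) b).card ≤ n := by
          have := Finset.card_le_card hsub2
          rw [Finset.card_erase_of_mem hr] at this
          omega
        obtain ⟨x, hxm, hxv⟩ := ih (slp r p) hr'.2.2.2 hc2 h4 h2
        exact ⟨x, Finset.mem_of_mem_erase (hsub2 hxm), hxv⟩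
    · rw [Finset.not_nonempty_iff_eq_empty] at hne
      exact ih a hab (by rw [hne]; simp) h1 h2

/-- RISING. -/
theorem rising {P : Finset (ℝ × ℝ)} (hx : DX P) (hs : DS P) {p : ℝ × ℝ} (hp : p ∈ P) (v : ℕ)
    (a : ℝ) : ∀ n : ℕ, ∀ b : ℝ, a ≤ b → (rpart P p a b).card ≤ n → v ≤ rank P b p →
      rank P a p < v → ∃ r ∈ rpart P p a b, rank P (slp p r) p + 1 = v := by
  classical
  intro n
  induction n with
  | zero =>
    intro b hab hc h1 h2
    exfalso
    have h3 := bel_sub_right hx hp hab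
    rw [Finset.card_eq_zero.mp (Nat.le_zero.mp hc), Finset.union_empty] at h3
    have := Finset.card_le_card h3
    unfold rank at h1 h2
    omega
  | succ n ih =>
    intro b hab hc h1 h2
    by_cases hne : (rpart P p a b).Nonempty
    · obtain ⟨r, hr, hmax⟩ := Finset.exists_max_image _ (fun r => slp p r) hne
      have hr' := mem_rpart.mp hr
      have hsub := bel_sub_right hx hp (le_of_lt hr'.2.2.2)
      have hl1 : rpart P p (slp p r) b ⊆ {r} := by
        intro x hxm
        have hx' := mem_rpart.mp hxm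
        have hx2 : x ∈ rpart P p a b := mem_rpart.mpr ⟨hx'.1, hx'.2.1, hr'.2.2.1.trans hx'.2.2.1, hx'.2.2.2⟩
        have h3 := hmax x hx2
        have h4 : slp p x = slp p r := le_antisymm h3 hx'.2.2.1
        have h5 := slp_inj hs hp hx'.1 hp hr'.1 hx'.2.1 hr'.2.1 h4
        rw [Finset.mem_singleton]; exact h5.2
      have hcard : rank P b p ≤ rank P (slp p r) p + 1 := by
        unfold rank
        calc (bel P b p).card ≤ (bel P (slp p r) p ∪ rpart P p (slp p r) b).card :=
              Finset.card_le_card hsub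
          _ ≤ (bel P (slp p r) p).card + (rpart P p (slp p r) b).card := Finset.card_union_le _ _
          _ ≤ (bel P (slp p r) p).card + 1 := by
              have := Finset.card_le_card hl1
              simp at this
              omega
      by_cases h3 : rank P (slp p r) p + 1 = v
      · exact ⟨r, hr, h3⟩
      · have h4 : v ≤ rank P (slp p r) p := by omega
        have hsub2 : rpart P p a (slp p r) ⊆ (rpart P p a b).erase r := by
          intro x hxm
          have hx' := mem_rpart.mp hxm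
          rw [Finset.mem_erase, mem_rpart]
          refine ⟨?_, hx'.1, hx'.2.1, hx'.2.2.1, hx'.2.2.2.trans hr'.2.2.2⟩
          rintro rfl
          exact lt_irrefl _ hx'.2.2.2
        have hc2 : (rpart P p a (slp p r)).card ≤ n := by
          have := Finset.card_le_card hsub2
          rw [Finset.card_erase_of_mem hr] at this
          omega
        obtain ⟨x, hxm, hxv⟩ := ih (slp p r) hr'.2.2.1 hc2 h4 h2
        exact ⟨x, Finset.mem_of_mem_erase (hsub2 hxm), hxv⟩
    · rw [Finset.not_nonempty_iff_eq_empty] at hne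
      exact ih b hab (by rw [hne]; simp) h1 h2

/-- level of a pair -/
noncomputable def lev (P : Finset (ℝ × ℝ)) (e : (ℝ × ℝ) × (ℝ × ℝ)) : ℕ :=
  rank P (slp e.1 e.2) e.1 + 1

lemma rank_right {P : Finset (ℝ × ℝ)} {p q : ℝ × ℝ} (h : p.1 < q.1) :
    rank P (slp p q) q = rank P (slp p q) p := by
  unfold rank bel
  rw [hgt_slp h]

lemma mem_edges {P : Finset (ℝ × ℝ)} {k : ℕ} {e : (ℝ × ℝ) × (ℝ × ℝ)} :
    e ∈ edges P k ↔ e.1 ∈ P ∧ e.2 ∈ P ∧ e.1.1 < e.2.1 ∧ lev P e = k := by
  simp only [edges, lev, rank, Finset.mem_filter, Finset.mem_product, and_assoc]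

/-- pairs with level in `[k-m, k+m]` -/
noncomputable def nearE (P : Finset (ℝ × ℝ)) (k m : ℕ) : Finset ((ℝ × ℝ) × (ℝ × ℝ)) := by
  classical exact (P ×ˢ P).filter (fun e => e.1.1 < e.2.1 ∧ lev P e ≤ k + m ∧ k ≤ lev P e + m)

lemma mem_nearE {P : Finset (ℝ × ℝ)} {k m : ℕ} {e : (ℝ × ℝ) × (ℝ × ℝ)} :
    e ∈ nearE P k m ↔ e.1 ∈ P ∧ e.2 ∈ P ∧ e.1.1 < e.2.1 ∧ lev P e ≤ k + m ∧ k ≤ lev P e + m := by
  simp only [nearE, Finset.mem_filter, Finset.mem_product, and_assoc]

lemma rank_inj {P : Finset (ℝ × ℝ)} (hx : DX P) {s : ℝ}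
    (hreg : ∀ p ∈ P, ∀ q ∈ P, p.1 < q.1 → slp p q ≠ s) {p q : ℝ × ℝ} (hp : p ∈ P) (hq : q ∈ P)
    (h : rank P s p = rank P s q) : p = q := by
  by_contra hne
  have key : ∀ p ∈ P, ∀ q ∈ P, p ≠ q → hgt s p < hgt s q → rank P s p < rank P s q := by
    intro p hp q hq _ h
    apply Finset.card_lt_card
    rw [Finset.ssubset_iff_of_subset]
    · exact ⟨p, mem_bel.mpr ⟨hp, h⟩, fun h2 => lt_irrefl _ (mem_bel.mp h2).2⟩
    · intro x hx
      rw [mem_bel] at hx ⊢
      exact ⟨hx.1, hx.2.trans h⟩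
  rcases lt_trichotomy (hgt s p) (hgt s q) with h1 | h1 | h1
  · exact absurd h (key p hp q hq hne h1).ne
  · rcases lt_trichotomy p.1 q.1 with h2 | h2 | h2
    · exact hreg p hp q hq h2 ((hgt_eq_iff h2 s).mp h1).symm
    · exact hne (hx p hp q hq h2)
    · exact hreg q hq p hp h2 ((hgt_eq_iff h2 s).mp h1.symm).symm
  · exact absurd h (key q hq p hp (Ne.symm hne) h1).ne'

end Crest.Agent.R51.Red
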