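import Crest.Agent.R51.Red3

set_option autoImplicit false

namespace Crest.Agent.R51.Red

open Finset

/-- points that are `b`-central (rank within `b` of `k`) at some time in `[s,t]` -/
noncomputable def cen (P : Finset (ℝ × ℝ)) (k b : ℕ) (s t : ℝ) : Finset (ℝ × ℝ) := by
  classical exact P.filter (fun p => ∃ u : ℝ, s ≤ u ∧ u ≤ t ∧ rank P u p ≤ k + b ∧ k ≤ rank P u p + b)

lemma mem_cen {P : Finset (ℝ × ℝ)} {k b : ℕ} {s t : ℝ} {p : ℝ × ℝ} :
    p ∈ cen P k b s t ↔ p ∈ P ∧ ∃ u : ℝ, s ≤ u ∧ u ≤ t ∧ rank P u p ≤ k + b ∧ k ≤ rank P u p + b := by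
  simp [cen]

/-- near pairs with slope in `[s,t]` -/
noncomputable def nearW (P : Finset (ℝ × ℝ)) (k m : ℕ) (s t : ℝ) :
    Finset ((ℝ × ℝ) × (ℝ × ℝ)) := by
  classical exact (nearE P k m).filter (fun e => s ≤ slp e.1 e.2 ∧ slp e.1 e.2 ≤ t)

lemma mem_nearW {P : Finset (ℝ × ℝ)} {k m : ℕ} {s t : ℝ} {e : (ℝ × ℝ) × (ℝ × ℝ)} :
    e ∈ nearW P k m s t ↔ e ∈ nearE P k m ∧ s ≤ slp e.1 e.2 ∧ slp e.1 e.2 ≤ t := by
  simp [nearW]

open Classical in
lemma cen_card {P : Finset (ℝ × ℝ)} (hx : DX P) (hs : DS P) (k b : ℕ) {s t : ℝ} (_hst : s ≤ t)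
    (hreg : ∀ p ∈ P, ∀ q ∈ P, p.1 < q.1 → slp p q ≠ s) :
    (cen P k b s t).card * b ≤ (4 * b + 1) * b + 2 * (nearW P k (2 * b) s t).card := by
  set W := nearW P k (2 * b) s t with hW
  set A := cen P k b s t with hA
  set A1 := A.filter (fun p => rank P s p ≤ k + 2 * b ∧ k ≤ rank P s p + 2 * b) with hA1
  set A2 := A.filter (fun p => ¬ (rank P s p ≤ k + 2 * b ∧ k ≤ rank P s p + 2 * b)) with hA2
  have hA1c : A1.card ≤ 4 * b + 1 := by
    have h1 : A1.card ≤ (Finset.Icc (k - 2 * b) (k + 2 * b)).card := by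
      apply Finset.card_le_card_of_injOn (fun p => rank P s p)
      · intro p hp
        rw [Finset.mem_coe, hA1, Finset.mem_filter] at hp
        rw [Finset.mem_coe, Finset.mem_Icc]
        simp only
        omega
      · intro p hp q hq h
        rw [Finset.mem_coe, hA1, Finset.mem_filter, hA, mem_cen] at hp hq
        exact rank_inj hx hreg hp.1.1 hq.1.1 h
    rw [Nat.card_Icc] at h1
    omega
  have hA2c : ∀ p ∈ A2, b ≤ (W.filter (fun e => e.1 = p)).card + (W.filter (fun e => e.2 = p)).card := by
    intro p hp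
    rw [hA2, Finset.mem_filter, hA, mem_cen] at hp
    obtain ⟨⟨hpP, u, hsu, hut, hu1, hu2⟩, hnot⟩ := hp
    by_cases hcase : k + 2 * b < rank P s p
    · -- falling
      have hv : ∀ v ∈ Finset.Icc (k + b + 1) (k + 2 * b), ∃ r ∈ lpart P p s u,
          rank P (slp r p) p + 1 = v := by
        intro v hv
        rw [Finset.mem_Icc] at hv
        exact falling hx hs hpP v u _ s hsu le_rfl (by omega) (by omega)
      choose! f hf1 hf2 using hv
      have hle : (Finset.Icc (k + b + 1) (k + 2 * b)).card ≤ (W.filter (fun e => e.2 = p)).card := by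
        apply Finset.card_le_card_of_injOn (fun v => (f v, p))
        · intro v hv
          have hv' : v ∈ Finset.Icc (k + b + 1) (k + 2 * b) := hv
          have h1 := mem_lpart.mp (hf1 v hv')
          have h2 := hf2 v hv'
          rw [Finset.mem_coe, Finset.mem_filter, hW, mem_nearW, mem_nearE]
          rw [Finset.mem_Icc] at hv'
          have h3 : lev P (f v, p) = v := by
            unfold lev
            simp only
            rw [← rank_right h1.2.1]; exact h2
          simp only [h3]
          exact ⟨⟨⟨h1.1, hpP, h1.2.1, hv'.2, by omega⟩, h1.2.2.1.le, h1.2.2.2.trans hut⟩, trivial⟩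
        · intro v hv w hw h
          simp only [Prod.mk.injEq] at h
          have h1 := hf2 v hv
          have h2 := hf2 w hw
          rw [h.1] at h1
          omega
      rw [Nat.card_Icc] at hle
      omega
    · have hcase2 : rank P s p + 2 * b < k := by
        by_contra h3
        exact hnot ⟨by omega, by omega⟩
      have hv : ∀ v ∈ Finset.Icc (k - 2 * b) (k - b), ∃ r ∈ rpart P p s u,
          rank P (slp p r) p + 1 = v := by
        intro v hv
        rw [Finset.mem_Icc] at hv
        exact rising hx hs hpP v s _ u hsu le_rfl (by omega) (by omega)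
      choose! f hf1 hf2 using hv
      have hle : (Finset.Icc (k - 2 * b) (k - b)).card ≤ (W.filter (fun e => e.1 = p)).card := by
        apply Finset.card_le_card_of_injOn (fun v => (p, f v))
        · intro v hv
          have hv' : v ∈ Finset.Icc (k - 2 * b) (k - b) := hv
          have h1 := mem_rpart.mp (hf1 v hv')
          have h2 := hf2 v hv'
          rw [Finset.mem_coe, Finset.mem_filter, hW, mem_nearW, mem_nearE]
          rw [Finset.mem_Icc] at hv'
          have h3 : lev P (p, f v) = v := by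
            unfold lev
            simp only
            exact h2
          simp only [h3]
          exact ⟨⟨⟨hpP, h1.1, h1.2.1, by omega, by omega⟩, h1.2.2.1, h1.2.2.2.le.trans hut⟩, trivial⟩
        · intro v hv w hw h
          simp only [Prod.mk.injEq] at h
          have h1 := hf2 v hv
          have h2 := hf2 w hw
          rw [h.2] at h1
          omega
      rw [Nat.card_Icc] at hle
      omega
  have hsum : A2.card * b ≤ 2 * W.card := by
    have h1 : A2.card * b ≤ ∑ p ∈ A2, ((W.filter (fun e => e.1 = p)).card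
        + (W.filter (fun e => e.2 = p)).card) := by
      rw [← smul_eq_mul, ← Finset.sum_const]
      exact Finset.sum_le_sum hA2c
    rw [Finset.sum_add_distrib] at h1
    have h2 : ∀ g : (ℝ × ℝ) × (ℝ × ℝ) → ℝ × ℝ,
        ∑ p ∈ A2, (W.filter (fun e => g e = p)).card ≤ W.card := by
      intro g
      calc ∑ p ∈ A2, (W.filter (fun e => g e = p)).card
          = ∑ p ∈ A2, ∑ e ∈ W, if g e = p then 1 else 0 := by
            apply Finset.sum_congr rfl; intro p _; rw [Finset.card_filter]
        _ = ∑ e ∈ W, ∑ p ∈ A2, if g e = p then 1 else 0 := Finset.sum_comm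
        _ ≤ ∑ e ∈ W, 1 := by
            apply Finset.sum_le_sum
            intro e _
            rw [Finset.sum_ite_eq]
            split_ifs <;> omega
        _ = W.card := by simp
    have h3 := h2 Prod.fst
    have h4 := h2 Prod.snd
    omega
  have hadd : A1.card + A2.card = A.card := Finset.card_filter_add_card_filter_not _
  calc A.card * b = A1.card * b + A2.card * b := by rw [← hadd]; ring
    _ ≤ (4 * b + 1) * b + 2 * W.card := Nat.add_le_add (Nat.mul_le_mul_right b hA1c) hsum

open Classical in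
/-- WINDOW LEMMA: the `k`-edges with slope in `[s,t]` are `k'`-edges of the set of central points. -/
theorem window_edges {P : Finset (ℝ × ℝ)} (hx : DX P) (hs : DS P) (k b : ℕ) (hb : 1 ≤ b)
    {s t : ℝ} (_hst : s ≤ t) :
    ∃ k' : ℕ, ∀ e ∈ edges P k, s ≤ slp e.1 e.2 → slp e.1 e.2 ≤ t →
      e ∈ edges (cen P k b s t) k' := by
  set A := cen P k b s t with hA
  have hAP : A ⊆ P := fun p hp => (mem_cen.mp hp).1
  let B := (P \ A).filter (fun r => rank P s r < k)
  -- rank type constant
  have hconst : ∀ r ∈ P, r ∉ A → ∀ u, s ≤ u → u ≤ t → (rank P u r < k ↔ rank P s r < k) := by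
    intro r hr hrA u hsu hut
    constructor
    · intro h
      by_contra h2
      obtain ⟨x, hx1, hx2⟩ := falling hx hs hr k u _ s hsu le_rfl (by omega) h
      have h3 := mem_lpart.mp hx1
      apply hrA
      rw [hA, mem_cen]
      exact ⟨hr, slp x r, h3.2.2.1.le, h3.2.2.2.trans hut, by omega, by omega⟩
    · intro h
      by_contra h2
      obtain ⟨x, hx1, hx2⟩ := rising hx hs hr k s _ u hsu le_rfl (by omega) h
      have h3 := mem_rpart.mp hx1
      apply hrA
      rw [hA, mem_cen]
      exact ⟨hr, slp r x, h3.2.2.1, h3.2.2.2.le.trans hut, by omega, by omega⟩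
  refine ⟨k - B.card, ?_⟩
  intro e he h1 h2
  obtain ⟨p, q⟩ := e
  rw [mem_edges] at he
  simp only at he h1 h2
  obtain ⟨hpP, hqP, hpq, hlev⟩ := he
  have hrk : rank P (slp p q) p + 1 = k := hlev
  have hrk2 : rank P (slp p q) q + 1 = k := by rw [rank_right hpq]; exact hrk
  have hpA : p ∈ A := by
    rw [hA, mem_cen]; exact ⟨hpP, slp p q, h1, h2, by omega, by omega⟩
  have hqA : q ∈ A := by
    rw [hA, mem_cen]; exact ⟨hqP, slp p q, h1, h2, by omega, by omega⟩
  rw [mem_edges]
  refine ⟨hpA, hqA, hpq, ?_⟩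
  -- splitting
  have hdis : Disjoint (bel A (slp p q) p) B := by
    rw [Finset.disjoint_left]
    intro r hr hrB
    have h3 := (mem_bel.mp hr).1
    have h4 := Finset.mem_filter.mp hrB
    exact (Finset.mem_sdiff.mp h4.1).2 h3
  have hun : bel A (slp p q) p ∪ B = bel P (slp p q) p := by
    ext r
    rw [Finset.mem_union, mem_bel, mem_bel, Finset.mem_filter, Finset.mem_sdiff]
    constructor
    · rintro (⟨hrA, hr⟩ | ⟨⟨hrP, hrA⟩, hr⟩)
      · exact ⟨hAP hrA, hr⟩
      · refine ⟨hrP, ?_⟩
        have h3 := (hconst r hrP hrA (slp p q) h1 h2).mpr hr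
        -- not central
        have h4 : ¬ (k ≤ rank P (slp p q) r + b) := by
          intro h5
          apply hrA
          rw [hA, mem_cen]
          exact ⟨hrP, slp p q, h1, h2, by omega, h5⟩
        by_contra h5
        push Not at h5
        have h6 : bel P (slp p q) p ⊆ bel P (slp p q) r := by
          intro x hx
          rw [mem_bel] at hx ⊢
          exact ⟨hx.1, lt_of_lt_of_le hx.2 h5⟩
        have h7 := Finset.card_le_card h6
        unfold rank at h4 hrk
        omega
    · rintro ⟨hrP, hr⟩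
      by_cases hrA : r ∈ A
      · exact Or.inl ⟨hrA, hr⟩
      · right
        refine ⟨⟨hrP, hrA⟩, ?_⟩
        rw [← hconst r hrP hrA (slp p q) h1 h2]
        have h6 : bel P (slp p q) r ⊆ bel P (slp p q) p := by
          intro x hx
          rw [mem_bel] at hx ⊢
          exact ⟨hx.1, hx.2.trans hr⟩
        have h7 := Finset.card_le_card h6
        unfold rank at hrk ⊢
        omega
  have hc := Finset.card_union_of_disjoint hdis
  rw [hun] at hc
  have : rank P (slp p q) p = rank A (slp p q) p + B.card := hc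
  unfold lev
  simp only
  omega

lemma DX_sub {P A : Finset (ℝ × ℝ)} (h : A ⊆ P) (hx : DX P) : DX A :=
  fun p hp q hq => hx p (h hp) q (h hq)

lemma DS_sub {P A : Finset (ℝ × ℝ)} (h : A ⊆ P) (hs : DS P) : DS A :=
  fun p hp q hq r hr s hs' => hs p (h hp) q (h hq) r (h hr) s (h hs')

open Classical in
/-- PARTITION: bound for the number of `k`-edges by (number of windows) times the bound for small
sets. -/
theorem partition_bound {P : Finset (ℝ × ℝ)} (hx : DX P) (hs : DS P) (k b : ℕ) (hb : 1 ≤ b)
    (Φ : ℕ) (hΦ : ∀ A : Finset (ℝ × ℝ), DX A → DS A → A.card ≤ 6 * b + 1 →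
      ∀ i : ℕ, (edges A i).card ≤ Φ) :
    (edges P k).card ≤ ((nearE P k (2 * b)).card / b ^ 2 + 1) * Φ := by
  set E := nearE P k (2 * b) with hE
  have hb2 : 0 < b ^ 2 := by positivity
  let ρ : (ℝ × ℝ) × (ℝ × ℝ) → ℕ := fun e => (E.filter (fun f => slp f.1 f.2 < slp e.1 e.2)).card
  let j : (ℝ × ℝ) × (ℝ × ℝ) → ℕ := fun e => ρ e / b ^ 2
  have hsub : edges P k ⊆ E := by
    intro e he
    rw [mem_edges] at he
    rw [hE, mem_nearE]
    exact ⟨he.1, he.2.1, he.2.2.1, by omega, by omega⟩
  have hρlt : ∀ e ∈ E, ρ e < E.card := by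
    intro e he
    apply Finset.card_lt_card
    rw [Finset.ssubset_iff_of_subset (Finset.filter_subset _ _)]
    exact ⟨e, he, by simp⟩
  have hρmono : ∀ e f, e ∈ E → slp e.1 e.2 < slp f.1 f.2 → ρ e < ρ f := by
    intro e f he hef
    apply Finset.card_lt_card
    rw [Finset.ssubset_iff_of_subset]
    · exact ⟨e, by simp [he, hef], by simp⟩
    · intro g hg
      rw [Finset.mem_filter] at hg ⊢
      exact ⟨hg.1, hg.2.trans hef⟩
  have hslp : ∀ e ∈ E, ∀ f ∈ E, slp e.1 e.2 = slp f.1 f.2 → e = f := by
    intro e he f hf h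
    rw [hE, mem_nearE] at he hf
    have := slp_inj hs he.1 he.2.1 hf.1 hf.2.1 he.2.2.1 hf.2.2.1 h
    exact Prod.ext this.1 this.2
  have hρinj : ∀ e ∈ E, ∀ f ∈ E, ρ e = ρ f → e = f := by
    intro e he f hf h
    rcases lt_trichotomy (slp e.1 e.2) (slp f.1 f.2) with h1 | h1 | h1
    · exact absurd h (hρmono e f he h1).ne
    · exact hslp e he f hf h1
    · exact absurd h (hρmono f e hf h1).ne'
  -- cells
  have hcell : ∀ i : ℕ, ((edges P k).filter (fun e => j e = i)).card ≤ Φ := by
    intro i
    set W := E.filter (fun e => j e = i) with hW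
    have hWc : W.card ≤ b ^ 2 := by
      have h1 : W.card ≤ (Finset.Ico (i * b ^ 2) (i * b ^ 2 + b ^ 2)).card := by
        apply Finset.card_le_card_of_injOn ρ
        · intro e he
          rw [Finset.mem_coe, hW, Finset.mem_filter] at he
          rw [Finset.mem_coe, Finset.mem_Ico]
          have h2 : ρ e / b ^ 2 = i := he.2
          have h3 := Nat.div_add_mod (ρ e) (b ^ 2)
          have h4 := Nat.mod_lt (ρ e) hb2
          rw [h2, Nat.mul_comm] at h3
          constructor
          · calc i * b ^ 2 ≤ i * b ^ 2 + ρ e % b ^ 2 := Nat.le_add_right _ _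
              _ = ρ e := h3
          · calc ρ e = i * b ^ 2 + ρ e % b ^ 2 := h3.symm
              _ < i * b ^ 2 + b ^ 2 := Nat.add_lt_add_left h4 _
        · intro e he f hf h
          rw [Finset.mem_coe, hW, Finset.mem_filter] at he hf
          exact hρinj e he.1 f hf.1 h
      rw [Nat.card_Ico] at h1
      omega
    by_cases hne : W.Nonempty
    · obtain ⟨e1, he1, hmin⟩ := Finset.exists_min_image W (fun e => slp e.1 e.2) hne
      obtain ⟨e2, he2, hmax⟩ := Finset.exists_max_image W (fun e => slp e.1 e.2) hne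
      -- regular time just before the minimal slope
      obtain ⟨s, hs1, hs2⟩ : ∃ s : ℝ, s < slp e1.1 e1.2 ∧
          ∀ f ∈ P ×ˢ P, slp f.1 f.2 < slp e1.1 e1.2 → slp f.1 f.2 < s := by
        set T := ((P ×ˢ P).filter (fun f => slp f.1 f.2 < slp e1.1 e1.2)) with hT
        by_cases hTne : T.Nonempty
        · obtain ⟨f0, hf0, hf0max⟩ := Finset.exists_max_image T (fun e => slp e.1 e.2) hTne
          have hf0' := (Finset.mem_filter.mp hf0).2
          obtain ⟨s, hs1, hs2⟩ := exists_between hf0'
          refine ⟨s, hs2, ?_⟩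
          intro f hf hlt
          exact lt_of_le_of_lt (hf0max f (Finset.mem_filter.mpr ⟨hf, hlt⟩)) hs1
        · refine ⟨slp e1.1 e1.2 - 1, by linarith, ?_⟩
          intro f hf hlt
          exact absurd ⟨f, Finset.mem_filter.mpr ⟨hf, hlt⟩⟩ hTne
      have hreg : ∀ p ∈ P, ∀ q ∈ P, p.1 < q.1 → slp p q ≠ s := by
        intro p hp q hq _ h
        have h1 := hs2 (p, q) (Finset.mem_product.mpr ⟨hp, hq⟩) (by simp only; rw [h]; exact hs1)
        simp only at h1
        rw [h] at h1
        exact lt_irrefl _ h1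
      have hst : s ≤ slp e2.1 e2.2 := hs1.le.trans (hmin e2 he2)
      -- near pairs of the window are in W
      have hnW : nearW P k (2 * b) s (slp e2.1 e2.2) ⊆ W := by
        intro f hf
        rw [mem_nearW] at hf
        have hfE : f ∈ E := hf.1
        have hfP := mem_nearE.mp hf.1
        have h1 : slp e1.1 e1.2 ≤ slp f.1 f.2 := by
          by_contra h2
          have := hs2 f (Finset.mem_product.mpr ⟨hfP.1, hfP.2.1⟩) (not_le.mp h2)
          linarith [hf.2.1]
        rw [hW, Finset.mem_filter]
        refine ⟨hfE, ?_⟩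
        have he1' := Finset.mem_filter.mp he1
        have he2' := Finset.mem_filter.mp he2
        have hle1 : ρ e1 ≤ ρ f := by
          rcases lt_or_eq_of_le h1 with h2 | h2
          · exact (hρmono e1 f he1'.1 h2).le
          · rw [hslp e1 he1'.1 f hfE h2]
        have hle2 : ρ f ≤ ρ e2 := by
          rcases lt_or_eq_of_le hf.2.2 with h2 | h2
          · exact (hρmono f e2 hfE h2).le
          · rw [hslp f hfE e2 he2'.1 h2]
        have h3 : ρ e1 / b ^ 2 = i := he1'.2
        have h4 : ρ e2 / b ^ 2 = i := he2'.2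
        have h5 : ρ e1 / b ^ 2 ≤ ρ f / b ^ 2 := Nat.div_le_div_right hle1
        have h6 : ρ f / b ^ 2 ≤ ρ e2 / b ^ 2 := Nat.div_le_div_right hle2
        show ρ f / b ^ 2 = i
        omega
      obtain ⟨k', hk'⟩ := window_edges hx hs k b hb hst
      have hAc : (cen P k b s (slp e2.1 e2.2)).card ≤ 6 * b + 1 := by
        have h1 := cen_card hx hs k b hst hreg
        have h2 := (Finset.card_le_card hnW).trans hWc
        have h3 : (cen P k b s (slp e2.1 e2.2)).card * b ≤ (6 * b + 1) * b := by
          calc (cen P k b s (slp e2.1 e2.2)).card * b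
              ≤ (4 * b + 1) * b + 2 * (nearW P k (2 * b) s (slp e2.1 e2.2)).card := h1
            _ ≤ (4 * b + 1) * b + 2 * b ^ 2 := by omega
            _ = (6 * b + 1) * b := by ring
        exact Nat.le_of_mul_le_mul_right h3 hb
      have hAP : cen P k b s (slp e2.1 e2.2) ⊆ P := fun p hp => (mem_cen.mp hp).1
      refine le_trans (Finset.card_le_card ?_) (hΦ _ (DX_sub hAP hx) (DS_sub hAP hs) hAc k')
      intro f hf
      rw [Finset.mem_filter] at hf
      have hfW : f ∈ W := Finset.mem_filter.mpr ⟨hsub hf.1, hf.2⟩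
      exact hk' f hf.1 (hs1.le.trans (hmin f hfW)) (hmax f hfW)
    · rw [Finset.not_nonempty_iff_eq_empty] at hne
      have : (edges P k).filter (fun e => j e = i) = ∅ := by
        rw [Finset.eq_empty_iff_forall_notMem]
        intro f hf
        rw [Finset.mem_filter] at hf
        have hfW : f ∈ W := Finset.mem_filter.mpr ⟨hsub hf.1, hf.2⟩
        rw [hne] at hfW
        exact absurd hfW (Finset.notMem_empty _)
      rw [this]; simp
  have hmaps : ∀ e ∈ edges P k, j e ∈ Finset.range (E.card / b ^ 2 + 1) := by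
    intro e he
    rw [Finset.mem_range]
    have := hρlt e (hsub he)
    have h1 : ρ e / b ^ 2 ≤ E.card / b ^ 2 := Nat.div_le_div_right this.le
    show ρ e / b ^ 2 < _
    omega
  calc (edges P k).card = ∑ i ∈ Finset.range (E.card / b ^ 2 + 1),
        ((edges P k).filter (fun e => j e = i)).card := Finset.card_eq_sum_card_fiberwise hmaps
    _ ≤ ∑ _i ∈ Finset.range (E.card / b ^ 2 + 1), Φ := Finset.sum_le_sum (fun i _ => hcell i)
    _ = (E.card / b ^ 2 + 1) * Φ := by simp

end Crest.Agent.R51.Red
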