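import Crest.Agent.R51.Red4

set_option autoImplicit false

namespace Crest.Agent.R51.Red

open Finset

lemma count_fix {ι : Type} [Fintype ι] [DecidableEq ι] (M : ℕ) [NeZero M] (T : Finset ι) :
    (Finset.univ.filter (fun c : ι → Fin M => ∀ x ∈ T, c x = 0)).card * M ^ T.card
      = M ^ Fintype.card ι := by
  have h1 : (Finset.univ.filter (fun c : ι → Fin M => ∀ x ∈ T, c x = 0))
      = Fintype.piFinset (fun x => if x ∈ T then ({0} : Finset (Fin M)) else Finset.univ) := by
    ext c
    simp only [Finset.mem_filter, Finset.mem_univ, true_and, Fintype.mem_piFinset]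
    constructor
    · intro h x
      by_cases hx : x ∈ T
      · simp [hx, h x hx]
      · simp [hx]
    · intro h x hx
      have := h x
      simpa [hx] using this
  rw [h1, Fintype.card_piFinset]
  have h2 : ∀ x : ι, (if x ∈ T then ({0} : Finset (Fin M)) else Finset.univ).card
      = if x ∈ T then 1 else M := by
    intro x
    by_cases hx : x ∈ T <;> simp [hx]
  simp only [h2]
  rw [Finset.prod_ite]
  simp only [Finset.prod_const_one, one_mul, Finset.prod_const]
  rw [← pow_add]
  congr 1
  have h3 : (Finset.univ.filter (fun x => x ∈ T)) = T := by ext; simp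
  have h4 := Finset.card_filter_add_card_filter_not (s := (Finset.univ : Finset ι)) (fun x => x ∈ T)
  rw [h3, Finset.card_univ] at h4
  omega

noncomputable def col (P : Finset (ℝ × ℝ)) (M : ℕ) [NeZero M] (c : ↥P → Fin M) (p : ℝ × ℝ) :
    Fin M := by
  classical exact if h : p ∈ P then c ⟨p, h⟩ else 0

open Classical in
lemma count_col (P : Finset (ℝ × ℝ)) (M : ℕ) [NeZero M] (T : Finset (ℝ × ℝ)) (hT : T ⊆ P) :
    (Finset.univ.filter (fun c : ↥P → Fin M => ∀ x ∈ T, col P M c x = 0)).card * M ^ T.card
      = M ^ P.card := by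
  have h := count_fix M (T.subtype (· ∈ P))
  rw [Finset.card_subtype, Fintype.card_coe] at h
  have h1 : T.filter (fun x => x ∈ P) = T := by
    rw [Finset.filter_eq_self]; exact fun x hx => hT hx
  rw [h1] at h
  rw [← h]
  congr 2
  ext c
  simp only [Finset.mem_filter, Finset.mem_univ, true_and, Finset.mem_subtype]
  constructor
  · intro h2 x hx
    have h3 := h2 x.1 hx
    unfold col at h3
    rw [dif_pos x.2] at h3
    exact h3
  · intro h2 x hx
    unfold col
    rw [dif_pos (hT hx)]
    exact h2 ⟨x, hT hx⟩ hx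

/-- pairs with level at most `m` -/
noncomputable def leE (P : Finset (ℝ × ℝ)) (m : ℕ) : Finset ((ℝ × ℝ) × (ℝ × ℝ)) := by
  classical exact (P ×ˢ P).filter (fun e => e.1.1 < e.2.1 ∧ lev P e ≤ m)

lemma mem_leE {P : Finset (ℝ × ℝ)} {m : ℕ} {e : (ℝ × ℝ) × (ℝ × ℝ)} :
    e ∈ leE P m ↔ e.1 ∈ P ∧ e.2 ∈ P ∧ e.1.1 < e.2.1 ∧ lev P e ≤ m := by
  simp only [leE, Finset.mem_filter, Finset.mem_product, and_assoc]

open Classical in
theorem leE_card {P : Finset (ℝ × ℝ)} (_hx : DX P) (hs : DS P) (m : ℕ) (hm : 1 ≤ m) :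
    (leE P m).card ≤ 4 * P.card * m := by
  set M := 2 * m with hM
  have : NeZero M := ⟨by omega⟩
  set n := P.card with hn
  let good : (ℝ × ℝ) × (ℝ × ℝ) → (↥P → Fin M) → Prop := fun e c =>
    col P M c e.1 = 0 ∧ col P M c e.2 = 0 ∧ ∀ r ∈ bel P (slp e.1 e.2) e.1, col P M c r ≠ 0
  -- lower bound
  have hlow : ∀ e ∈ leE P m, M ^ n ≤ 2 * M ^ 2 * (Finset.univ.filter (fun c => good e c)).card := by
    intro e he
    rw [mem_leE] at he
    obtain ⟨hp, hq, hpq, hl⟩ := he
    set B := bel P (slp e.1 e.2) e.1 with hB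
    have hBc : B.card + 1 ≤ m := hl
    have hBP : B ⊆ P := fun r hr => (mem_bel.mp hr).1
    set N2 := (Finset.univ.filter (fun c : ↥P → Fin M => ∀ x ∈ ({e.1, e.2} : Finset (ℝ × ℝ)),
      col P M c x = 0)).card with hN2
    have hne : e.1 ≠ e.2 := by
      intro h; rw [h] at hpq; exact lt_irrefl _ hpq
    have h2 : N2 * M ^ 2 = M ^ n := by
      have := count_col P M ({e.1, e.2} : Finset (ℝ × ℝ)) (by
        intro x hx
        rw [Finset.mem_insert, Finset.mem_singleton] at hx
        rcases hx with rfl | rfl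
        · exact hp
        · exact hq)
      rw [Finset.card_pair hne] at this
      exact this
    have h3 : ∀ r ∈ B, (Finset.univ.filter (fun c : ↥P → Fin M =>
        ∀ x ∈ ({r, e.1, e.2} : Finset (ℝ × ℝ)), col P M c x = 0)).card * M ^ 3 = M ^ n := by
      intro r hr
      have hr1 : r ∉ ({e.1, e.2} : Finset (ℝ × ℝ)) := by
        have h4 := (mem_bel.mp hr).2
        rw [Finset.mem_insert, Finset.mem_singleton]
        rintro (h5 | h5)
        · rw [h5] at h4; exact lt_irrefl _ h4
        · rw [h5, ← hgt_slp hpq] at h4; exact lt_irrefl _ h4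
      have := count_col P M ({r, e.1, e.2} : Finset (ℝ × ℝ)) (by
        intro x hx
        rw [Finset.mem_insert, Finset.mem_insert, Finset.mem_singleton] at hx
        rcases hx with rfl | rfl | rfl
        · exact hBP hr
        · exact hp
        · exact hq)
      rw [Finset.card_insert_of_notMem hr1, Finset.card_pair hne] at this
      exact this
    have hsub : (Finset.univ.filter (fun c : ↥P → Fin M => ∀ x ∈ ({e.1, e.2} : Finset (ℝ × ℝ)),
        col P M c x = 0)) ⊆ (Finset.univ.filter (fun c => good e c)) ∪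
          B.biUnion (fun r => Finset.univ.filter (fun c : ↥P → Fin M =>
            ∀ x ∈ ({r, e.1, e.2} : Finset (ℝ × ℝ)), col P M c x = 0)) := by
      intro c hc
      simp only [Finset.mem_filter, Finset.mem_univ, true_and, Finset.mem_insert,
        Finset.mem_singleton, forall_eq_or_imp, forall_eq] at hc
      rw [Finset.mem_union, Finset.mem_biUnion]
      by_cases hg : ∀ r ∈ B, col P M c r ≠ 0
      · left
        simp only [Finset.mem_filter, Finset.mem_univ, true_and, good]
        exact ⟨hc.1, hc.2, hg⟩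
      · right
        push Not at hg
        obtain ⟨r, hr, hr0⟩ := hg
        refine ⟨r, hr, ?_⟩
        simp only [Finset.mem_filter, Finset.mem_univ, true_and, Finset.mem_insert,
          Finset.mem_singleton, forall_eq_or_imp, forall_eq]
        exact ⟨hr0, hc.1, hc.2⟩
    have h4 := (Finset.card_le_card hsub).trans (Finset.card_union_le _ _)
    have h5 : (B.biUnion (fun r => Finset.univ.filter (fun c : ↥P → Fin M =>
            ∀ x ∈ ({r, e.1, e.2} : Finset (ℝ × ℝ)), col P M c x = 0))).card * M ^ 3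
              ≤ B.card * M ^ n := by
      calc _ ≤ (∑ r ∈ B, (Finset.univ.filter (fun c : ↥P → Fin M =>
            ∀ x ∈ ({r, e.1, e.2} : Finset (ℝ × ℝ)), col P M c x = 0)).card) * M ^ 3 :=
            Nat.mul_le_mul_right _ Finset.card_biUnion_le
        _ = ∑ r ∈ B, M ^ n := by
            rw [Finset.sum_mul]; exact Finset.sum_congr rfl h3
        _ = B.card * M ^ n := by simp
    set Gd := (Finset.univ.filter (fun c => good e c)).card with hGd
    have h6 : M * M ^ n ≤ Gd * M ^ 3 + B.card * M ^ n := by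
      calc M * M ^ n = N2 * M ^ 3 := by rw [← h2]; ring
        _ ≤ (Gd + (B.biUnion (fun r => Finset.univ.filter (fun c : ↥P → Fin M =>
            ∀ x ∈ ({r, e.1, e.2} : Finset (ℝ × ℝ)), col P M c x = 0))).card) * M ^ 3 :=
            Nat.mul_le_mul_right _ h4
        _ ≤ Gd * M ^ 3 + B.card * M ^ n := by rw [Nat.add_mul]; omega
    have h7 : B.card * M ^ n ≤ m * M ^ n := Nat.mul_le_mul_right _ (by omega)
    have h8 : m * M ^ n ≤ Gd * M ^ 3 := by
      have : M * M ^ n = m * M ^ n + m * M ^ n := by rw [hM]; ring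
      omega
    have h9 : M * M ^ n ≤ M * (2 * M ^ 2 * Gd) := by
      calc M * M ^ n = 2 * (m * M ^ n) := by rw [hM]; ring
        _ ≤ 2 * (Gd * M ^ 3) := Nat.mul_le_mul_left _ h8
        _ = M * (2 * M ^ 2 * Gd) := by ring
    exact Nat.le_of_mul_le_mul_left h9 (by omega)
  -- upper bound
  have hup : ∀ c : ↥P → Fin M, ((leE P m).filter (fun e => good e c)).card
      ≤ (P.filter (fun p => col P M c p = 0)).card := by
    intro c
    apply Finset.card_le_card_of_injOn (fun e => e.1)
    · intro e he
      rw [Finset.mem_coe, Finset.mem_filter, mem_leE] at he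
      rw [Finset.mem_coe, Finset.mem_filter]
      exact ⟨he.1.1, he.2.1⟩
    · intro e he f hf h
      rw [Finset.mem_coe, Finset.mem_filter, mem_leE] at he hf
      obtain ⟨⟨he1, he2, he3, -⟩, hge⟩ := he
      obtain ⟨⟨hf1, hf2, hf3, -⟩, hgf⟩ := hf
      simp only at h
      -- no colour-0 point below
      have key : ∀ e f : (ℝ × ℝ) × (ℝ × ℝ), e.1 = f.1 → e.2 ∈ P → e.1.1 < e.2.1 → f.1.1 < f.2.1 →
          good e c → good f c → slp f.1 f.2 ≤ slp e.1 e.2 := by
        intro e f hef he2 he3 hf3 hge hgf
        have h1 : e.2 ∉ bel P (slp f.1 f.2) f.1 := fun h2 => hgf.2.2 _ h2 hge.2.1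
        rw [mem_bel] at h1
        push Not at h1
        have h2 := h1 he2
        rw [← hef] at h2 ⊢
        exact (hgt_le_iff he3 _).mp h2
      have h1 := key e f h he2 he3 hf3 hge hgf
      have h2 := key f e h.symm hf2 hf3 he3 hgf hge
      have h3 := slp_inj hs he1 he2 hf1 hf2 he3 hf3 (le_antisymm h2 h1)
      exact Prod.ext h3.1 h3.2
  -- N1
  have hN1 : ∀ p ∈ P, (Finset.univ.filter (fun c : ↥P → Fin M => col P M c p = 0)).card * M = M ^ n := by
    intro p hp
    have := count_col P M {p} (by simpa using hp)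
    simpa using this
  have hdc : (leE P m).card * M ^ n ≤ (2 * M * n) * M ^ n := by
    calc (leE P m).card * M ^ n = ∑ _e ∈ leE P m, M ^ n := by simp
      _ ≤ ∑ e ∈ leE P m, 2 * M ^ 2 * (Finset.univ.filter (fun c => good e c)).card :=
          Finset.sum_le_sum hlow
      _ = 2 * M ^ 2 * ∑ e ∈ leE P m, (Finset.univ.filter (fun c => good e c)).card := by
          rw [Finset.mul_sum]
      _ = 2 * M ^ 2 * ∑ c : ↥P → Fin M, ((leE P m).filter (fun e => good e c)).card := by
          congr 1
          simp only [Finset.card_filter]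
          exact Finset.sum_comm
      _ ≤ 2 * M ^ 2 * ∑ c : ↥P → Fin M, (P.filter (fun p => col P M c p = 0)).card :=
          Nat.mul_le_mul_left _ (Finset.sum_le_sum (fun c _ => hup c))
      _ = 2 * M ^ 2 * ∑ p ∈ P, (Finset.univ.filter (fun c : ↥P → Fin M => col P M c p = 0)).card := by
          congr 1
          simp only [Finset.card_filter]
          exact Finset.sum_comm
      _ = 2 * M * ∑ p ∈ P, (Finset.univ.filter (fun c : ↥P → Fin M => col P M c p = 0)).card * M := by
          rw [← Finset.sum_mul]; ring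
      _ = 2 * M * ∑ p ∈ P, M ^ n := by
          congr 1
          exact Finset.sum_congr rfl hN1
      _ = (2 * M * n) * M ^ n := by
          rw [Finset.sum_const, smul_eq_mul, ← hn]; ring
  have hpos : 0 < M ^ n := pow_pos (by omega) _
  have := Nat.le_of_mul_le_mul_right hdc hpos
  calc (leE P m).card ≤ 2 * M * n := this
    _ = 4 * n * m := by rw [hM]; ring

end Crest.Agent.R51.Red
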