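import Crest.Agent.R51.Red5

set_option autoImplicit false

namespace Crest.Agent.R51.Red

open Finset

/-- THEOREM E. -/
def ThmE : Prop :=
  ∃ ε : ℝ, 0 < ε ∧ ε ≤ 1 / 3 ∧ ∃ C : ℝ, 0 ≤ C ∧ ∀ P : Finset (ℝ × ℝ), DX P → DS P → ∀ k : ℕ,
    ((edges P k).card : ℝ) ≤ C * (P.card : ℝ) ^ ((4 : ℝ) / 3 - ε)

lemma nearE_sub_leE (P : Finset (ℝ × ℝ)) (k m : ℕ) : nearE P k m ⊆ leE P (k + m) := by
  intro e he
  rw [mem_nearE] at he
  rw [mem_leE]
  exact ⟨he.1, he.2.1, he.2.2.1, he.2.2.2.1⟩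

theorem edgeBound_of_thmE (H : ThmE) : EdgeBound := by
  obtain ⟨ε, hε, hε3, C, hC0, hC⟩ := H
  refine ⟨ε, hε, 13 * (C * 7 ^ ((4:ℝ)/3 - ε)), ?_⟩
  intro k hk P hx hs hkP
  set n := P.card with hn
  have hk' : (1:ℝ) ≤ k := by exact_mod_cast hk
  have hkn : (k:ℝ) ≤ n := by
    have : k ≤ n := by omega
    exact_mod_cast this
  have hα : 0 ≤ (4:ℝ)/3 - ε := by linarith
  set Φ := ⌊C * (7 * (k:ℝ)) ^ ((4:ℝ)/3 - ε)⌋₊ with hΦ
  have hpb := partition_bound hx hs k k hk Φ (by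
    intro A hAx hAs hAc i
    apply Nat.le_floor
    refine (hC A hAx hAs i).trans ?_
    apply mul_le_mul_of_nonneg_left _ hC0
    apply Real.rpow_le_rpow (by positivity) _ hα
    have : A.card ≤ 7 * k := by omega
    calc (A.card : ℝ) ≤ ((7 * k : ℕ) : ℝ) := by exact_mod_cast this
      _ = 7 * k := by push_cast; ring)
  have hnear : (nearE P k (2 * k)).card ≤ 12 * n * k := by
    calc (nearE P k (2 * k)).card ≤ (leE P (k + 2 * k)).card := Finset.card_le_card (nearE_sub_leE _ _ _)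
      _ ≤ 4 * P.card * (k + 2 * k) := leE_card hx hs _ (by omega)
      _ = 12 * n * k := by rw [hn]; ring
  have hwin : (((nearE P k (2 * k)).card / k ^ 2 + 1 : ℕ) : ℝ) ≤ 13 * (n / k) := by
    have h1 : (((nearE P k (2 * k)).card / k ^ 2 : ℕ) : ℝ) ≤ ((nearE P k (2 * k)).card : ℝ) / ((k ^ 2 : ℕ) : ℝ) :=
      Nat.cast_div_le
    have h2 : ((nearE P k (2 * k)).card : ℝ) ≤ 12 * n * k := by exact_mod_cast hnear
    have h3 : ((nearE P k (2 * k)).card : ℝ) / ((k ^ 2 : ℕ) : ℝ) ≤ 12 * (n / k) := by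
      rw [div_le_iff₀ (by positivity)]
      push_cast
      have : 12 * ((n:ℝ) / k) * k ^ 2 = 12 * n * k := by field_simp
      rw [this]; exact h2
    have h4 : (1:ℝ) ≤ n / k := by
      rw [le_div_iff₀ (by linarith)]; linarith
    push_cast at h1 ⊢
    push_cast at h3
    linarith
  have hX : (7 * (k:ℝ)) ^ ((4:ℝ)/3 - ε) = 7 ^ ((4:ℝ)/3 - ε) * ((k:ℝ) * (k:ℝ) ^ ((1:ℝ)/3 - ε)) := by
    rw [Real.mul_rpow (by norm_num) (by linarith)]
    congr 1
    have : (4:ℝ)/3 - ε = 1 + ((1:ℝ)/3 - ε) := by ring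
    rw [this, Real.rpow_add (by linarith), Real.rpow_one]
  have hmono : (k:ℝ) ^ ((1:ℝ)/3 - ε) ≤ ((k:ℝ) + 1) ^ ((1:ℝ)/3 - ε) :=
    Real.rpow_le_rpow (by linarith) (by linarith) (by linarith)
  have hΦle : (Φ : ℝ) ≤ C * (7 * (k:ℝ)) ^ ((4:ℝ)/3 - ε) := Nat.floor_le (by positivity)
  calc ((edges P k).card : ℝ) ≤ ((((nearE P k (2 * k)).card / k ^ 2 + 1) * Φ : ℕ) : ℝ) := by
        exact_mod_cast hpb
    _ = (((nearE P k (2 * k)).card / k ^ 2 + 1 : ℕ) : ℝ) * (Φ : ℝ) := by push_cast; ring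
    _ ≤ (13 * (n / k)) * (C * (7 * (k:ℝ)) ^ ((4:ℝ)/3 - ε)) := by
        apply mul_le_mul hwin hΦle (Nat.cast_nonneg _) (by positivity)
    _ = 13 * (C * 7 ^ ((4:ℝ)/3 - ε)) * n * (k:ℝ) ^ ((1:ℝ)/3 - ε) := by
        rw [hX]; field_simp
    _ ≤ 13 * (C * 7 ^ ((4:ℝ)/3 - ε)) * n * ((k:ℝ) + 1) ^ ((1:ℝ)/3 - ε) := by
        apply mul_le_mul_of_nonneg_left hmono
        positivity

/-- CORE: tightness at all scales is impossible.  `nearE P k (|P| / V^3)` (natural division) is the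
set of pairs with `|lev - k| ≤ |P| / V^3`. -/
def Core : Prop :=
  ∀ c₀ : ℝ, 0 < c₀ → ∀ V₁ : ℕ, ∃ Vmax N₀ : ℕ, ∀ P : Finset (ℝ × ℝ), DX P → DS P → ∀ k : ℕ,
    N₀ ≤ P.card → ∃ V : ℕ, V₁ ≤ V ∧ V ≤ Vmax ∧
      ((nearE P k (P.card / V ^ 3)).card : ℝ) < c₀ * ((P.card : ℝ) ^ 2 / (V : ℝ) ^ 2)

lemma nearE_mono {P : Finset (ℝ × ℝ)} {k m m' : ℕ} (h : m ≤ m') : nearE P k m ⊆ nearE P k m' := by
  intro e he
  rw [mem_nearE] at he ⊢
  exact ⟨he.1, he.2.1, he.2.2.1, by omega, by omega⟩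

theorem thmE_of_core (H : Core) : ThmE := by
  obtain ⟨Vmax, N₀, hcore⟩ := H (1 / 448) (by norm_num) 3
  -- choice of ε
  set X : ℝ := max ((Vmax:ℝ) ^ 3) 1 with hX
  have hX1 : 1 ≤ X := le_max_right _ _
  have hlogX : 0 ≤ Real.log X := Real.log_nonneg hX1
  set ε : ℝ := min (1/3) (Real.log 2 / (Real.log X + 1)) with hε
  have hlog2 : 0 < Real.log 2 := Real.log_pos (by norm_num)
  have hεpos : 0 < ε := lt_min (by norm_num) (by positivity)
  have hε3 : ε ≤ 1 / 3 := min_le_left _ _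
  have hXε : X ^ ε ≤ 2 := by
    rw [Real.rpow_def_of_pos (by linarith)]
    have h1 : Real.log X * ε ≤ Real.log 2 := by
      have h2 : ε ≤ Real.log 2 / (Real.log X + 1) := min_le_right _ _
      calc Real.log X * ε ≤ Real.log X * (Real.log 2 / (Real.log X + 1)) :=
            mul_le_mul_of_nonneg_left h2 hlogX
        _ = Real.log 2 * (Real.log X / (Real.log X + 1)) := by ring
        _ ≤ Real.log 2 * 1 := by
            apply mul_le_mul_of_nonneg_left _ hlog2.le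
            rw [div_le_one (by linarith)]; linarith
        _ = Real.log 2 := mul_one _
    calc Real.exp (Real.log X * ε) ≤ Real.exp (Real.log 2) := Real.exp_le_exp.mpr h1
      _ = 2 := Real.exp_log (by norm_num)
  set α : ℝ := (4:ℝ)/3 - ε with hα
  have hα0 : 0 < α := by rw [hα]; linarith
  set N1 : ℕ := N₀ + 4 * Vmax ^ 3 + 2 with hN1
  set K : ℝ := (N1:ℝ) ^ 2 with hK
  have hK0 : 0 ≤ K := by positivity
  refine ⟨ε, hεpos, hε3, K, hK0, ?_⟩
  -- strong induction on the cardinality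
  have main : ∀ N : ℕ, ∀ P : Finset (ℝ × ℝ), P.card = N → DX P → DS P → ∀ k : ℕ,
      ((edges P k).card : ℝ) ≤ K * (N : ℝ) ^ α := by
    intro N
    induction N using Nat.strong_induction_on with
    | _ N ih =>
    intro P hPN hx hs k
    by_cases hN : N < N1
    · -- trivial bound
      have h1 : (edges P k).card ≤ N * N := by
        have : edges P k ⊆ P ×ˢ P := by
          intro e he
          rw [mem_edges] at he
          exact Finset.mem_product.mpr ⟨he.1, he.2.1⟩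
        have := Finset.card_le_card this
        rw [Finset.card_product, hPN] at this
        exact this
      rcases Nat.eq_zero_or_pos N with h0 | h0
      · subst h0
        have h2 : (edges P k).card = 0 := by omega
        rw [h2]
        simp only [Nat.cast_zero]
        positivity
      · have h2 : (1:ℝ) ≤ (N:ℝ) ^ α := by
          apply Real.one_le_rpow _ hα0.le
          exact_mod_cast h0
        have h3 : ((edges P k).card : ℝ) ≤ (N:ℝ) * N := by exact_mod_cast h1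
        have h4 : (N:ℝ) ≤ N1 := by exact_mod_cast hN.le
        calc ((edges P k).card : ℝ) ≤ (N:ℝ) * N := h3
          _ ≤ N1 * N1 := mul_le_mul h4 h4 (Nat.cast_nonneg _) (Nat.cast_nonneg _)
          _ = K * 1 := by rw [hK]; ring
          _ ≤ K * (N:ℝ) ^ α := mul_le_mul_of_nonneg_left h2 hK0
    · push Not at hN
      obtain ⟨V, hV1, hV2, hV3⟩ := hcore P hx hs k (by omega)
      rw [hPN] at hV3
      have hVpos : 0 < V := by omega
      have hVr : (3:ℝ) ≤ V := by exact_mod_cast hV1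
      have hVr0 : (0:ℝ) < V := by linarith
      have hV3pow : 0 < V ^ 3 := pow_pos hVpos 3
      have hVmax : V ^ 3 ≤ Vmax ^ 3 := Nat.pow_le_pow_left hV2 3
      have hNV : 4 * V ^ 3 ≤ N := by omega
      set b' : ℕ := N / V ^ 3 with hb'
      set b : ℕ := b' / 2 with hb
      have hb4 : 4 ≤ b' := by
        rw [hb', Nat.le_div_iff_mul_le hV3pow]; exact hNV
      have hb1 : 1 ≤ b := by omega
      have h2b : 2 * b ≤ b' := by omega
      have hNr : (0:ℝ) < N := by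
        have : 0 < N := by omega
        exact_mod_cast this
      -- real bounds of b
      have hb'r : (N:ℝ) / V ^ 3 < b' + 1 := by
        rw [div_lt_iff₀ (by positivity)]
        have := Nat.lt_div_mul_add (a := N) hV3pow
        have h5 : N < (b' + 1) * V ^ 3 := by
          rw [Nat.add_mul, Nat.one_mul]; exact this
        exact_mod_cast h5
      have hb'r2 : (b':ℝ) ≤ (N:ℝ) / V ^ 3 := by
        rw [le_div_iff₀ (by positivity)]
        have := Nat.div_mul_le_self N (V ^ 3)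
        exact_mod_cast this
      have hq4 : (4:ℝ) ≤ (N:ℝ) / V ^ 3 := by
        have : (4:ℝ) ≤ b' := by exact_mod_cast hb4
        linarith
      have hbr : (N:ℝ) / V ^ 3 / 4 ≤ b := by
        have h5 : (b':ℝ) ≤ 2 * b + 1 := by
          have : b' ≤ 2 * b + 1 := by omega
          exact_mod_cast this
        linarith
      have hbr2 : (b:ℝ) ≤ (N:ℝ) / V ^ 3 / 2 := by
        have h5 : 2 * (b:ℝ) ≤ b' := by exact_mod_cast h2b
        linarith
      set Y : ℝ := 4 * ((N:ℝ) / V ^ 3) with hY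
      have hY0 : 0 ≤ Y := by positivity
      have hsize : ∀ m : ℕ, m ≤ 6 * b + 1 → (m:ℝ) ≤ Y := by
        intro m hm
        have h5 : (m:ℝ) ≤ 6 * b + 1 := by exact_mod_cast hm
        have h6 : (1:ℝ) ≤ b := by exact_mod_cast hb1
        rw [hY]
        linarith
      have hYN : Y < N := by
        rw [hY, ← mul_div_assoc, div_lt_iff₀ (by positivity)]
        have h27 : (27:ℝ) ≤ (V:ℝ) ^ 3 := by
          calc (27:ℝ) = 3 ^ 3 := by norm_num
            _ ≤ (V:ℝ) ^ 3 := pow_le_pow_left₀ (by norm_num) hVr 3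
        nlinarith
      set Φ : ℕ := ⌊K * Y ^ α⌋₊ with hΦ
      have hpb := partition_bound hx hs k b hb1 Φ (by
        intro A hAx hAs hAc i
        have hAY := hsize A.card hAc
        have hAN : A.card < N := by
          have : (A.card:ℝ) < N := lt_of_le_of_lt hAY hYN
          exact_mod_cast this
        apply Nat.le_floor
        refine (ih A.card hAN A rfl hAx hAs i).trans ?_
        apply mul_le_mul_of_nonneg_left _ hK0
        exact Real.rpow_le_rpow (Nat.cast_nonneg _) hAY hα0.le)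
      have hΦle : (Φ:ℝ) ≤ K * Y ^ α := Nat.floor_le (by positivity)
      have hE : ((nearE P k (2 * b)).card : ℝ) < 1/448 * ((N:ℝ) ^ 2 / (V:ℝ) ^ 2) := by
        refine lt_of_le_of_lt ?_ hV3
        exact_mod_cast Finset.card_le_card (nearE_mono h2b)
      have hwin : (((nearE P k (2 * b)).card / b ^ 2 + 1 : ℕ) : ℝ) ≤ (V:ℝ) ^ 4 / 28 + 1 := by
        have h1 : (((nearE P k (2 * b)).card / b ^ 2 : ℕ) : ℝ)
            ≤ ((nearE P k (2 * b)).card : ℝ) / ((b ^ 2 : ℕ) : ℝ) := Nat.cast_div_le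
        have h2 : ((nearE P k (2 * b)).card : ℝ) / ((b ^ 2 : ℕ) : ℝ) ≤ (V:ℝ) ^ 4 / 28 := by
          have hbpos : (0:ℝ) < b := by exact_mod_cast hb1
          rw [div_le_iff₀ (by positivity)]
          push_cast
          have h6 : ((N:ℝ) / V ^ 3 / 4) ^ 2 ≤ (b:ℝ) ^ 2 := pow_le_pow_left₀ (by positivity) hbr 2
          calc ((nearE P k (2 * b)).card : ℝ) ≤ 1/448 * ((N:ℝ) ^ 2 / (V:ℝ) ^ 2) := hE.le
            _ = (V:ℝ) ^ 4 / 28 * ((N:ℝ) / V ^ 3 / 4) ^ 2 := by field_simp; norm_num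
            _ ≤ (V:ℝ) ^ 4 / 28 * (b:ℝ) ^ 2 := by
                apply mul_le_mul_of_nonneg_left h6; positivity
        push_cast at h1 ⊢
        push_cast at h2
        linarith
      -- the factor
      have hYα : Y ^ α ≤ (N:ℝ) ^ α * (14 / (V:ℝ) ^ 4) := by
        have h1 : Y = N * (4 / (V:ℝ) ^ 3) := by rw [hY]; ring
        rw [h1, Real.mul_rpow hNr.le (by positivity)]
        apply mul_le_mul_of_nonneg_left _ (by positivity)
        -- (4 / V^3)^α = (4/V^3)^(4/3) * (V^3/4)^ε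
        have h2 : (4 / (V:ℝ) ^ 3) ^ α = (4 / (V:ℝ) ^ 3) ^ ((4:ℝ)/3) / (4 / (V:ℝ) ^ 3) ^ ε := by
          rw [hα, Real.rpow_sub (by positivity)]
        have h3 : (4 / (V:ℝ) ^ 3) ^ ((4:ℝ)/3) ≤ 7 / (V:ℝ) ^ 4 := by
          rw [Real.div_rpow (by norm_num) (by positivity)]
          have h4 : ((V:ℝ) ^ 3) ^ ((4:ℝ)/3) = (V:ℝ) ^ 4 := by
            rw [← Real.rpow_natCast, ← Real.rpow_mul hVr0.le, ← Real.rpow_natCast]
            norm_num
          rw [h4]
          apply div_le_div_of_nonneg_right _ (by positivity)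
          -- 4^(4/3) ≤ 7
          have h5 : (4:ℝ) ^ ((4:ℝ)/3) = (256:ℝ) ^ ((1:ℝ)/3) := by
            have : (256:ℝ) = (4:ℝ) ^ (4:ℝ) := by norm_num
            rw [this, ← Real.rpow_mul (by norm_num)]
            norm_num
          rw [h5]
          have h6 : (256:ℝ) ^ ((1:ℝ)/3) ≤ (343:ℝ) ^ ((1:ℝ)/3) :=
            Real.rpow_le_rpow (by norm_num) (by norm_num) (by norm_num)
          have h7 : (343:ℝ) ^ ((1:ℝ)/3) = 7 := by
            have : (343:ℝ) = (7:ℝ) ^ (3:ℝ) := by norm_num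
            rw [this, ← Real.rpow_mul (by norm_num)]
            norm_num
          linarith
        have h4 : 1 / 2 ≤ (4 / (V:ℝ) ^ 3) ^ ε := by
          have h5 : 1 / X ≤ 4 / (V:ℝ) ^ 3 := by
            rw [div_le_div_iff₀ (by linarith) (by positivity)]
            have h6 : (V:ℝ) ^ 3 ≤ X := by
              refine le_trans ?_ (le_max_left _ _)
              exact_mod_cast hVmax
            linarith
          calc (1:ℝ)/2 ≤ 1 / X ^ ε := one_div_le_one_div_of_le (by positivity) hXε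
            _ = (1 / X) ^ ε := by rw [Real.div_rpow (by norm_num) (by linarith), Real.one_rpow]
            _ ≤ (4 / (V:ℝ) ^ 3) ^ ε := Real.rpow_le_rpow (by positivity) h5 hεpos.le
        rw [h2, div_le_iff₀ (by positivity)]
        calc (4 / (V:ℝ) ^ 3) ^ ((4:ℝ)/3) ≤ 7 / (V:ℝ) ^ 4 := h3
          _ = 14 / (V:ℝ) ^ 4 * (1 / 2) := by ring
          _ ≤ 14 / (V:ℝ) ^ 4 * (4 / (V:ℝ) ^ 3) ^ ε := by
              apply mul_le_mul_of_nonneg_left h4; positivity
      have hfac : ((V:ℝ) ^ 4 / 28 + 1) * (14 / (V:ℝ) ^ 4) ≤ 1 := by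
        have h81 : (81:ℝ) ≤ (V:ℝ) ^ 4 := by
          calc (81:ℝ) = 3 ^ 4 := by norm_num
            _ ≤ (V:ℝ) ^ 4 := pow_le_pow_left₀ (by norm_num) hVr 4
        have h1 : ((V:ℝ) ^ 4 / 28 + 1) * (14 / (V:ℝ) ^ 4) = 1 / 2 + 14 / (V:ℝ) ^ 4 := by
          field_simp
          ring
        rw [h1]
        have h2 : 14 / (V:ℝ) ^ 4 ≤ 1 / 2 := by
          rw [div_le_div_iff₀ (by positivity) (by norm_num)]
          linarith
        linarith
      calc ((edges P k).card : ℝ)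
          ≤ ((((nearE P k (2 * b)).card / b ^ 2 + 1) * Φ : ℕ) : ℝ) := by exact_mod_cast hpb
        _ = (((nearE P k (2 * b)).card / b ^ 2 + 1 : ℕ) : ℝ) * (Φ : ℝ) := by push_cast; ring
        _ ≤ ((V:ℝ) ^ 4 / 28 + 1) * (K * Y ^ α) :=
            mul_le_mul hwin hΦle (Nat.cast_nonneg _) (by positivity)
        _ ≤ ((V:ℝ) ^ 4 / 28 + 1) * (K * ((N:ℝ) ^ α * (14 / (V:ℝ) ^ 4))) := by
            apply mul_le_mul_of_nonneg_left _ (by positivity)
            exact mul_le_mul_of_nonneg_left hYα hK0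
        _ = (K * (N:ℝ) ^ α) * (((V:ℝ) ^ 4 / 28 + 1) * (14 / (V:ℝ) ^ 4)) := by ring
        _ ≤ (K * (N:ℝ) ^ α) * 1 := by
            apply mul_le_mul_of_nonneg_left hfac; positivity
        _ = K * (N:ℝ) ^ α := mul_one _
  intro P hx hs k
  exact main P.card P rfl hx hs k

end Crest.Agent.R51.Red
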