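import Crest.Agent.R51.Red6
import Crest.Agent.R51.Defs

/-!
# Row 51, section B10: `Core → S0070`

`Core` in the common language of `R51/Defs.lean`; `S0070_of_core` is the frozen statement.
-/

set_option autoImplicit false

namespace Crest.Agent.R51

open Finset

/-- CORE THEOREM of the blueprint: tightness at all scales `V ∈ [V₁, Vmax]` is impossible.
`nearAll P k (|P| / V^3)` (natural division) is the set of pairs with `|lv - k| ≤ |P| / V^3`. -/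
def Core : Prop :=
  ∀ c₀ : ℝ, 0 < c₀ → ∀ V₁ : ℕ, ∃ Vmax N₀ : ℕ, ∀ P : Finset Pt, Generic P → ∀ k : ℕ,
    N₀ ≤ P.card → ∃ V : ℕ, V₁ ≤ V ∧ V ≤ Vmax ∧
      ((nearAll P k (P.card / V ^ 3)).card : ℝ) < c₀ * ((P.card : ℝ) ^ 2 / (V : ℝ) ^ 2)

lemma generic_of_DX_DS {P : Finset Pt} (hx : Red.DX P) (hs : Red.DS P) : Generic P where
  x_inj := hx
  sl_inj := fun _ hp _ hq _ hr _ hu h1 h2 h => Red.slp_inj hs hp hq hr hu h1 h2 h

lemma nearAll_eq (P : Finset Pt) (k m : ℕ) : nearAll P k m = Red.nearE P k m := by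
  ext e
  rw [mem_nearAll, mem_pairs, Red.mem_nearE]
  have h : lv P e = Red.lev P e := by
    unfold lv Red.lev Red.rank Red.bel rk esl
    rw [Nat.add_comm]
    rfl
  unfold Near
  rw [h]
  simp only [and_assoc]

theorem red_core_of_core (H : Core) : Red.Core := by
  intro c₀ hc V₁
  obtain ⟨Vmax, N₀, h⟩ := H c₀ hc V₁
  refine ⟨Vmax, N₀, ?_⟩
  intro P hx hs k hN
  obtain ⟨V, h1, h2, h3⟩ := h P (generic_of_DX_DS hx hs) k hN
  rw [nearAll_eq] at h3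
  exact ⟨V, h1, h2, h3⟩

/-- **S0070 from the core theorem** (section B10 complete). -/
theorem S0070_of_core (H : Core) :
    ∃ ε₀ : ℝ, 0 < ε₀ ∧ ∃ C₀ : ℝ, ∀ n : ℕ, 2 ≤ n → ∀ k : ℕ, 1 ≤ k → 2 * k ≤ n →
      ∀ Q : Finset (ℝ × ℝ), Q.card = n →
        ((Red.ksets Q k).card : ℝ) ≤ C₀ * (n : ℝ) * ((k : ℝ) + 1) ^ ((1 : ℝ) / 3 - ε₀) :=
  Red.S0070_of_edgeBound (Red.edgeBound_of_thmE (Red.thmE_of_core (red_core_of_core H)))

end Crest.Agent.R51
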