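import Crest.Agent.R51.Level2

/-!
# Row 51: the reflections `y → -y` (`RY`) and `x → -x` (`RX`)
-/

set_option autoImplicit false

noncomputable section

open Classical

namespace Crest.Agent.R51

/-! ## Reflection `y → -y` -/

/-- `(x,y) ↦ (x,-y)` -/
def ry (p : Pt) : Pt := (p.1, -p.2)
/-- reflection of an edge -/
def rye (e : Edge) : Edge := (ry e.1, ry e.2)
/-- reflected point set -/
def RY (P : Finset Pt) : Finset Pt := P.image ry

@[simp] lemma ry_ry (p : Pt) : ry (ry p) = p := by simp [ry]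
@[simp] lemma rye_rye (e : Edge) : rye (rye e) = e := by simp [rye]
@[simp] lemma ry_fst (p : Pt) : (ry p).1 = p.1 := rfl
@[simp] lemma ry_snd (p : Pt) : (ry p).2 = -p.2 := rfl
@[simp] lemma rye_fst (e : Edge) : (rye e).1 = ry e.1 := rfl
@[simp] lemma rye_snd (e : Edge) : (rye e).2 = ry e.2 := rfl

lemma ry_inj : Function.Injective ry := fun p q h => by
  have := congrArg ry h; simpa using this

lemma rye_inj : Function.Injective rye := fun p q h => by
  have := congrArg rye h; simpa using this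

lemma mem_RY {P : Finset Pt} {p : Pt} : p ∈ RY P ↔ ry p ∈ P := by
  unfold RY
  rw [Finset.mem_image]
  constructor
  · rintro ⟨q, hq, rfl⟩; simpa using hq
  · intro h; exact ⟨ry p, h, by simp⟩

@[simp] lemma ry_mem_RY {P : Finset Pt} {p : Pt} : ry p ∈ RY P ↔ p ∈ P := by
  rw [mem_RY, ry_ry]

@[simp] lemma card_RY (P : Finset Pt) : (RY P).card = P.card :=
  Finset.card_image_of_injective _ ry_inj

@[simp] lemma RY_RY (P : Finset Pt) : RY (RY P) = P := by
  ext p; rw [mem_RY, mem_RY, ry_ry]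

lemma sl_ry (p q : Pt) : sl (ry p) (ry q) = - sl p q := by
  unfold sl
  simp only [ry_fst, ry_snd]
  rw [← neg_div]
  congr 1
  ring

lemma esl_rye (e : Edge) : esl (rye e) = - esl e := sl_ry _ _

lemma ht_ry (θ : ℝ) (p : Pt) : ht θ (ry p) = - ht (-θ) p := by
  unfold ht; simp only [ry_fst, ry_snd]; ring

lemma lin_rye (e : Edge) (x : ℝ) : lin (rye e) x = - lin e x := by
  unfold lin; rw [esl_rye]; simp only [rye_fst, ry_fst, ry_snd]; ring

lemma Generic.RY {P : Finset Pt} (hG : Generic P) : Generic (RY P) where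
  x_inj p hp q hq h := by
    rw [mem_RY] at hp hq
    exact ry_inj (hG.x_inj _ hp _ hq h)
  sl_inj p hp q hq r hr u hu h1 h2 h3 := by
    rw [mem_RY] at hp hq hr hu
    have h4 : sl (ry p) (ry q) = sl (ry r) (ry u) := by rw [sl_ry, sl_ry, h3]
    obtain ⟨h5, h6⟩ := hG.sl_inj _ hp _ hq _ hr _ hu h1 h2 h4
    exact ⟨ry_inj h5, ry_inj h6⟩

lemma mem_pairs_RY {P : Finset Pt} {e : Edge} : e ∈ pairs (RY P) ↔ rye e ∈ pairs P := by
  rw [mem_pairs, mem_pairs, mem_RY, mem_RY]; rfl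

lemma rye_mem_pairs_RY {P : Finset Pt} {e : Edge} : rye e ∈ pairs (RY P) ↔ e ∈ pairs P := by
  rw [mem_pairs_RY, rye_rye]

lemma NonSlope.RY {P : Finset Pt} {θ : ℝ} (h : NonSlope P θ) : NonSlope (RY P) (-θ) := by
  intro e he h'
  rw [mem_pairs_RY] at he
  apply h _ he
  rw [esl_rye, h', neg_neg]

lemma ht_pos_ry {θ : ℝ} {p q : Pt} : ht (-θ) (ry q) < ht (-θ) (ry p) ↔ ht θ p < ht θ q := by
  rw [ht_ry, ht_ry, neg_neg, neg_lt_neg_iff]

lemma rk_RY (P : Finset Pt) (θ : ℝ) (p : Pt) :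
    rk (RY P) (-θ) (ry p) = (P.filter (fun q => ht θ p < ht θ q)).card := by
  unfold rk
  have : (RY P).filter (fun q => ht (-θ) q < ht (-θ) (ry p))
      = (P.filter (fun q => ht θ p < ht θ q)).image ry := by
    ext q
    rw [Finset.mem_filter, mem_RY, Finset.mem_image]
    constructor
    · rintro ⟨h1, h2⟩
      refine ⟨ry q, Finset.mem_filter.2 ⟨h1, ?_⟩, by simp⟩
      rw [← ht_pos_ry, ry_ry]; exact h2
    · rintro ⟨r, hr, rfl⟩
      rw [Finset.mem_filter] at hr
      rw [ry_ry]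
      exact ⟨hr.1, ht_pos_ry.2 hr.2⟩
  rw [this, Finset.card_image_of_injective _ ry_inj]

/-- General count: below + above + on the same height = all. -/
lemma rk_add_above_add_eq (P : Finset Pt) (θ : ℝ) (p : Pt) :
    rk P θ p + (P.filter (fun q => ht θ p < ht θ q)).card
      + (P.filter (fun q => ht θ q = ht θ p)).card = P.card := by
  unfold rk
  rw [← Finset.card_union_of_disjoint, ← Finset.card_union_of_disjoint]
  · congr 1
    ext q
    simp only [Finset.mem_union, Finset.mem_filter]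
    constructor
    · tauto
    · intro hq
      rcases lt_trichotomy (ht θ q) (ht θ p) with h | h | h
      · exact Or.inl (Or.inl ⟨hq, h⟩)
      · exact Or.inr ⟨hq, h⟩
      · exact Or.inl (Or.inr ⟨hq, h⟩)
  · rw [Finset.disjoint_left]
    intro q h1 h2
    rw [Finset.mem_union, Finset.mem_filter, Finset.mem_filter] at h1
    rw [Finset.mem_filter] at h2
    rcases h1 with h1 | h1
    · exact absurd h2.2 h1.2.ne
    · exact absurd h2.2 h1.2.ne'
  · rw [Finset.disjoint_left]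
    intro q h1 h2
    rw [Finset.mem_filter] at h1 h2
    exact absurd h1.2 (not_lt.2 h2.2.le)

/-- Rank under reflection at a non-slope. -/
lemma rk_RY_of_nonSlope {P : Finset Pt} (hG : Generic P) {θ : ℝ} (hθ : NonSlope P θ) {p : Pt}
    (hp : p ∈ P) : rk (RY P) (-θ) (ry p) + rk P θ p + 1 = P.card := by
  have h := rk_add_above_add_eq P θ p
  have h1 : P.filter (fun q => ht θ q = ht θ p) = {p} := by
    ext q
    rw [Finset.mem_filter, Finset.mem_singleton]
    constructor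
    · rintro ⟨hq, h⟩
      by_contra hne
      exact ht_ne_of_nonSlope hG hθ hq hp hne h
    · rintro rfl; exact ⟨hp, rfl⟩
  rw [h1, Finset.card_singleton] at h
  rw [rk_RY]
  omega

/-- Level under reflection. -/
lemma lv_RY {P : Finset Pt} (hG : Generic P) {e : Edge} (he : e ∈ pairs P) :
    lv (RY P) (rye e) + lv P e = P.card := by
  have h := rk_add_above_add_eq P (esl e) e.1
  have hm := mem_pairs.1 he
  have hne : e.1 ≠ e.2 := by
    intro h'; have := hm.2.2; rw [h'] at this; exact lt_irrefl _ this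
  have h1 : P.filter (fun q => ht (esl e) q = ht (esl e) e.1) = {e.1, e.2} := by
    ext q
    rw [Finset.mem_filter, Finset.mem_insert, Finset.mem_singleton]
    constructor
    · rintro ⟨hq, h⟩
      by_contra hcon
      rw [not_or] at hcon
      exact hG.ht_ne he hq hcon.1 hcon.2 h
    · rintro (rfl | rfl)
      · exact ⟨hm.1, rfl⟩
      · exact ⟨hm.2.1, (ht_esl hm.2.2).symm⟩
  rw [h1, Finset.card_pair hne] at h
  unfold lv
  rw [esl_rye, rye_fst, rk_RY]
  omega

lemma lv_pos (P : Finset Pt) (e : Edge) : 1 ≤ lv P e := by unfold lv; omega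

lemma lv_lt_card {P : Finset Pt} (hG : Generic P) {e : Edge} (he : e ∈ pairs P) :
    lv P e < P.card := by
  have h1 := lv_RY hG he
  have h2 := lv_pos (RY P) (rye e)
  omega

lemma mem_kE_RY {P : Finset Pt} (hG : Generic P) {i : ℕ} {s t : ℝ} {e : Edge} :
    rye e ∈ kE (RY P) (P.card - i) (-t) (-s) ↔ e ∈ kE P i s t := by
  rw [mem_kE, mem_kE, rye_mem_pairs_RY, esl_rye]
  constructor
  · rintro ⟨h1, h2, h3, h4⟩
    have h5 := lv_RY hG h1
    have h6 := lv_pos P e
    have h7 := lv_pos (RY P) (rye e)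
    exact ⟨h1, by linarith, by linarith, by omega⟩
  · rintro ⟨h1, h2, h3, h4⟩
    have h5 := lv_RY hG h1
    have h6 := lv_pos P e
    have h7 := lv_pos (RY P) (rye e)
    exact ⟨h1, by linarith, by linarith, by omega⟩

lemma kE_RY {P : Finset Pt} (hG : Generic P) (i : ℕ) (s t : ℝ) :
    kE (RY P) (P.card - i) (-t) (-s) = (kE P i s t).image rye := by
  ext e
  rw [Finset.mem_image]
  constructor
  · intro h
    refine ⟨rye e, ?_, by simp⟩
    rw [← mem_kE_RY hG, rye_rye]; exact h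
  · rintro ⟨f, hf, rfl⟩
    exact (mem_kE_RY hG).2 hf

lemma card_kE_RY {P : Finset Pt} (hG : Generic P) (i : ℕ) (s t : ℝ) :
    (kE (RY P) (P.card - i) (-t) (-s)).card = (kE P i s t).card := by
  rw [kE_RY hG, Finset.card_image_of_injective _ rye_inj]

lemma near_RY {P : Finset Pt} (hG : Generic P) {k b : ℕ} (hk : k ≤ P.card) {e : Edge}
    (he : e ∈ pairs P) : Near (RY P) (P.card - k) b (rye e) ↔ Near P k b e := by
  unfold Near
  have h5 := lv_RY hG he
  omega

lemma nearE_RY {P : Finset Pt} (hG : Generic P) {k b : ℕ} (hk : k ≤ P.card) (s t : ℝ) :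
    nearE (RY P) (P.card - k) b (-t) (-s) = (nearE P k b s t).image rye := by
  ext e
  rw [Finset.mem_image]
  constructor
  · intro h
    refine ⟨rye e, ?_, by simp⟩
    rw [mem_nearE] at h ⊢
    have he := mem_pairs_RY.1 h.1
    refine ⟨he, ?_, ?_, ?_⟩
    · rw [esl_rye]; linarith [h.2.2.1]
    · rw [esl_rye]; linarith [h.2.1]
    · rw [← near_RY hG hk he, rye_rye]; exact h.2.2.2
  · rintro ⟨f, hf, rfl⟩
    rw [mem_nearE] at hf ⊢
    refine ⟨rye_mem_pairs_RY.2 hf.1, ?_, ?_, ?_⟩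
    · rw [esl_rye]; linarith [hf.2.2.1]
    · rw [esl_rye]; linarith [hf.2.1]
    · exact (near_RY hG hk hf.1).2 hf.2.2.2

lemma card_nearE_RY {P : Finset Pt} (hG : Generic P) {k b : ℕ} (hk : k ≤ P.card) (s t : ℝ) :
    (nearE (RY P) (P.card - k) b (-t) (-s)).card = (nearE P k b s t).card := by
  rw [nearE_RY hG hk, Finset.card_image_of_injective _ rye_inj]

/-- `S^{n-i}` of the reflection is the complement of `S^i`. -/
lemma mem_Bel_RY {P : Finset Pt} (hG : Generic P) {θ : ℝ} (hθ : NonSlope P θ) {i : ℕ}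
    (hi : i ≤ P.card) {p : Pt} (hp : p ∈ P) :
    ry p ∈ Bel (RY P) (P.card - i) (-θ) ↔ p ∉ Bel P i θ := by
  have h := rk_RY_of_nonSlope hG hθ hp
  rw [mem_Bel, mem_Bel, ry_mem_RY]
  constructor
  · rintro ⟨_, h2⟩ ⟨_, h4⟩; omega
  · intro h2
    refine ⟨hp, ?_⟩
    have : ¬ rk P θ p < i := fun h3 => h2 ⟨hp, h3⟩
    omega

lemma Dl_RY {P : Finset Pt} (hG : Generic P) {s t : ℝ} (hs : NonSlope P s)
    (ht' : NonSlope P t) {i : ℕ} (hi : i ≤ P.card) :
    Dl (RY P) (P.card - i) (-t) (-s) = Dl P i s t := by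
  unfold Dl
  have : Bel (RY P) (P.card - i) (-t) \ Bel (RY P) (P.card - i) (-s)
      = (Bel P i s \ Bel P i t).image ry := by
    ext q
    rw [Finset.mem_sdiff, Finset.mem_image]
    constructor
    · rintro ⟨h1, h2⟩
      have hq : ry q ∈ P := mem_RY.1 (Bel_subset h1)
      have h3 := (mem_Bel_RY hG ht' hi hq).1 (by rw [ry_ry]; exact h1)
      have h4 : ry q ∈ Bel P i s := by
        by_contra h5
        have := (mem_Bel_RY hG hs hi hq).2 h5
        rw [ry_ry] at this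
        exact h2 this
      exact ⟨ry q, Finset.mem_sdiff.2 ⟨h4, h3⟩, by simp⟩
    · rintro ⟨r, hr, rfl⟩
      rw [Finset.mem_sdiff] at hr
      have hrP : r ∈ P := Bel_subset hr.1
      exact ⟨(mem_Bel_RY hG ht' hi hrP).2 hr.2,
        fun h => (mem_Bel_RY hG hs hi hrP).1 h hr.1⟩
  rw [this, Finset.card_image_of_injective _ ry_inj]

lemma cross_rye {e f : Edge} : Cross (rye e) (rye f) ↔ Cross e f := by
  unfold Cross
  constructor
  · rintro ⟨x, h1, h2, h3, h4, h5, h6⟩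
    rw [lin_rye, lin_rye, neg_inj] at h5
    rw [esl_rye, esl_rye, ne_eq, neg_inj] at h6
    exact ⟨x, h1, h2, h3, h4, h5, h6⟩
  · rintro ⟨x, h1, h2, h3, h4, h5, h6⟩
    refine ⟨x, h1, h2, h3, h4, ?_, ?_⟩
    · rw [lin_rye, lin_rye, neg_inj]; exact h5
    · rw [esl_rye, esl_rye, ne_eq, neg_inj]; exact h6

/-- Centrality under reflection: the central rank becomes `n-1-k`. -/
lemma central_RY {P : Finset Pt} (hG : Generic P) {θ : ℝ} (hθ : NonSlope P θ) {k b : ℕ}
    (hk : k + 1 ≤ P.card) {p : Pt} (hp : p ∈ P) :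
    Central (RY P) (P.card - 1 - k) b (-θ) (ry p) ↔ Central P k b θ p := by
  have h := rk_RY_of_nonSlope hG hθ hp
  unfold Central
  omega

/-! ## Reflection `x → -x` -/

/-- `(x,y) ↦ (-x,y)` -/
def rx (p : Pt) : Pt := (-p.1, p.2)
/-- reflected edge (endpoints exchanged) -/
def rxe (e : Edge) : Edge := (rx e.2, rx e.1)
/-- reflected point set -/
def RX (P : Finset Pt) : Finset Pt := P.image rx

@[simp] lemma rx_rx (p : Pt) : rx (rx p) = p := by simp [rx]
@[simp] lemma rxe_rxe (e : Edge) : rxe (rxe e) = e := by simp [rxe]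
@[simp] lemma rx_fst (p : Pt) : (rx p).1 = -p.1 := rfl
@[simp] lemma rx_snd (p : Pt) : (rx p).2 = p.2 := rfl
@[simp] lemma rxe_fst (e : Edge) : (rxe e).1 = rx e.2 := rfl
@[simp] lemma rxe_snd (e : Edge) : (rxe e).2 = rx e.1 := rfl

lemma rx_inj : Function.Injective rx := fun p q h => by
  have := congrArg rx h; simpa using this

lemma rxe_inj : Function.Injective rxe := fun p q h => by
  have := congrArg rxe h; simpa using this

lemma mem_RX {P : Finset Pt} {p : Pt} : p ∈ RX P ↔ rx p ∈ P := by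
  unfold RX
  rw [Finset.mem_image]
  constructor
  · rintro ⟨q, hq, rfl⟩; simpa using hq
  · intro h; exact ⟨rx p, h, by simp⟩

@[simp] lemma rx_mem_RX {P : Finset Pt} {p : Pt} : rx p ∈ RX P ↔ p ∈ P := by
  rw [mem_RX, rx_rx]

@[simp] lemma card_RX (P : Finset Pt) : (RX P).card = P.card :=
  Finset.card_image_of_injective _ rx_inj

@[simp] lemma RX_RX (P : Finset Pt) : RX (RX P) = P := by
  ext p; rw [mem_RX, mem_RX, rx_rx]

lemma sl_rx (p q : Pt) : sl (rx q) (rx p) = - sl p q := by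
  rw [sl_comm p q]
  unfold sl
  simp only [rx_fst, rx_snd]
  rw [← div_neg]
  congr 1
  ring

lemma esl_rxe (e : Edge) : esl (rxe e) = - esl e := sl_rx _ _

lemma ht_rx (θ : ℝ) (p : Pt) : ht θ (rx p) = ht (-θ) p := by
  unfold ht; simp only [rx_fst, rx_snd]; ring

lemma Generic.RX {P : Finset Pt} (hG : Generic P) : Generic (RX P) where
  x_inj p hp q hq h := by
    rw [mem_RX] at hp hq
    exact rx_inj (hG.x_inj _ hp _ hq (by simp only [rx_fst]; rw [h]))
  sl_inj p hp q hq r hr u hu h1 h2 h3 := by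
    rw [mem_RX] at hp hq hr hu
    have h4 : sl (rx q) (rx p) = sl (rx u) (rx r) := by rw [sl_rx, sl_rx, h3]
    have h1' : (rx q).1 < (rx p).1 := by simp only [rx_fst]; linarith
    have h2' : (rx u).1 < (rx r).1 := by simp only [rx_fst]; linarith
    obtain ⟨h5, h6⟩ := hG.sl_inj _ hq _ hp _ hu _ hr h1' h2' h4
    exact ⟨rx_inj h6, rx_inj h5⟩

lemma mem_pairs_RX {P : Finset Pt} {e : Edge} : e ∈ pairs (RX P) ↔ rxe e ∈ pairs P := by
  rw [mem_pairs, mem_pairs, mem_RX, mem_RX]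
  simp only [rxe_fst, rxe_snd, rx_fst]
  constructor
  · rintro ⟨h1, h2, h3⟩; exact ⟨h2, h1, by linarith⟩
  · rintro ⟨h1, h2, h3⟩; exact ⟨h2, h1, by linarith⟩

lemma rxe_mem_pairs_RX {P : Finset Pt} {e : Edge} : rxe e ∈ pairs (RX P) ↔ e ∈ pairs P := by
  rw [mem_pairs_RX, rxe_rxe]

lemma NonSlope.RX {P : Finset Pt} {θ : ℝ} (h : NonSlope P θ) : NonSlope (RX P) (-θ) := by
  intro e he h'
  rw [mem_pairs_RX] at he
  apply h _ he
  rw [esl_rxe, h', neg_neg]

/-- Ranks are preserved (with `θ → -θ`). -/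
lemma rk_RX (P : Finset Pt) (θ : ℝ) (p : Pt) : rk (RX P) (-θ) (rx p) = rk P θ p := by
  unfold rk
  have : (RX P).filter (fun q => ht (-θ) q < ht (-θ) (rx p))
      = (P.filter (fun q => ht θ q < ht θ p)).image rx := by
    ext q
    rw [Finset.mem_filter, mem_RX, Finset.mem_image]
    constructor
    · rintro ⟨h1, h2⟩
      refine ⟨rx q, Finset.mem_filter.2 ⟨h1, ?_⟩, by simp⟩
      rw [ht_rx, neg_neg] at h2
      rw [ht_rx]; exact h2
    · rintro ⟨r, hr, rfl⟩
      rw [Finset.mem_filter] at hr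
      rw [rx_rx]
      refine ⟨hr.1, ?_⟩
      rw [ht_rx, ht_rx, neg_neg]; exact hr.2
  rw [this, Finset.card_image_of_injective _ rx_inj]

lemma lv_RX {P : Finset Pt} {e : Edge} (he : e ∈ pairs P) : lv (RX P) (rxe e) = lv P e := by
  unfold lv
  rw [esl_rxe, rxe_fst, rk_RX, rk_esl_right he]

lemma mem_Bel_RX {P : Finset Pt} {i : ℕ} {θ : ℝ} {p : Pt} :
    rx p ∈ Bel (RX P) i (-θ) ↔ p ∈ Bel P i θ := by
  rw [mem_Bel, mem_Bel, rk_RX, rx_mem_RX]

lemma central_RX {P : Finset Pt} {k b : ℕ} {θ : ℝ} {p : Pt} :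
    Central (RX P) k b (-θ) (rx p) ↔ Central P k b θ p := by
  unfold Central; rw [rk_RX]

lemma mem_kE_RX {P : Finset Pt} {i : ℕ} {s t : ℝ} {e : Edge} :
    rxe e ∈ kE (RX P) i (-t) (-s) ↔ e ∈ kE P i s t := by
  rw [mem_kE, mem_kE, rxe_mem_pairs_RX, esl_rxe]
  constructor
  · rintro ⟨h1, h2, h3, h4⟩
    rw [lv_RX h1] at h4
    exact ⟨h1, by linarith, by linarith, h4⟩
  · rintro ⟨h1, h2, h3, h4⟩
    rw [← lv_RX h1] at h4
    exact ⟨h1, by linarith, by linarith, h4⟩

lemma kE_RX (P : Finset Pt) (i : ℕ) (s t : ℝ) :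
    kE (RX P) i (-t) (-s) = (kE P i s t).image rxe := by
  ext e
  rw [Finset.mem_image]
  constructor
  · intro h
    refine ⟨rxe e, ?_, by simp⟩
    rw [← mem_kE_RX, rxe_rxe]; exact h
  · rintro ⟨f, hf, rfl⟩
    exact mem_kE_RX.2 hf

lemma card_kE_RX (P : Finset Pt) (i : ℕ) (s t : ℝ) :
    (kE (RX P) i (-t) (-s)).card = (kE P i s t).card := by
  rw [kE_RX, Finset.card_image_of_injective _ rxe_inj]

lemma near_RX {P : Finset Pt} {k b : ℕ} {e : Edge}
    (he : e ∈ pairs P) : Near (RX P) k b (rxe e) ↔ Near P k b e := by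
  unfold Near; rw [lv_RX he]

lemma nearE_RX (P : Finset Pt) (k b : ℕ) (s t : ℝ) :
    nearE (RX P) k b (-t) (-s) = (nearE P k b s t).image rxe := by
  ext e
  rw [Finset.mem_image]
  constructor
  · intro h
    refine ⟨rxe e, ?_, by simp⟩
    rw [mem_nearE] at h ⊢
    have he := mem_pairs_RX.1 h.1
    refine ⟨he, ?_, ?_, ?_⟩
    · rw [esl_rxe]; linarith [h.2.2.1]
    · rw [esl_rxe]; linarith [h.2.1]
    · rw [← near_RX he, rxe_rxe]; exact h.2.2.2
  · rintro ⟨f, hf, rfl⟩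
    rw [mem_nearE] at hf ⊢
    refine ⟨rxe_mem_pairs_RX.2 hf.1, ?_, ?_, ?_⟩
    · rw [esl_rxe]; linarith [hf.2.2.1]
    · rw [esl_rxe]; linarith [hf.2.1]
    · exact (near_RX hf.1).2 hf.2.2.2

lemma card_nearE_RX (P : Finset Pt) (k b : ℕ) (s t : ℝ) :
    (nearE (RX P) k b (-t) (-s)).card = (nearE P k b s t).card := by
  rw [nearE_RX, Finset.card_image_of_injective _ rxe_inj]

lemma Dl_RX (P : Finset Pt) (i : ℕ) (s t : ℝ) :
    Dl (RX P) i (-t) (-s) = (Bel P i t \ Bel P i s).card := by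
  unfold Dl
  have : Bel (RX P) i (-t) \ Bel (RX P) i (-s) = (Bel P i t \ Bel P i s).image rx := by
    ext q
    rw [Finset.mem_sdiff, Finset.mem_image]
    constructor
    · rintro ⟨h1, h2⟩
      refine ⟨rx q, Finset.mem_sdiff.2 ⟨?_, ?_⟩, by simp⟩
      · rw [← mem_Bel_RX, rx_rx]; exact h1
      · rw [← mem_Bel_RX, rx_rx]; exact h2
    · rintro ⟨r, hr, rfl⟩
      rw [Finset.mem_sdiff] at hr
      exact ⟨mem_Bel_RX.2 hr.1, fun h => hr.2 (mem_Bel_RX.1 h)⟩
  rw [this, Finset.card_image_of_injective _ rx_inj]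

lemma lin_rxe {e : Edge} (h : e.1.1 < e.2.1) (x : ℝ) : lin (rxe e) (-x) = lin e x := by
  have h1 := lin_right h
  have h2 := lin_sub e x e.2.1
  have h3 : lin (rxe e) (-x) = e.2.2 + (- esl e) * (-x + e.2.1) := by
    unfold lin
    rw [esl_rxe]
    simp only [rxe_fst, rx_fst, rx_snd]
    ring
  rw [h3]
  nlinarith

lemma cross_rxe {e f : Edge} (he : e.1.1 < e.2.1) (hf : f.1.1 < f.2.1) :
    Cross (rxe e) (rxe f) ↔ Cross e f := by
  unfold Cross
  constructor
  · rintro ⟨x, h1, h2, h3, h4, h5, h6⟩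
    have hx : x = -(-x) := by ring
    rw [hx, lin_rxe he, lin_rxe hf] at h5
    rw [esl_rxe, esl_rxe, ne_eq, neg_inj] at h6
    simp only [rxe_fst, rxe_snd, rx_fst] at h1 h2 h3 h4
    exact ⟨-x, by linarith, by linarith, by linarith, by linarith, h5, h6⟩
  · rintro ⟨x, h1, h2, h3, h4, h5, h6⟩
    refine ⟨-x, ?_, ?_, ?_, ?_, ?_, ?_⟩
    · simp only [rxe_fst, rx_fst]; linarith
    · simp only [rxe_snd, rx_fst]; linarith
    · simp only [rxe_fst, rx_fst]; linarith
    · simp only [rxe_snd, rx_fst]; linarith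
    · rw [lin_rxe he, lin_rxe hf]; exact h5
    · rw [esl_rxe, esl_rxe, ne_eq, neg_inj]; exact h6

end Crest.Agent.R51
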