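import Crest.Agent.R51.HSys
import Crest.Agent.R51.Active

/-!
# Row 51, section 5.2: the window-count removals (t5), (t6)_l, (t7)_l  (helper209)

`S : WSys P k V L Cw`, `J z = winOf (S.cuts l) (esl (lastE z))` the level-`l` window of the last
edge of the walk `z`.
-/

set_option autoImplicit false

noncomputable section

open Classical

namespace Crest.Agent.R51.TrimWin

variable {P : Finset Pt} {k : ℕ}

/-- number of middle points over a fixed start point -/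
theorem card_mid_le {b' : ℕ} {Λ : ℝ} {F : Finset Walk} (hF : F ⊆ T0 P k b' Λ) {v : Pt}
    (hv : ∀ z ∈ F, z.1 = v) (hne : F.Nonempty) :
    ((F.image (fun z => z.2.1)).card : ℝ) ≤ Λ := by
  obtain ⟨z0, hz0⟩ := hne
  have h0 := mem_T0' (hF hz0)
  have h1 : (dg (nearAll P k b') v : ℝ) ≤ Λ := by
    rw [← hv z0 hz0]; exact h0.2.2.2.2.2.2.2.1
  refine le_trans ?_ h1
  rw [dg_nearAll]
  exact_mod_cast Finset.card_le_card (by
    intro w hw
    obtain ⟨z, hz, rfl⟩ := Finset.mem_image.1 hw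
    have h2 := mem_T0' (hF hz)
    have h3 : z.1 = v := hv z hz
    rw [mem_nb]
    unfold NP
    rw [← h3, mk_of_lt h2.2.2.2.1, mem_nearAll, mem_pairs]
    exact ⟨⟨h2.1, h2.2.1, h2.2.2.2.1⟩, h2.2.2.2.2.2.1⟩)

/-- number of end points over fixed start and middle points, all of them -/
theorem card_last_le {b' : ℕ} {Λ : ℝ} {F : Finset Walk} (hF : F ⊆ T0 P k b' Λ) {v w : Pt}
    (hv : ∀ z ∈ F, z.1 = v) (hw : ∀ z ∈ F, z.2.1 = w) (hΛ : 0 ≤ Λ) : (F.card : ℝ) ≤ Λ := by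
  rcases F.eq_empty_or_nonempty with rfl | ⟨z0, hz0⟩
  · simpa using hΛ
  have h0 := mem_T0' (hF hz0)
  have h1 : (dg (nearAll P k b') w : ℝ) ≤ Λ := by
    rw [← hw z0 hz0]; exact h0.2.2.2.2.2.2.2.2.1
  refine le_trans ?_ h1
  rw [dg_nearAll]
  have : F.card ≤ (nb P k b' w).card := by
    refine Finset.card_le_card_of_injOn (fun z => z.2.2) ?_ ?_
    · intro z hz
      have hz := Finset.mem_coe.1 hz
      have h2 := mem_T0' (hF hz)
      have h3 : z.2.1 = w := hw z hz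
      apply Finset.mem_coe.2
      show z.2.2 ∈ nb P k b' w
      rw [mem_nb]
      unfold NP
      rw [← h3, mk_of_lt h2.2.2.2.2.1, mem_nearAll, mem_pairs]
      exact ⟨⟨h2.2.1, h2.2.2.1, h2.2.2.2.2.1⟩, h2.2.2.2.2.2.2.1⟩
    · intro z hz z' hz' he
      have hz := Finset.mem_coe.1 hz
      have hz' := Finset.mem_coe.1 hz'
      exact Prod.ext ((hv z hz).trans (hv z' hz').symm)
        (Prod.ext ((hw z hz).trans (hw z' hz').symm) he)
  exact_mod_cast this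

/-- number of end points over fixed start and middle points with last slope in a window -/
theorem card_last_win_le {b' : ℕ} {Λ Λl : ℝ} {F : Finset Walk} (hF : F ⊆ T0 P k b' Λ) {v w : Pt}
    {s t : ℝ} (hv : ∀ z ∈ F, z.1 = v) (hw : ∀ z ∈ F, z.2.1 = w)
    (hs : ∀ z ∈ F, s < esl (lastE z) ∧ esl (lastE z) < t)
    (h3 : ∀ z ∈ F, ((nbW P k b' s t z.2.1).card : ℝ) ≤ Λl) (hΛ : 0 ≤ Λl) :
    (F.card : ℝ) ≤ Λl := by
  rcases F.eq_empty_or_nonempty with rfl | ⟨z0, hz0⟩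
  · simpa using hΛ
  have h1 := h3 z0 hz0
  rw [hw z0 hz0] at h1
  refine le_trans ?_ h1
  have : F.card ≤ (nbW P k b' s t w).card := by
    refine Finset.card_le_card_of_injOn (fun z => z.2.2) ?_ ?_
    · intro z hz
      have hz := Finset.mem_coe.1 hz
      have h2 := mem_T0' (hF hz)
      have h3 : z.2.1 = w := hw z hz
      apply Finset.mem_coe.2
      show z.2.2 ∈ nbW P k b' s t w
      have h4 := hs z hz
      rw [mem_nbW, ← h3, mk_of_lt h2.2.2.2.2.1, mem_nearE, mem_pairs]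
      exact ⟨⟨h2.2.1, h2.2.2.1, h2.2.2.2.2.1⟩, h4.1, h4.2, h2.2.2.2.2.2.2.1⟩
    · intro z hz z' hz' he
      have hz := Finset.mem_coe.1 hz
      have hz' := Finset.mem_coe.1 hz'
      exact Prod.ext ((hv z hz).trans (hv z' hz').symm)
        (Prod.ext ((hw z hz).trans (hw z' hz').symm) he)
  exact_mod_cast this

/-- general two-step count -/
theorem card_two_step {F : Finset Walk} {Λ Λl : ℝ} (hΛl : 0 ≤ Λl)
    (h1 : ((F.image (fun z => z.2.1)).card : ℝ) ≤ Λ)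
    (h2 : ∀ w ∈ F.image (fun z => z.2.1), ((F.filter (fun z => z.2.1 = w)).card : ℝ) ≤ Λl) :
    (F.card : ℝ) ≤ Λ * Λl := by
  rw [Finset.card_eq_sum_card_fiberwise (f := fun z : Walk => z.2.1)
    (t := F.image (fun z => z.2.1)) (fun z hz => Finset.mem_coe.2 (Finset.mem_image_of_mem _
      (Finset.mem_coe.1 hz)))]
  push_cast
  calc ∑ w ∈ F.image (fun z => z.2.1), ((F.filter (fun z => z.2.1 = w)).card : ℝ)
      ≤ ∑ _w ∈ F.image (fun z => z.2.1), Λl := Finset.sum_le_sum h2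
    _ = ((F.image (fun z => z.2.1)).card : ℝ) * Λl := by rw [Finset.sum_const, nsmul_eq_mul]
    _ ≤ Λ * Λl := mul_le_mul_of_nonneg_right h1 hΛl

/-- number of walks with a fixed start point -/
theorem card_fixed_start {b' : ℕ} {Λ : ℝ} (hΛ : 0 ≤ Λ) {F : Finset Walk} (hF : F ⊆ T0 P k b' Λ)
    {v : Pt} (hv : ∀ z ∈ F, z.1 = v) : (F.card : ℝ) ≤ Λ ^ 2 := by
  rcases F.eq_empty_or_nonempty with rfl | hne
  · simp; positivity
  rw [sq]
  refine card_two_step hΛ (card_mid_le hF hv hne) fun w _ => ?_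
  exact card_last_le ((Finset.filter_subset _ _).trans hF)
    (fun z hz => hv z (Finset.mem_filter.1 hz).1) (fun z hz => (Finset.mem_filter.1 hz).2) hΛ

/-- number of walks with a fixed start point and last slope in a window -/
theorem card_fixed_start_win {b' : ℕ} {Λ Λl : ℝ} (hΛ : 0 ≤ Λ) (hΛl : 0 ≤ Λl) {F : Finset Walk}
    (hF : F ⊆ T0 P k b' Λ) {v : Pt} {s t : ℝ} (hv : ∀ z ∈ F, z.1 = v)
    (hs : ∀ z ∈ F, s < esl (lastE z) ∧ esl (lastE z) < t)
    (h3 : ∀ z ∈ F, ((nbW P k b' s t z.2.1).card : ℝ) ≤ Λl) :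
    (F.card : ℝ) ≤ Λ * Λl := by
  rcases F.eq_empty_or_nonempty with rfl | hne
  · simp; positivity
  refine card_two_step hΛl (card_mid_le hF hv hne) fun w _ => ?_
  exact card_last_win_le ((Finset.filter_subset _ _).trans hF)
    (fun z hz => hv z (Finset.mem_filter.1 hz).1) (fun z hz => (Finset.mem_filter.1 hz).2)
    (fun z hz => hs z (Finset.mem_filter.1 hz).1) (fun z hz => h3 z (Finset.mem_filter.1 hz).1) hΛl

/-- walks whose start point is bad -/
theorem card_bad_start {b' : ℕ} {Λ : ℝ} (hΛ : 0 ≤ Λ) (Bad : Pt → Prop) :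
    (((T0 P k b' Λ).filter (fun z => Bad z.1)).card : ℝ) ≤ ((P.filter Bad).card : ℝ) * Λ ^ 2 := by
  rw [Finset.card_eq_sum_card_fiberwise (f := fun z : Walk => z.1) (t := P.filter Bad)
    (fun z hz => by
      have hz := Finset.mem_filter.1 (Finset.mem_coe.1 hz)
      exact Finset.mem_coe.2 (Finset.mem_filter.2 ⟨(mem_T0' hz.1).1, hz.2⟩))]
  push_cast
  calc ∑ v ∈ P.filter Bad, ((((T0 P k b' Λ).filter (fun z => Bad z.1)).filter
        (fun z => z.1 = v)).card : ℝ)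
      ≤ ∑ _v ∈ P.filter Bad, Λ ^ 2 := by
        refine Finset.sum_le_sum fun v _ => card_fixed_start hΛ
          ((Finset.filter_subset _ _).trans (Finset.filter_subset _ _))
          (fun z hz => (Finset.mem_filter.1 hz).2)
    _ = _ := by rw [Finset.sum_const, nsmul_eq_mul]

variable {V : ℕ → ℕ} {L : ℕ} {Cw : ℝ}

/-- the window of a slope exists -/
theorem win_exists (S : WSys P k V L Cw) {l : ℕ} (hl : l ≤ L) {e : Edge} (he : e ∈ pairs P) :
    ∃ J ∈ wins (S.cuts l), J.1 < esl e ∧ esl e < J.2 := by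
  refine exists_win (S.sub 0 l (Nat.zero_le _) hl S.lo_mem) (S.sub 0 l (Nat.zero_le _) hl S.hi_mem)
    (S.lo_lt_slope e he) (S.slope_lt_hi e he) ?_
  intro h
  exact S.nons l hl _ h e he rfl

theorem win_spec (S : WSys P k V L Cw) {l : ℕ} (hl : l ≤ L) {e : Edge} (he : e ∈ pairs P) :
    winOf (S.cuts l) (esl e) ∈ wins (S.cuts l) ∧ (winOf (S.cuts l) (esl e)).1 < esl e ∧
      esl e < (winOf (S.cuts l) (esl e)).2 :=
  winOf_spec (win_exists S hl he)

theorem lastE_mem {b' : ℕ} {Λ : ℝ} {z : Walk} (hz : z ∈ T0 P k b' Λ) : lastE z ∈ pairs P := by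
  have h := mem_T0' hz
  exact mem_pairs.2 ⟨h.2.1, h.2.2.1, h.2.2.2.2.1⟩

/-- walks for which the pair (start point, window of the last edge) is bad -/
theorem card_bad_pair (S : WSys P k V L Cw) {l : ℕ} (hl : l ≤ L) {b' : ℕ} {Λ Λl : ℝ}
    (hΛ : 0 ≤ Λ) (hΛl : 0 ≤ Λl) {H : Finset Walk} (hH : H ⊆ T0 P k b' Λ)
    (h3 : ∀ z ∈ H, ((nbW P k b' (winOf (S.cuts l) (esl (lastE z))).1
      (winOf (S.cuts l) (esl (lastE z))).2 z.2.1).card : ℝ) ≤ Λl)
    (Bad : Pt → ℝ × ℝ → Prop) :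
    ((H.filter (fun z => Bad z.1 (winOf (S.cuts l) (esl (lastE z))))).card : ℝ) ≤
      Λ * Λl * (((P ×ˢ wins (S.cuts l)).filter (fun q => Bad q.1 q.2)).card : ℝ) := by
  set F := H.filter (fun z => Bad z.1 (winOf (S.cuts l) (esl (lastE z)))) with hF
  have hmap : ∀ z ∈ F, (z.1, winOf (S.cuts l) (esl (lastE z))) ∈
      (P ×ˢ wins (S.cuts l)).filter (fun q => Bad q.1 q.2) := by
    intro z hz
    obtain ⟨h1, h2⟩ := Finset.mem_filter.1 hz
    refine Finset.mem_filter.2 ⟨Finset.mem_product.2 ⟨(mem_T0' (hH h1)).1, ?_⟩, h2⟩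
    exact (win_spec S hl (lastE_mem (hH h1))).1
  rw [Finset.card_eq_sum_card_fiberwise
    (f := fun z : Walk => (z.1, winOf (S.cuts l) (esl (lastE z))))
    (t := (P ×ˢ wins (S.cuts l)).filter (fun q => Bad q.1 q.2))
    (fun z hz => Finset.mem_coe.2 (hmap z (Finset.mem_coe.1 hz)))]
  push_cast
  calc ∑ q ∈ (P ×ˢ wins (S.cuts l)).filter (fun q => Bad q.1 q.2),
        ((F.filter (fun z => (z.1, winOf (S.cuts l) (esl (lastE z))) = q)).card : ℝ)
      ≤ ∑ _q ∈ (P ×ˢ wins (S.cuts l)).filter (fun q => Bad q.1 q.2), Λ * Λl := by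
        refine Finset.sum_le_sum fun q _ => ?_
        refine card_fixed_start_win hΛ hΛl (v := q.1) (s := q.2.1) (t := q.2.2)
          ((Finset.filter_subset _ _).trans ((Finset.filter_subset _ _).trans hH)) ?_ ?_ ?_
        · intro z hz
          have h1 := (Finset.mem_filter.1 hz).2
          exact congrArg Prod.fst h1
        · intro z hz
          have h1 := (Finset.mem_filter.1 hz).2
          have h2 : winOf (S.cuts l) (esl (lastE z)) = q.2 := congrArg Prod.snd h1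
          have h4 := (Finset.mem_filter.1 (Finset.mem_filter.1 hz).1).1
          have h5 := (win_spec S hl (lastE_mem (hH h4))).2
          rw [h2] at h5
          exact h5
        · intro z hz
          have h1 := (Finset.mem_filter.1 hz).2
          have h2 : winOf (S.cuts l) (esl (lastE z)) = q.2 := congrArg Prod.snd h1
          have h4 := (Finset.mem_filter.1 (Finset.mem_filter.1 hz).1).1
          have h5 := h3 z h4
          rw [h2] at h5
          exact h5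
    _ = _ := by rw [Finset.sum_const, nsmul_eq_mul]; ring

/-! ### (t6) -/

/-- number of windows is at most the number of cuts -/
theorem card_wins_le (C : Finset ℝ) : (wins C).card ≤ C.card := by
  refine Finset.card_le_card_of_injOn (fun J => J.1) ?_ ?_
  · intro J hJ
    exact Finset.mem_coe.2 (mem_wins.1 (Finset.mem_coe.1 hJ)).1
  · intro J hJ J' hJ' he
    have hJ := Finset.mem_coe.1 hJ
    have hJ' := Finset.mem_coe.1 hJ'
    have a := mem_wins.1 hJ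
    have a' := mem_wins.1 hJ'
    obtain ⟨θ, h1, h2⟩ := exists_between (lt_min a.2.2.1 (by
      show J.1 < J'.2
      have : J.1 = J'.1 := he
      rw [this]; exact a'.2.2.1))
    exact win_unique hJ hJ' h1 (h2.trans_le (min_le_left _ _))
      (by have : J.1 = J'.1 := he
          rw [← this]; exact h1) (h2.trans_le (min_le_right _ _))

/-- double counting bound of points lying in many of the sets `A J` -/
theorem card_many {ι : Type*} [DecidableEq ι] (Q : Finset Pt) (W : Finset ι) (A : ι → Finset Pt)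
    {x m t : ℝ} (hW : (W.card : ℝ) ≤ x) (hA : ∀ J ∈ W, ((A J).card : ℝ) ≤ m) (hm : 0 ≤ m) :
    ((Q.filter (fun p => t < ((W.filter (fun J => p ∈ A J)).card : ℝ))).card : ℝ) * t ≤ x * m := by
  set B := Q.filter (fun p => t < ((W.filter (fun J => p ∈ A J)).card : ℝ)) with hB
  calc (B.card : ℝ) * t = ∑ _p ∈ B, t := by rw [Finset.sum_const, nsmul_eq_mul]
    _ ≤ ∑ p ∈ B, ((W.filter (fun J => p ∈ A J)).card : ℝ) :=
        Finset.sum_le_sum fun p hp => (Finset.mem_filter.1 hp).2.le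
    _ = ∑ p ∈ B, ∑ J ∈ W, (if p ∈ A J then (1 : ℝ) else 0) := by
        refine Finset.sum_congr rfl fun p _ => ?_
        rw [Finset.card_filter]; push_cast; rfl
    _ = ∑ J ∈ W, ∑ p ∈ B, (if p ∈ A J then (1 : ℝ) else 0) := Finset.sum_comm
    _ ≤ ∑ _J ∈ W, m := by
        refine Finset.sum_le_sum fun J hJ => le_trans ?_ (hA J hJ)
        rw [← Finset.sum_filter, Finset.sum_const, nsmul_eq_mul, mul_one]
        exact_mod_cast Finset.card_le_card (fun p hp => (Finset.mem_filter.1 hp).2)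
    _ = (W.card : ℝ) * m := by rw [Finset.sum_const, nsmul_eq_mul]
    _ ≤ x * m := mul_le_mul_of_nonneg_right hW hm

theorem bb_le (N V : ℕ) : (bb N V : ℝ) ≤ (N : ℝ) / (V : ℝ) ^ 3 := by
  unfold bb
  have := @Nat.cast_div_le ℝ _ _ _ N (V ^ 3)
  simpa using this

/-- **(t6)**: W4(ii) times `Λ²` -/
theorem t6 (S : WSys P k V L Cw) {l : ℕ} (hl : l ≤ L) (hV : 1 ≤ V l) {b' : ℕ} {Λ lam3 : ℝ}
    (hΛ : 0 ≤ Λ) (hlam : 0 < lam3) :
    (((T0 P k b' Λ).filter (fun z => lam3 * (V l : ℝ) <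
      (((wins (S.cuts l)).filter
        (fun J => z.1 ∈ cen P k (bb P.card (V l)) J.1 J.2)).card : ℝ))).card : ℝ) ≤
      7 * Cw / lam3 * P.card * Λ ^ 2 := by
  have h1 := card_bad_start (P := P) (k := k) (b' := b') hΛ (fun v => lam3 * (V l : ℝ) <
      (((wins (S.cuts l)).filter
        (fun J => v ∈ cen P k (bb P.card (V l)) J.1 J.2)).card : ℝ))
  refine h1.trans ?_
  have hVp : (0 : ℝ) < V l := by exact_mod_cast hV
  have hwc : ((wins (S.cuts l)).card : ℝ) ≤ Cw * (V l : ℝ) ^ 4 :=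
    le_trans (by exact_mod_cast card_wins_le _) (S.count_all l hl)
  have hm : (0 : ℝ) ≤ 7 * ((P.card : ℝ) / (V l : ℝ) ^ 3) := by positivity
  have h2 := card_many P (wins (S.cuts l)) (fun J => cen P k (bb P.card (V l)) J.1 J.2)
    (x := Cw * (V l : ℝ) ^ 4) (m := 7 * ((P.card : ℝ) / (V l : ℝ) ^ 3))
    (t := lam3 * (V l : ℝ)) hwc (by
      intro J hJ
      have h3 := S.cen_le l hl J hJ
      have h4 : ((cen P k (bb P.card (V l)) J.1 J.2).card : ℝ) ≤ 7 * (bb P.card (V l) : ℝ) := by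
        exact_mod_cast h3
      exact h4.trans (mul_le_mul_of_nonneg_left (bb_le _ _) (by norm_num))) hm
  have h5 : Cw * (V l : ℝ) ^ 4 * (7 * ((P.card : ℝ) / (V l : ℝ) ^ 3)) =
      7 * Cw / lam3 * P.card * (lam3 * (V l : ℝ)) := by
    field_simp
  rw [h5] at h2
  have h6 := le_of_mul_le_mul_right h2 (by positivity)
  exact mul_le_mul_of_nonneg_right h6 (by positivity)

/-! ### (t7) -/

/-- **(t7)**: W4(iv) -/
theorem t7 (S : WSys P k V L Cw) {l l' : ℕ} (hll : l ≤ l') (hl' : l' ≤ L) (hV : 1 ≤ V l)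
    (hV' : 1 ≤ V l') {b' : ℕ} {Λ Λl lam3 : ℝ} (hΛ : 0 ≤ Λ) (hΛl : 0 ≤ Λl) (hlam : 0 < lam3)
    {H : Finset Walk} (hH : H ⊆ T0 P k b' Λ)
    (h3 : ∀ z ∈ H, ((nbW P k b' (winOf (S.cuts l) (esl (lastE z))).1
      (winOf (S.cuts l) (esl (lastE z))).2 z.2.1).card : ℝ) ≤ Λl) :
    ((H.filter (fun z => lam3 * ((V l' : ℝ) / V l) <
      (((wins (S.cuts l')).filter (fun J' =>
        (winOf (S.cuts l) (esl (lastE z))).1 ≤ J'.1 ∧ J'.2 ≤ (winOf (S.cuts l) (esl (lastE z))).2 ∧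
        z.1 ∈ cen P k (bb P.card (V l')) J'.1 J'.2)).card : ℝ))).card : ℝ) ≤
      7 * Cw ^ 2 / lam3 * P.card * Λ * (Λl * V l) := by
  have h1 := card_bad_pair S (hll.trans hl') hΛ hΛl hH h3 (fun v J => lam3 * ((V l' : ℝ) / V l) <
      (((wins (S.cuts l')).filter (fun J' => J.1 ≤ J'.1 ∧ J'.2 ≤ J.2 ∧
        v ∈ cen P k (bb P.card (V l')) J'.1 J'.2)).card : ℝ))
  refine h1.trans ?_
  have hVp : (0 : ℝ) < V l := by exact_mod_cast hV
  have hVp' : (0 : ℝ) < V l' := by exact_mod_cast hV'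
  have hwc : ((wins (S.cuts l)).card : ℝ) ≤ Cw * (V l : ℝ) ^ 4 :=
    le_trans (by exact_mod_cast card_wins_le _) (S.count_all l (hll.trans hl'))
  -- for each level-`l` window, the number of bad points
  have key : ∀ J ∈ wins (S.cuts l), ((P.filter (fun v => lam3 * ((V l' : ℝ) / V l) <
      (((wins (S.cuts l')).filter (fun J' => J.1 ≤ J'.1 ∧ J'.2 ≤ J.2 ∧
        v ∈ cen P k (bb P.card (V l')) J'.1 J'.2)).card : ℝ))).card : ℝ) ≤
      7 * Cw / lam3 * (P.card / (V l : ℝ) ^ 3) := by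
    intro J hJ
    have hm : (0 : ℝ) ≤ 7 * ((P.card : ℝ) / (V l' : ℝ) ^ 3) := by positivity
    have h2 := card_many P ((wins (S.cuts l')).filter (fun J' => J.1 ≤ J'.1 ∧ J'.2 ≤ J.2))
      (fun J' => cen P k (bb P.card (V l')) J'.1 J'.2)
      (x := Cw * ((V l' : ℝ) / V l) ^ 4) (m := 7 * ((P.card : ℝ) / (V l' : ℝ) ^ 3))
      (t := lam3 * ((V l' : ℝ) / V l)) (S.count_in l l' hll hl' J hJ) (by
        intro J' hJ'
        have h3 := S.cen_le l' hl' J' (Finset.mem_filter.1 hJ').1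
        have h4 : ((cen P k (bb P.card (V l')) J'.1 J'.2).card : ℝ) ≤
            7 * (bb P.card (V l') : ℝ) := by exact_mod_cast h3
        exact h4.trans (mul_le_mul_of_nonneg_left (bb_le _ _) (by norm_num))) hm
    have e1 : ∀ v : Pt, ((wins (S.cuts l')).filter (fun J' => J.1 ≤ J'.1 ∧ J'.2 ≤ J.2)).filter
        (fun J' => v ∈ cen P k (bb P.card (V l')) J'.1 J'.2) =
        (wins (S.cuts l')).filter (fun J' => J.1 ≤ J'.1 ∧ J'.2 ≤ J.2 ∧
        v ∈ cen P k (bb P.card (V l')) J'.1 J'.2) := by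
      intro v
      rw [Finset.filter_filter]
      refine Finset.filter_congr fun J' _ => ?_
      rw [and_assoc]
    simp only [e1] at h2
    have h5 : Cw * ((V l' : ℝ) / V l) ^ 4 * (7 * ((P.card : ℝ) / (V l' : ℝ) ^ 3)) =
        7 * Cw / lam3 * (P.card / (V l : ℝ) ^ 3) * (lam3 * ((V l' : ℝ) / V l)) := by
      field_simp
    rw [h5] at h2
    exact le_of_mul_le_mul_right h2 (by positivity)
  have h6 : (((P ×ˢ wins (S.cuts l)).filter (fun q => lam3 * ((V l' : ℝ) / V l) <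
      (((wins (S.cuts l')).filter (fun J' => q.2.1 ≤ J'.1 ∧ J'.2 ≤ q.2.2 ∧
        q.1 ∈ cen P k (bb P.card (V l')) J'.1 J'.2)).card : ℝ))).card : ℝ) ≤
      7 * Cw / lam3 * (P.card / (V l : ℝ) ^ 3) * (wins (S.cuts l)).card := by
    rw [Finset.card_eq_sum_card_fiberwise (f := fun q : Pt × (ℝ × ℝ) => q.2)
      (t := wins (S.cuts l)) (fun q hq => by
        have hq := (Finset.mem_filter.1 (Finset.mem_coe.1 hq)).1
        exact Finset.mem_coe.2 (Finset.mem_product.1 hq).2)]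
    push_cast
    rw [mul_comm _ ((wins (S.cuts l)).card : ℝ), ← nsmul_eq_mul, ← Finset.sum_const]
    refine Finset.sum_le_sum fun J hJ => le_trans ?_ (key J hJ)
    have : ((((P ×ˢ wins (S.cuts l)).filter (fun q => lam3 * ((V l' : ℝ) / V l) <
      (((wins (S.cuts l')).filter (fun J' => q.2.1 ≤ J'.1 ∧ J'.2 ≤ q.2.2 ∧
        q.1 ∈ cen P k (bb P.card (V l')) J'.1 J'.2)).card : ℝ))).filter
        (fun q => q.2 = J)).card) ≤ (P.filter (fun v => lam3 * ((V l' : ℝ) / V l) <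
      (((wins (S.cuts l')).filter (fun J' => J.1 ≤ J'.1 ∧ J'.2 ≤ J.2 ∧
        v ∈ cen P k (bb P.card (V l')) J'.1 J'.2)).card : ℝ))).card := by
      refine Finset.card_le_card_of_injOn (fun q => q.1) ?_ ?_
      · intro q hq
        have hq := Finset.mem_coe.1 hq
        obtain ⟨a1, a2⟩ := Finset.mem_filter.1 hq
        obtain ⟨a3, a4⟩ := Finset.mem_filter.1 a1
        rw [a2] at a4
        exact Finset.mem_coe.2 (Finset.mem_filter.2 ⟨(Finset.mem_product.1 a3).1, a4⟩)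
      · intro q hq q' hq' he
        have a := (Finset.mem_filter.1 (Finset.mem_coe.1 hq)).2
        have a' := (Finset.mem_filter.1 (Finset.mem_coe.1 hq')).2
        exact Prod.ext he (a.trans a'.symm)
    exact_mod_cast this
  have hCw : 0 ≤ Cw := by
    have h7 : (0 : ℝ) ≤ Cw * (V l : ℝ) ^ 4 := le_trans (by positivity) hwc
    by_contra hneg
    rw [not_le] at hneg
    have : Cw * (V l : ℝ) ^ 4 < 0 := mul_neg_of_neg_of_pos hneg (by positivity)
    linarith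
  calc Λ * Λl * _ ≤ Λ * Λl * (7 * Cw / lam3 * (P.card / (V l : ℝ) ^ 3) *
        (wins (S.cuts l)).card) := mul_le_mul_of_nonneg_left h6 (by positivity)
    _ ≤ Λ * Λl * (7 * Cw / lam3 * (P.card / (V l : ℝ) ^ 3) * (Cw * (V l : ℝ) ^ 4)) := by
        refine mul_le_mul_of_nonneg_left (mul_le_mul_of_nonneg_left hwc (by positivity))
          (by positivity)
    _ = 7 * Cw ^ 2 / lam3 * P.card * Λ * (Λl * V l) := by
        field_simp

/-! ### (t5) -/

/-- disjoint windows: the sum of the window degrees is at most the degree -/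
theorem sum_nbW_le (C : Finset ℝ) (b : ℕ) (v : Pt) :
    ∑ J ∈ wins C, (nbW P k b J.1 J.2 v).card ≤ (nb P k b v).card := by
  rw [← Finset.card_biUnion]
  · apply Finset.card_le_card
    intro w hw
    obtain ⟨J, _, h⟩ := Finset.mem_biUnion.1 hw
    exact nbW_subset h
  · intro J hJ J' hJ' hne
    rw [Function.onFun, Finset.disjoint_left]
    intro w hw hw'
    rw [mem_nbW_iff] at hw hw'
    exact hne (win_unique hJ hJ' hw.2.1 hw.2.2 hw'.2.1 hw'.2.2)

/-- **(t5)**, general form -/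
theorem t5 (hG : Generic P) (S : WSys P k V L Cw) {l : ℕ} (hl : l ≤ L) {b' a B : ℕ}
    (haB : 2 * a ≤ B) {Λ Λl : ℝ} (hΛ : 0 ≤ Λ) (hΛl : 0 ≤ Λl)
    {H : Finset Walk} (hH : H ⊆ T0 P k b' Λ)
    (h3 : ∀ z ∈ H, ((nbW P k b' (winOf (S.cuts l) (esl (lastE z))).1
      (winOf (S.cuts l) (esl (lastE z))).2 z.2.1).card : ℝ) ≤ Λl)
    (hc : ∀ z ∈ H, Central P k a (esl (lastE z)) z.1) :
    ((H.filter (fun z => ¬ ∀ θ, (winOf (S.cuts l) (esl (lastE z))).1 < θ →
      θ < (winOf (S.cuts l) (esl (lastE z))).2 → Central P k B θ z.1)).card : ℝ) * B ≤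
      4 * (nearAll P k B).card * (Λ * Λl) := by
  -- restrict to walks that are bad, so that we may keep the centrality information
  set Bad : Pt → ℝ × ℝ → Prop := fun v J => (B : ℝ) / 2 ≤ ((nbW P k B J.1 J.2 v).card : ℝ)
    with hBad
  have hsub : H.filter (fun z => ¬ ∀ θ, (winOf (S.cuts l) (esl (lastE z))).1 < θ →
      θ < (winOf (S.cuts l) (esl (lastE z))).2 → Central P k B θ z.1) ⊆
      H.filter (fun z => Bad z.1 (winOf (S.cuts l) (esl (lastE z)))) := by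
    intro z hz
    obtain ⟨h1, h2⟩ := Finset.mem_filter.1 hz
    refine Finset.mem_filter.2 ⟨h1, ?_⟩
    push Not at h2
    obtain ⟨θ, h4, h5, h6⟩ := h2
    have hsp := win_spec S hl (lastE_mem (hH h1))
    set J := winOf (S.cuts l) (esl (lastE z)) with hJ
    have hJ1 : NonSlope P J.1 := S.nons l hl _ (mem_wins.1 hsp.1).1
    have hJ2 : NonSlope P J.2 := S.nons l hl _ (mem_wins.1 hsp.1).2.1
    have h7 := Active.fast_partners hG (mem_T0' (hH h1)).1 hJ1 hJ2 (k := k) (a := a) (B := B)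
      hsp.2.1.le hsp.2.2.le h4.le h5.le (hc z h1) (by
        unfold Central at h6
        rw [not_and_or, not_le, not_le] at h6
        rcases h6 with h6 | h6
        · left; exact h6.le
        · right; exact h6.le)
    rw [← card_nbW] at h7
    show (B : ℝ) / 2 ≤ ((nbW P k B J.1 J.2 z.1).card : ℝ)
    have h8 : (B : ℝ) ≤ ((nbW P k B J.1 J.2 z.1).card : ℝ) + a := by exact_mod_cast h7
    have h9 : 2 * (a : ℝ) ≤ B := by exact_mod_cast haB
    linarith
  have h1 := card_bad_pair S hl hΛ hΛl hH h3 Bad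
  -- number of bad pairs (v, J)
  have h2 : (((P ×ˢ wins (S.cuts l)).filter (fun q => Bad q.1 q.2)).card : ℝ) * (B / 2) ≤
      2 * (nearAll P k B).card := by
    calc (((P ×ˢ wins (S.cuts l)).filter (fun q => Bad q.1 q.2)).card : ℝ) * (B / 2)
        = ∑ _q ∈ (P ×ˢ wins (S.cuts l)).filter (fun q => Bad q.1 q.2), ((B : ℝ) / 2) := by
          rw [Finset.sum_const, nsmul_eq_mul]
      _ ≤ ∑ q ∈ (P ×ˢ wins (S.cuts l)).filter (fun q => Bad q.1 q.2),
          ((nbW P k B q.2.1 q.2.2 q.1).card : ℝ) :=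
          Finset.sum_le_sum fun q hq => (Finset.mem_filter.1 hq).2
      _ ≤ ∑ q ∈ P ×ˢ wins (S.cuts l), ((nbW P k B q.2.1 q.2.2 q.1).card : ℝ) :=
          Finset.sum_le_sum_of_subset_of_nonneg (Finset.filter_subset _ _)
            fun _ _ _ => Nat.cast_nonneg _
      _ = ∑ v ∈ P, ∑ J ∈ wins (S.cuts l), ((nbW P k B J.1 J.2 v).card : ℝ) :=
          Finset.sum_product _ _ _
      _ ≤ ∑ v ∈ P, ((nb P k B v).card : ℝ) := by
          refine Finset.sum_le_sum fun v _ => ?_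
          exact_mod_cast sum_nbW_le (S.cuts l) B v
      _ = 2 * (nearAll P k B).card := by
          exact_mod_cast sum_card_nb
  calc ((H.filter (fun z => ¬ ∀ θ, (winOf (S.cuts l) (esl (lastE z))).1 < θ →
      θ < (winOf (S.cuts l) (esl (lastE z))).2 → Central P k B θ z.1)).card : ℝ) * B
      ≤ ((H.filter (fun z => Bad z.1 (winOf (S.cuts l) (esl (lastE z))))).card : ℝ) * B := by
        refine mul_le_mul_of_nonneg_right ?_ (Nat.cast_nonneg _)
        exact_mod_cast Finset.card_le_card hsub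
    _ ≤ Λ * Λl * (((P ×ˢ wins (S.cuts l)).filter (fun q => Bad q.1 q.2)).card : ℝ) * B :=
        mul_le_mul_of_nonneg_right h1 (Nat.cast_nonneg _)
    _ = 2 * (Λ * Λl) *
          ((((P ×ˢ wins (S.cuts l)).filter (fun q => Bad q.1 q.2)).card : ℝ) * (B / 2)) := by ring
    _ ≤ 2 * (Λ * Λl) * (2 * (nearAll P k B).card) :=
        mul_le_mul_of_nonneg_left h2 (by positivity)
    _ = 4 * (nearAll P k B).card * (Λ * Λl) := by ring

/-- **(t5)** with W0: `Lc` plays the role of `L`, `B ≥ Lc * N / V_l³` -/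
theorem t5_dey (hG : Generic P) (S : WSys P k V L Cw) {l : ℕ} (hl : l ≤ L) (hV : 1 ≤ V l)
    {b' a B : ℕ} (haB : 2 * a ≤ B) {Λ Λl C0 Lc : ℝ} (hΛ : 0 ≤ Λ) (hΛl : 0 ≤ Λl)
    (hLc : 0 < Lc) (hB : Lc * ((P.card : ℝ) / (V l : ℝ) ^ 3) ≤ B)
    (hDey : ((nearAll P k B).card : ℝ) ≤
      C0 * ((P.card : ℝ) ^ ((4 : ℝ) / 3) * (B : ℝ) ^ ((2 : ℝ) / 3)))
    {H : Finset Walk} (hH : H ⊆ T0 P k b' Λ)
    (h3 : ∀ z ∈ H, ((nbW P k b' (winOf (S.cuts l) (esl (lastE z))).1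
      (winOf (S.cuts l) (esl (lastE z))).2 z.2.1).card : ℝ) ≤ Λl)
    (hc : ∀ z ∈ H, Central P k a (esl (lastE z)) z.1) :
    ((H.filter (fun z => ¬ ∀ θ, (winOf (S.cuts l) (esl (lastE z))).1 < θ →
      θ < (winOf (S.cuts l) (esl (lastE z))).2 → Central P k B θ z.1)).card : ℝ) ≤
      4 * C0 / Lc ^ ((1 : ℝ) / 3) * P.card * Λ * (Λl * V l) := by
  rcases P.eq_empty_or_nonempty with hP | hP
  · have : H = ∅ := by
      rw [Finset.eq_empty_iff_forall_notMem]
      intro z hz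
      have := (mem_T0' (hH hz)).1
      rw [hP] at this
      exact absurd this (Finset.notMem_empty _)
    subst this
    simp [hP]
  have hN : (0 : ℝ) < P.card := by exact_mod_cast hP.card_pos
  have hVp : (0 : ℝ) < V l := by exact_mod_cast hV
  have hBp : (0 : ℝ) < B := lt_of_lt_of_le (by positivity) hB
  have hq1 : (0 : ℝ) ≤ (P.card : ℝ) / (V l : ℝ) ^ 3 := by positivity
  have hq2 : (0 : ℝ) ≤ (V l : ℝ) ^ 3 := by positivity
  have hq3 : 0 ≤ Λ * Λl := by positivity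
  have hX0 : (0 : ℝ) ≤ ((H.filter (fun z => ¬ ∀ θ, (winOf (S.cuts l) (esl (lastE z))).1 < θ →
      θ < (winOf (S.cuts l) (esl (lastE z))).2 → Central P k B θ z.1)).card : ℝ) :=
    Nat.cast_nonneg _
  have h1 := t5 hG S hl haB hΛ hΛl hH h3 hc
  set X := ((H.filter (fun z => ¬ ∀ θ, (winOf (S.cuts l) (esl (lastE z))).1 < θ →
      θ < (winOf (S.cuts l) (esl (lastE z))).2 → Central P k B θ z.1)).card : ℝ) with hX
  have h2 : X * B ≤ 4 * (C0 * ((P.card : ℝ) ^ ((4 : ℝ) / 3) * (B : ℝ) ^ ((2 : ℝ) / 3))) *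
      (Λ * Λl) := by
    refine h1.trans ?_
    exact mul_le_mul_of_nonneg_right (mul_le_mul_of_nonneg_left hDey (by norm_num)) hq3
  -- divide by B^(2/3)
  have hsplit : (B : ℝ) = (B : ℝ) ^ ((1 : ℝ) / 3) * (B : ℝ) ^ ((2 : ℝ) / 3) := by
    rw [← Real.rpow_add hBp]; norm_num
  have h4 : X * (B : ℝ) ^ ((1 : ℝ) / 3) ≤ 4 * C0 * (P.card : ℝ) ^ ((4 : ℝ) / 3) * (Λ * Λl) := by
    have hpos : 0 < (B : ℝ) ^ ((2 : ℝ) / 3) := Real.rpow_pos_of_pos hBp _
    refine le_of_mul_le_mul_right ?_ hpos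
    calc X * (B : ℝ) ^ ((1 : ℝ) / 3) * (B : ℝ) ^ ((2 : ℝ) / 3)
        = X * ((B : ℝ) ^ ((1 : ℝ) / 3) * (B : ℝ) ^ ((2 : ℝ) / 3)) := by ring
      _ = X * B := by rw [← hsplit]
      _ ≤ _ := h2
      _ = _ := by ring
  -- lower bound of B^(1/3)
  have h5 : Lc ^ ((1 : ℝ) / 3) * ((P.card : ℝ) ^ ((1 : ℝ) / 3) / V l) ≤ (B : ℝ) ^ ((1 : ℝ) / 3) := by
    have h6 : (Lc * ((P.card : ℝ) / (V l : ℝ) ^ 3)) ^ ((1 : ℝ) / 3) ≤ (B : ℝ) ^ ((1 : ℝ) / 3) :=
      Real.rpow_le_rpow (mul_nonneg hLc.le hq1) hB (by norm_num)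
    rw [Real.mul_rpow hLc.le hq1, Real.div_rpow hN.le hq2] at h6
    have h7 : ((V l : ℝ) ^ 3) ^ ((1 : ℝ) / 3) = V l := by
      rw [← Real.rpow_natCast, ← Real.rpow_mul hVp.le]
      norm_num
    rw [h7] at h6
    exact h6
  have h8 : X * (Lc ^ ((1 : ℝ) / 3) * ((P.card : ℝ) ^ ((1 : ℝ) / 3) / V l)) ≤
      4 * C0 * (P.card : ℝ) ^ ((4 : ℝ) / 3) * (Λ * Λl) :=
    (mul_le_mul_of_nonneg_left h5 hX0).trans h4
  have hL : 0 < Lc ^ ((1 : ℝ) / 3) := Real.rpow_pos_of_pos hLc _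
  have hN3 : 0 < (P.card : ℝ) ^ ((1 : ℝ) / 3) := Real.rpow_pos_of_pos hN _
  have hN43 : (P.card : ℝ) ^ ((4 : ℝ) / 3) = P.card * (P.card : ℝ) ^ ((1 : ℝ) / 3) := by
    have : (4 : ℝ) / 3 = 1 + 1 / 3 := by norm_num
    rw [this, Real.rpow_add hN, Real.rpow_one]
  rw [hN43] at h8
  have h9 : X * (Lc ^ ((1 : ℝ) / 3) * ((P.card : ℝ) ^ ((1 : ℝ) / 3) / V l)) =
      X * (Lc ^ ((1 : ℝ) / 3) / V l) * (P.card : ℝ) ^ ((1 : ℝ) / 3) := by ring
  rw [h9] at h8
  have h10 : X * (Lc ^ ((1 : ℝ) / 3) / V l) ≤ 4 * C0 * P.card * (Λ * Λl) := by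
    refine le_of_mul_le_mul_right (h8.trans (le_of_eq ?_)) hN3
    ring
  have h11 : X * (Lc ^ ((1 : ℝ) / 3) / V l) = X * Lc ^ ((1 : ℝ) / 3) / V l := by ring
  rw [h11, div_le_iff₀ hVp] at h10
  have h12 : 4 * C0 / Lc ^ ((1 : ℝ) / 3) * P.card * Λ * (Λl * V l) =
      4 * C0 * P.card * (Λ * Λl) * V l / Lc ^ ((1 : ℝ) / 3) := by ring
  rw [h12, le_div_iff₀ hL]
  exact h10

/-! ### the same in the notation of `HSys.lean` -/

/-- **(t6)** -/
theorem t6_W (W : WSys P k V L Cw) {l : ℕ} (hl : l ≤ L) (hV : 1 ≤ V l) {b' : ℕ} {Λ lam3 : ℝ}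
    (hΛ : 0 ≤ Λ) (hlam : 0 < lam3) :
    (((T0 P k b' Λ).filter (fun z => W.T6 lam3 l z.1)).card : ℝ) ≤
      7 * Cw / lam3 * P.card * Λ ^ 2 :=
  t6 W hl hV hΛ hlam

/-- **(t7)** -/
theorem t7_W (W : WSys P k V L Cw) {l l' : ℕ} (hll : l ≤ l') (hl' : l' ≤ L) (hV : 1 ≤ V l)
    (hV' : 1 ≤ V l') {b' : ℕ} {Λ Λl lam3 : ℝ} (hΛ : 0 ≤ Λ) (hΛl : 0 ≤ Λl) (hlam : 0 < lam3)
    {H : Finset Walk} (hH : H ⊆ T0 P k b' Λ)
    (h3 : ∀ z ∈ H, ((nbW P k b' (W.J l (esl (lastE z))).1 (W.J l (esl (lastE z))).2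
      z.2.1).card : ℝ) ≤ Λl) :
    ((H.filter (fun z => W.T7 lam3 l' l z.1 (esl (lastE z)))).card : ℝ) ≤
      7 * Cw ^ 2 / lam3 * P.card * Λ * (Λl * V l) := by
  have h := t7 W hll hl' hV hV' hΛ hΛl hlam hH h3
  refine le_trans (le_of_eq ?_) h
  congr 2
  refine Finset.filter_congr fun z _ => ?_
  unfold WSys.T7 WSys.actIn WSys.act WSys.A WSys.J
  rw [Finset.filter_filter]
  have : (wins (W.cuts l')).filter (fun J => z.1 ∈ cen P k (bb P.card (V l')) J.1 J.2 ∧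
      ((winOf (W.cuts l) (esl (lastE z))).1 ≤ J.1 ∧ J.2 ≤ (winOf (W.cuts l) (esl (lastE z))).2)) =
      (wins (W.cuts l')).filter (fun J' =>
        (winOf (W.cuts l) (esl (lastE z))).1 ≤ J'.1 ∧ J'.2 ≤ (winOf (W.cuts l) (esl (lastE z))).2 ∧
        z.1 ∈ cen P k (bb P.card (V l')) J'.1 J'.2) := by
    refine Finset.filter_congr fun J _ => ?_
    tauto
  rw [this]

/-- **(t5)** -/
theorem t5_W (hG : Generic P) (W : WSys P k V L Cw) {l : ℕ} (hl : l ≤ L) (hV : 1 ≤ V l)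
    {b' a B : ℕ} (haB : 2 * a ≤ B) {Λ Λl C0 Lc : ℝ} (hΛ : 0 ≤ Λ) (hΛl : 0 ≤ Λl)
    (hLc : 0 < Lc) (hB : Lc * ((P.card : ℝ) / (V l : ℝ) ^ 3) ≤ B)
    (hDey : ((nearAll P k B).card : ℝ) ≤
      C0 * ((P.card : ℝ) ^ ((4 : ℝ) / 3) * (B : ℝ) ^ ((2 : ℝ) / 3)))
    {H : Finset Walk} (hH : H ⊆ T0 P k b' Λ)
    (h3 : ∀ z ∈ H, ((nbW P k b' (W.J l (esl (lastE z))).1 (W.J l (esl (lastE z))).2
      z.2.1).card : ℝ) ≤ Λl)
    (hc : ∀ z ∈ H, Central P k a (esl (lastE z)) z.1) :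
    ((H.filter (fun z => ¬ ∀ θ, (W.J l (esl (lastE z))).1 < θ →
      θ < (W.J l (esl (lastE z))).2 → Central P k B θ z.1)).card : ℝ) ≤
      4 * C0 / Lc ^ ((1 : ℝ) / 3) * P.card * Λ * (Λl * V l) :=
  t5_dey hG W hl hV haB hΛ hΛl hLc hB hDey hH h3 hc

/-- field `fib_le` of `HSystem` -/
theorem fib_card_le {b' : ℕ} {Λ : ℝ} (hΛ : 0 ≤ Λ) {H : Finset Walk} (hH : H ⊆ T0 P k b' Λ)
    (v : Pt) : ((fib H v).card : ℝ) ≤ Λ ^ 2 := by
  have h1 : ((fib H v).card : ℝ) ≤ ((H.filter (fun z => z.1 = v)).card : ℝ) := by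
    exact_mod_cast Finset.card_image_le
  exact h1.trans (card_fixed_start hΛ ((Finset.filter_subset _ _).trans hH)
    fun z hz => (Finset.mem_filter.1 hz).2)

/-- field `t3` of `HSystem` -/
theorem fib_win_le (W : WSys P k V L Cw) {l : ℕ} (hl : l ≤ L) {b' : ℕ} {Λ Λl : ℝ}
    (hΛ : 0 ≤ Λ) (hΛl : 0 ≤ Λl) {H : Finset Walk} (hH : H ⊆ T0 P k b' Λ)
    (h3 : ∀ z ∈ H, ((nbW P k b' (W.J l (esl (lastE z))).1 (W.J l (esl (lastE z))).2
      z.2.1).card : ℝ) ≤ Λl) (v : Pt) (J : ℝ × ℝ) :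
    (((fib H v).filter (fun e => W.J l (esl e) = J)).card : ℝ) ≤ Λ * Λl := by
  have hsub : (fib H v).filter (fun e => W.J l (esl e) = J) ⊆
      (H.filter (fun z => z.1 = v ∧ W.J l (esl (lastE z)) = J)).image lastE := by
    intro e he
    obtain ⟨h1, h2⟩ := Finset.mem_filter.1 he
    rw [mem_fib] at h1
    exact Finset.mem_image.2 ⟨(v, e.1, e.2), Finset.mem_filter.2 ⟨h1, rfl, h2⟩, rfl⟩
  have h1 : (((fib H v).filter (fun e => W.J l (esl e) = J)).card : ℝ) ≤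
      ((H.filter (fun z => z.1 = v ∧ W.J l (esl (lastE z)) = J)).card : ℝ) := by
    exact_mod_cast (Finset.card_le_card hsub).trans Finset.card_image_le
  refine h1.trans (card_fixed_start_win hΛ hΛl (v := v) (s := J.1) (t := J.2)
    ((Finset.filter_subset _ _).trans hH) (fun z hz => (Finset.mem_filter.1 hz).2.1) ?_ ?_)
  · intro z hz
    obtain ⟨h4, _, h5⟩ := Finset.mem_filter.1 hz
    have h6 := (win_spec W hl (lastE_mem (hH h4))).2
    have h7 : winOf (W.cuts l) (esl (lastE z)) = J := h5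
    rwa [h7] at h6
  · intro z hz
    obtain ⟨h4, _, h5⟩ := Finset.mem_filter.1 hz
    have h6 := h3 z h4
    rwa [h5] at h6

end Crest.Agent.R51.TrimWin
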