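import Crest.Agent.R51.Defs
import Crest.Agent.R51.Bern
import Crest.Agent.R051.C1

/-! Row 51, C4 (Lemma H), part A: curves of x-monotone 2-paths and the vertex sampling step. -/

set_option autoImplicit false
noncomputable section
open Classical

namespace Crest.Agent.R51.Two

/-- a 2-path `(x, v, y)` -/
abbrev Pth := Pt × Pt × Pt

/-- end pair -/
def ed (h : Pth) : Pt × Pt := (h.1, h.2.2)

/-- first and second edge -/
def e1 (h : Pth) : Edge := (h.1, h.2.1)
def e2 (h : Pth) : Edge := (h.2.1, h.2.2)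

/-- the curve of a 2-path -/
def pc (h : Pth) (t : ℝ) : ℝ := if t ≤ h.2.1.1 then lin (e1 h) t else lin (e2 h) t

/-- `h` is an x-monotone 2-path with vertices in `P` -/
structure IsP (P : Finset Pt) (h : Pth) : Prop where
  ha : h.1 ∈ P
  hv : h.2.1 ∈ P
  hb : h.2.2 ∈ P
  l1 : h.1.1 < h.2.1.1
  l2 : h.2.1.1 < h.2.2.1

theorem lin_cont (e : Edge) : Continuous (lin e) := by unfold lin; fun_prop

variable {P : Finset Pt}

theorem pc_cont {h : Pth} (hh : IsP P h) : Continuous (pc h) := by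
  unfold pc
  apply Continuous.if_le (lin_cont _) (lin_cont _) continuous_id continuous_const
  intro t ht
  simp only [id] at ht
  rw [ht]
  have a1 : lin (e1 h) h.2.1.1 = h.2.1.2 := lin_right (e := e1 h) hh.l1
  have a2 : lin (e2 h) h.2.1.1 = h.2.1.2 := lin_left (e2 h)
  rw [a1, a2]

theorem pc_left {h : Pth} (hh : IsP P h) : pc h h.1.1 = h.1.2 := by
  unfold pc
  rw [if_pos hh.l1.le]
  exact lin_left (e1 h)

theorem pc_right {h : Pth} (hh : IsP P h) : pc h h.2.2.1 = h.2.2.2 := by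
  unfold pc
  rw [if_neg (not_le.2 hh.l2)]
  exact lin_right (e := e2 h) hh.l2

theorem e1_mem {h : Pth} (hh : IsP P h) : e1 h ∈ pairs P := mem_pairs.2 ⟨hh.ha, hh.hv, hh.l1⟩
theorem e2_mem {h : Pth} (hh : IsP P h) : e2 h ∈ pairs P := mem_pairs.2 ⟨hh.hv, hh.hb, hh.l2⟩

/-- a vertex not on the edge is not on its line -/
theorem lin_ne (hP : Generic P) {e : Edge} (he : e ∈ pairs P) {z : Pt} (hz : z ∈ P)
    (h1 : z ≠ e.1) (h2 : z ≠ e.2) : lin e z.1 ≠ z.2 := by
  intro h
  exact hP.ht_ne he hz h1 h2 ((lin_eq_iff e z).1 h).symm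

theorem pc_ne (hP : Generic P) {h : Pth} (hh : IsP P h) {z : Pt} (hz : z ∈ P)
    (h1 : z ≠ h.1) (h2 : z ≠ h.2.1) (h3 : z ≠ h.2.2) : pc h z.1 ≠ z.2 := by
  unfold pc
  split_ifs
  · exact lin_ne hP (e1_mem hh) hz h1 h2
  · exact lin_ne hP (e2_mem hh) hz h2 h3

/-- on the range of the path, the curve agrees with one of the two edges -/
theorem pc_edge {h : Pth} {t : ℝ} (h1 : h.1.1 ≤ t) (h2 : t ≤ h.2.2.1) :
    ∃ e : Edge, (e = e1 h ∨ e = e2 h) ∧ e.1.1 ≤ t ∧ t ≤ e.2.1 ∧ pc h t = lin e t := by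
  unfold pc
  split_ifs with ht
  · exact ⟨e1 h, Or.inl rfl, h1, ht, rfl⟩
  · push Not at ht
    exact ⟨e2 h, Or.inr rfl, ht.le, h2, rfl⟩

/-- independence of two 2-paths -/
def Ind (h h' : Pth) : Prop :=
  h.1 ≠ h'.1 ∧ h.1 ≠ h'.2.2 ∧ h.2.2 ≠ h'.1 ∧ h.2.2 ≠ h'.2.2 ∧
    h.2.1 ≠ h'.1 ∧ h.2.1 ≠ h'.2.2 ∧ h'.2.1 ≠ h.1 ∧ h'.2.1 ≠ h.2.2

/-- sign change on the common interval -/
def SC (h h' : Pth) : Prop :=
  ∃ s t : ℝ, h.1.1 ≤ s ∧ h'.1.1 ≤ s ∧ s ≤ h.2.2.1 ∧ s ≤ h'.2.2.1 ∧
    h.1.1 ≤ t ∧ h'.1.1 ≤ t ∧ t ≤ h.2.2.1 ∧ t ≤ h'.2.2.1 ∧ pc h s < pc h' s ∧ pc h' t < pc h t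

theorem vert_of_mem_edge {h : Pth} {e : Edge} (he : e = e1 h ∨ e = e2 h) :
    (e.1 = h.1 ∨ e.1 = h.2.1) ∧ (e.2 = h.2.1 ∨ e.2 = h.2.2) := by
  rcases he with rfl | rfl
  · exact ⟨Or.inl rfl, Or.inl rfl⟩
  · exact ⟨Or.inr rfl, Or.inr rfl⟩

/-- sign change of two independent paths with different middle vertices forces a crossing -/
theorem exists_cross (hP : Generic P) {h h' : Pth} (hh : IsP P h) (hh' : IsP P h')
    (hi : Ind h h') (hv : h.2.1 ≠ h'.2.1) (hs : SC h h') :
    ∃ e f : Edge, (e = e1 h ∨ e = e2 h) ∧ (f = e1 h' ∨ f = e2 h') ∧ Cross e f := by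
  obtain ⟨i1, i2, i3, i4, i5, i6, i7, i8⟩ := hi
  obtain ⟨s, t, a1, a2, a3, a4, b1, b2, b3, b4, c1, c2⟩ := hs
  -- zero of the difference
  have hc : Continuous (fun r => pc h r - pc h' r) := (pc_cont hh).sub (pc_cont hh')
  have hz : ∃ r ∈ Set.uIcc s t, pc h r - pc h' r = 0 := by
    have hsub := intermediate_value_uIcc (a := s) (b := t) hc.continuousOn
    have h0 : (0 : ℝ) ∈ Set.uIcc (pc h s - pc h' s) (pc h t - pc h' t) := by
      rw [Set.mem_uIcc]
      left
      constructor <;> linarith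
    obtain ⟨r, hr, hr2⟩ := hsub h0
    exact ⟨r, hr, hr2⟩
  obtain ⟨r, hr, hr0⟩ := hz
  have hr1 : min s t ≤ r := hr.1
  have hr2 : r ≤ max s t := hr.2
  have r1 : h.1.1 ≤ r := (le_min a1 b1).trans hr1
  have r2 : h'.1.1 ≤ r := (le_min a2 b2).trans hr1
  have r3 : r ≤ h.2.2.1 := hr2.trans (max_le a3 b3)
  have r4 : r ≤ h'.2.2.1 := hr2.trans (max_le a4 b4)
  obtain ⟨e, he, he1, he2, he3⟩ := pc_edge r1 r3
  obtain ⟨f, hf, hf1, hf2, hf3⟩ := pc_edge r2 r4
  have heq : lin e r = lin f r := by rw [← he3, ← hf3]; linarith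
  have heP : e ∈ pairs P := by
    rcases he with rfl | rfl
    · exact e1_mem hh
    · exact e2_mem hh
  have hfP : f ∈ pairs P := by
    rcases hf with rfl | rfl
    · exact e1_mem hh'
    · exact e2_mem hh'
  obtain ⟨ve1, ve2⟩ := vert_of_mem_edge he
  obtain ⟨vf1, vf2⟩ := vert_of_mem_edge hf
  -- all vertices distinct
  have d : e.1 ≠ f.1 ∧ e.1 ≠ f.2 ∧ e.2 ≠ f.1 ∧ e.2 ≠ f.2 := by
    refine ⟨?_, ?_, ?_, ?_⟩
    · rcases ve1 with h1 | h1 <;> rcases vf1 with h2 | h2 <;> rw [h1, h2]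
      · exact i1
      · exact i7.symm
      · exact i5
      · exact hv
    · rcases ve1 with h1 | h1 <;> rcases vf2 with h2 | h2 <;> rw [h1, h2]
      · exact i7.symm
      · exact i2
      · exact hv
      · exact i6
    · rcases ve2 with h1 | h1 <;> rcases vf1 with h2 | h2 <;> rw [h1, h2]
      · exact i5
      · exact hv
      · exact i3
      · exact i8.symm
    · rcases ve2 with h1 | h1 <;> rcases vf2 with h2 | h2 <;> rw [h1, h2]
      · exact hv
      · exact i6
      · exact i8.symm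
      · exact i4
  obtain ⟨d1, d2, d3, d4⟩ := d
  have heP' := mem_pairs.1 heP
  have hfP' := mem_pairs.1 hfP
  have hsl : esl e ≠ esl f := by
    intro hsl
    have := hP.esl_inj heP hfP hsl
    exact d1 (by rw [this])
  have hne : ∀ (z : Pt), z ∈ P → z ≠ f.1 → z ≠ f.2 → r = z.1 → lin e z.1 = z.2 → False := by
    intro z hz h1 h2 h3 h4
    apply lin_ne hP hfP hz h1 h2
    rw [← h3, ← heq, h3, h4]
  have hne' : ∀ (z : Pt), z ∈ P → z ≠ e.1 → z ≠ e.2 → r = z.1 → lin f z.1 = z.2 → False := by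
    intro z hz h1 h2 h3 h4
    apply lin_ne hP heP hz h1 h2
    rw [← h3, heq, h3, h4]
  have x1 : e.1.1 < r := lt_of_le_of_ne he1 fun hh2 =>
    hne e.1 heP'.1 d1 d2 hh2.symm (lin_left e)
  have x2 : r < e.2.1 := lt_of_le_of_ne he2 fun hh2 =>
    hne e.2 heP'.2.1 d3 d4 hh2 (lin_right heP'.2.2)
  have x3 : f.1.1 < r := lt_of_le_of_ne hf1 fun hh2 =>
    hne' f.1 hfP'.1 d1.symm d3.symm hh2.symm (lin_left f)
  have x4 : r < f.2.1 := lt_of_le_of_ne hf2 fun hh2 =>
    hne' f.2 hfP'.2.1 d2.symm d4.symm hh2 (lin_right hfP'.2.2)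
  exact ⟨e, f, he, hf, r, x1, x2, x3, x4, heq, hsl⟩

/-- ordered independent pairs with sign change -/
def cri (K : Finset Pth) : Finset (Pth × Pth) :=
  (K ×ˢ K).filter (fun x => Ind x.1 x.2 ∧ SC x.1 x.2)

/-- C1 for a simple family of 2-paths with no bad pair -/
theorem clean_bound (hP : Generic P) {X : Finset Pt} (hX : X ⊆ P) {K : Finset Pth}
    (hK : ∀ h ∈ K, IsP P h ∧ h.1 ∈ X ∧ h.2.2 ∈ X ∧ h.2.1 ∉ X)
    (hinj : ∀ h ∈ K, ∀ h' ∈ K, ed h = ed h' → h = h')
    (hclean : ∀ h ∈ K, ∀ h' ∈ K, Ind h h' → ¬ SC h h') : K.card ≤ 9 * X.card := by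
  have hφ : ∀ e ∈ K.image ed, ∃ h ∈ K, ed h = e := fun e he => Finset.mem_image.1 he
  choose! φ hφK hφe using hφ
  have hcard : K.card = (K.image ed).card := (Finset.card_image_of_injOn (fun h hh h' hh' => hinj h hh h' hh')).symm
  rw [hcard]
  have key : ∀ e ∈ K.image ed, (φ e).1 = e.1 ∧ (φ e).2.2 = e.2 := by
    intro e he
    have := hφe e he
    unfold ed at this
    exact Prod.ext_iff.1 this
  apply Crest.Agent.R051.C1.linear_bound (X := X) (x := fun p : Pt => p.1) (y := fun p : Pt => p.2)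
    (g := fun e => pc (φ e))
  refine ⟨?_, ?_, ?_, ?_, ?_, ?_, ?_, ?_⟩
  · intro a ha b hb hab
    exact hP.x_inj a (hX ha) b (hX hb) hab
  · intro e he
    rw [← (key e he).1]; exact (hK _ (hφK e he)).2.1
  · intro e he
    rw [← (key e he).2]; exact (hK _ (hφK e he)).2.2.1
  · intro e he
    have h1 := (hK _ (hφK e he)).1
    have := h1.l1.trans h1.l2
    rwa [(key e he).1, (key e he).2] at this
  · intro e he
    have h1 := pc_left (hK _ (hφK e he)).1
    rwa [(key e he).1] at h1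
  · intro e he
    have h1 := pc_right (hK _ (hφK e he)).1
    rwa [(key e he).2] at h1
  · intro e he z hz hz1 hz2
    have h1 := hK _ (hφK e he)
    apply pc_ne hP h1.1 (hX hz)
    · rw [(key e he).1]; intro h; rw [h] at hz1; exact lt_irrefl _ hz1
    · intro h; rw [h] at hz; exact h1.2.2.2 hz
    · rw [(key e he).2]; intro h; rw [h] at hz2; exact lt_irrefl _ hz2
  · intro e he f hf n1 n2 n3 n4 s t s1 s2 s3 s4 t1 t2 t3 t4 hs ht
    have he1 := hK _ (hφK e he)
    have hf1 := hK _ (hφK f hf)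
    obtain ⟨ke1, ke2⟩ := key e he
    obtain ⟨kf1, kf2⟩ := key f hf
    have hv : ∀ {a b : Pt}, a ∉ X → b ∈ X → a ≠ b := fun ha hb hab => ha (by rw [hab]; exact hb)
    apply hclean _ (hφK e he) _ (hφK f hf)
    · refine ⟨by rw [ke1, kf1]; exact n1, by rw [ke1, kf2]; exact n2, by rw [ke2, kf1]; exact n3,
        by rw [ke2, kf2]; exact n4, hv he1.2.2.2 hf1.2.1, hv he1.2.2.2 hf1.2.2.1,
        hv hf1.2.2.2 he1.2.1, hv hf1.2.2.2 he1.2.2.1⟩
    · refine ⟨s, t, ?_, ?_, ?_, ?_, ?_, ?_, ?_, ?_, hs, ht⟩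
      · rw [ke1]; exact s1
      · rw [kf1]; exact s2
      · rw [ke2]; exact s3
      · rw [kf2]; exact s4
      · rw [ke1]; exact t1
      · rw [kf1]; exact t2
      · rw [ke2]; exact t3
      · rw [kf2]; exact t4

/-- additive form -/
theorem simple_bound (hP : Generic P) {X : Finset Pt} (hX : X ⊆ P) {K : Finset Pth}
    (hK : ∀ h ∈ K, IsP P h ∧ h.1 ∈ X ∧ h.2.2 ∈ X ∧ h.2.1 ∉ X)
    (hinj : ∀ h ∈ K, ∀ h' ∈ K, ed h = ed h' → h = h') :
    K.card ≤ 9 * X.card + (cri K).card := by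
  set K' := K.filter (fun h => ∀ h' ∈ K, Ind h h' → ¬ SC h h') with hK'
  have hsub : K' ⊆ K := Finset.filter_subset _ _
  have h1 : K'.card ≤ 9 * X.card := by
    apply clean_bound hP hX (fun h hh => hK h (hsub hh))
      (fun h hh h' hh' => hinj h (hsub hh) h' (hsub hh'))
    intro h hh h' hh' hi
    exact (Finset.mem_filter.1 hh).2 h' (hsub hh') hi
  have h2 : (K \ K').card ≤ (cri K).card := by
    have : K \ K' ⊆ (cri K).image Prod.fst := by
      intro h hh
      rw [Finset.mem_sdiff, hK', Finset.mem_filter] at hh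
      obtain ⟨hh1, hh2⟩ := hh
      push Not at hh2
      obtain ⟨h', hh', hi, hs⟩ := hh2 hh1
      exact Finset.mem_image.2 ⟨(h, h'), Finset.mem_filter.2 ⟨Finset.mem_product.2 ⟨hh1, hh'⟩, hi, hs⟩, rfl⟩
    exact (Finset.card_le_card this).trans Finset.card_image_le
  have h3 := Finset.card_sdiff_add_card_eq_card hsub
  omega

/-- vertex sampling -/
theorem vertex_sampling (hP : Generic P) {H : Finset Pth} (hH : ∀ h ∈ H, IsP P h)
    (hinj : ∀ h ∈ H, ∀ h' ∈ H, ed h = ed h' → h = h') {p : ℝ} (h0 : 0 ≤ p) (h1 : p ≤ 1) :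
    p ^ 2 * (1 - p) * H.card ≤ 9 * (p * P.card) + p ^ 4 * (cri H).card := by
  -- the sampled family
  let K : Finset Pt → Finset Pth := fun X => H.filter (fun h => {h.1, h.2.2} ⊆ X ∧ Disjoint {h.2.1} X)
  have hKb : ∀ X ∈ P.powerset, ((K X).card : ℝ) ≤ 9 * X.card + ((cri (K X)).card : ℝ) := by
    intro X hX
    rw [Finset.mem_powerset] at hX
    have := simple_bound hP hX (K := K X) (by
      intro h hh
      have hh' := Finset.mem_filter.1 hh
      refine ⟨hH h hh'.1, hh'.2.1 (by simp), hh'.2.1 (by simp), ?_⟩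
      intro hv
      exact Finset.disjoint_left.1 hh'.2.2 (Finset.mem_singleton_self _) hv)
      (fun h hh h' hh' => hinj h (Finset.mem_filter.1 hh).1 h' (Finset.mem_filter.1 hh').1)
    exact_mod_cast this
  have hsum : ∑ X ∈ P.powerset, bw P p X * ((K X).card : ℝ)
      ≤ ∑ X ∈ P.powerset, bw P p X * (9 * X.card + ((cri (K X)).card : ℝ)) :=
    Finset.sum_le_sum fun X hX => mul_le_mul_of_nonneg_left (hKb X hX) (bw_nonneg P h0 h1 X)
  have e1 : ∑ X ∈ P.powerset, bw P p X * ((K X).card : ℝ) = p ^ 2 * (1 - p) * H.card := by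
    have e : ∀ X ∈ P.powerset, bw P p X * ((K X).card : ℝ)
        = ∑ h ∈ H, bw P p X * (if ({h.1, h.2.2} : Finset Pt) ⊆ X ∧ Disjoint {h.2.1} X then 1 else 0) := by
      intro X _
      rw [← Finset.mul_sum]
      congr 1
      rw [Finset.sum_ite, Finset.sum_const_zero, add_zero, Finset.sum_const, nsmul_eq_mul, mul_one]
    rw [Finset.sum_congr rfl e, Finset.sum_comm]
    have e2 : ∀ h ∈ H, ∑ X ∈ P.powerset, bw P p X *
        (if ({h.1, h.2.2} : Finset Pt) ⊆ X ∧ Disjoint {h.2.1} X then 1 else 0) = p ^ 2 * (1 - p) := by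
      intro h hh
      have hp := hH h hh
      have n1 : h.1 ≠ h.2.2 := fun he => by
        have := hp.l1.trans hp.l2; rw [he] at this; exact lt_irrefl _ this
      have n2 : h.2.1 ≠ h.1 := fun he => by
        have := hp.l1; rw [he] at this; exact lt_irrefl _ this
      have n3 : h.2.1 ≠ h.2.2 := fun he => by
        have := hp.l2; rw [he] at this; exact lt_irrefl _ this
      rw [sum_bw P {h.1, h.2.2} {h.2.1}]
      · rw [Finset.card_pair n1, Finset.card_singleton, pow_one]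
      · intro z hz
        rw [Finset.mem_insert, Finset.mem_singleton] at hz
        rcases hz with rfl | rfl
        · exact hp.ha
        · exact hp.hb
      · exact Finset.singleton_subset_iff.2 hp.hv
      · rw [Finset.disjoint_singleton_right, Finset.mem_insert, Finset.mem_singleton]
        push Not
        exact ⟨n2, n3⟩
    rw [Finset.sum_congr rfl e2, Finset.sum_const, nsmul_eq_mul]
    ring
  have e3 : ∑ X ∈ P.powerset, bw P p X * (9 * X.card + ((cri (K X)).card : ℝ))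
      ≤ 9 * (p * P.card) + p ^ 4 * (cri H).card := by
    have e4 : ∑ X ∈ P.powerset, bw P p X * (9 * X.card + ((cri (K X)).card : ℝ))
        = 9 * ∑ X ∈ P.powerset, bw P p X * (X.card : ℝ)
          + ∑ X ∈ P.powerset, bw P p X * ((cri (K X)).card : ℝ) := by
      rw [Finset.mul_sum, ← Finset.sum_add_distrib]
      apply Finset.sum_congr rfl
      intro X _; ring
    rw [e4, sum_bw_card]
    have e5 := sum_bw_card_le P h0 h1 (cri H)
      (fun x : Pth × Pth => ({x.1.1, x.1.2.2, x.2.1, x.2.2.2} : Finset Pt))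
      (by
        intro x hx z hz
        have hx' := Finset.mem_product.1 (Finset.mem_filter.1 hx).1
        have a1 := hH _ hx'.1
        have a2 := hH _ hx'.2
        simp only [Finset.mem_insert, Finset.mem_singleton] at hz
        rcases hz with rfl | rfl | rfl | rfl
        · exact a1.ha
        · exact a1.hb
        · exact a2.ha
        · exact a2.hb)
      (fun X => cri (K X))
      (by
        intro X _ x hx
        rw [cri, Finset.mem_filter, Finset.mem_product] at hx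
        have b1 := Finset.mem_filter.1 hx.1.1
        have b2 := Finset.mem_filter.1 hx.1.2
        refine Finset.mem_filter.2 ⟨Finset.mem_filter.2 ⟨Finset.mem_product.2 ⟨b1.1, b2.1⟩, hx.2⟩, ?_⟩
        intro z hz
        simp only [Finset.mem_insert, Finset.mem_singleton] at hz
        rcases hz with rfl | rfl | rfl | rfl
        · exact b1.2.1 (by simp)
        · exact b1.2.1 (by simp)
        · exact b2.2.1 (by simp)
        · exact b2.2.1 (by simp))
    have e6 : ∑ x ∈ cri H, p ^ (({x.1.1, x.1.2.2, x.2.1, x.2.2.2} : Finset Pt)).card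
        = p ^ 4 * (cri H).card := by
      have : ∀ x ∈ cri H, p ^ (({x.1.1, x.1.2.2, x.2.1, x.2.2.2} : Finset Pt)).card = p ^ 4 := by
        intro x hx
        rw [cri, Finset.mem_filter, Finset.mem_product] at hx
        obtain ⟨⟨c1, c2⟩, ⟨i1, i2, i3, i4, _⟩, _⟩ := hx
        have a1 := hH _ c1
        have a2 := hH _ c2
        have n1 : x.1.1 ≠ x.1.2.2 := fun he => by
          have := a1.l1.trans a1.l2; rw [he] at this; exact lt_irrefl _ this
        have n2 : x.2.1 ≠ x.2.2.2 := fun he => by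
          have := a2.l1.trans a2.l2; rw [he] at this; exact lt_irrefl _ this
        have hc : (({x.1.1, x.1.2.2, x.2.1, x.2.2.2} : Finset Pt)).card = 4 := by
          rw [Finset.card_insert_of_notMem, Finset.card_insert_of_notMem,
            Finset.card_insert_of_notMem, Finset.card_singleton]
          · simpa using n2
          · simp only [Finset.mem_insert, Finset.mem_singleton]; push Not; exact ⟨i3, i4⟩
          · simp only [Finset.mem_insert, Finset.mem_singleton]; push Not; exact ⟨n1, i1, i2⟩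
        rw [hc]
      rw [Finset.sum_congr rfl this, Finset.sum_const, nsmul_eq_mul]
      ring
    rw [e6] at e5
    linarith
  rw [e1] at hsum
  exact hsum.trans e3

end Crest.Agent.R51.Two
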