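import Crest.Agent.R51.WinDey

/-!
# Row 51, section B3: the cut lemma
-/

set_option autoImplicit false

noncomputable section

open Classical

namespace Crest.Agent.R51

namespace WinD

lemma exists_avoid {T : Finset ℝ} {x y : ℝ} (h : x < y) : ∃ θ, x < θ ∧ θ < y ∧ θ ∉ T := by
  have hinf : (Set.Ioo x y \ (T : Set ℝ)).Infinite :=
    (Set.Ioo_infinite h).sdiff (Finset.finite_toSet T)
  obtain ⟨θ, hθ⟩ := hinf.nonempty
  exact ⟨θ, hθ.1.1, hθ.1.2, fun h' => hθ.2 (Finset.mem_coe.2 h')⟩

/-- for every `i ≤ #F` there is a direction outside `T` with exactly `i` elements of `F` on its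
left. -/
lemma exists_rank (F T : Finset ℝ) {lo hi : ℝ} (hlh : lo < hi) (hF : ∀ x ∈ F, lo < x ∧ x < hi)
    (i : ℕ) (hi' : i ≤ F.card) : ∃ θ, lo < θ ∧ θ < hi ∧ θ ∉ T ∧ widx F θ = i := by
  induction i with
  | zero =>
    rcases F.eq_empty_or_nonempty with h0 | hne
    · obtain ⟨θ, h1, h2, h3⟩ := exists_avoid (T := T) hlh
      exact ⟨θ, h1, h2, h3, by simp [widx, h0]⟩
    · have hm := hF _ (Finset.min'_mem F hne)
      obtain ⟨θ, h1, h2, h3⟩ := exists_avoid (T := T) hm.1
      refine ⟨θ, h1, h2.trans hm.2, h3, ?_⟩
      unfold widx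
      rw [Finset.card_eq_zero, Finset.filter_eq_empty_iff]
      intro x hx
      exact not_le.2 (h2.trans_le (Finset.min'_le F x hx))
  | succ i ih =>
    obtain ⟨θ, h1, h2, h3, h4⟩ := ih (by omega)
    have hne : (F.filter (fun x => θ < x)).Nonempty := by
      by_contra hn
      rw [Finset.not_nonempty_iff_eq_empty, Finset.filter_eq_empty_iff] at hn
      have : widx F θ = F.card := by
        unfold widx
        congr 1
        rw [Finset.filter_eq_self]
        intro x hx
        exact not_lt.1 (hn hx)
      omega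
    set y := Finset.min' _ hne with hy
    have hy1 := Finset.mem_filter.1 (Finset.min'_mem _ hne)
    rw [← hy] at hy1
    -- the next point
    obtain ⟨z, hz1, hz2, hz3⟩ : ∃ z, y < z ∧ z ≤ hi ∧ ∀ x ∈ F, y < x → z ≤ x := by
      rcases (F.filter (fun x => y < x)).eq_empty_or_nonempty with h0 | hne2
      · refine ⟨hi, (hF y hy1.1).2, le_rfl, fun x hx hyx => ?_⟩
        exact absurd hyx (Finset.filter_eq_empty_iff.1 h0 hx)
      · have hz := Finset.mem_filter.1 (Finset.min'_mem _ hne2)
        refine ⟨Finset.min' _ hne2, hz.2, (hF _ hz.1).2.le, fun x hx hyx => ?_⟩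
        exact Finset.min'_le _ x (Finset.mem_filter.2 ⟨hx, hyx⟩)
    obtain ⟨θ', g1, g2, g3⟩ := exists_avoid (T := T) hz1
    refine ⟨θ', (hF y hy1.1).1.trans g1, g2.trans_le hz2, g3, ?_⟩
    have hset : F.filter (fun c => c ≤ θ') = insert y (F.filter (fun c => c ≤ θ)) := by
      ext x
      rw [Finset.mem_insert, Finset.mem_filter, Finset.mem_filter]
      constructor
      · rintro ⟨hx, hx2⟩
        rcases lt_trichotomy x y with h | h | h
        · right
          refine ⟨hx, ?_⟩
          by_contra hn
          rw [not_le] at hn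
          exact absurd (Finset.min'_le _ x (Finset.mem_filter.2 ⟨hx, hn⟩)) (not_le.2 h)
        · exact Or.inl h
        · exact absurd (hz3 x hx h) (not_le.2 (hx2.trans_lt g2))
      · rintro (h | h)
        · rw [h]; exact ⟨hy1.1, g1.le⟩
        · exact ⟨h.1, h.2.trans (hy1.2.trans g1).le⟩
    unfold widx at h4 ⊢
    rw [hset, Finset.card_insert_of_notMem, h4]
    intro hn
    exact absurd (Finset.mem_filter.1 hn).2 (not_le.2 hy1.2)

/-- number of elements of `F` in the open interval. -/
def cin (F : Finset ℝ) (s t : ℝ) : ℕ := (F.filter (fun x => s < x ∧ x < t)).card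

lemma cin_add {F : Finset ℝ} {s t : ℝ} (hst : s < t) :
    widx F s + cin F s t = (F.filter (fun x => x < t)).card := by
  unfold widx cin
  rw [← Finset.card_union_of_disjoint]
  · congr 1
    ext x
    rw [Finset.mem_union, Finset.mem_filter, Finset.mem_filter, Finset.mem_filter]
    constructor
    · rintro (h | h)
      · exact ⟨h.1, h.2.trans_lt hst⟩
      · exact ⟨h.1, h.2.2⟩
    · rintro ⟨h1, h2⟩
      rcases le_or_gt x s with h | h
      · exact Or.inl ⟨h1, h⟩
      · exact Or.inr ⟨h1, h, h2⟩
  · rw [Finset.disjoint_left]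
    intro x hx hx'
    exact absurd (Finset.mem_filter.1 hx).2 (not_le.2 (Finset.mem_filter.1 hx').2.1)

/-- **Cut lemma.**  `F` a finite set of reals in `(lo,hi)`, `T` a finite set to be avoided, `m ≥ 1`:
there is a finite set `C` of cuts outside `T`, in `(lo,hi)`, such that an open interval without cuts
contains at most `m` elements of `F`, and every open interval with `q` elements of `F` contains at
most `q/m + 1` cuts. -/
theorem cut_lemma (F T : Finset ℝ) {lo hi : ℝ} (hlh : lo < hi) (hF : ∀ x ∈ F, lo < x ∧ x < hi)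
    {m : ℕ} (hm : 1 ≤ m) : ∃ C : Finset ℝ,
      (∀ c ∈ C, lo < c ∧ c < hi ∧ c ∉ T) ∧
      (∀ s t : ℝ, (∀ c ∈ C, ¬ (s < c ∧ c < t)) → cin F s t ≤ m) ∧
      (∀ s t : ℝ, cin C s t ≤ cin F s t / m + 1) ∧ C.card ≤ F.card / m := by
  have hex : ∀ j : ℕ, ∃ θ, j * m ≤ F.card → (lo < θ ∧ θ < hi ∧ θ ∉ T ∧ widx F θ = j * m) := by
    intro j
    by_cases h : j * m ≤ F.card
    · obtain ⟨θ, h1⟩ := exists_rank F T hlh hF (j * m) h
      exact ⟨θ, fun _ => h1⟩
    · exact ⟨0, fun h' => absurd h' h⟩
  choose c hc using hex
  have hidx : ∀ j ∈ Finset.Icc 1 (F.card / m), j * m ≤ F.card := by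
    intro j hj
    exact (Nat.le_div_iff_mul_le hm).1 (Finset.mem_Icc.1 hj).2
  refine ⟨(Finset.Icc 1 (F.card / m)).image c, ?_, ?_, ?_, ?_⟩
  · intro x hx
    obtain ⟨j, hj, rfl⟩ := Finset.mem_image.1 hx
    obtain ⟨h1, h2, h3, _⟩ := hc j (hidx j hj)
    exact ⟨h1, h2, h3⟩
  · intro s t hst
    by_contra hn
    rw [not_le] at hn
    have hlt : s < t := by
      by_contra h
      have : cin F s t = 0 := by
        unfold cin
        rw [Finset.card_eq_zero, Finset.filter_eq_empty_iff]
        rintro x _ ⟨h1, h2⟩
        exact h (h1.trans h2)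
      omega
    have hadd := cin_add (F := F) hlt
    have hle : (F.filter (fun x => x < t)).card ≤ F.card := Finset.card_filter_le _ _
    set a := widx F s with ha
    set j := a / m + 1 with hj
    have h1 : a < j * m := by
      rw [hj, add_mul, one_mul]
      have h9 := Nat.div_add_mod a m
      have h10 := Nat.mod_lt a hm
      rw [mul_comm m (a / m)] at h9
      generalize a / m * m = d at *
      generalize a % m = r at *
      omega
    have h2 : j * m ≤ a + m := by
      rw [hj, add_mul, one_mul]
      have := Nat.div_mul_le_self a m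
      generalize a / m * m = d at *
      omega
    have hj1 : 1 ≤ j := by rw [hj]; exact Nat.le_add_left 1 _
    clear_value j
    have h3 : j * m ≤ F.card := by
      generalize j * m = d at *
      omega
    have hj' : j ∈ Finset.Icc 1 (F.card / m) :=
      Finset.mem_Icc.2 ⟨hj1, (Nat.le_div_iff_mul_le hm).2 h3⟩
    obtain ⟨g1, g2, g3, g4⟩ := hc j h3
    refine hst (c j) (Finset.mem_image.2 ⟨j, hj', rfl⟩) ⟨?_, ?_⟩
    · by_contra h
      have := widx_mono (C := F) (not_lt.1 h)
      omega
    · by_contra h
      have : (F.filter (fun x => x < t)).card ≤ widx F (c j) := by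
        apply Finset.card_le_card
        intro x hx
        rw [Finset.mem_filter] at hx ⊢
        exact ⟨hx.1, hx.2.le.trans (not_lt.1 h)⟩
      omega
  · intro s t
    rcases le_or_gt t s with h | hlt
    · have : cin ((Finset.Icc 1 (F.card / m)).image c) s t = 0 := by
        unfold cin
        rw [Finset.card_eq_zero, Finset.filter_eq_empty_iff]
        rintro x _ ⟨h1, h2⟩
        exact absurd (h1.trans h2) (not_lt.2 h)
      rw [this]
      exact Nat.zero_le _
    · have hadd := cin_add (F := F) hlt
      set a := widx F s with ha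
      have hsub : ((Finset.Icc 1 (F.card / m)).image c).filter (fun x => s < x ∧ x < t) ⊆
          (Finset.Icc ((a + m - 1) / m) ((a + cin F s t) / m)).image c := by
        intro x hx
        obtain ⟨hx1, hx2, hx3⟩ := Finset.mem_filter.1 hx
        obtain ⟨j, hj, rfl⟩ := Finset.mem_image.1 hx1
        obtain ⟨g1, g2, g3, g4⟩ := hc j (hidx j hj)
        refine Finset.mem_image.2 ⟨j, Finset.mem_Icc.2 ⟨?_, ?_⟩, rfl⟩
        · have h5 : a ≤ j * m := by rw [← g4]; exact widx_mono hx2.le
          have h6 : a + m - 1 < (j + 1) * m := by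
            rw [add_mul, one_mul]
            omega
          have := (Nat.div_lt_iff_lt_mul hm).2 h6
          omega
        · rw [Nat.le_div_iff_mul_le hm, hadd, ← g4]
          apply Finset.card_le_card
          intro y hy
          rw [Finset.mem_filter] at hy ⊢
          exact ⟨hy.1, hy.2.trans_lt hx3⟩
      have h7 : (a + cin F s t) / m ≤ (a + m - 1) / m + cin F s t / m := by
        have h8 : a ≤ (a + m - 1) / m * m := by
          have h9 := Nat.div_add_mod (a + m - 1) m
          have h10 := Nat.mod_lt (a + m - 1) hm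
          have h11 : m * ((a + m - 1) / m) = (a + m - 1) / m * m := mul_comm _ _
          omega
        calc (a + cin F s t) / m ≤ ((a + m - 1) / m * m + cin F s t) / m :=
              Nat.div_le_div_right (by omega)
          _ = (a + m - 1) / m + cin F s t / m := by
              rw [add_comm, Nat.add_mul_div_right _ _ hm, add_comm]
      calc cin ((Finset.Icc 1 (F.card / m)).image c) s t
          ≤ (Finset.Icc ((a + m - 1) / m) ((a + cin F s t) / m)).card :=
            (Finset.card_le_card hsub).trans Finset.card_image_le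
        _ ≤ cin F s t / m + 1 := by
            rw [Nat.card_Icc]
            generalize (a + cin F s t) / m = d1 at *
            generalize (a + m - 1) / m = d2 at *
            generalize cin F s t / m = d3 at *
            omega
  · refine Finset.card_image_le.trans ?_
    rw [Nat.card_Icc]
    generalize F.card / m = d1 at *
    omega

end WinD

end Crest.Agent.R51
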